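import Mathlib

/-!
The numbers `aa l = (l+1) log (l+1) - l log l - 1` and `c s = log (s+1) - log s` of the P031
blueprint (section 0), and the Euler identity (Ch4).
-/

namespace Vale.Agent.Lib.P031V

open Finset Real

noncomputable section

/-- `aa l = (l+1) log (l+1) - l log l - 1`. -/
def aa (l : ℕ) : ℝ := ((l : ℝ) + 1) * Real.log ((l : ℝ) + 1) - (l : ℝ) * Real.log l - 1

/-- `c s = log (s+1) - log s`. -/
def cs (s : ℕ) : ℝ := Real.log ((s : ℝ) + 1) - Real.log s

/-- Key identity `(s+1) c_s + log s = aa s + 1`. -/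
lemma key_identity (s : ℕ) : ((s : ℝ) + 1) * cs s + Real.log s = aa s + 1 := by
  unfold cs aa; ring

lemma cs_nonneg (s : ℕ) : 0 ≤ cs s := by
  unfold cs
  rcases Nat.eq_zero_or_pos s with rfl | hs
  · simp
  have : (0 : ℝ) < s := by exact_mod_cast hs
  have := Real.log_le_log this (by linarith : (s : ℝ) ≤ (s : ℝ) + 1)
  linarith

lemma sum_cs (i : ℕ) : ∑ s ∈ Icc 1 i, cs s = Real.log ((i : ℝ) + 1) := by
  induction i with
  | zero => simp
  | succ n ih =>
    rw [Finset.sum_Icc_succ_top (by omega), ih]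
    unfold cs
    push_cast
    ring

/-- `∑_{l ≤ k} (aa l + 1) = (k+1) log (k+1)`. -/
lemma sum_aa_add_one (k : ℕ) :
    ∑ l ∈ Icc 1 k, (aa l + 1) = ((k : ℝ) + 1) * Real.log ((k : ℝ) + 1) := by
  induction k with
  | zero => simp
  | succ n ih =>
    rw [Finset.sum_Icc_succ_top (by omega), ih]
    unfold aa
    push_cast
    ring

/-- `aa l + 1 = (l + 1) log(l+1) - l log l`; bounds by the mean value form:
`log (l+1) ≤ aa l + 1 ≤ log (l+1) + 1`. -/
lemma aa_add_one_eq (l : ℕ) : aa l + 1 = Real.log ((l : ℝ) + 1) + (l : ℝ) * cs l := by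
  unfold aa cs; ring

lemma mul_cs_le_one (l : ℕ) : (l : ℝ) * cs l ≤ 1 := by
  rcases Nat.eq_zero_or_pos l with rfl | hl
  · simp
  have hl' : (0 : ℝ) < l := by exact_mod_cast hl
  have h : cs l = Real.log (1 + 1 / (l : ℝ)) := by
    unfold cs
    rw [← Real.log_div (by positivity) (by positivity)]
    congr 1
    field_simp
  rw [h]
  have h2 := Real.log_le_sub_one_of_pos (show (0 : ℝ) < 1 + 1 / (l : ℝ) by positivity)
  calc (l : ℝ) * Real.log (1 + 1 / (l : ℝ)) ≤ (l : ℝ) * (1 + 1 / (l : ℝ) - 1) :=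
        mul_le_mul_of_nonneg_left h2 hl'.le
    _ = 1 := by field_simp; ring

lemma aa_add_one_ge (l : ℕ) : Real.log ((l : ℝ) + 1) ≤ aa l + 1 := by
  rw [aa_add_one_eq]
  have := mul_nonneg (Nat.cast_nonneg (α := ℝ) l) (cs_nonneg l)
  linarith

lemma aa_add_one_le (l : ℕ) : aa l + 1 ≤ Real.log ((l : ℝ) + 1) + 1 := by
  rw [aa_add_one_eq]
  have := mul_cs_le_one l
  linarith

/-- `aa` is increasing. -/
lemma aa_le_succ (l : ℕ) : aa l ≤ aa (l + 1) := by
  -- `aa (l+1) - aa l = (l+2) log (l+2) - 2 (l+1) log (l+1) + l log l ≥ 0` by convexity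
  have hconv := (Real.convexOn_mul_log)
  have hl1 : (0 : ℝ) ≤ l := Nat.cast_nonneg l
  have hx : (l : ℝ) ∈ Set.Ici (0 : ℝ) := hl1
  have hy : (l : ℝ) + 2 ∈ Set.Ici (0 : ℝ) := by
    show (0 : ℝ) ≤ (l : ℝ) + 2
    linarith
  have hm := hconv.2 hx hy (by norm_num : (0 : ℝ) ≤ 1 / 2) (by norm_num : (0 : ℝ) ≤ 1 / 2) (by norm_num)
  simp only [smul_eq_mul] at hm
  have harg : (1 / 2 : ℝ) * (l : ℝ) + (1 / 2) * ((l : ℝ) + 2) = (l : ℝ) + 1 := by ring
  rw [harg] at hm
  unfold aa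
  push_cast
  have e : (l : ℝ) + 1 + 1 = (l : ℝ) + 2 := by ring
  rw [e]
  linarith

lemma aa_mono : Monotone aa := monotone_nat_of_le_succ aa_le_succ

lemma cs_le {s : ℕ} (hs : 1 ≤ s) : cs s ≤ 1 / (s : ℝ) := by
  have hl' : (0 : ℝ) < s := by exact_mod_cast hs
  have h : cs s = Real.log (1 + 1 / (s : ℝ)) := by
    unfold cs
    rw [← Real.log_div (by positivity) (by positivity)]
    congr 1
    field_simp
  rw [h]
  have h2 := Real.log_le_sub_one_of_pos (show (0 : ℝ) < 1 + 1 / (s : ℝ) by positivity)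
  linarith

lemma cs_ge {s : ℕ} (hs : 1 ≤ s) : 1 / ((s : ℝ) + 1) ≤ cs s := by
  have hl' : (0 : ℝ) < s := by exact_mod_cast hs
  have h : cs s = Real.log (1 + 1 / (s : ℝ)) := by
    unfold cs
    rw [← Real.log_div (by positivity) (by positivity)]
    congr 1
    field_simp
  rw [h]
  have h2 := Real.one_sub_inv_le_log_of_pos (show (0 : ℝ) < 1 + 1 / (s : ℝ) by positivity)
  have h3 : 1 - (1 + 1 / (s : ℝ))⁻¹ = 1 / ((s : ℝ) + 1) := by
    field_simp
    ring
  linarith

lemma aa_succ_le {l : ℕ} (hl : 1 ≤ l) : aa (l + 1) ≤ aa l + 1 := by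
  have hl' : (1 : ℝ) ≤ l := by exact_mod_cast hl
  have h1 : aa (l + 1) - aa l = ((l : ℝ) + 2) * cs (l + 1) - (l : ℝ) * cs l := by
    unfold aa cs
    push_cast
    ring_nf
  have h2 : cs (l + 1) ≤ 1 / ((l : ℝ) + 1) := by
    have := cs_le (s := l + 1) (by omega)
    push_cast at this
    exact this
  have h3 := cs_ge hl
  have h4 : ((l : ℝ) + 2) * cs (l + 1) ≤ ((l : ℝ) + 2) * (1 / ((l : ℝ) + 1)) :=
    mul_le_mul_of_nonneg_left h2 (by positivity)
  have h5 : (l : ℝ) * (1 / ((l : ℝ) + 1)) ≤ (l : ℝ) * cs l :=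
    mul_le_mul_of_nonneg_left h3 (by positivity)
  have h6 : ((l : ℝ) + 2) * (1 / ((l : ℝ) + 1)) - (l : ℝ) * (1 / ((l : ℝ) + 1)) ≤ 1 := by
    have hp : (0 : ℝ) < (l : ℝ) + 1 := by positivity
    have : ((l : ℝ) + 2) * (1 / ((l : ℝ) + 1)) - (l : ℝ) * (1 / ((l : ℝ) + 1))
        = 2 / ((l : ℝ) + 1) := by
      field_simp
      ring
    rw [this, div_le_one hp]
    linarith
  linarith

/-- `.6931471803 < log 2`, in the form we use. -/
lemma aa_one : aa 1 = 2 * Real.log 2 - 1 := by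
  unfold aa; norm_num

lemma aa_one_gt : (0.38 : ℝ) < aa 1 := by
  rw [aa_one]; have := Real.log_two_gt_d9; linarith

lemma aa_nonneg_of_pos {l : ℕ} (hl : 1 ≤ l) : 0.38 ≤ aa l :=
  (aa_one_gt.le).trans (aa_mono hl)

lemma aa_two : aa 2 = 3 * Real.log 3 - 2 * Real.log 2 - 1 := by
  unfold aa; norm_num

/-- A rational lower bound for `log 3`. -/
lemma log_three_gt : (1.098 : ℝ) < Real.log 3 := by
  have h3 : Real.log 3 = Real.log 2 + Real.log (3 / 2) := by
    rw [← Real.log_mul (by norm_num) (by norm_num)]; norm_num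
  have h4 : (0.405 : ℝ) < Real.log (3 / 2) := by
    have hs := Real.hasSum_log_sub_log_of_abs_lt_one (x := 1 / 5) (by norm_num [abs_lt])
    have hv : Real.log (1 + 1 / 5) - Real.log (1 - 1 / 5) = Real.log (3 / 2) := by
      rw [← Real.log_div (by norm_num) (by norm_num)]; norm_num
    rw [hv] at hs
    have hle := sum_le_hasSum (Finset.range 3)
      (fun i _ => by positivity) hs
    norm_num [Finset.sum_range_succ] at hle
    linarith
  have := Real.log_two_gt_d9
  linarith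

lemma aa_two_gt : (0.9 : ℝ) < aa 2 := by
  rw [aa_two]
  have h1 := log_three_gt
  have h2 := Real.log_two_lt_d9
  linarith

lemma aa_three : aa 3 = 4 * Real.log 4 - 3 * Real.log 3 - 1 := by
  unfold aa; norm_num

lemma aa_four : aa 4 = 5 * Real.log 5 - 4 * Real.log 4 - 1 := by
  unfold aa; norm_num

/-- `∑_{l ≤ 4} aa l > 4`. -/
lemma sum_aa_four_gt : (4 : ℝ) < aa 1 + aa 2 + aa 3 + aa 4 := by
  have h := sum_aa_add_one 4
  have h5 : (1.6 : ℝ) < Real.log 5 := by
    have h6 : Real.log 5 = Real.log 4 + Real.log (5 / 4) := by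
      rw [← Real.log_mul (by norm_num) (by norm_num)]; norm_num
    have h4 : Real.log 4 = 2 * Real.log 2 := by
      rw [show (4 : ℝ) = 2 ^ 2 by norm_num, Real.log_pow]; norm_num
    have h7 : (0.222 : ℝ) < Real.log (5 / 4) := by
      have hs := Real.hasSum_log_sub_log_of_abs_lt_one (x := 1 / 9) (by norm_num [abs_lt])
      have hv : Real.log (1 + 1 / 9) - Real.log (1 - 1 / 9) = Real.log (5 / 4) := by
        rw [← Real.log_div (by norm_num) (by norm_num)]; norm_num
      rw [hv] at hs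
      have hle := sum_le_hasSum (Finset.range 1)
        (fun i _ => by positivity) hs
      norm_num [Finset.sum_range_succ] at hle
      linarith
    have := Real.log_two_gt_d9
    linarith
  have h8 : ∑ l ∈ Icc 1 4, (aa l + 1) = (aa 1 + 1) + (aa 2 + 1) + (aa 3 + 1) + (aa 4 + 1) := by
    simp [Finset.sum_Icc_succ_top]
  rw [h8] at h
  have h9 : (((4 : ℕ) : ℝ) + 1) * Real.log (((4 : ℕ) : ℝ) + 1) = 5 * Real.log 5 := by
    norm_num
  rw [h9] at h
  linarith

/-- `1 + log (l+1) ≤ 5 aa l` for `l ≥ 1`. -/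
lemma one_add_log_le_five_aa {l : ℕ} (hl : 1 ≤ l) : 1 + Real.log ((l : ℝ) + 1) ≤ 5 * aa l := by
  -- `aa l + 1 ≥ log (l+1)` gives `aa l ≥ log (l+1) - 1`, and `aa l ≥ .38`.
  have h1 := aa_add_one_ge l
  have h2 := aa_nonneg_of_pos hl
  -- `5 aa = 4 aa + aa`: use `aa ≥ .38` (weight 13/5 for the constant) and `aa ≥ log - 1`
  by_cases hsmall : l = 1
  · subst hsmall
    rw [aa_one]
    have : Real.log (((1 : ℕ) : ℝ) + 1) = Real.log 2 := by norm_num
    rw [this]
    have := Real.log_two_gt_d9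
    linarith
  · have hl2 : 2 ≤ l := by omega
    have h3 := aa_mono hl2
    have h4 := aa_two_gt
    nlinarith

/-- The Euler identity (Ch4): for a decreasing vector `z 0 ≥ z 1 ≥ ... ≥ z k`,
`∑_{i ≤ k} ∑_{1 ≤ s ≤ k} c_s min (z s) (z i) = ∑_{1 ≤ s ≤ k} (aa s + 1) z s`. -/
theorem euler_identity (k : ℕ) (z : ℕ → ℝ)
    (hz : ∀ i j, i ≤ j → j ≤ k → z j ≤ z i) :
    ∑ i ∈ range (k + 1), ∑ s ∈ Icc 1 k, cs s * min (z s) (z i)
      = ∑ s ∈ Icc 1 k, (aa s + 1) * z s := by
  classical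
  -- induction on `k`, the new row and column contribute exactly the new term.
  induction k with
  | zero => simp
  | succ n ih =>
    have hz' : ∀ i j, i ≤ j → j ≤ n → z j ≤ z i := fun i j hij hj => hz i j hij (by omega)
    have ih' := ih hz'
    rw [Finset.sum_range_succ]
    have hsplit : ∀ i ∈ range (n + 1), ∑ s ∈ Icc 1 (n + 1), cs s * min (z s) (z i)
        = ∑ s ∈ Icc 1 n, cs s * min (z s) (z i) + cs (n + 1) * z (n + 1) := by
      intro i hi
      rw [Finset.sum_Icc_succ_top (by omega)]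
      have hi' : i ≤ n + 1 := by have := mem_range.mp hi; omega
      rw [min_eq_left (hz i (n + 1) hi' le_rfl)]
    rw [Finset.sum_congr rfl hsplit, Finset.sum_add_distrib, ih', Finset.sum_const, card_range,
      nsmul_eq_mul]
    have hlast : ∑ s ∈ Icc 1 (n + 1), cs s * min (z s) (z (n + 1))
        = (∑ s ∈ Icc 1 n, cs s) * z (n + 1) + cs (n + 1) * z (n + 1) := by
      rw [Finset.sum_Icc_succ_top (by omega), min_self, Finset.sum_mul]
      congr 1
      apply Finset.sum_congr rfl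
      intro s hs
      have hs' := (mem_Icc.mp hs).2
      rw [min_eq_right (hz s (n + 1) (by omega) le_rfl)]
    rw [hlast, sum_cs, Finset.sum_Icc_succ_top (by omega)]
    have hid := key_identity (n + 1)
    have hlogn : Real.log ((n : ℝ) + 1) = Real.log ((n + 1 : ℕ) : ℝ) := by push_cast; ring_nf
    push_cast at hid ⊢
    have e : aa (n + 1) + 1 = ((n : ℝ) + 1 + 1) * cs (n + 1) + Real.log ((n : ℝ) + 1) := by
      rw [← hid]
    rw [e]
    ring

end

end Vale.Agent.Lib.P031V
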