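import Mathlib

/-!
Chain lemmas of the P031 blueprint in a generic form over lists of reals (entries stand for
`z = lev p - ts`): the function `aa`, the weights `cs`, the functional `Th`, deletion (Ch2),
comparison of shifts (Ch3), the Euler identity (Ch4) and the length bound (Ch1).
-/

namespace Vale.Agent.Lib.P031V.ChainGeneric

open Finset Real

/-- `aa l = (l+1) log (l+1) - l log l - 1`. -/
noncomputable def aa (l : ℕ) : ℝ :=
  ((l : ℝ) + 1) * Real.log ((l : ℝ) + 1) - (l : ℝ) * Real.log l - 1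

/-- `cs s = log (s+1) - log s`. -/
noncomputable def cs (s : ℕ) : ℝ := Real.log ((s : ℝ) + 1) - Real.log s

theorem key_identity (s : ℕ) : ((s : ℝ) + 1) * cs s + Real.log s = aa s + 1 := by
  unfold cs aa; ring

theorem cs_nonneg {s : ℕ} (hs : 1 ≤ s) : 0 ≤ cs s := by
  unfold cs
  have h1 : (0 : ℝ) < s := by exact_mod_cast hs
  have := Real.log_le_log h1 (by linarith : (s : ℝ) ≤ s + 1)
  linarith

/-- Telescoping of `cs`. -/
theorem sum_cs (k : ℕ) : ∑ s ∈ Icc 1 k, cs s = Real.log ((k : ℝ) + 1) := by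
  induction k with
  | zero => simp
  | succ n ih =>
    rw [Finset.sum_Icc_succ_top (by omega), ih]
    unfold cs
    push_cast
    ring

/-- Telescoping of `aa + 1`. -/
theorem sum_aa_add_one (k : ℕ) :
    ∑ l ∈ Icc 1 k, (aa l + 1) = ((k : ℝ) + 1) * Real.log ((k : ℝ) + 1) := by
  induction k with
  | zero => simp
  | succ n ih =>
    rw [Finset.sum_Icc_succ_top (by omega), ih]
    unfold aa
    push_cast
    ring

theorem aa_succ_ge (l : ℕ) : aa l ≤ aa (l + 1) := by
  have hc := Real.convexOn_mul_log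
  have h0 : (0 : ℝ) ≤ l := Nat.cast_nonneg l
  have hmem0 : (l : ℝ) ∈ Set.Ici (0 : ℝ) := h0
  have hmem2 : (l : ℝ) + 2 ∈ Set.Ici (0 : ℝ) := by
    simp only [Set.mem_Ici]; linarith
  have h := hc.2 hmem0 hmem2 (show (0 : ℝ) ≤ 1 / 2 by norm_num) (show (0 : ℝ) ≤ 1 / 2 by norm_num)
    (by norm_num)
  have e1 : (1 / 2 : ℝ) • (l : ℝ) + (1 / 2 : ℝ) • ((l : ℝ) + 2) = (l : ℝ) + 1 := by
    simp only [smul_eq_mul]; ring
  rw [e1] at h
  simp only [smul_eq_mul] at h
  unfold aa
  push_cast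
  have e2 : (l : ℝ) + 1 + 1 = (l : ℝ) + 2 := by ring
  rw [e2]
  nlinarith [h]

theorem aa_mono {a b : ℕ} (h : a ≤ b) : aa a ≤ aa b :=
  monotone_nat_of_le_succ aa_succ_ge h

theorem aa_one_eq : aa 1 = 2 * Real.log 2 - 1 := by
  unfold aa
  norm_num

theorem aa_one_gt : (0.38 : ℝ) < aa 1 := by
  rw [aa_one_eq]
  have := Real.log_two_gt_d9
  linarith

theorem aa_one_lt : aa 1 < (0.39 : ℝ) := by
  rw [aa_one_eq]
  have := Real.log_two_lt_d9
  linarith

theorem aa_pos {l : ℕ} (hl : 1 ≤ l) : 0 < aa l := by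
  have := aa_mono hl
  have := aa_one_gt
  linarith

/-- `log 3` lower bound from `3^12 > 2^19`. -/
theorem log_three_gt : (19 / 12 : ℝ) * Real.log 2 < Real.log 3 := by
  have h : Real.log ((2 : ℝ) ^ 19) < Real.log ((3 : ℝ) ^ 12) :=
    Real.log_lt_log (by norm_num) (by norm_num)
  rw [Real.log_pow, Real.log_pow] at h
  push_cast at h
  linarith

theorem aa_two_eq : aa 2 = 3 * Real.log 3 - 2 * Real.log 2 - 1 := by
  unfold aa
  norm_num

theorem aa_two_gt : (0.9 : ℝ) < aa 2 := by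
  rw [aa_two_eq]
  have h1 := log_three_gt
  have h2 := Real.log_two_gt_d9
  linarith

/-- `log 5` lower bound from `5^28 > 2^65`. -/
theorem log_five_gt : (65 / 28 : ℝ) * Real.log 2 < Real.log 5 := by
  have h : Real.log ((2 : ℝ) ^ 65) < Real.log ((5 : ℝ) ^ 28) :=
    Real.log_lt_log (by norm_num) (by norm_num)
  rw [Real.log_pow, Real.log_pow] at h
  push_cast at h
  linarith

/-- `∑_{l ≤ 4} aa l > 4.04`. -/
theorem sum_aa_four_gt : (4.04 : ℝ) < aa 1 + aa 2 + aa 3 + aa 4 := by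
  have h := sum_aa_add_one 4
  have e : ∑ l ∈ Icc 1 4, (aa l + 1) = aa 1 + aa 2 + aa 3 + aa 4 + 4 := by
    simp [Finset.sum_Icc_succ_top]
    ring
  rw [e] at h
  have h5 := log_five_gt
  have h2 := Real.log_two_gt_d9
  norm_num at h
  linarith

/-- `aa (l+1) ≤ aa l + 1` for `l ≥ 1`. -/
theorem aa_succ_le {l : ℕ} (hl : 1 ≤ l) : aa (l + 1) ≤ aa l + 1 := by
  have h0 : (1 : ℝ) ≤ l := by exact_mod_cast hl
  have hpos : (0 : ℝ) < l := by linarith
  -- first increment
  have h1 : Real.log ((l : ℝ) + 2) - Real.log ((l : ℝ) + 1) ≤ 1 / ((l : ℝ) + 1) := by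
    have hq : (0 : ℝ) < ((l : ℝ) + 2) / ((l : ℝ) + 1) := by positivity
    have := Real.log_le_sub_one_of_pos hq
    rw [Real.log_div (by positivity) (by positivity)] at this
    have e : ((l : ℝ) + 2) / ((l : ℝ) + 1) - 1 = 1 / ((l : ℝ) + 1) := by
      field_simp; ring
    linarith
  -- second increment
  have h2 : 1 / ((l : ℝ) + 1) ≤ Real.log ((l : ℝ) + 1) - Real.log l := by
    have hq : (0 : ℝ) < (l : ℝ) / ((l : ℝ) + 1) := by positivity
    have := Real.log_le_sub_one_of_pos hq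
    rw [Real.log_div (by positivity) (by positivity)] at this
    have e : (l : ℝ) / ((l : ℝ) + 1) - 1 = -(1 / ((l : ℝ) + 1)) := by
      field_simp; ring
    linarith
  unfold aa
  push_cast
  have e2 : (l : ℝ) + 1 + 1 = (l : ℝ) + 2 := by ring
  rw [e2]
  have h3 : ((l : ℝ) + 2) * (Real.log ((l : ℝ) + 2) - Real.log ((l : ℝ) + 1))
      ≤ ((l : ℝ) + 2) * (1 / ((l : ℝ) + 1)) :=
    mul_le_mul_of_nonneg_left h1 (by positivity)
  have h4 : (l : ℝ) * (1 / ((l : ℝ) + 1)) ≤ (l : ℝ) * (Real.log ((l : ℝ) + 1) - Real.log l) :=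
    mul_le_mul_of_nonneg_left h2 hpos.le
  have h5 : ((l : ℝ) + 2) * (1 / ((l : ℝ) + 1)) - (l : ℝ) * (1 / ((l : ℝ) + 1)) ≤ 1 := by
    have : ((l : ℝ) + 2) * (1 / ((l : ℝ) + 1)) - (l : ℝ) * (1 / ((l : ℝ) + 1))
        = 2 / ((l : ℝ) + 1) := by field_simp; ring
    rw [this, div_le_one (by positivity)]
    linarith
  nlinarith [h3, h4, h5]

/-- `aa (l + h) ≤ aa l + h` for `l ≥ 1`. -/
theorem aa_add_le {l : ℕ} (hl : 1 ≤ l) (h : ℕ) : aa (l + h) ≤ aa l + h := by
  induction h with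
  | zero => simp
  | succ n ih =>
    have := aa_succ_le (l := l + n) (by omega)
    push_cast
    rw [← add_assoc]
    linarith

/-- `aa (l + h) ≤ (1 + 3 h) aa l` for `l ≥ 1`. -/
theorem aa_add_le_mul {l : ℕ} (hl : 1 ≤ l) (h : ℕ) : aa (l + h) ≤ (1 + 3 * (h : ℝ)) * aa l := by
  have h1 := aa_add_le hl h
  have h2 := aa_mono hl
  have h3 := aa_one_gt
  have h4 : (0 : ℝ) ≤ h := Nat.cast_nonneg h
  nlinarith

/-- `1 + log (l+1) ≤ 5 aa l` for `l ≥ 1`. -/
theorem one_add_log_le {l : ℕ} (hl : 1 ≤ l) : 1 + Real.log ((l : ℝ) + 1) ≤ 5 * aa l := by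
  rcases Nat.lt_or_ge l 2 with h | h
  · have : l = 1 := by omega
    subst this
    rw [aa_one_eq]
    have h2 := Real.log_two_gt_d9
    norm_num
    linarith
  · have h0 : (2 : ℝ) ≤ l := by exact_mod_cast h
    have hpos : (0 : ℝ) < l := by linarith
    -- `aa l ≥ log (l+1) - 1/(l+1)`
    have h2 : 1 / ((l : ℝ) + 1) ≤ Real.log ((l : ℝ) + 1) - Real.log l := by
      have hq : (0 : ℝ) < (l : ℝ) / ((l : ℝ) + 1) := by positivity
      have := Real.log_le_sub_one_of_pos hq
      rw [Real.log_div (by positivity) (by positivity)] at this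
      have e : (l : ℝ) / ((l : ℝ) + 1) - 1 = -(1 / ((l : ℝ) + 1)) := by
        field_simp; ring
      linarith
    have h3 : (l : ℝ) * (1 / ((l : ℝ) + 1)) ≤ (l : ℝ) * (Real.log ((l : ℝ) + 1) - Real.log l) :=
      mul_le_mul_of_nonneg_left h2 hpos.le
    have h4 : (l : ℝ) * (1 / ((l : ℝ) + 1)) = 1 - 1 / ((l : ℝ) + 1) := by
      field_simp; ring
    have h5 : aa l ≥ Real.log ((l : ℝ) + 1) - 1 / ((l : ℝ) + 1) := by
      unfold aa
      nlinarith
    have h6 : (1 : ℝ) / ((l : ℝ) + 1) ≤ 1 / 3 := by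
      apply one_div_le_one_div_of_le (by norm_num); linarith
    have h7 : (1 : ℝ) < Real.log ((l : ℝ) + 1) := by
      have hlog3 : Real.log 3 ≤ Real.log ((l : ℝ) + 1) :=
        Real.log_le_log (by norm_num) (by linarith)
      have h8 := log_three_gt
      have h9 := Real.log_two_gt_d9
      linarith
    linarith

/-! ### The functional `Th` -/

/-- `Th h [] = 0`, `Th h (z :: l) = aa (h+1) z + Th (h+1) l`. -/
noncomputable def Th : ℕ → List ℝ → ℝ
  | _, [] => 0
  | h, z :: l => aa (h + 1) * z + Th (h + 1) l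

@[simp] theorem Th_nil (h : ℕ) : Th h [] = 0 := by simp [Th]

@[simp] theorem Th_cons (h : ℕ) (z : ℝ) (l : List ℝ) :
    Th h (z :: l) = aa (h + 1) * z + Th (h + 1) l := by simp [Th]

theorem Th_nonneg (h : ℕ) {l : List ℝ} (hl : ∀ z ∈ l, 0 ≤ z) : 0 ≤ Th h l := by
  induction l generalizing h with
  | nil => simp
  | cons a t ih =>
    rw [Th_cons]
    have h1 : 0 ≤ a := hl a (by simp)
    have h2 := ih (h + 1) (fun z hz => hl z (by simp [hz]))
    have h3 := aa_pos (l := h + 1) (by omega)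
    positivity

/-- Monotonicity of `Th` in the shift. -/
theorem Th_succ_ge (h : ℕ) {l : List ℝ} (hl : ∀ z ∈ l, 0 ≤ z) : Th h l ≤ Th (h + 1) l := by
  induction l generalizing h with
  | nil => simp
  | cons a t ih =>
    rw [Th_cons, Th_cons]
    have h1 : 0 ≤ a := hl a (by simp)
    have h2 := ih (h + 1) (fun z hz => hl z (by simp [hz]))
    have h3 := aa_succ_ge (h + 1)
    have h4 : aa (h + 1) * a ≤ aa (h + 1 + 1) * a := mul_le_mul_of_nonneg_right h3 h1
    linarith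

theorem Th_mono_shift {g h : ℕ} (hgh : g ≤ h) {l : List ℝ} (hl : ∀ z ∈ l, 0 ≤ z) :
    Th g l ≤ Th h l := by
  induction hgh with
  | refl => exact le_rfl
  | step _ ih => exact ih.trans (Th_succ_ge _ hl)

/-- (Ch2) deletion: removing entries does not increase `Th`. -/
theorem Th_sublist (h : ℕ) {l' l : List ℝ} (hs : l'.Sublist l) (hl : ∀ z ∈ l, 0 ≤ z) :
    Th h l' ≤ Th h l := by
  induction hs generalizing h with
  | slnil => simp
  | @cons t1 t2 a hs ih =>
    rw [Th_cons]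
    have h1 : 0 ≤ a := hl a (by simp)
    have hl2 : ∀ z ∈ t2, 0 ≤ z := fun z hz => hl z (by simp [hz])
    have h2 := ih (h := h) hl2
    have h3 := Th_succ_ge h hl2
    have h4 := aa_pos (l := h + 1) (by omega)
    have h5 : 0 ≤ aa (h + 1) * a := by positivity
    linarith
  | @cons_cons t1 t2 a hs ih =>
    rw [Th_cons, Th_cons]
    have hl2 : ∀ z ∈ t2, 0 ≤ z := fun z hz => hl z (by simp [hz])
    have h2 := ih (h := h + 1) hl2
    linarith

/-- Shift comparison: `Th (g + h) l ≤ (1 + 3 h) Th g l`. -/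
theorem Th_add_le_mul (g h : ℕ) {l : List ℝ} (hl : ∀ z ∈ l, 0 ≤ z) :
    Th (g + h) l ≤ (1 + 3 * (h : ℝ)) * Th g l := by
  induction l generalizing g with
  | nil => simp
  | cons a t ih =>
    rw [Th_cons, Th_cons]
    have h1 : 0 ≤ a := hl a (by simp)
    have h2 := ih (g + 1) (fun z hz => hl z (by simp [hz]))
    have h3 := aa_add_le_mul (l := g + 1) (by omega) h
    have e1 : g + h + 1 = g + 1 + h := by omega
    rw [e1]
    have h4 : aa (g + 1 + h) * a ≤ (1 + 3 * (h : ℝ)) * aa (g + 1) * a :=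
      mul_le_mul_of_nonneg_right h3 h1
    nlinarith

/-- (Ch3) `Th h l ≤ (1 + 3 h) Th 0 l`. -/
theorem Th_le_mul (h : ℕ) {l : List ℝ} (hl : ∀ z ∈ l, 0 ≤ z) :
    Th h l ≤ (1 + 3 * (h : ℝ)) * Th 0 l := by
  have := Th_add_le_mul 0 h hl
  simpa using this

/-- Admissibility of a list of `z` values with parameters `ts, tol`: for each suffix `z :: l`,
the slack `z + ts - Th 0 l` is at least `-tol`. -/
def AdmZ (ts tol : ℝ) : List ℝ → Prop
  | [] => True
  | z :: l => -tol ≤ z + ts - Th 0 l ∧ AdmZ ts tol l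

@[simp] theorem AdmZ_nil (ts tol : ℝ) : AdmZ ts tol [] := trivial

@[simp] theorem AdmZ_cons (ts tol : ℝ) (z : ℝ) (l : List ℝ) :
    AdmZ ts tol (z :: l) ↔ (-tol ≤ z + ts - Th 0 l ∧ AdmZ ts tol l) := Iff.rfl

/-- (Ch3, second part) `Th 0 (z :: l) ≤ 13 z` if `z :: l` is admissible and `ts + tol ≤ 2 z`. -/
theorem Th_zero_cons_le {ts tol z : ℝ} {l : List ℝ} (hl : ∀ y ∈ l, 0 ≤ y)
    (hz : 0 ≤ z) (hadm : -tol ≤ z + ts - Th 0 l) (hts : ts + tol ≤ 2 * z) :
    Th 0 (z :: l) ≤ 13 * z := by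
  rw [Th_cons]
  have h1 := Th_le_mul 1 hl
  have h2 := aa_one_lt
  simp only [zero_add]
  have h3 : aa 1 * z ≤ 0.39 * z := mul_le_mul_of_nonneg_right h2.le hz
  norm_num at h1
  nlinarith

/-- (Ch3, third part) `Th h (z :: l) ≤ (1 + 3 h) 13 z`. -/
theorem Th_cons_le {ts tol z : ℝ} {l : List ℝ} (h : ℕ) (hl : ∀ y ∈ l, 0 ≤ y)
    (hz : 0 ≤ z) (hadm : -tol ≤ z + ts - Th 0 l) (hts : ts + tol ≤ 2 * z) :
    Th h (z :: l) ≤ (1 + 3 * (h : ℝ)) * (13 * z) := by
  have h1 := Th_le_mul h (l := z :: l) (by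
    intro y hy
    rcases List.mem_cons.mp hy with rfl | hy
    · exact hz
    · exact hl y hy)
  have h2 := Th_zero_cons_le hl hz hadm hts
  have h3 : (0 : ℝ) ≤ 1 + 3 * (h : ℝ) := by positivity
  exact h1.trans (mul_le_mul_of_nonneg_left h2 h3)

/-! ### The length bound (Ch1) -/

/-- Five consecutive entries of an admissible list: the fifth is at most `3/4` of the first,
if `ts + tol ≤ 2 z`. -/
theorem fifth_le {ts tol z q1 q2 q3 q4 : ℝ} {rest : List ℝ}
    (h12 : q4 ≤ q1) (h22 : q4 ≤ q2) (h32 : q4 ≤ q3)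
    (hq4 : 0 ≤ q4) (hrest : ∀ y ∈ rest, 0 ≤ y)
    (hadm : -tol ≤ z + ts - Th 0 (q1 :: q2 :: q3 :: q4 :: rest)) (hts : ts + tol ≤ 2 * z)
    (hz : 0 ≤ z) :
    q4 ≤ (3 / 4) * z := by
  have hT : Th 0 (q1 :: q2 :: q3 :: q4 :: rest)
      = aa 1 * q1 + aa 2 * q2 + aa 3 * q3 + aa 4 * q4 + Th 4 rest := by
    simp only [Th_cons, zero_add]
    ring_nf
  have hr := Th_nonneg 4 hrest
  have h1 : aa 1 * q4 ≤ aa 1 * q1 := mul_le_mul_of_nonneg_left h12 (aa_pos (by norm_num)).le
  have h2 : aa 2 * q4 ≤ aa 2 * q2 := mul_le_mul_of_nonneg_left h22 (aa_pos (by norm_num)).le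
  have h3 : aa 3 * q4 ≤ aa 3 * q3 := mul_le_mul_of_nonneg_left h32 (aa_pos (by norm_num)).le
  have hs := sum_aa_four_gt
  have h4 : 4.04 * q4 ≤ (aa 1 + aa 2 + aa 3 + aa 4) * q4 :=
    mul_le_mul_of_nonneg_right hs.le hq4
  rw [hT] at hadm
  nlinarith

/-- (Ch1) Length bound: a decreasing admissible list with entries at least `ts` (and `tol ≤ ts`,
`0 < ts`) and head at most `(4/3)^n ts` has length at most `4 n + 5`. -/
theorem length_le_of_head {ts tol : ℝ} (hts : 0 < ts) (htol : tol ≤ ts) (n : ℕ) :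
    ∀ (z : ℝ) (l : List ℝ), (z :: l).Pairwise (· ≥ ·) → (∀ y ∈ z :: l, ts ≤ y) →
      AdmZ ts tol (z :: l) → z ≤ (4 / 3 : ℝ) ^ n * ts → (z :: l).length ≤ 4 * n + 5 := by
  induction n with
  | zero =>
    intro z l hp hge hadm hz
    match l, hp, hge, hadm with
    | [], _, _, _ => simp
    | [_], _, _, _ => simp
    | [_, _], _, _, _ => simp
    | [_, _, _], _, _, _ => simp
    | q1 :: q2 :: q3 :: q4 :: rest, hp, hge, hadm =>
      exfalso
      simp only [List.pairwise_cons, List.mem_cons, ge_iff_le] at hp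
      have h4 : ts ≤ q4 := hge q4 (by simp)
      have hz0 : ts ≤ z := hge z (by simp)
      have hrest : ∀ y ∈ rest, 0 ≤ y := fun y hy => hts.le.trans (hge y (by simp [hy]))
      have h := fifth_le (ts := ts) (tol := tol) (z := z) (q1 := q1) (q2 := q2) (q3 := q3)
        (q4 := q4) (rest := rest)
        (hp.2.1 q4 (by simp)) (hp.2.2.1 q4 (by simp)) (hp.2.2.2.1 q4 (by simp))
        (hts.le.trans h4) hrest hadm.1 (by linarith) (by linarith)
      simp only [pow_zero, one_mul] at hz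
      linarith
  | succ n ih =>
    intro z l hp hge hadm hz
    match l, hp, hge, hadm with
    | [], _, _, _ => simp
    | [_], _, _, _ => simp
    | [_, _], _, _, _ => simp
    | [_, _, _], _, _, _ => simp
    | q1 :: q2 :: q3 :: q4 :: rest, hp, hge, hadm =>
      have hp' := hp
      simp only [List.pairwise_cons, List.mem_cons, ge_iff_le] at hp'
      have h4 : ts ≤ q4 := hge q4 (by simp)
      have hz0 : ts ≤ z := hge z (by simp)
      have hrest : ∀ y ∈ rest, 0 ≤ y := fun y hy => hts.le.trans (hge y (by simp [hy]))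
      have h := fifth_le (ts := ts) (tol := tol) (z := z) (q1 := q1) (q2 := q2) (q3 := q3)
        (q4 := q4) (rest := rest)
        (hp'.2.1 q4 (by simp)) (hp'.2.2.1 q4 (by simp)) (hp'.2.2.2.1 q4 (by simp))
        (hts.le.trans h4) hrest hadm.1 (by linarith) (by linarith)
      have hq4 : q4 ≤ (4 / 3 : ℝ) ^ n * ts := by
        have e : (4 / 3 : ℝ) ^ (n + 1) = (4 / 3) ^ n * (4 / 3) := pow_succ _ _
        rw [e] at hz
        nlinarith
      have hpt : (q4 :: rest).Pairwise (· ≥ ·) := by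
        have := hp.tail.tail.tail.tail
        exact this
      have hget : ∀ y ∈ q4 :: rest, ts ≤ y := fun y hy => hge y (by
        simp only [List.mem_cons] at hy ⊢
        tauto)
      have hadmt : AdmZ ts tol (q4 :: rest) := hadm.2.2.2.2
      have := ih q4 rest hpt hget hadmt hq4
      simp only [List.length_cons] at this ⊢
      omega

/-! ### The Euler identity (Ch4) -/

/-- (Ch4) Euler identity for a decreasing real vector `z 0 ≥ z 1 ≥ ... ≥ z k`. -/
theorem euler_identity (z : ℕ → ℝ) (k : ℕ) (hz : ∀ i j, i ≤ j → j ≤ k → z j ≤ z i) :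
    ∑ i ∈ range (k + 1), ∑ s ∈ Icc 1 k, cs s * min (z s) (z i)
      = ∑ s ∈ Icc 1 k, (aa s + 1) * z s := by
  induction k with
  | zero => simp
  | succ n ih =>
    have ih' := ih (fun i j hij hj => hz i j hij (by omega))
    -- expand the outer sum at the last row and the inner sums at the last column
    have e1 : ∑ i ∈ range (n + 1 + 1), ∑ s ∈ Icc 1 (n + 1), cs s * min (z s) (z i)
        = ∑ i ∈ range (n + 1), ∑ s ∈ Icc 1 (n + 1), cs s * min (z s) (z i)
          + ∑ s ∈ Icc 1 (n + 1), cs s * min (z s) (z (n + 1)) :=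
      Finset.sum_range_succ _ _
    have e2 : ∀ i ∈ range (n + 1), ∑ s ∈ Icc 1 (n + 1), cs s * min (z s) (z i)
        = ∑ s ∈ Icc 1 n, cs s * min (z s) (z i) + cs (n + 1) * z (n + 1) := by
      intro i hi
      rw [Finset.sum_Icc_succ_top (by omega)]
      have hi' : i ≤ n + 1 := by have := mem_range.mp hi; omega
      rw [min_eq_left (hz i (n + 1) hi' le_rfl)]
    have e3 : ∑ s ∈ Icc 1 (n + 1), cs s * min (z s) (z (n + 1))
        = Real.log ((n : ℝ) + 2) * z (n + 1) := by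
      have : ∀ s ∈ Icc 1 (n + 1), cs s * min (z s) (z (n + 1)) = cs s * z (n + 1) := by
        intro s hs
        have hs' := mem_Icc.mp hs
        rw [min_eq_right (hz s (n + 1) hs'.2 le_rfl)]
      rw [Finset.sum_congr rfl this, ← Finset.sum_mul, sum_cs]
      push_cast
      congr 2
      ring
    rw [e1, Finset.sum_congr rfl e2, Finset.sum_add_distrib, ih', e3,
      Finset.sum_Icc_succ_top (by omega : 1 ≤ n + 1), Finset.sum_const, card_range, nsmul_eq_mul]
    have e4 : aa (n + 1) + 1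
        = ((n : ℝ) + 1) * cs (n + 1) + Real.log ((n : ℝ) + 2) := by
      unfold aa cs
      push_cast
      have : (n : ℝ) + 1 + 1 = (n : ℝ) + 2 := by ring
      rw [this]
      ring
    rw [e4]
    push_cast
    ring

end Vale.Agent.Lib.P031V.ChainGeneric
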