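import Vale.Agent.Lib.P031V.Defs
import Vale.Agent.Lib.P031V.ChainGeneric

/-! # P031: the coefficients `aa` and the chain functional, blueprint section 1 (Ch1-Ch4). -/

namespace Vale.Agent.Lib.P031V
open Real Finset
open scoped Classical
noncomputable section

/-- `aa l + 1 ≤ 4 aa l`; the other facts on `aa` are in `AaFacts.lean`. -/
theorem aa_add_one_le_four {l : ℕ} (hl : 1 ≤ l) : aa l + 1 ≤ 4 * aa l := by
  have h1 := aa_mono hl
  have h2 := aa_one_gt
  linarith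

/-- `log n = ∑_{s=1}^{n-1} c_s`. -/
theorem log_eq_sum_cs (n : ℕ) (hn : 1 ≤ n) : Real.log n = ∑ s ∈ Finset.Icc 1 (n - 1), cs s := by
  rw [sum_cs]
  have : (((n - 1 : ℕ) : ℝ) + 1) = (n : ℝ) := by
    rw [Nat.cast_sub hn]; push_cast; ring
  rw [this]

/-- All entries have level `≥ ts`. -/
def BigList (N : ℕ) (l : List ℕ) : Prop := ∀ p ∈ l, ts N ≤ lev p - ts N

theorem ts_nonneg (N : ℕ) : 0 ≤ ts N := by
  unfold ts t0
  have : (0 : ℝ) ≤ (N : ℝ) ^ ((4 : ℝ) / 5) := Real.rpow_nonneg (Nat.cast_nonneg N) _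
  linarith

/-- The `z`-values of a list of primes. -/
def zvals (N : ℕ) (l : List ℕ) : List ℝ := l.map (fun p => lev p - ts N)

theorem aa_eq_generic (l : ℕ) : ChainGeneric.aa l = aa l := rfl

theorem Th_eq_generic (N : ℕ) (h : ℕ) (l : List ℕ) : Th N h l = ChainGeneric.Th h (zvals N l) := by
  induction l generalizing h with
  | nil => simp [Th, zvals]
  | cons p t ih =>
    have := ih (h + 1)
    simp only [Th, zvals, List.map_cons, ChainGeneric.Th_cons, aa_eq_generic] at this ⊢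
    rw [this]

theorem zvals_nonneg {N : ℕ} {l : List ℕ} (hl : BigList N l) : ∀ z ∈ zvals N l, 0 ≤ z := by
  intro z hz
  simp only [zvals, List.mem_map] at hz
  obtain ⟨p, hp, rfl⟩ := hz
  exact (ts_nonneg N).trans (hl p hp)

theorem Th_nonneg (N : ℕ) (h : ℕ) (l : List ℕ) (hl : BigList N l) : 0 ≤ Th N h l := by
  rw [Th_eq_generic]
  exact ChainGeneric.Th_nonneg h (zvals_nonneg hl)

theorem Th_succ_ge (N : ℕ) (h : ℕ) (l : List ℕ) (hl : BigList N l) : Th N h l ≤ Th N (h + 1) l := by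
  rw [Th_eq_generic, Th_eq_generic]
  exact ChainGeneric.Th_succ_ge h (zvals_nonneg hl)

/-- (Ch3) `Th h l ≤ (1 + 3 h) Th 0 l`. -/
theorem Th_le_mul (N : ℕ) (h : ℕ) (l : List ℕ) (hl : BigList N l) :
    Th N h l ≤ (1 + 3 * (h : ℝ)) * Th N 0 l := by
  rw [Th_eq_generic, Th_eq_generic]
  exact ChainGeneric.Th_le_mul h (zvals_nonneg hl)

/-- (Ch2) deletion: a sublist of a decreasing list has smaller `Th`. -/
theorem Th_sublist (N : ℕ) (h : ℕ) {l l' : List ℕ} (hs : l'.Sublist l) (hb : BigList N l) (_hts : 0 ≤ ts N) :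
    Th N h l' ≤ Th N h l := by
  rw [Th_eq_generic, Th_eq_generic]
  exact ChainGeneric.Th_sublist h (hs.map _) (zvals_nonneg hb)

/-- `lev` is monotone on `ℕ≥2`. -/
theorem lev_mono {p q : ℕ} (hp : 2 ≤ p) (h : p ≤ q) : lev p ≤ lev q := by
  unfold lev
  have hp0 : (1 : ℝ) < p := by exact_mod_cast (by omega : 1 < p)
  have hlogp : 0 < Real.log p := Real.log_pos hp0
  have hpq : (p : ℝ) ≤ q := by exact_mod_cast h
  exact Real.log_le_log hlogp (Real.log_le_log (by linarith) hpq)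

/-- Decomposition formula. -/
theorem Th_append (N : ℕ) (h : ℕ) (l₁ l₂ : List ℕ) :
    Th N h (l₁ ++ l₂) = Th N h l₁ + Th N (h + l₁.length) l₂ := by
  induction l₁ generalizing h with
  | nil => simp [Th]
  | cons p t ih =>
    simp only [List.cons_append, Th, List.length_cons]
    rw [ih (h + 1)]
    have : h + 1 + t.length = h + (t.length + 1) := by omega
    rw [this]
    ring

theorem rowsProd_append (l₁ l₂ : List ℕ) : rowsProd (l₁ ++ l₂) = rowsProd l₁ * rowsProd l₂ := by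
  simp [rowsProd, List.map_append, List.prod_append]

/-- Admissibility in terms of `z` values. -/
theorem adm_iff_generic (N : ℕ) (l : List ℕ) : Adm N l ↔ ChainGeneric.AdmZ (ts N) (tol N) (zvals N l) := by
  induction l with
  | nil => simp [Adm, zvals]
  | cons p t ih =>
    simp only [Adm, zvals, List.map_cons, ChainGeneric.AdmZ_cons]
    rw [← zvals, ih, ← Th_eq_generic]
    have : lev p - ts N + ts N - Th N 0 t = lev p - Th N 0 t := by ring
    rw [this]

/-- `tol ≤ ts` for `N ≥ 2^20`. -/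
theorem tol_le_ts {N : ℕ} (hN : 2 ^ 20 ≤ N) : tol N ≤ ts N := by
  unfold tol ts t0
  have hN1 : (1 : ℝ) ≤ (N : ℝ) := by
    have : 1 ≤ N := le_trans (by norm_num) hN
    exact_mod_cast this
  have hN0 : (0 : ℝ) < (N : ℝ) := by linarith
  have hsplit : (N : ℝ) ^ ((4 : ℝ) / 5) = (N : ℝ) ^ ((3 : ℝ) / 4) * (N : ℝ) ^ ((1 : ℝ) / 20) := by
    rw [← Real.rpow_add hN0]; norm_num
  have h2 : (2 : ℝ) ≤ (N : ℝ) ^ ((1 : ℝ) / 20) := by
    have h3 : ((2 : ℝ) ^ (20 : ℕ)) ≤ (N : ℝ) := by exact_mod_cast hN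
    have h4 : (((2 : ℝ) ^ (20 : ℕ)) : ℝ) ^ ((1 : ℝ) / 20) ≤ (N : ℝ) ^ ((1 : ℝ) / 20) :=
      Real.rpow_le_rpow (by positivity) h3 (by norm_num)
    have h5 : (((2 : ℝ) ^ (20 : ℕ)) : ℝ) ^ ((1 : ℝ) / 20) = 2 := by
      rw [← Real.rpow_natCast, ← Real.rpow_mul (by norm_num)]
      norm_num
    rwa [h5] at h4
  have h6 : 0 ≤ (N : ℝ) ^ ((3 : ℝ) / 4) := Real.rpow_nonneg hN0.le _
  rw [hsplit]
  nlinarith

/-- `1 ≤ ts` for `N ≥ 2^20`. -/
theorem one_le_ts {N : ℕ} (hN : 2 ^ 20 ≤ N) : 1 ≤ ts N := by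
  have h1 := tol_le_ts hN
  have h2 : (1 : ℝ) ≤ tol N := by
    unfold tol
    have hN1 : (1 : ℝ) ≤ (N : ℝ) := by
      have : 1 ≤ N := le_trans (by norm_num) hN
      exact_mod_cast this
    exact Real.one_le_rpow hN1 (by norm_num)
  linarith

/-- `t0 = 2 ts`. -/
theorem t0_eq (N : ℕ) : t0 N = 2 * ts N := by
  unfold ts; ring

theorem log_four_third : (1 / 4 : ℝ) ≤ Real.log (4 / 3) := by
  have h := Real.one_sub_inv_le_log_of_pos (show (0 : ℝ) < 4 / 3 by norm_num)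
  norm_num at h ⊢
  linarith

/-- Exponent choice for (Ch1). -/
theorem exists_pow_ge (X : ℝ) (hX : 1 ≤ X) :
    ∃ n : ℕ, X ≤ (4 / 3 : ℝ) ^ n ∧ (n : ℝ) ≤ 4 * Real.log X + 1 := by
  refine ⟨⌈4 * Real.log X⌉₊, ?_, ?_⟩
  · have hlog : 0 ≤ Real.log X := Real.log_nonneg hX
    have h1 : 4 * Real.log X ≤ (⌈4 * Real.log X⌉₊ : ℝ) := Nat.le_ceil _
    have h2 : Real.log X ≤ (⌈4 * Real.log X⌉₊ : ℝ) * Real.log (4 / 3) := by
      have h3 := log_four_third
      have h4 : (0 : ℝ) ≤ (⌈4 * Real.log X⌉₊ : ℝ) := Nat.cast_nonneg _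
      nlinarith
    have h5 : Real.log X ≤ Real.log ((4 / 3 : ℝ) ^ ⌈4 * Real.log X⌉₊) := by
      rw [Real.log_pow]; exact h2
    exact (Real.log_le_log_iff (by linarith) (by positivity)).mp h5
  · have hlog : 0 ≤ Real.log X := Real.log_nonneg hX
    have := Nat.ceil_lt_add_one (by positivity : 0 ≤ 4 * Real.log X)
    linarith

theorem zvals_pairwise {N : ℕ} {l : List ℕ} (hs : l.Pairwise (· > ·)) (hp : ∀ p ∈ l, p.Prime) :
    (zvals N l).Pairwise (· ≥ ·) := by
  induction l with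
  | nil => simp [zvals]
  | cons a t ih =>
    simp only [zvals, List.map_cons, List.pairwise_cons, List.mem_map]
    have hs' := List.pairwise_cons.mp hs
    refine ⟨?_, ih hs'.2 (fun p hq => hp p (by simp [hq]))⟩
    rintro _ ⟨q, hq, rfl⟩
    have h1 := hs'.1 q hq
    have h2 := (hp q (by simp [hq])).two_le
    have := lev_mono h2 h1.le
    simp only [ge_iff_le]
    linarith

/-- (Ch1) Admissible chains of big primes with `N` large are short. -/
theorem length_le_U0 : ∃ N₀ : ℕ, ∀ N ≥ N₀, ∀ l : List ℕ, l.Pairwise (· > ·) → (∀ p ∈ l, p.Prime) →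
    (∀ p ∈ l, t0 N ≤ lev p ∧ lev p ≤ (N : ℝ) + 6) → Adm N l → l.length ≤ U0 N := by
  refine ⟨2 ^ 20, ?_⟩
  intro N hN l hs hp hl hadm
  have hN' : (2 : ℝ) ^ 20 ≤ (N : ℝ) := by exact_mod_cast hN
  have hts1 := one_le_ts hN
  have htol := tol_le_ts hN
  have htspos : 0 < ts N := by linarith
  have hlogN : 6 ≤ Real.log N := by
    have h1 : Real.log ((2 : ℝ) ^ 20) ≤ Real.log N := Real.log_le_log (by norm_num) hN'
    rw [Real.log_pow] at h1
    have h2 := Real.log_two_gt_d9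
    push_cast at h1
    linarith
  cases hz : zvals N l with
  | nil =>
    have : l = [] := by simpa [zvals] using hz
    subst this
    simp
  | cons z lz =>
    obtain ⟨n, hn1, hn2⟩ := exists_pow_ge ((N : ℝ) + 6) (by linarith)
    have hpw : (z :: lz).Pairwise (· ≥ ·) := hz ▸ zvals_pairwise hs hp
    have hge : ∀ y ∈ z :: lz, ts N ≤ y := by
      intro y hy
      rw [← hz] at hy
      simp only [zvals, List.mem_map] at hy
      obtain ⟨p, hp', rfl⟩ := hy
      have := (hl p hp').1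
      rw [t0_eq] at this
      linarith
    have hadm' : ChainGeneric.AdmZ (ts N) (tol N) (z :: lz) := hz ▸ (adm_iff_generic N l).mp hadm
    have hzle : z ≤ (4 / 3 : ℝ) ^ n * ts N := by
      have h1 : z ∈ zvals N l := by rw [hz]; simp
      simp only [zvals, List.mem_map] at h1
      obtain ⟨p, hp', rfl⟩ := h1
      have h2 := (hl p hp').2
      have h3 : (0 : ℝ) < (4 / 3 : ℝ) ^ n := by positivity
      nlinarith
    have hlen := ChainGeneric.length_le_of_head htspos htol n z lz hpw hge hadm' hzle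
    have hll : l.length = (z :: lz).length := by
      rw [← hz]; simp [zvals]
    have h2N : Real.log ((N : ℝ) + 6) ≤ Real.log N + Real.log 2 := by
      rw [← Real.log_mul (by linarith) (by norm_num)]
      exact Real.log_le_log (by linarith) (by linarith)
    have hU0 : 20 * Real.log N ≤ (U0 N : ℝ) := Nat.le_ceil _
    have hlen' : (l.length : ℝ) ≤ 4 * n + 5 := by
      rw [hll]; exact_mod_cast hlen
    have hfin : (l.length : ℝ) ≤ (U0 N : ℝ) := by
      have hl2 := Real.log_two_lt_d9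
      nlinarith
    exact_mod_cast hfin

/-- Product over a list with each factor small. -/
theorem rowsProd_le_aux (E : ℝ) (l : List ℕ) (h : ∀ p ∈ l, ((p - 1 : ℕ) : ℝ) ≤ Real.exp E) :
    (rowsProd l : ℝ) ≤ Real.exp ((l.length : ℝ) * E) := by
  induction l with
  | nil => simp [rowsProd]
  | cons p t ih =>
    have h1 := ih (fun q hq => h q (by simp [hq]))
    have h2 := h p (by simp)
    have e : rowsProd (p :: t) = (p - 1) * rowsProd t := by simp [rowsProd]
    rw [e]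
    push_cast [Nat.cast_mul]
    have e2 : (((p :: t).length : ℕ) : ℝ) * E = E + (t.length : ℝ) * E := by
      simp only [List.length_cons]; push_cast; ring
    rw [e2, Real.exp_add]
    have h3 : (0 : ℝ) ≤ ((p - 1 : ℕ) : ℝ) := Nat.cast_nonneg _
    have h4 : (0 : ℝ) ≤ (rowsProd t : ℝ) := Nat.cast_nonneg _
    exact mul_le_mul h2 h1 h4 (Real.exp_pos _).le

/-- Numerics for `rowsProd_le`: `U0 N * N^3 ≤ exp √N`. -/
theorem U0_numeric {N : ℕ} (hN : 100000000 ≤ N) :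
    (U0 N : ℝ) * (N : ℝ) ^ 3 ≤ Real.exp (Dc N) := by
  have hN' : (100000000 : ℝ) ≤ (N : ℝ) := by exact_mod_cast hN
  have hN0 : (0 : ℝ) < (N : ℝ) := by linarith
  have hU : (U0 N : ℝ) ≤ 20 * Real.log N + 1 := by
    have hlog : 0 ≤ Real.log N := Real.log_nonneg (by linarith)
    have := Nat.ceil_lt_add_one (by positivity : 0 ≤ 20 * Real.log N)
    unfold U0
    linarith
  have hlogle : Real.log N ≤ (N : ℝ) := (Real.log_le_sub_one_of_pos hN0).trans (by linarith)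
  have hU2 : (U0 N : ℝ) ≤ 21 * (N : ℝ) := by linarith
  have hDc : Dc N = Real.sqrt N := by
    unfold Dc
    rw [Real.sqrt_eq_rpow]
  have hsq : Real.sqrt N ^ 2 = (N : ℝ) := Real.sq_sqrt hN0.le
  have hexp := Real.pow_div_factorial_le_exp (Real.sqrt N) (Real.sqrt_nonneg _) 10
  have e10 : Real.sqrt N ^ 10 = (N : ℝ) ^ 5 := by
    have : Real.sqrt N ^ 10 = (Real.sqrt N ^ 2) ^ 5 := by ring
    rw [this, hsq]
  rw [e10] at hexp
  have hfac : ((Nat.factorial 10 : ℕ) : ℝ) = 3628800 := by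
    norm_num [Nat.factorial]
  rw [hfac] at hexp
  rw [hDc]
  refine le_trans ?_ hexp
  rw [le_div_iff₀ (by norm_num)]
  have hpow : (0 : ℝ) < (N : ℝ) ^ 4 := by positivity
  have h3 : (0 : ℝ) ≤ (N : ℝ) ^ 3 := by positivity
  have h4 : (U0 N : ℝ) * (N : ℝ) ^ 3 ≤ 21 * (N : ℝ) * (N : ℝ) ^ 3 :=
    mul_le_mul_of_nonneg_right hU2 h3
  have h5 : 21 * (N : ℝ) * (N : ℝ) ^ 3 * 3628800 ≤ (N : ℝ) ^ 5 := by
    have : (N : ℝ) ^ 5 = (N : ℝ) * (N : ℝ) ^ 4 := by ring
    rw [this]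
    nlinarith
  nlinarith

/-- The rows of a rep: `rowsProd l ≤ exp (U0 e^{N-D})`. -/
theorem rowsProd_le : ∃ N₀ : ℕ, ∀ N ≥ N₀, ∀ (l : List ℕ), l.Pairwise (· > ·) → (∀ p ∈ l, p.Prime) →
    (∀ p ∈ l, t0 N ≤ lev p ∧ lev p ≤ (N : ℝ) - Dc N) → Adm N l →
    (rowsProd l : ℝ) ≤ Real.exp (Real.exp N / (N : ℝ) ^ 3) := by
  obtain ⟨N₁, h₁⟩ := length_le_U0
  refine ⟨max N₁ 100000000, ?_⟩
  intro N hN l hs hp hl hadm
  have hN1 : N₁ ≤ N := le_trans (le_max_left _ _) hN
  have hN2 : 100000000 ≤ N := le_trans (le_max_right _ _) hN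
  have hN' : (100000000 : ℝ) ≤ (N : ℝ) := by exact_mod_cast hN2
  have hN0 : (0 : ℝ) < (N : ℝ) := by linarith
  have hDcpos : 0 ≤ Dc N := Real.rpow_nonneg hN0.le _
  have hlen := h₁ N hN1 l hs hp (fun p hp' => ⟨(hl p hp').1, by
    have := (hl p hp').2; linarith⟩) hadm
  have hfac : ∀ p ∈ l, ((p - 1 : ℕ) : ℝ) ≤ Real.exp (Real.exp ((N : ℝ) - Dc N)) := by
    intro p hp'
    have hpp := hp p hp'
    have h2 : (1 : ℝ) < p := by exact_mod_cast hpp.one_lt
    have hlogp : 0 < Real.log p := Real.log_pos h2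
    have hlev := (hl p hp').2
    have h3 : Real.log p ≤ Real.exp ((N : ℝ) - Dc N) := by
      have h4 : Real.log p = Real.exp (lev p) := by
        unfold lev; rw [Real.exp_log hlogp]
      rw [h4]
      exact Real.exp_le_exp.mpr hlev
    have h5 : (p : ℝ) ≤ Real.exp (Real.exp ((N : ℝ) - Dc N)) := by
      calc (p : ℝ) = Real.exp (Real.log p) := (Real.exp_log (by linarith)).symm
        _ ≤ _ := Real.exp_le_exp.mpr h3
    have h6 : ((p - 1 : ℕ) : ℝ) ≤ (p : ℝ) := by exact_mod_cast Nat.sub_le p 1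
    linarith
  refine (rowsProd_le_aux _ l hfac).trans ?_
  apply Real.exp_le_exp.mpr
  have hlen' : (l.length : ℝ) ≤ (U0 N : ℝ) := by exact_mod_cast hlen
  have hnum := U0_numeric hN2
  have hEpos := Real.exp_pos ((N : ℝ) - Dc N)
  have h7 : (l.length : ℝ) * Real.exp ((N : ℝ) - Dc N) ≤ (U0 N : ℝ) * Real.exp ((N : ℝ) - Dc N) :=
    mul_le_mul_of_nonneg_right hlen' hEpos.le
  refine h7.trans ?_
  rw [le_div_iff₀ (by positivity)]
  have e : Real.exp N = Real.exp ((N : ℝ) - Dc N) * Real.exp (Dc N) := by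
    rw [← Real.exp_add]; congr 1; ring
  rw [e]
  have h8 : (U0 N : ℝ) * (N : ℝ) ^ 3 * Real.exp ((N : ℝ) - Dc N)
      ≤ Real.exp (Dc N) * Real.exp ((N : ℝ) - Dc N) :=
    mul_le_mul_of_nonneg_right hnum hEpos.le
  nlinarith

/-- Every representation has `m < Bnd N`. -/
theorem rep_lt_Bnd : ∃ N₀ : ℕ, ∀ N ≥ N₀, ∀ l low m, IsRep N l low m → m < Bnd N := by
  obtain ⟨N₁, h₁⟩ := rowsProd_le
  refine ⟨N₁, ?_⟩
  intro N hN l low m hrep
  have hr := h₁ N hN l hrep.sorted (fun p hp => (hrep.normal p hp).1)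
    (fun p hp => ⟨(hrep.normal p hp).2.1, hrep.cut p hp⟩) hrep.adm
  obtain ⟨n, _, _, _, hlow⟩ := hrep.lowv
  have hmle : (m : ℝ) ≤ (Ymax N) ^ 2 := by
    rw [hrep.eq]
    push_cast
    have h0 : (0 : ℝ) ≤ (low : ℝ) := Nat.cast_nonneg _
    have hY : (0 : ℝ) ≤ Ymax N := (Real.exp_pos _).le
    have h2 : (rowsProd l : ℝ) ≤ Ymax N := hr
    calc (rowsProd l : ℝ) * (low : ℝ) ≤ Ymax N * Ymax N :=
          mul_le_mul h2 hlow h0 hY
      _ = (Ymax N) ^ 2 := by ring
  have h3 : m ≤ ⌈(Ymax N) ^ 2⌉₊ := by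
    have := Nat.le_ceil ((Ymax N) ^ 2)
    exact_mod_cast hmle.trans this
  unfold Bnd
  omega

/-- If `Adm (p :: l)` with big entries then `Th h (p :: l) ≤ (1 + 3h) 13 (lev p - ts)`. -/
theorem Th_cons_le : ∃ N₀ : ℕ, ∀ N ≥ N₀, ∀ (h : ℕ) (p : ℕ) (l : List ℕ), (p :: l).Pairwise (· > ·) →
    BigList N (p :: l) → tol N ≤ ts N → Adm N (p :: l) →
    Th N h (p :: l) ≤ (1 + 3 * (h : ℝ)) * (13 * (lev p - ts N)) := by
  refine ⟨0, ?_⟩
  intro N _ h p l _ hb htol hadm
  have hbt : BigList N l := fun q hq => hb q (by simp [hq])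
  have hp := hb p (by simp)
  have hz0 : 0 ≤ lev p - ts N := (ts_nonneg N).trans hp
  have hadm1 : -tol N ≤ (lev p - ts N) + ts N - ChainGeneric.Th 0 (zvals N l) := by
    have := hadm.1
    rw [Th_eq_generic] at this
    linarith
  have := ChainGeneric.Th_cons_le (ts := ts N) (tol := tol N) (z := lev p - ts N) (l := zvals N l) h
    (zvals_nonneg hbt) hz0 hadm1 (by linarith)
  rw [Th_eq_generic]
  simpa [zvals] using this

end
end Vale.Agent.Lib.P031V
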