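import Vale.Agent.Lib.P031V.ChainA

/-! # P031: near agreement of two representations, blueprint (Ch5). -/

namespace Vale.Agent.Lib.P031V
open Real Finset
open scoped Classical
noncomputable section

/-- Number of primes of `k` of level `> y`. -/
def PiC (k : ℕ) (y : ℝ) : ℕ := (k.primeFactors.filter (fun r => y < lev r)).card

/-- `G_l(y) = ∑ (lev p - y)_+`. -/
def GG (l : List ℕ) (y : ℝ) : ℝ := (l.map (fun p => max (lev p - y) 0)).sum

/-- The integer `low` has all its primes below level `t0`. -/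
def LowSmooth (N : ℕ) (low : ℕ) : Prop := ∀ r : ℕ, r.Prime → r ∣ low → lev r < t0 N

/-- A prime dividing a totient is at most some prime factor of the argument. -/
theorem prime_dvd_totient_le {n r : ℕ} (hn : n ≠ 0) (hr : r.Prime) (h : r ∣ n.totient) :
    ∃ q : ℕ, q.Prime ∧ q ∣ n ∧ r ≤ q := by
  rw [Nat.totient_eq_prod_factorization hn, Finsupp.prod, hr.prime.dvd_finsetProd_iff] at h
  obtain ⟨q, hq, hd⟩ := h
  have hqp : q.Prime := Nat.prime_of_mem_primeFactors (by simpa using hq)
  have hqd : q ∣ n := Nat.dvd_of_mem_primeFactors (by simpa using hq)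
  refine ⟨q, hqp, hqd, ?_⟩
  rcases (Nat.Prime.dvd_mul hr).1 hd with h1 | h1
  · have := hr.dvd_of_dvd_pow h1
    exact Nat.le_of_dvd hqp.pos this
  · have hpos : 0 < q - 1 := Nat.sub_pos_of_lt hqp.one_lt
    have := Nat.le_of_dvd hpos h1
    omega

theorem LowVal.smooth {N low : ℕ} (h : LowVal N low) : LowSmooth N low := by
  obtain ⟨n, hn, hpr, rfl, -⟩ := h
  intro r hr hd
  obtain ⟨q, hq, hqd, hle⟩ := prime_dvd_totient_le hn hr hd
  exact lt_of_le_of_lt (lev_mono hr.two_le hle) (hpr q hq hqd)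

theorem t0_nonneg (N : ℕ) : 0 ≤ t0 N := Real.rpow_nonneg (Nat.cast_nonneg _) _

theorem ts_le_t0 (N : ℕ) : ts N ≤ t0 N := by
  have := t0_nonneg N
  unfold ts; linarith

theorem tau_nonneg (N : ℕ) (y : ℝ) : 0 ≤ tau N y :=
  Real.rpow_nonneg (le_trans (ts_nonneg N) (le_max_right _ _)) _

theorem tau_mono (N : ℕ) {y y' : ℝ} (h : y ≤ y') : tau N y ≤ tau N y' := by
  unfold tau
  apply Real.rpow_le_rpow (le_trans (ts_nonneg N) (le_max_right _ _))
  · exact max_le_max (by linarith) le_rfl
  · norm_num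

/-- One row. -/
theorem row_close {N p : ℕ} {y : ℝ} (hp : Normal N p) (hp6 : lev p ≤ (N : ℝ) + 6) (hy : t0 N ≤ y) :
    |(PiC (p - 1) y : ℝ) - max (lev p - y) 0| ≤ 2 * tau N ((N : ℝ) + 6) := by
  obtain ⟨hpr, ht, hW⟩ := hp
  have hlev : ∀ r ∈ (p - 1).primeFactors, lev r ≤ lev p := by
    intro r hr
    have hrp := Nat.prime_of_mem_primeFactors hr
    have hrd := Nat.dvd_of_mem_primeFactors hr
    have hpos : 0 < p - 1 := Nat.sub_pos_of_lt hpr.one_lt
    have := Nat.le_of_dvd hpos hrd
    exact lev_mono hrp.two_le (by omega)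
  have hts := ts_le_t0 N
  by_cases hc : lev p ≤ y
  · have h0 : PiC (p - 1) y = 0 := by
      unfold PiC
      rw [Finset.card_eq_zero, Finset.filter_eq_empty_iff]
      intro r hr
      have := hlev r hr
      linarith
    rw [h0, max_eq_right (by linarith)]
    have := tau_nonneg N ((N : ℝ) + 6)
    simp only [Nat.cast_zero, sub_zero, abs_zero]
    linarith
  · push Not at hc
    have h1 := hW (lev p) (by linarith) le_rfl
    have h2 := hW y (by linarith) hc.le
    have hsplit : (W N (p - 1) (lev p) : ℝ) = (W N (p - 1) y : ℝ) + PiC (p - 1) y := by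
      have : W N (p - 1) (lev p) = W N (p - 1) y + PiC (p - 1) y := by
        unfold W PiC
        rw [← Finset.card_union_of_disjoint]
        · congr 1
          ext r
          simp only [Finset.mem_filter, Finset.mem_union]
          constructor
          · rintro ⟨hr, h3, h4⟩
            by_cases h5 : lev r ≤ y
            · exact Or.inl ⟨hr, h3, h5⟩
            · exact Or.inr ⟨hr, not_le.1 h5⟩
          · rintro (⟨hr, h3, h4⟩ | ⟨hr, h3⟩)
            · exact ⟨hr, h3, by linarith⟩
            · exact ⟨hr, by linarith, hlev r hr⟩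
        · rw [Finset.disjoint_left]
          intro r hr hr'
          simp only [Finset.mem_filter] at hr hr'
          linarith [hr.2.2, hr'.2]
      exact_mod_cast this
    rw [max_eq_left (by linarith)]
    have h3 : tau N (lev p) ≤ tau N ((N : ℝ) + 6) := tau_mono N hp6
    have h4 : tau N y ≤ tau N ((N : ℝ) + 6) := tau_mono N (by linarith)
    have h1' := abs_le.1 h1
    have h2' := abs_le.1 h2
    rw [abs_le]
    constructor <;> nlinarith [h1'.1, h1'.2, h2'.1, h2'.2]

theorem rowsProd_cons (p : ℕ) (l : List ℕ) : rowsProd (p :: l) = (p - 1) * rowsProd l := by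
  simp [rowsProd]

/-- (Ch5). -/
theorem pi_close : ∃ N₀ : ℕ, ∀ N ≥ N₀, ∀ (l : List ℕ) (low : ℕ) (y : ℝ), l.Pairwise (· > ·) →
    (∀ p ∈ l, Normal N p ∧ lev p ≤ (N : ℝ) + 6) → LowSmooth N low → low ≠ 0 →
    Clean N (rowsProd l * low) → t0 N ≤ y →
    |(PiC (rowsProd l * low) y : ℝ) - GG l y| ≤ 2 * (l.length : ℝ) * tau N ((N : ℝ) + 6) := by
  refine ⟨0, fun N _ l low y hs hl hlow hlow0 hc hy => ?_⟩
  induction l with
  | nil =>
    have h0 : PiC (rowsProd [] * low) y = 0 := by
      unfold PiC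
      rw [Finset.card_eq_zero, Finset.filter_eq_empty_iff]
      intro r hr
      have hr' : r ∣ low := by simpa [rowsProd] using Nat.dvd_of_mem_primeFactors hr
      have := hlow r (Nat.prime_of_mem_primeFactors hr) hr'
      linarith
    simp [h0, GG]
  | cons p t ih =>
    have hs' : t.Pairwise (· > ·) := (List.pairwise_cons.1 hs).2
    have hl' : ∀ q ∈ t, Normal N q ∧ lev q ≤ (N : ℝ) + 6 := fun q hq => hl q (List.mem_cons_of_mem _ hq)
    have hc' : Clean N (rowsProd t * low) := by
      intro r hr hlr hd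
      apply hc r hr hlr
      rw [rowsProd_cons, mul_assoc]
      exact Dvd.dvd.mul_left hd _
    have ih' := ih hs' hl' hc'
    have hrow := row_close (hl p (List.mem_cons_self ..)).1 (hl p (List.mem_cons_self ..)).2 hy
    have hpr : p.Prime := (hl p (List.mem_cons_self ..)).1.1
    have hp1 : p - 1 ≠ 0 := by have := hpr.one_lt; omega
    have hsplit : PiC (rowsProd (p :: t) * low) y = PiC (p - 1) y + PiC (rowsProd t * low) y := by
      have hrt : ∀ q ∈ t, q.Prime := fun q hq => (hl' q hq).1.1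
      have hne : rowsProd t ≠ 0 := by
        unfold rowsProd
        intro h0
        rw [List.prod_eq_zero_iff] at h0
        obtain ⟨q, hq, hq0⟩ := List.mem_map.1 h0
        have := (hrt q hq).one_lt
        omega
      unfold PiC
      rw [rowsProd_cons, mul_assoc, Nat.primeFactors_mul hp1 (mul_ne_zero hne hlow0),
        Finset.filter_union, Finset.card_union_of_disjoint]
      rw [Finset.disjoint_left]
      intro r hr hr'
      simp only [Finset.mem_filter] at hr hr'
      have hrp := Nat.prime_of_mem_primeFactors hr.1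
      have hts := ts_le_t0 N
      apply hc r hrp (by linarith [hr.2])
      rw [rowsProd_cons, mul_assoc, pow_two]
      exact Nat.mul_dvd_mul (Nat.dvd_of_mem_primeFactors hr.1) (Nat.dvd_of_mem_primeFactors hr'.1)
    have hG : GG (p :: t) y = max (lev p - y) 0 + GG t y := by simp [GG]
    rw [hsplit, hG]
    push_cast
    have := abs_add_le ((PiC (p - 1) y : ℝ) - max (lev p - y) 0) ((PiC (rowsProd t * low) y : ℝ) - GG t y)
    have heq : (PiC (p - 1) y : ℝ) + (PiC (rowsProd t * low) y : ℝ) - (max (lev p - y) 0 + GG t y)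
        = ((PiC (p - 1) y : ℝ) - max (lev p - y) 0) + ((PiC (rowsProd t * low) y : ℝ) - GG t y) := by ring
    rw [heq]
    simp only [List.length_cons]
    push_cast
    nlinarith

/-- s-th entries of two lists with `G` close. `ent l s`: the `s`-th entry's level, or `0` if missing. -/
def ent (l : List ℕ) (s : ℕ) : ℝ := (l.map lev).getD s 0

theorem GG_append (l₁ l₂ : List ℕ) (y : ℝ) : GG (l₁ ++ l₂) y = GG l₁ y + GG l₂ y := by
  simp [GG]

/-- `G` is antitone. -/
theorem GG_anti (l : List ℕ) {y y' : ℝ} (h : y ≤ y') : GG l y' ≤ GG l y := by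
  induction l with
  | nil => simp [GG]
  | cons p t ih =>
    have h1 : GG (p :: t) y = max (lev p - y) 0 + GG t y := by simp [GG]
    have h2 : GG (p :: t) y' = max (lev p - y') 0 + GG t y' := by simp [GG]
    rw [h1, h2]
    have : max (lev p - y') 0 ≤ max (lev p - y) 0 := max_le_max (by linarith) le_rfl
    linarith

/-- `G` is Lipschitz with the length as constant. -/
theorem GG_lip (l : List ℕ) {y y' : ℝ} (h : y ≤ y') : GG l y - GG l y' ≤ (l.length : ℝ) * (y' - y) := by
  induction l with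
  | nil => simp [GG]
  | cons p t ih =>
    have h1 : GG (p :: t) y = max (lev p - y) 0 + GG t y := by simp [GG]
    have h2 : GG (p :: t) y' = max (lev p - y') 0 + GG t y' := by simp [GG]
    rw [h1, h2]
    have : max (lev p - y) 0 ≤ max (lev p - y') 0 + (y' - y) := by
      apply max_le
      · have := le_max_left (lev p - y') 0
        linarith
      · have := le_max_right (lev p - y') 0
        linarith
    simp only [List.length_cons]
    push_cast
    linarith

/-- `G` has slope exactly the length above all the levels. -/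
theorem GG_exact (l : List ℕ) {y y' : ℝ} (h : y ≤ y') (hl : ∀ p ∈ l, y' ≤ lev p) :
    GG l y - GG l y' = (l.length : ℝ) * (y' - y) := by
  induction l with
  | nil => simp [GG]
  | cons p t ih =>
    have h1 : GG (p :: t) y = max (lev p - y) 0 + GG t y := by simp [GG]
    have h2 : GG (p :: t) y' = max (lev p - y') 0 + GG t y' := by simp [GG]
    have hp := hl p (List.mem_cons_self ..)
    have ih' := ih (fun q hq => hl q (List.mem_cons_of_mem _ hq))
    rw [h1, h2, max_eq_left (by linarith), max_eq_left (by linarith)]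
    simp only [List.length_cons]
    push_cast
    linarith

/-- `G` vanishes above all the levels. -/
theorem GG_zero (l : List ℕ) {y : ℝ} (hl : ∀ p ∈ l, lev p ≤ y) : GG l y = 0 := by
  induction l with
  | nil => simp [GG]
  | cons p t ih =>
    have h1 : GG (p :: t) y = max (lev p - y) 0 + GG t y := by simp [GG]
    have hp := hl p (List.mem_cons_self ..)
    rw [h1, ih (fun q hq => hl q (List.mem_cons_of_mem _ hq)), max_eq_right (by linarith)]
    simp

theorem ent_of_lt {l : List ℕ} {s : ℕ} (h : s < l.length) : ent l s = lev (l[s]) := by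
  unfold ent
  rw [List.getD_eq_getElem _ _ (by simpa using h)]
  simp

theorem ent_of_le {l : List ℕ} {s : ℕ} (h : l.length ≤ s) : ent l s = 0 := by
  unfold ent
  rw [List.getD_eq_default _ _ (by simpa using h)]

/-- The entries after position `s` are at most the `s`-th entry. -/
theorem drop_le_ent {l : List ℕ} (hl : l.Pairwise (· > ·)) (h2 : ∀ p ∈ l, 2 ≤ p) (s : ℕ) :
    ∀ q ∈ l.drop s, lev q ≤ ent l s := by
  intro q hq
  obtain ⟨i, hi, rfl⟩ := List.getElem_of_mem hq
  simp only [List.length_drop] at hi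
  have hs : s < l.length := by omega
  rw [ent_of_lt hs]
  simp only [List.getElem_drop]
  rcases Nat.eq_zero_or_pos i with rfl | hi0
  · simp
  · have : l[s + i] < l[s] := by
      have := List.pairwise_iff_getElem.1 hl s (s + i) hs (by omega) (by omega)
      simpa using this
    exact lev_mono (h2 _ (List.getElem_mem _)) this.le

/-- The entries up to position `s` are at least the `s`-th entry. -/
theorem take_ge_ent {l : List ℕ} (hl : l.Pairwise (· > ·)) (h2 : ∀ p ∈ l, 2 ≤ p) {s : ℕ}
    (hs : s < l.length) : ∀ q ∈ l.take (s + 1), ent l s ≤ lev q := by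
  intro q hq
  obtain ⟨i, hi, rfl⟩ := List.getElem_of_mem hq
  simp only [List.length_take] at hi
  have his : i ≤ s := by omega
  rw [ent_of_lt hs]
  simp only [List.getElem_take]
  rcases Nat.eq_or_lt_of_le his with rfl | h
  · exact le_rfl
  · have : l[s] < l[i] := by
      have := List.pairwise_iff_getElem.1 hl i s (by omega) hs h
      simpa using this
    exact lev_mono (h2 _ (List.getElem_mem _)) this.le

/-- The slope comparison. -/
theorem ent_close_aux (l l' : List ℕ) (E a : ℝ) (hE : 0 ≤ E) (hl : l.Pairwise (· > ·)) (hl' : l'.Pairwise (· > ·))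
    (h2 : ∀ p ∈ l, 2 ≤ p) (h2' : ∀ p ∈ l', 2 ≤ p) (ha : 0 ≤ a)
    (hG : ∀ y, a ≤ y → |GG l y - GG l' y| ≤ E) (s : ℕ) (huv : ent l s ≤ ent l' s)
    (hv : a + 2 * E + 1 < ent l' s) : ent l' s ≤ ent l s + 2 * E + 1 := by
  by_contra hcon
  push Not at hcon
  have hs : s < l'.length := by
    by_contra h
    rw [ent_of_le (not_lt.1 h)] at hv
    linarith
  set v := ent l' s with hvdef
  set u := ent l s with hudef
  set y1 := max u a with hy1
  have hy1v : y1 ≤ v := max_le huv (by linarith)
  have hy1a : a ≤ y1 := le_max_right _ _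
  have hlen : 2 * E < v - y1 := by
    rcases max_cases u a with ⟨h, -⟩ | ⟨h, -⟩ <;> rw [hy1, h] <;> linarith
  -- `l` has slope at most `s`
  have hL : GG l y1 - GG l v ≤ (s : ℝ) * (v - y1) := by
    have h1 := List.take_append_drop s l
    have h3 : GG l y1 = GG (l.take s) y1 + GG (l.drop s) y1 := by
      rw [← GG_append, h1]
    have h4 : GG l v = GG (l.take s) v + GG (l.drop s) v := by
      rw [← GG_append, h1]
    have h5 : GG (l.drop s) y1 = 0 :=
      GG_zero _ (fun q hq => (drop_le_ent hl h2 s q hq).trans (le_max_left _ _))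
    have h6 : GG (l.drop s) v = 0 := GG_zero _ (fun q hq =>
      ((drop_le_ent hl h2 s q hq).trans (le_max_left _ _)).trans hy1v)
    have h7 := GG_lip (l.take s) hy1v
    have h8 : ((l.take s).length : ℝ) ≤ s := by
      have := List.length_take_le s l
      exact_mod_cast this
    rw [h3, h4, h5, h6]
    have : ((l.take s).length : ℝ) * (v - y1) ≤ (s : ℝ) * (v - y1) :=
      mul_le_mul_of_nonneg_right h8 (by linarith)
    linarith
  -- `l'` has slope at least `s + 1`
  have hL' : ((s : ℝ) + 1) * (v - y1) ≤ GG l' y1 - GG l' v := by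
    have h1 := List.take_append_drop (s + 1) l'
    have h3 : GG l' y1 = GG (l'.take (s + 1)) y1 + GG (l'.drop (s + 1)) y1 := by
      rw [← GG_append, h1]
    have h4 : GG l' v = GG (l'.take (s + 1)) v + GG (l'.drop (s + 1)) v := by
      rw [← GG_append, h1]
    have h5 := GG_exact (l'.take (s + 1)) hy1v (take_ge_ent hl' h2' hs)
    have h6 := GG_anti (l'.drop (s + 1)) hy1v
    have h7 : ((l'.take (s + 1)).length : ℝ) = (s : ℝ) + 1 := by
      rw [List.length_take, min_eq_left (by omega)]
      push_cast; ring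
    rw [h7] at h5
    rw [h3, h4]
    linarith
  have h1 := abs_le.1 (hG y1 hy1a)
  have h2 := abs_le.1 (hG v (by linarith [hy1a]))
  nlinarith [h1.1, h1.2, h2.1, h2.2]

theorem ent_close (l l' : List ℕ) (E a : ℝ) (hE : 0 ≤ E) (hl : l.Pairwise (· > ·)) (hl' : l'.Pairwise (· > ·))
    (hp : ∀ p ∈ l ++ l', 2 ≤ p ∧ a ≤ lev p) (ha : 0 ≤ a)
    (hG : ∀ y, a ≤ y → |GG l y - GG l' y| ≤ E) (s : ℕ) :
    |ent l s - ent l' s| ≤ 2 * E + 1 ∨ (ent l s ≤ a + 2 * E + 1 ∧ ent l' s ≤ a + 2 * E + 1) := by
  have h2 : ∀ p ∈ l, 2 ≤ p := fun p hq => (hp p (List.mem_append_left _ hq)).1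
  have h2' : ∀ p ∈ l', 2 ≤ p := fun p hq => (hp p (List.mem_append_right _ hq)).1
  rcases le_total (ent l s) (ent l' s) with h | h
  · by_cases hv : a + 2 * E + 1 < ent l' s
    · left
      have := ent_close_aux l l' E a hE hl hl' h2 h2' ha hG s h hv
      rw [abs_le]
      constructor <;> linarith
    · right
      push Not at hv
      exact ⟨h.trans hv, hv⟩
  · by_cases hv : a + 2 * E + 1 < ent l s
    · left
      have := ent_close_aux l' l E a hE hl' hl h2' h2 ha
        (fun y hy => by rw [abs_sub_comm]; exact hG y hy) s h hv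
      rw [abs_le]
      constructor <;> linarith
    · right
      push Not at hv
      exact ⟨hv, h.trans hv⟩

/-- Coefficients of `Th`, extended by zero. -/
def zz (N : ℕ) (l : List ℕ) (s : ℕ) : ℝ := (l.map (fun p => lev p - ts N)).getD s 0

theorem Th_eq_zz (N h : ℕ) (l : List ℕ) : Th N h l = aa (h + 1) * zz N l 0 + Th N (h + 1) l.tail := by
  cases l <;> simp [Th, zz]

theorem zz_succ (N : ℕ) (l : List ℕ) (s : ℕ) : zz N l (s + 1) = zz N l.tail s := by
  cases l <;> simp [zz]

theorem zz_of_lt {N : ℕ} {l : List ℕ} {s : ℕ} (h : s < l.length) : zz N l s = ent l s - ts N := by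
  rw [ent_of_lt h]
  unfold zz
  rw [List.getD_eq_getElem _ _ (by simpa using h)]
  simp

theorem zz_of_le {N : ℕ} {l : List ℕ} {s : ℕ} (h : l.length ≤ s) : zz N l s = 0 := by
  unfold zz
  rw [List.getD_eq_default _ _ (by simpa using h)]

theorem Th_diff (N : ℕ) (A δ : ℝ) (_hδ : 0 ≤ δ) : ∀ (n h : ℕ) (l l' : List ℕ), l.length ≤ n → l'.length ≤ n →
    (∀ s, |zz N l s - zz N l' s| ≤ δ) → (∀ s, s < n → 0 ≤ aa (h + s + 1) ∧ aa (h + s + 1) ≤ A) →
    |Th N h l - Th N h l'| ≤ (n : ℝ) * (A * δ) := by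
  intro n
  induction n with
  | zero =>
    intro h l l' hl hl' _ _
    have h1 : l = [] := List.length_eq_zero_iff.1 (by omega)
    have h2 : l' = [] := List.length_eq_zero_iff.1 (by omega)
    subst h1 h2
    simp [Th]
  | succ n ih =>
    intro h l l' hl hl' hz ha
    have h0 := ha 0 (by omega)
    simp only [add_zero] at h0
    have hih := ih (h + 1) l.tail l'.tail (by simp; omega) (by simp; omega)
      (fun s => by rw [← zz_succ, ← zz_succ]; exact hz (s + 1))
      (fun s hs => by
        have := ha (s + 1) (by omega)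
        have e : h + (s + 1) + 1 = h + 1 + s + 1 := by omega
        rwa [e] at this)
    rw [Th_eq_zz N h l, Th_eq_zz N h l']
    have e : aa (h + 1) * zz N l 0 + Th N (h + 1) l.tail - (aa (h + 1) * zz N l' 0 + Th N (h + 1) l'.tail)
        = aa (h + 1) * (zz N l 0 - zz N l' 0) + (Th N (h + 1) l.tail - Th N (h + 1) l'.tail) := by ring
    rw [e]
    have h3 : |aa (h + 1) * (zz N l 0 - zz N l' 0)| ≤ A * δ := by
      rw [abs_mul, abs_of_nonneg h0.1]
      exact mul_le_mul h0.2 (hz 0) (abs_nonneg _) (h0.1.trans h0.2)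
    have := abs_add_le (aa (h + 1) * (zz N l 0 - zz N l' 0)) (Th N (h + 1) l.tail - Th N (h + 1) l'.tail)
    push_cast
    linarith

theorem aa_le_self {k : ℕ} (hk : 1 ≤ k) : aa k ≤ k := by
  induction k, hk using Nat.le_induction with
  | base =>
    have := Real.log_two_lt_d9
    have e : aa 1 = 2 * Real.log 2 - 1 := by
      unfold aa; norm_num
    rw [e]; norm_num; linarith
  | succ k hk ih =>
    have := aa_succ_le hk
    push_cast
    linarith

theorem aa_nonneg {k : ℕ} (hk : 1 ≤ k) : 0 ≤ aa k := by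
  have h2 := aa_nonneg_of_pos hk
  linarith

/-- The comparison of two representations of the same integer. -/
theorem rep_entries {N : ℕ} {l l' : List ℕ} {low low' m : ℕ} (h : IsRep N l low m) (h' : IsRep N l' low' m)
    (E : ℝ) (hE : 0 ≤ E) (hG : ∀ y, t0 N ≤ y → |GG l y - GG l' y| ≤ E) :
    (∀ s, |zz N l s - zz N l' s| ≤ ts N + 2 * E + 1) ∧
    |(if l = [] then t0 N else lev (l.headD 0)) - (if l' = [] then t0 N else lev (l'.headD 0))| ≤ 2 * E + 1 := by
  have hnorm : ∀ p ∈ l ++ l', 2 ≤ p ∧ t0 N ≤ lev p := by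
    intro p hp
    rcases List.mem_append.1 hp with hp | hp
    · exact ⟨(h.normal p hp).1.two_le, (h.normal p hp).2.1⟩
    · exact ⟨(h'.normal p hp).1.two_le, (h'.normal p hp).2.1⟩
  have hc := ent_close l l' E (t0 N) hE h.sorted h'.sorted hnorm (t0_nonneg N) hG
  have ht0 := t0_nonneg N
  have hts := ts_nonneg N
  have hent : ∀ s, s < l.length → t0 N ≤ ent l s := by
    intro s hs
    rw [ent_of_lt hs]
    exact (h.normal _ (List.getElem_mem _)).2.1
  have hent' : ∀ s, s < l'.length → t0 N ≤ ent l' s := by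
    intro s hs
    rw [ent_of_lt hs]
    exact (h'.normal _ (List.getElem_mem _)).2.1
  have ht2 : t0 N - ts N = ts N := by unfold ts; ring
  constructor
  · intro s
    by_cases h1 : s < l.length <;> by_cases h2 : s < l'.length
    · rw [zz_of_lt h1, zz_of_lt h2]
      have h3 := hent s h1
      have h4 := hent' s h2
      have h5 : |ent l s - ent l' s| ≤ 2 * E + 1 := by
        rcases hc s with h6 | ⟨h6, h7⟩
        · exact h6
        · rw [abs_le]; constructor <;> linarith
      have e : ent l s - ts N - (ent l' s - ts N) = ent l s - ent l' s := by ring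
      rw [e]; linarith
    · rw [zz_of_lt h1, zz_of_le (not_lt.1 h2)]
      have h3 := hent s h1
      have h5 : ent l s ≤ t0 N + 2 * E + 1 := by
        rcases hc s with h6 | ⟨h6, _⟩
        · rw [ent_of_le (not_lt.1 h2), sub_zero] at h6
          have := (abs_le.1 h6).2
          linarith
        · exact h6
      rw [sub_zero, abs_of_nonneg (by linarith)]
      linarith
    · rw [zz_of_le (not_lt.1 h1), zz_of_lt h2]
      have h3 := hent' s h2
      have h5 : ent l' s ≤ t0 N + 2 * E + 1 := by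
        rcases hc s with h6 | ⟨_, h6⟩
        · rw [ent_of_le (not_lt.1 h1), zero_sub, abs_neg] at h6
          have := (abs_le.1 h6).2
          linarith
        · exact h6
      rw [zero_sub, abs_neg, abs_of_nonneg (by linarith)]
      linarith
    · rw [zz_of_le (not_lt.1 h1), zz_of_le (not_lt.1 h2)]
      simp only [sub_self, abs_zero]
      linarith
  · cases l with
    | nil =>
      cases l' with
      | nil => simp; linarith
      | cons q t' =>
        have h3 := hent' 0 (by simp)
        have h5 : ent (q :: t') 0 ≤ t0 N + 2 * E + 1 := by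
          rcases hc 0 with h6 | ⟨_, h6⟩
          · rw [ent_of_le (by simp), zero_sub, abs_neg] at h6
            have := (abs_le.1 h6).2
            linarith
          · exact h6
        have e : ent (q :: t') 0 = lev q := by simp [ent]
        rw [e] at h3 h5
        simp only [if_true, List.cons_ne_nil, if_false, List.headD_cons]
        rw [abs_le]; constructor <;> linarith
    | cons p t =>
      cases l' with
      | nil =>
        have h3 := hent 0 (by simp)
        have h5 : ent (p :: t) 0 ≤ t0 N + 2 * E + 1 := by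
          rcases hc 0 with h6 | ⟨h6, _⟩
          · rw [ent_of_le (l := []) (by simp), sub_zero] at h6
            have := (abs_le.1 h6).2
            linarith
          · exact h6
        have e : ent (p :: t) 0 = lev p := by simp [ent]
        rw [e] at h3 h5
        simp only [if_true, List.cons_ne_nil, if_false, List.headD_cons]
        rw [abs_le]; constructor <;> linarith
      | cons q t' =>
        have h3 := hent 0 (by simp)
        have h4 := hent' 0 (by simp)
        have e : ent (p :: t) 0 = lev p := by simp [ent]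
        have e' : ent (q :: t') 0 = lev q := by simp [ent]
        have h5 := hc 0
        rw [e, e'] at h5
        rw [e] at h3
        rw [e'] at h4
        simp only [List.cons_ne_nil, if_false, List.headD_cons]
        rcases h5 with h6 | ⟨h6, h7⟩
        · exact h6
        · rw [abs_le]; constructor <;> linarith

/-- The numerics. -/
theorem rep_close_num : ∃ N₀ : ℕ, ∀ N ≥ N₀,
    (U0 N : ℝ) * ((U0 N : ℝ) + 14) * (ts N + 2 * (4 * (U0 N : ℝ) * tau N ((N : ℝ) + 6)) + 1)
      ≤ (N : ℝ) ^ ((81 : ℝ) / 100) ∧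
    2 * (4 * (U0 N : ℝ) * tau N ((N : ℝ) + 6)) + 1 ≤ (N : ℝ) ^ ((81 : ℝ) / 100) := by
  have h1 : Filter.Tendsto (fun n : ℕ => (n : ℝ) ^ ((1 : ℝ) / 1000)) Filter.atTop Filter.atTop :=
    (tendsto_rpow_atTop (by norm_num)).comp tendsto_natCast_atTop_atTop
  have h2 : ∀ᶠ n : ℕ in Filter.atTop, Real.log n ≤ (n : ℝ) ^ ((1 : ℝ) / 1000) := by
    have h3 := (isLittleO_log_rpow_atTop (r := (1 : ℝ) / 1000) (by norm_num)).bound (c := 1) (by norm_num)
    have h4 := tendsto_natCast_atTop_atTop (R := ℝ) |>.eventually h3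
    filter_upwards [h4, Filter.eventually_ge_atTop 1] with n hn hn1
    have h5 : (0 : ℝ) ≤ Real.log n := Real.log_natCast_nonneg n
    have h6 : (0 : ℝ) ≤ (n : ℝ) ^ ((1 : ℝ) / 1000) := Real.rpow_nonneg (Nat.cast_nonneg _) _
    rw [Real.norm_of_nonneg h5, Real.norm_of_nonneg h6, one_mul] at hn
    exact hn
  have h3 := h1.eventually (Filter.eventually_ge_atTop (6 : ℝ))
  obtain ⟨N₀, hN₀⟩ := Filter.eventually_atTop.1 (h2.and (h3.and (Filter.eventually_ge_atTop 6)))
  refine ⟨N₀, fun N hN => ?_⟩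
  obtain ⟨hlog, hx6, hN6⟩ := hN₀ N hN
  set x : ℝ := (N : ℝ) ^ ((1 : ℝ) / 1000) with hx
  have hx0 : 0 < x := by linarith
  have hNnn : (0 : ℝ) ≤ N := Nat.cast_nonneg N
  have hN6' : (6 : ℝ) ≤ N := by exact_mod_cast hN6
  have hpow : ∀ (k : ℕ) (r : ℝ), r = (k : ℝ) / 1000 → (N : ℝ) ^ r = x ^ k := by
    intro k r hr
    rw [hx, ← Real.rpow_natCast, ← Real.rpow_mul hNnn, hr]
    congr 1; ring
  have ht0 : t0 N = x ^ 800 := hpow 800 _ (by norm_num)
  have hNx : (N : ℝ) = x ^ 1000 := by
    have := hpow 1000 1 (by norm_num)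
    rw [Real.rpow_one] at this
    exact this
  have hP1 : 1 ≤ x ^ 800 := one_le_pow₀ (by linarith)
  have hts : ts N ≤ x ^ 800 := by
    unfold ts; rw [ht0]; linarith
  have hts0 := ts_nonneg N
  have hle800 : x ^ 800 ≤ (N : ℝ) := by
    rw [hNx]; exact pow_le_pow_right₀ (by linarith) (by norm_num)
  have hmax : max ((N : ℝ) + 6 - ts N) (ts N) ≤ 2 * (N : ℝ) := by
    apply max_le <;> linarith
  have hmax0 : 0 ≤ max ((N : ℝ) + 6 - ts N) (ts N) := le_trans hts0 (le_max_right _ _)
  have htau : tau N ((N : ℝ) + 6) ≤ 2 * x ^ 650 := by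
    have e1 : tau N ((N : ℝ) + 6) ≤ (2 * (N : ℝ)) ^ ((13 : ℝ) / 20) :=
      Real.rpow_le_rpow hmax0 hmax (by norm_num)
    rw [Real.mul_rpow (by norm_num) hNnn, hpow 650 _ (by norm_num)] at e1
    have e2 : (2 : ℝ) ^ ((13 : ℝ) / 20) ≤ 2 ^ (1 : ℝ) :=
      Real.rpow_le_rpow_of_exponent_le (by norm_num) (by norm_num)
    rw [Real.rpow_one] at e2
    have e3 : 0 ≤ x ^ 650 := by positivity
    nlinarith
  have htau0 := tau_nonneg N ((N : ℝ) + 6)
  have hU : (U0 N : ℝ) ≤ 21 * x := by
    have h5 : (U0 N : ℝ) < 20 * Real.log N + 1 :=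
      Nat.ceil_lt_add_one (mul_nonneg (by norm_num) (Real.log_natCast_nonneg N))
    linarith
  have hU0 : (0 : ℝ) ≤ U0 N := Nat.cast_nonneg _
  have h651 : x ^ 651 ≤ x ^ 800 := pow_le_pow_right₀ (by linarith) (by norm_num)
  have hprod : (U0 N : ℝ) * tau N ((N : ℝ) + 6) ≤ 42 * x ^ 651 := by
    have := mul_le_mul hU htau htau0 (by linarith)
    have e : 21 * x * (2 * x ^ 650) = 42 * x ^ 651 := by ring
    linarith
  have hE : 2 * (4 * (U0 N : ℝ) * tau N ((N : ℝ) + 6)) + 1 ≤ 337 * x ^ 651 := by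
    have h1' : 1 ≤ x ^ 651 := one_le_pow₀ (by linarith)
    nlinarith
  have hrhs : (N : ℝ) ^ ((81 : ℝ) / 100) = x ^ 810 := hpow 810 _ (by norm_num)
  rw [hrhs]
  have hx8 : (170352 : ℝ) ≤ x ^ 8 := by
    have : (6 : ℝ) ^ 8 ≤ x ^ 8 := pow_le_pow_left₀ (by norm_num) hx6 8
    norm_num at this
    linarith
  constructor
  · have h6 : ts N + 2 * (4 * (U0 N : ℝ) * tau N ((N : ℝ) + 6)) + 1 ≤ 338 * x ^ 800 := by
      nlinarith
    have h7 : (U0 N : ℝ) + 14 ≤ 24 * x := by linarith
    have h8 : (U0 N : ℝ) * ((U0 N : ℝ) + 14) ≤ 21 * x * (24 * x) :=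
      mul_le_mul hU h7 (by linarith) (by positivity)
    have h9 : 0 ≤ ts N + 2 * (4 * (U0 N : ℝ) * tau N ((N : ℝ) + 6)) + 1 := by positivity
    have h10 := mul_le_mul h8 h6 h9 (by positivity)
    have e : 21 * x * (24 * x) * (338 * x ^ 800) = 170352 * x ^ 802 := by ring
    have e' : x ^ 810 = x ^ 8 * x ^ 802 := by ring
    rw [e'] 
    have h11 : 0 ≤ x ^ 802 := by positivity
    nlinarith
  · have h12 : (337 : ℝ) ≤ x ^ 159 := by
      have h13 : (6 : ℝ) ^ 159 ≤ x ^ 159 := pow_le_pow_left₀ (by norm_num) hx6 159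
      have h14 : (337 : ℝ) ≤ 6 ^ 159 := by norm_num
      linarith
    have e' : x ^ 810 = x ^ 159 * x ^ 651 := by ring
    rw [e']
    have h11 : 0 ≤ x ^ 651 := by positivity
    nlinarith

/-- Two representations of the same integer have close functionals. -/
theorem rep_close : ∃ N₀ : ℕ, ∀ N ≥ N₀, ∀ (l l' : List ℕ) (low low' m : ℕ), IsRep N l low m → IsRep N l' low' m →
    (∀ h ≤ JJ + 1, |Th N h l - Th N h l'| ≤ (N : ℝ) ^ ((81 : ℝ) / 100)) ∧
    |(if l = [] then t0 N else lev (l.headD 0)) - (if l' = [] then t0 N else lev (l'.headD 0))| ≤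
      (N : ℝ) ^ ((81 : ℝ) / 100) := by
  obtain ⟨N₁, h₁⟩ := length_le_U0
  obtain ⟨N₂, h₂⟩ := pi_close
  obtain ⟨N₃, h₃⟩ := rep_close_num
  refine ⟨max N₁ (max N₂ N₃), fun N hN l l' low low' m h h' => ?_⟩
  have hN1 : N ≥ N₁ := le_trans (le_max_left _ _) hN
  have hN2 : N ≥ N₂ := le_trans (le_trans (le_max_left _ _) (le_max_right _ _)) hN
  have hN3 : N ≥ N₃ := le_trans (le_trans (le_max_right _ _) (le_max_right _ _)) hN
  have hD : ∀ {l : List ℕ} {low m : ℕ}, IsRep N l low m → ∀ p ∈ l, lev p ≤ (N : ℝ) + 6 := by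
    intro l low m h p hp
    have h1 := h.cut p hp
    have h2 : 0 ≤ Dc N := Real.rpow_nonneg (Nat.cast_nonneg _) _
    linarith
  have hlen : ∀ {l : List ℕ} {low m : ℕ}, IsRep N l low m → l.length ≤ U0 N := by
    intro l low m h
    exact h₁ N hN1 l h.sorted (fun p hp => (h.normal p hp).1)
      (fun p hp => ⟨(h.normal p hp).2.1, hD h p hp⟩) h.adm
  have hpi : ∀ {l : List ℕ} {low m : ℕ}, IsRep N l low m → ∀ y, t0 N ≤ y →
      |(PiC m y : ℝ) - GG l y| ≤ 2 * (U0 N : ℝ) * tau N ((N : ℝ) + 6) := by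
    intro l low m h y hy
    have hlow0 : low ≠ 0 := by
      obtain ⟨n, hn, -, hl, -⟩ := h.lowv
      rw [hl]
      exact (Nat.totient_pos.2 (Nat.pos_of_ne_zero hn)).ne'
    have hc : Clean N (rowsProd l * low) := by
      rw [← h.eq]; exact h.clean
    have h3 := h₂ N hN2 l low y h.sorted (fun p hp => ⟨h.normal p hp, hD h p hp⟩)
      (LowVal.smooth h.lowv) hlow0 hc hy
    rw [← h.eq] at h3
    have h4 : ((l.length : ℕ) : ℝ) ≤ U0 N := by exact_mod_cast hlen h
    have h5 := tau_nonneg N ((N : ℝ) + 6)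
    nlinarith
  set τ := tau N ((N : ℝ) + 6) with hτ
  have hτ0 : 0 ≤ τ := tau_nonneg N _
  have hU0 : (0 : ℝ) ≤ U0 N := Nat.cast_nonneg _
  set E : ℝ := 4 * (U0 N : ℝ) * τ with hE
  have hE0 : 0 ≤ E := by positivity
  have hG : ∀ y, t0 N ≤ y → |GG l y - GG l' y| ≤ E := by
    intro y hy
    have h3 := hpi h y hy
    have h4 := hpi h' y hy
    have e : GG l y - GG l' y = -((PiC m y : ℝ) - GG l y) + ((PiC m y : ℝ) - GG l' y) := by ring
    rw [e]
    have := abs_add_le (-((PiC m y : ℝ) - GG l y)) ((PiC m y : ℝ) - GG l' y)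
    rw [abs_neg] at this
    rw [hE]
    linarith
  obtain ⟨hz, htop⟩ := rep_entries h h' E hE0 hG
  obtain ⟨hn1, hn2⟩ := h₃ N hN3
  refine ⟨fun k hk => ?_, htop.trans hn2⟩
  have hts := ts_nonneg N
  have h5 := Th_diff N ((U0 N : ℝ) + 14) (ts N + 2 * E + 1) (by positivity) (U0 N) k l l' (hlen h) (hlen h') hz
    (fun s hs => by
      have hk' : k ≤ 13 := by simpa [JJ] using hk
      refine ⟨aa_nonneg (by omega), (aa_le_self (by omega)).trans ?_⟩
      have : k + s + 1 ≤ U0 N + 14 := by omega
      exact_mod_cast this)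
  have e : (U0 N : ℝ) * (((U0 N : ℝ) + 14) * (ts N + 2 * E + 1))
      = (U0 N : ℝ) * ((U0 N : ℝ) + 14) * (ts N + 2 * E + 1) := by ring
  rw [e] at h5
  exact h5.trans hn1

end
end Vale.Agent.Lib.P031V
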