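import Mathlib
import Vale.Agent.Lib.P031V.AaFacts

/-! # P031: definitions. See notes/P031_blueprint.md. -/

namespace Vale.Agent.Lib.P031V

open Real Finset
open scoped Classical

noncomputable section

/-- The level `log log n`. -/
def lev (n : ℕ) : ℝ := Real.log (Real.log n)

/-- The level of a real number. -/
def levR (x : ℝ) : ℝ := Real.log (Real.log x)

def t0 (N : ℕ) : ℝ := (N : ℝ) ^ ((4 : ℝ) / 5)
def ts (N : ℕ) : ℝ := t0 N / 2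
def tau (N : ℕ) (y : ℝ) : ℝ := (max (y - ts N) (ts N)) ^ ((13 : ℝ) / 20)
def tol (N : ℕ) : ℝ := (N : ℝ) ^ ((3 : ℝ) / 4)
def wd (N : ℕ) : ℝ := (N : ℝ) ^ ((17 : ℝ) / 20)
def Rr (N : ℕ) : ℝ := (N : ℝ) ^ ((9 : ℝ) / 10)
def Dc (N : ℕ) : ℝ := (N : ℝ) ^ ((1 : ℝ) / 2)
def JJ : ℕ := 12
def K1 (N : ℕ) : ℕ := ⌈9 * (N : ℝ) / ts N⌉₊
def U0 (N : ℕ) : ℕ := ⌈20 * Real.log N⌉₊
def Ymax (N : ℕ) : ℝ := Real.exp (Real.exp N / (N : ℝ) ^ 3)
def eps0 (N : ℕ) : ℝ := Real.exp (-(N : ℝ) ^ ((23 : ℝ) / 100))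
/-- Size bound for tails. -/
def Bnd (N : ℕ) : ℕ := ⌈(Ymax N) ^ 2⌉₊ + 1

/-- Number of prime factors of `k` of level in `(ts, y]`. -/
def W (N : ℕ) (k : ℕ) (y : ℝ) : ℕ :=
  (k.primeFactors.filter (fun r => ts N < lev r ∧ lev r ≤ y)).card

/-- Normal big primes. -/
def Normal (N : ℕ) (p : ℕ) : Prop :=
  p.Prime ∧ t0 N ≤ lev p ∧
    ∀ y : ℝ, ts N ≤ y → y ≤ lev p → |(W N (p - 1) y : ℝ) - (y - ts N)| ≤ tau N y

/-- No square of a high prime divides `v`. -/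
def Clean (N : ℕ) (v : ℕ) : Prop := ∀ r : ℕ, r.Prime → ts N < lev r → ¬ r ^ 2 ∣ v

/-- Low values: totients of integers all of whose primes have level below `t0`. -/
def LowVal (N : ℕ) (low : ℕ) : Prop :=
  ∃ n : ℕ, n ≠ 0 ∧ (∀ r : ℕ, r.Prime → r ∣ n → lev r < t0 N) ∧ low = n.totient ∧
    (low : ℝ) ≤ Ymax N

/-- `Th h [p₁,p₂,..] = ∑_{l≥1} a_{l+h} (lev p_l - ts)`. -/
def Th (N : ℕ) : ℕ → List ℕ → ℝ
  | _, [] => 0
  | h, p :: l => aa (h + 1) * (lev p - ts N) + Th N (h + 1) l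

/-- Slack at least `-tol` at every entry. -/
def Adm (N : ℕ) : List ℕ → Prop
  | [] => True
  | p :: l => -tol N ≤ lev p - Th N 0 l ∧ Adm N l

/-- `∏ (p - 1)`. -/
def rowsProd (l : List ℕ) : ℕ := (l.map (fun p => p - 1)).prod

/-- A representation of the tail `m` : rows `l` (top first) and low part `low`. -/
structure IsRep (N : ℕ) (l : List ℕ) (low m : ℕ) : Prop where
  sorted : l.Pairwise (· > ·)
  normal : ∀ p ∈ l, Normal N p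
  cut : ∀ p ∈ l, lev p ≤ (N : ℝ) - Dc N
  adm : Adm N l
  lowv : LowVal N low
  eq : m = rowsProd l * low
  clean : Clean N m

/-- Tails with `Φ ≤ T`. -/
def Aset (N : ℕ) (T : ℝ) : Finset ℕ :=
  (Finset.range (Bnd N)).filter (fun m => ∃ l low, IsRep N l low m ∧ Th N 0 l ≤ T)

/-- The mass of distinct tails with `Φ ≤ T`. -/
def Ss (N : ℕ) (T : ℝ) : ℝ := ∑ m ∈ Aset N T, (1 : ℝ) / m

/-- The mass of clean low values. -/
def Mlow (N : ℕ) : ℝ :=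
  ∑ m ∈ (Finset.range (Bnd N)).filter (fun m => LowVal N m ∧ Clean N m), (1 : ℝ) / m

/-- The number of distinct totients up to `x`. -/
def Vf (x : ℝ) : ℕ := ((Finset.Icc 1 ⌊x⌋₊).filter (fun v => ∃ n : ℕ, n.totient = v)).card

/-- The window `(x, cx]`. -/
def Win (x c : ℝ) : Finset ℕ := Finset.Ioc ⌊x⌋₊ ⌊c * x⌋₊

/-- `t` is the top of the symmetric difference of `l,l'` and has slack `≥ 3 wd` in its list. -/
def SlackOK (N : ℕ) (l l' : List ℕ) : Prop :=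
  ∃ t : ℕ, (∀ s : ℕ, (s ∈ l ∧ s ∉ l') ∨ (s ∈ l' ∧ s ∉ l) → s ≤ t) ∧
    ((t ∈ l ∧ t ∉ l' ∧ ∃ l₁ l₂, l = l₁ ++ t :: l₂ ∧ 3 * wd N ≤ lev t - Th N 0 l₂) ∨
     (t ∈ l' ∧ t ∉ l ∧ ∃ l₁ l₂, l' = l₁ ++ t :: l₂ ∧ 3 * wd N ≤ lev t - Th N 0 l₂))

end

end Vale.Agent.Lib.P031V
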