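import Vale.Agent.Lib.P031V.Defs

/-! # P031: numerics for the negligible sets E6, E7 (blueprint section 7). -/

namespace Vale.Agent.Lib.P031V
open Real Finset

noncomputable section

/-- `N^(1/100)`. -/
def vv (N : ℕ) : ℝ := (N : ℝ) ^ ((1 : ℝ) / 100)

lemma vv_pow (N k : ℕ) : vv N ^ k = (N : ℝ) ^ ((k : ℝ) / 100) := by
  unfold vv
  rw [← Real.rpow_natCast, ← Real.rpow_mul (Nat.cast_nonneg N)]
  congr 1
  ring

lemma vv_nonneg (N : ℕ) : 0 ≤ vv N := Real.rpow_nonneg (Nat.cast_nonneg N) _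

lemma vv_pos {N : ℕ} (hN : 1 ≤ N) : 0 < vv N :=
  Real.rpow_pos_of_pos (by exact_mod_cast hN) _

lemma vv_one_le {N : ℕ} (hN : 1 ≤ N) : 1 ≤ vv N :=
  Real.one_le_rpow (by exact_mod_cast hN) (by norm_num)

lemma self_eq_vv100 {N : ℕ} : (N : ℝ) = vv N ^ 100 := by
  rw [vv_pow]
  norm_num

lemma t0_eq_vv (N : ℕ) : t0 N = vv N ^ 80 := by
  rw [vv_pow]; unfold t0; norm_num

lemma ts_eq_vv (N : ℕ) : ts N = vv N ^ 80 / 2 := by
  unfold ts; rw [t0_eq_vv]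

lemma wd_eq_vv (N : ℕ) : wd N = vv N ^ 85 := by
  rw [vv_pow]; unfold wd; norm_num

lemma Dc_eq_vv (N : ℕ) : Dc N = vv N ^ 50 := by
  rw [vv_pow]; unfold Dc; norm_num

lemma vv_tendsto : Filter.Tendsto vv Filter.atTop Filter.atTop := by
  unfold vv
  exact (tendsto_rpow_atTop (by norm_num)).comp tendsto_natCast_atTop_atTop

lemma vv_ge0 (A : ℝ) : ∃ N₀ : ℕ, ∀ N ≥ N₀, 1 ≤ N ∧ A ≤ vv N := by
  have h := vv_tendsto.eventually_ge_atTop A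
  obtain ⟨N₁, hN₁⟩ := Filter.eventually_atTop.1 h
  exact ⟨max N₁ 1, fun N hN => ⟨le_trans (le_max_right _ _) hN, hN₁ N (le_trans (le_max_left _ _) hN)⟩⟩

lemma pow_mono_vv0 {v : ℝ} (hv : 1 ≤ v) {a b : ℕ} (h : a ≤ b) : v ^ a ≤ v ^ b :=
  pow_le_pow_right₀ hv h

/-- `K1 N ≤ 19 N^{1/5}`, and `9 N / ts N = 18 N^(1/5)`. -/
lemma nine_div_ts_vv {N : ℕ} (hN : 1 ≤ N) : 9 * (N : ℝ) / ts N = 18 * vv N ^ 20 := by
  have hv := vv_pos hN
  rw [ts_eq_vv, self_eq_vv100]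
  have : vv N ^ 80 ≠ 0 := (pow_pos hv 80).ne'
  field_simp
  ring

lemma K1_le_vv {N : ℕ} (hN : 1 ≤ N) : (K1 N : ℝ) ≤ 19 * vv N ^ 20 := by
  have hv1 := vv_one_le hN
  have h1 : (1 : ℝ) ≤ vv N ^ 20 := one_le_pow₀ hv1
  unfold K1
  rw [nine_div_ts_vv hN]
  have := Nat.ceil_lt_add_one (a := 18 * vv N ^ 20) (by positivity)
  linarith

lemma K1_ge_vv {N : ℕ} (hN : 1 ≤ N) : 18 * vv N ^ 20 ≤ (K1 N : ℝ) := by
  unfold K1
  rw [nine_div_ts_vv hN]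
  exact Nat.le_ceil _

/-- `log (N + 7) ≤ 13 N^{1/10}`. -/
lemma log_add_seven_le_vv {N : ℕ} (hN : 1 ≤ N) : Real.log ((N : ℝ) + 7) ≤ 13 * vv N ^ 10 := by
  have hN' : (1 : ℝ) ≤ N := by exact_mod_cast hN
  have hv1 := vv_one_le hN
  have h1 : (1 : ℝ) ≤ vv N ^ 10 := one_le_pow₀ hv1
  have h2 : Real.log ((N : ℝ) + 7) ≤ Real.log (8 * N) := by
    apply Real.log_le_log (by linarith) (by linarith)
  have h3 : Real.log (8 * (N : ℝ)) = Real.log 8 + Real.log N := by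
    rw [Real.log_mul (by norm_num) (by linarith)]
  have h4 : Real.log 8 ≤ 3 := by
    have : Real.log 8 ≤ 8 - 1 := Real.log_le_sub_one_of_pos (by norm_num)
    have h5 : Real.log 8 = 3 * Real.log 2 := by
      rw [show (8 : ℝ) = 2 ^ 3 by norm_num, Real.log_pow]; norm_num
    have h6 := Real.log_two_lt_d9
    rw [h5]; linarith
  have h5 : Real.log N ≤ 10 * vv N ^ 10 := by
    have := Real.log_le_rpow_div (x := (N : ℝ)) (by linarith) (ε := 1 / 10) (by norm_num)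
    rw [vv_pow]
    have e : ((10 : ℕ) : ℝ) / 100 = 1 / 10 := by norm_num
    rw [e]
    calc Real.log N ≤ (N : ℝ) ^ ((1 : ℝ) / 10) / (1 / 10) := this
      _ = 10 * (N : ℝ) ^ ((1 : ℝ) / 10) := by ring
  linarith

/-- `ts^{-7/20} ≤ 2 N^{-7/25}`, in the form `ts^{-7/20} * N ≤ 2 N^{18/25}`. -/
lemma ts_rpow_mul_le {N : ℕ} (hN : 1 ≤ N) : (ts N) ^ (-(7 : ℝ) / 20) * (N : ℝ) ≤ 2 * vv N ^ 72 := by
  have hN' : (0 : ℝ) < N := by exact_mod_cast hN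
  have e1 : ts N = (N : ℝ) ^ ((4 : ℝ) / 5) * (1 / 2) := by unfold ts t0; ring
  have hpos : 0 ≤ (N : ℝ) ^ ((4 : ℝ) / 5) := Real.rpow_nonneg hN'.le _
  rw [e1, Real.mul_rpow hpos (by norm_num), ← Real.rpow_mul hN'.le]
  have e2 : ((1 : ℝ) / 2) ^ (-(7 : ℝ) / 20) ≤ 2 := by
    have : ((1 : ℝ) / 2) ^ (-(7 : ℝ) / 20) = (2 : ℝ) ^ ((7 : ℝ) / 20) := by
      rw [one_div, Real.inv_rpow (by norm_num), ← Real.rpow_neg (by norm_num)]
      congr 1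
      ring
    rw [this]
    calc (2 : ℝ) ^ ((7 : ℝ) / 20) ≤ (2 : ℝ) ^ (1 : ℝ) :=
          Real.rpow_le_rpow_of_exponent_le (by norm_num) (by norm_num)
      _ = 2 := by norm_num
  have e3 : (N : ℝ) ^ ((4 : ℝ) / 5 * (-(7 : ℝ) / 20)) * (N : ℝ) = vv N ^ 72 := by
    rw [vv_pow]
    nth_rewrite 2 [← Real.rpow_one (N : ℝ)]
    rw [← Real.rpow_add hN']
    norm_num
  have hp : 0 ≤ (N : ℝ) ^ ((4 : ℝ) / 5 * (-(7 : ℝ) / 20)) := Real.rpow_nonneg hN'.le _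
  calc (N : ℝ) ^ ((4 : ℝ) / 5 * (-(7 : ℝ) / 20)) * ((1 : ℝ) / 2) ^ (-(7 : ℝ) / 20) * (N : ℝ)
      = ((1 : ℝ) / 2) ^ (-(7 : ℝ) / 20) * ((N : ℝ) ^ ((4 : ℝ) / 5 * (-(7 : ℝ) / 20)) * (N : ℝ)) := by ring
    _ ≤ 2 * ((N : ℝ) ^ ((4 : ℝ) / 5 * (-(7 : ℝ) / 20)) * (N : ℝ)) := by
        apply mul_le_mul_of_nonneg_right e2 (by positivity)
    _ = 2 * vv N ^ 72 := by rw [e3]

/-- The whole numerical inequality for E6. -/
theorem e6_num (c : ℝ) (hc : 1 < c) : ∃ N₀ : ℕ, ∀ N ≥ N₀,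
    Real.log c + Real.log ((K1 N : ℝ) + 3) + ((K1 N : ℝ) + 2) * Real.log ((N : ℝ) + 7)
      + ((K1 N : ℝ) + 2) * aa (K1 N + 2) + (5 * (ts N) ^ (-(7 : ℝ) / 20)) * (2 * (N : ℝ) + 2)
      + 3 * ((K1 N : ℝ) + 2) + 1 ≤ wd N / 2 := by
  have hlc : 0 < Real.log c := Real.log_pos hc
  obtain ⟨N₀, hN₀⟩ := vv_ge0 (2 * (Real.log c + 800) + 100)
  refine ⟨max N₀ 2, fun N hN => ?_⟩
  obtain ⟨hN1, hv⟩ := hN₀ N (le_trans (le_max_left _ _) hN)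
  have hNN : (1 : ℝ) ≤ N := by exact_mod_cast hN1
  set v := vv N with hvdef
  have hv1 : 1 ≤ v := by linarith [hlc]
  have hv2 : (100 : ℝ) ≤ v := by linarith [hlc]
  have hN100 : (N : ℝ) = v ^ 100 := self_eq_vv100
  have hK := K1_le_vv hN1
  rw [← hvdef] at hK
  have hlog := log_add_seven_le_vv hN1
  rw [← hvdef] at hlog
  have hKN : (K1 N : ℝ) + 4 ≤ (N : ℝ) + 7 := by
    have h20 : v ^ 20 * 19 ≤ v ^ 100 := by
      have : v ^ 100 = v ^ 20 * (v ^ 79 * v) := by ring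
      rw [this]
      apply mul_le_mul_of_nonneg_left _ (by positivity)
      have : 1 ≤ v ^ 79 := one_le_pow₀ hv1
      nlinarith
    linarith
  have hK0 : (0 : ℝ) ≤ K1 N := Nat.cast_nonneg _
  have hlog3 : Real.log ((K1 N : ℝ) + 3) ≤ 13 * v ^ 10 :=
    le_trans (Real.log_le_log (by linarith) (by linarith)) hlog
  have haa : aa (K1 N + 2) ≤ 13 * v ^ 10 := by
    have := aa_add_one_le (K1 N + 2)
    push_cast at this
    have h2 : Real.log ((K1 N : ℝ) + 2 + 1) ≤ 13 * v ^ 10 :=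
      le_trans (Real.log_le_log (by linarith) (by linarith)) hlog
    linarith
  have h1p : (1 : ℝ) ≤ v ^ 20 := one_le_pow₀ hv1
  have hk : (K1 N : ℝ) + 2 ≤ 21 * v ^ 20 := by linarith
  have hk0 : (0 : ℝ) ≤ (K1 N : ℝ) + 2 := by linarith
  have h10 : (1 : ℝ) ≤ v ^ 10 := one_le_pow₀ hv1
  have h72 : (1 : ℝ) ≤ v ^ 72 := one_le_pow₀ hv1
  have hp10 : v ^ 10 ≤ v ^ 72 := pow_mono_vv0 hv1 (by norm_num)
  have hp20 : v ^ 20 ≤ v ^ 72 := pow_mono_vv0 hv1 (by norm_num)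
  have hp30 : v ^ 20 * v ^ 10 ≤ v ^ 72 := by
    rw [← pow_add]; exact pow_mono_vv0 hv1 (by norm_num)
  have hterm1 : ((K1 N : ℝ) + 2) * Real.log ((N : ℝ) + 7) ≤ 273 * v ^ 72 := by
    have hlog0 : 0 ≤ Real.log ((N : ℝ) + 7) := Real.log_nonneg (by linarith)
    calc ((K1 N : ℝ) + 2) * Real.log ((N : ℝ) + 7) ≤ (21 * v ^ 20) * (13 * v ^ 10) :=
          mul_le_mul hk hlog hlog0 (by positivity)
      _ = 273 * (v ^ 20 * v ^ 10) := by ring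
      _ ≤ 273 * v ^ 72 := by linarith
  have hterm2 : ((K1 N : ℝ) + 2) * aa (K1 N + 2) ≤ 273 * v ^ 72 := by
    have haa0 : 0 ≤ aa (K1 N + 2) := by
      have := aa_nonneg_of_pos (l := K1 N + 2) (by omega)
      linarith
    calc ((K1 N : ℝ) + 2) * aa (K1 N + 2) ≤ (21 * v ^ 20) * (13 * v ^ 10) :=
          mul_le_mul hk haa haa0 (by positivity)
      _ = 273 * (v ^ 20 * v ^ 10) := by ring
      _ ≤ 273 * v ^ 72 := by linarith
  have hterm3 : (5 * (ts N) ^ (-(7 : ℝ) / 20)) * (2 * (N : ℝ) + 2) ≤ 40 * v ^ 72 := by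
    have hts := ts_rpow_mul_le hN1
    rw [← hvdef] at hts
    have h0 : 0 ≤ (ts N) ^ (-(7 : ℝ) / 20) := by
      apply Real.rpow_nonneg
      rw [ts_eq_vv]; positivity
    have h2N : 2 * (N : ℝ) + 2 ≤ 4 * N := by linarith
    calc (5 * (ts N) ^ (-(7 : ℝ) / 20)) * (2 * (N : ℝ) + 2)
        ≤ (5 * (ts N) ^ (-(7 : ℝ) / 20)) * (4 * N) :=
          mul_le_mul_of_nonneg_left h2N (by positivity)
      _ = 20 * ((ts N) ^ (-(7 : ℝ) / 20) * N) := by ring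
      _ ≤ 20 * (2 * v ^ 72) := by linarith
      _ = 40 * v ^ 72 := by ring
  have hterm4 : 3 * ((K1 N : ℝ) + 2) + 1 ≤ 64 * v ^ 72 := by linarith
  have hfinal : (Real.log c + 800) * v ^ 72 ≤ v ^ 85 / 2 := by
    have e : v ^ 85 = v ^ 72 * v ^ 13 := by rw [← pow_add]
    have h13 : v ≤ v ^ 13 := by
      calc v = v ^ 1 := (pow_one v).symm
        _ ≤ v ^ 13 := pow_mono_vv0 hv1 (by norm_num)
    have : 2 * (Real.log c + 800) ≤ v ^ 13 := by linarith [hlc]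
    rw [e]
    nlinarith [pow_pos (lt_of_lt_of_le one_pos hv1) 72]
  have hwd : wd N = v ^ 85 := wd_eq_vv N
  rw [hwd]
  have hlogc72 : Real.log c ≤ Real.log c * v ^ 72 := by nlinarith
  have h13 : 13 * v ^ 10 ≤ 13 * v ^ 72 := by linarith
  nlinarith

/-- Parameters are large for large `N`. -/
theorem params_large_vv : ∃ N₀ : ℕ, ∀ N ≥ N₀, 1 ≤ N ∧ 100 ≤ vv N ∧ 10 ≤ ts N ∧ wd N ≤ N ∧ (100 : ℝ) ≤ N ∧
    5 * (ts N) ^ (-(7 : ℝ) / 20) ≤ 1 ∧ 3 * (N : ℝ) ≤ 0.38 * ((K1 N : ℝ) + 1) * (ts N - 1) := by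
  obtain ⟨N₃, hN₃⟩ := vv_ge0 100
  refine ⟨N₃, fun N hN => ?_⟩
  obtain ⟨hNpos, hv100⟩ := hN₃ N hN
  have hv1 : (1 : ℝ) ≤ vv N := by linarith
  have hts : ts N = vv N ^ 80 / 2 := ts_eq_vv N
  have hp80 : vv N ≤ vv N ^ 80 := by
    calc vv N = vv N ^ 1 := (pow_one _).symm
      _ ≤ vv N ^ 80 := pow_le_pow_right₀ hv1 (by norm_num)
  have hts10 : 10 ≤ ts N := by rw [hts]; linarith
  have hN100 : (100 : ℝ) ≤ (N : ℝ) := by
    rw [self_eq_vv100]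
    calc (100 : ℝ) ≤ vv N := hv100
      _ = vv N ^ 1 := (pow_one _).symm
      _ ≤ vv N ^ 100 := pow_le_pow_right₀ hv1 (by norm_num)
  refine ⟨hNpos, hv100, hts10, ?_, hN100, ?_, ?_⟩
  · rw [wd_eq_vv, self_eq_vv100]
    exact pow_le_pow_right₀ hv1 (by norm_num)
  · have h1 := ts_rpow_mul_le hNpos
    have h4 : vv N ^ 72 * 10 ≤ (N : ℝ) := by
      rw [self_eq_vv100]
      have e : vv N ^ 100 = vv N ^ 72 * (vv N ^ 27 * vv N) := by ring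
      rw [e]
      apply mul_le_mul_of_nonneg_left _ (by positivity)
      have : 1 ≤ vv N ^ 27 := one_le_pow₀ hv1
      nlinarith
    have h2 : 5 * (ts N) ^ (-(7 : ℝ) / 20) * (N : ℝ) ≤ 1 * (N : ℝ) := by
      have h3 : 5 * (ts N) ^ (-(7 : ℝ) / 20) * (N : ℝ) = 5 * ((ts N) ^ (-(7 : ℝ) / 20) * N) := by ring
      rw [h3]
      linarith
    exact le_of_mul_le_mul_right h2 (by linarith)
  · have hK := K1_ge_vv hNpos
    have e1 : 9 * (N : ℝ) / ts N = 18 * vv N ^ 20 := nine_div_ts_vv hNpos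
    have hts0 : 0 < ts N := by linarith
    have hK2 : 9 * (N : ℝ) ≤ (K1 N : ℝ) * ts N := by
      have : 9 * (N : ℝ) / ts N ≤ (K1 N : ℝ) := by rw [e1]; exact hK
      rwa [div_le_iff₀ hts0] at this
    have hKp : (0 : ℝ) ≤ K1 N := Nat.cast_nonneg _
    have h9 : (K1 N : ℝ) * (ts N - 1) ≥ (K1 N : ℝ) * ts N * 9 / 10 := by
      have : (K1 N : ℝ) * (ts N / 10 - 1) ≥ 0 := mul_nonneg hKp (by linarith)
      nlinarith
    have h10 : ((K1 N : ℝ) + 1) * (ts N - 1) ≥ 9 * (N : ℝ) * 9 / 10 := by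
      have : 0 ≤ ts N - 1 := by linarith
      nlinarith
    have hNn : (0 : ℝ) ≤ N := Nat.cast_nonneg _
    nlinarith

/-- The exponent comparison for E6. -/
theorem e6_exp (N k : ℕ) (L c ε : ℝ) (hk : k = K1 N + 2) (hLu : L ≤ (N : ℝ) + 2) (hwdN : wd N ≤ N)
    (hε0 : 0 ≤ ε) (hε : ε = 5 * (ts N) ^ (-(7 : ℝ) / 20))
    (hnum : Real.log c + Real.log ((K1 N : ℝ) + 3) + ((K1 N : ℝ) + 2) * Real.log ((N : ℝ) + 7)
      + ((K1 N : ℝ) + 2) * aa (K1 N + 2) + (5 * (ts N) ^ (-(7 : ℝ) / 20)) * (2 * (N : ℝ) + 2)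
      + 3 * ((K1 N : ℝ) + 2) + 1 ≤ wd N / 2) :
    Real.log ((k : ℝ) + 1) + (k : ℝ) * Real.log ((N : ℝ) + 7) + Real.log c
      + (-(1 - ε) * (L + wd N - (k : ℝ) * aa k) + 3 * (k : ℝ) + 1) ≤ -L - wd N / 2 := by
  subst hk
  rw [← hε] at hnum
  push_cast
  have haak : 0 ≤ aa (K1 N + 2) := by
    have := aa_nonneg_of_pos (l := K1 N + 2) (by omega)
    linarith
  have hK0 : (0 : ℝ) ≤ K1 N := Nat.cast_nonneg _
  have hkp : 0 ≤ ((K1 N : ℝ) + 2) * aa (K1 N + 2) := mul_nonneg (by linarith) haak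
  have hΘle : L + wd N - ((K1 N : ℝ) + 2) * aa (K1 N + 2) ≤ 2 * (N : ℝ) + 2 := by linarith
  have hεΘ := mul_le_mul_of_nonneg_left hΘle hε0
  have e3 : (K1 N : ℝ) + 2 + 1 = (K1 N : ℝ) + 3 := by ring
  rw [e3]
  nlinarith

/-- Bookkeeping of exponentials. -/
lemma fac_exp_vv {A B C x W : ℝ} (k : ℕ) (hA : 0 < A) (hB : 0 < B) (hC : 0 < C) :
    A * B ^ k * (C * x * Real.exp W)
      = x * Real.exp (Real.log A + (k : ℝ) * Real.log B + Real.log C + W) := by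
  rw [Real.exp_add (Real.log A + (k : ℝ) * Real.log B + Real.log C) W,
    Real.exp_add (Real.log A + (k : ℝ) * Real.log B) (Real.log C),
    Real.exp_add (Real.log A) _, Real.exp_log hA, Real.exp_log hC,
    mul_comm (k : ℝ), Real.exp_mul, Real.exp_log hB, Real.rpow_natCast]
  ring

/-- Smallness of the parameters for E7. -/
lemma e7_params {N : ℕ} (hv : 100 ≤ vv N) :
    wd N + ts N + Dc N + 3 ≤ (N : ℝ) / 10 ∧ 2 ≤ wd N ∧ vv N ≤ (N : ℝ) - Dc N := by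
  have hv1 : 1 ≤ vv N := by linarith
  rw [wd_eq_vv, ts_eq_vv, Dc_eq_vv, self_eq_vv100]
  set v := vv N with hvdef
  have h85 : v ^ 100 = v ^ 85 * (v ^ 14 * v) := by ring
  have h1 : 1 ≤ v ^ 14 := one_le_pow₀ hv1
  have h85p : 0 < v ^ 85 := by positivity
  have h1' : 100 * v ^ 85 ≤ v ^ 100 := by
    rw [h85]
    have : 100 ≤ v ^ 14 * v := by nlinarith
    nlinarith
  have h2 : v ^ 80 ≤ v ^ 85 := pow_le_pow_right₀ hv1 (by norm_num)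
  have h3 : v ^ 50 ≤ v ^ 85 := pow_le_pow_right₀ hv1 (by norm_num)
  have h4 : v ≤ v ^ 85 := by
    calc v = v ^ 1 := (pow_one _).symm
      _ ≤ v ^ 85 := pow_le_pow_right₀ hv1 (by norm_num)
  refine ⟨by linarith, by linarith, by linarith⟩

end

end Vale.Agent.Lib.P031V
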