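import Vale.Agent.Lib.P031V.Rarity
import Vale.Agent.Lib.P031V.E67Num

/-! # P031: generic lemmas for the negligible sets E6, E7 (blueprint section 7). -/

namespace Vale.Agent.Lib.P031V
open Real Finset
open scoped Classical

noncomputable section

lemma log_pos_of_one_lt_vv {x : ℝ} (hx : 1 < x) : 0 < Real.log x := Real.log_pos hx

lemma exp_levR_vv {x : ℝ} (hx : 1 < x) : Real.exp (levR x) = Real.log x := by
  unfold levR
  exact Real.exp_log (Real.log_pos hx)

/-- Bound on the level of a prime factor. -/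
lemma lev_le_of_le_vv {c x : ℝ} {N p : ℕ} (hc : 1 < c) (hcN : c ≤ N) (hx : 1 < x)
    (hL : levR x ≤ (N : ℝ) + 2) (hp : 2 ≤ p) (hpx : (p : ℝ) ≤ c * x + 1) : lev p ≤ (N : ℝ) + 3 := by
  have hp' : (2 : ℝ) ≤ p := by exact_mod_cast hp
  have hlogp : 0 < Real.log p := Real.log_pos (by linarith)
  have hx0 : 0 < x := by linarith
  have h1 : Real.log x ≤ Real.exp ((N : ℝ) + 2) := by
    rw [← exp_levR_vv hx]; exact Real.exp_le_exp.2 hL
  have h2 : Real.log p ≤ Real.log ((c + 1) * x) := by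
    apply Real.log_le_log (by linarith)
    nlinarith
  have h3 : Real.log ((c + 1) * x) = Real.log (c + 1) + Real.log x :=
    Real.log_mul (by linarith) (by linarith)
  have h4 : Real.log (c + 1) ≤ c := by
    have := Real.log_le_sub_one_of_pos (show 0 < c + 1 by linarith)
    linarith
  have h5 : (N : ℝ) + 3 ≤ Real.exp ((N : ℝ) + 2) := by
    have := Real.add_one_le_exp ((N : ℝ) + 2)
    linarith
  have h6 : Real.exp ((N : ℝ) + 3) ≥ 2 * Real.exp ((N : ℝ) + 2) := by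
    have e : Real.exp ((N : ℝ) + 3) = Real.exp ((N : ℝ) + 2) * Real.exp 1 := by
      rw [← Real.exp_add]; ring_nf
    rw [e]
    have := Real.exp_one_gt_d9
    have h0 := Real.exp_pos ((N : ℝ) + 2)
    nlinarith
  unfold lev
  rw [Real.log_le_iff_le_exp hlogp]
  linarith

/-- Divisors of a clean number are clean. -/
lemma Clean.of_dvd_vv {N : ℕ} {v d : ℕ} (h : Clean N v) (hd : d ∣ v) : Clean N d := by
  intro r hr hl hrd
  exact h r hr hl (hrd.trans hd)

lemma rowsProd_cons_vv (p : ℕ) (l : List ℕ) : rowsProd (p :: l) = (p - 1) * rowsProd l := by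
  simp [rowsProd]

lemma rowsProd_take_dvd_vv (l : List ℕ) (j : ℕ) : rowsProd (l.take j) ∣ rowsProd l := by
  have h : rowsProd l = rowsProd (l.take j ++ l.drop j) := by rw [List.take_append_drop]
  rw [h]
  refine ⟨rowsProd (l.drop j), ?_⟩
  simp [rowsProd, List.map_append, List.prod_append]

/-- Lower bound of the cell functional. -/
lemma ThB_ge_vv (N h : ℕ) (bs : List ℕ) (hts : 1 ≤ ts N)
    (hb : ∀ b ∈ bs, t0 N - 1 ≤ (b : ℝ)) :
    0.38 * (bs.length : ℝ) * (ts N - 1) ≤ ThB N h bs := by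
  induction bs generalizing h with
  | nil => simp [ThB]
  | cons b bs ih =>
    have h1 := ih (h + 1) (fun b' hb' => hb b' (List.mem_cons_of_mem _ hb'))
    have h2 := hb b List.mem_cons_self
    have h3 : (0.38 : ℝ) ≤ aa (h + 1) := aa_nonneg_of_pos (by omega)
    have e : t0 N = 2 * ts N := by unfold ts; ring
    have h4 : ts N - 1 ≤ (b : ℝ) - ts N := by linarith
    have h5 : 0 ≤ ts N - 1 := by linarith
    simp only [ThB, List.length_cons]
    push_cast
    have : 0.38 * (ts N - 1) ≤ aa (h + 1) * ((b : ℝ) - ts N) :=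
      mul_le_mul h3 h4 h5 (by linarith)
    nlinarith

/-- The cell union bound: a family of clean integers, each having a list of at most `k` normal
rows, whose cell functional is at least `Θ`, is small. -/
theorem cell_union_bound (N k : ℕ) (X Θ : ℝ) (hX : 1 ≤ X) (E : Finset ℕ)
    (hrar : ∀ (b : List ℕ), b ≠ [] → ((b.headD 0 : ℕ) : ℝ) ≤ (N : ℝ) + 6 →
      (((Finset.Icc 1 ⌊X⌋₊).filter (fun v => Clean N v ∧ ∃ l, RowsIn N b l ∧ rowsProd l ∣ v)).card : ℝ)
      ≤ X * Real.exp (-(1 - 5 * (ts N) ^ (-(7 : ℝ) / 20)) * ThB N 0 b.tail + 3 * (b.length : ℝ) + 1))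
    (hε : 5 * (ts N) ^ (-(7 : ℝ) / 20) ≤ 1)
    (hE : ∀ v ∈ E, v ∈ Finset.Icc 1 ⌊X⌋₊ ∧ Clean N v ∧ ∃ l : List ℕ, l ≠ [] ∧ l.length ≤ k ∧
      RowsIn N (l.map (fun p => ⌊lev p⌋₊)) l ∧ rowsProd l ∣ v ∧ (∀ q ∈ l, ⌊lev q⌋₊ ≤ N + 6) ∧
      Θ ≤ ThB N 0 (l.map (fun p => ⌊lev p⌋₊)).tail) :
    (E.card : ℝ) ≤ ((k : ℝ) + 1) * ((N : ℝ) + 7) ^ k *
      (X * Real.exp (-(1 - 5 * (ts N) ^ (-(7 : ℝ) / 20)) * Θ + 3 * (k : ℝ) + 1)) := by
  set Rb : List ℕ → Finset ℕ := fun b =>
    (Finset.Icc 1 ⌊X⌋₊).filter (fun v => Clean N v ∧ ∃ l, RowsIn N b l ∧ rowsProd l ∣ v) with hRb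
  set Cells : Finset (List ℕ) := (Finset.range (k + 1)).biUnion (fun j =>
    (cellSet N j).filter (fun b => b ≠ [] ∧ ((b.headD 0 : ℕ) : ℝ) ≤ (N : ℝ) + 6 ∧ b.length ≤ k ∧
      Θ ≤ ThB N 0 b.tail)) with hCells
  have hsub : E ⊆ Cells.biUnion Rb := by
    intro v hv
    obtain ⟨hv1, hv2, l, hl0, hlk, hrows, hdvd, hfl, hth⟩ := hE v hv
    rw [Finset.mem_biUnion]
    refine ⟨l.map (fun p => ⌊lev p⌋₊), ?_, ?_⟩
    · rw [hCells, Finset.mem_biUnion]
      refine ⟨l.length, Finset.mem_range.2 (by omega), ?_⟩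
      rw [Finset.mem_filter]
      refine ⟨?_, ?_, ?_, ?_, hth⟩
      · have := mem_cellSet (N := N) (b := l.map (fun p => ⌊lev p⌋₊)) (by
          intro c hc
          obtain ⟨q, hq, rfl⟩ := List.mem_map.1 hc
          exact hfl q hq)
        simpa using this
      · simpa using hl0
      · cases l with
        | nil => exact absurd rfl hl0
        | cons q l' =>
          simp only [List.map_cons, List.headD_cons]
          have := hfl q List.mem_cons_self
          have h2 : ((⌊lev q⌋₊ : ℕ) : ℝ) ≤ ((N + 6 : ℕ) : ℝ) := by exact_mod_cast this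
          push_cast at h2
          exact h2
      · simpa using hlk
    · rw [hRb, Finset.mem_filter]
      exact ⟨hv1, hv2, l, hrows, hdvd⟩
  have hcard1 : (E.card : ℝ) ≤ ((Cells.biUnion Rb).card : ℝ) := by
    exact_mod_cast Finset.card_le_card hsub
  have hcard2 : ((Cells.biUnion Rb).card : ℝ) ≤ ∑ b ∈ Cells, ((Rb b).card : ℝ) := by
    exact_mod_cast Finset.card_biUnion_le
  set ε := 5 * (ts N) ^ (-(7 : ℝ) / 20) with hεdef
  set B := X * Real.exp (-(1 - ε) * Θ + 3 * (k : ℝ) + 1) with hB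
  have hbound : ∀ b ∈ Cells, ((Rb b).card : ℝ) ≤ B := by
    intro b hb
    rw [hCells, Finset.mem_biUnion] at hb
    obtain ⟨j, _, hb⟩ := hb
    rw [Finset.mem_filter] at hb
    obtain ⟨_, hb0, hhead, hlen, hth⟩ := hb
    refine le_trans (hrar b hb0 hhead) ?_
    rw [hB]
    apply mul_le_mul_of_nonneg_left _ (by linarith)
    apply Real.exp_le_exp.2
    have h1 : (b.length : ℝ) ≤ k := by exact_mod_cast hlen
    have h2 : 0 ≤ 1 - ε := by linarith
    have h3 : (1 - ε) * Θ ≤ (1 - ε) * ThB N 0 b.tail := mul_le_mul_of_nonneg_left hth h2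
    linarith
  have hB0 : 0 ≤ B := by
    rw [hB]; have := Real.exp_pos (-(1 - ε) * Θ + 3 * (k : ℝ) + 1); positivity
  have hcard3 : (Cells.card : ℝ) ≤ ((k : ℝ) + 1) * ((N : ℝ) + 7) ^ k := by
    have h1 : (Cells.card : ℝ) ≤ ∑ j ∈ Finset.range (k + 1), ((cellSet N j).card : ℝ) := by
      have : Cells.card ≤ ∑ j ∈ Finset.range (k + 1), ((cellSet N j).filter (fun b => b ≠ [] ∧
          ((b.headD 0 : ℕ) : ℝ) ≤ (N : ℝ) + 6 ∧ b.length ≤ k ∧ Θ ≤ ThB N 0 b.tail)).card :=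
        Finset.card_biUnion_le
      have h2 : ∑ j ∈ Finset.range (k + 1), ((cellSet N j).filter (fun b => b ≠ [] ∧
          ((b.headD 0 : ℕ) : ℝ) ≤ (N : ℝ) + 6 ∧ b.length ≤ k ∧ Θ ≤ ThB N 0 b.tail)).card
          ≤ ∑ j ∈ Finset.range (k + 1), (cellSet N j).card :=
        Finset.sum_le_sum (fun j _ => Finset.card_filter_le _ _)
      exact_mod_cast this.trans h2
    have h2 : ∑ j ∈ Finset.range (k + 1), ((cellSet N j).card : ℝ)
        ≤ ∑ _j ∈ Finset.range (k + 1), ((N : ℝ) + 7) ^ k := by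
      apply Finset.sum_le_sum
      intro j hj
      refine le_trans (cellSet_card N j) ?_
      apply pow_le_pow_right₀ _ (by have := Finset.mem_range.1 hj; omega)
      have : (0 : ℝ) ≤ N := Nat.cast_nonneg _
      linarith
    rw [Finset.sum_const, Finset.card_range, nsmul_eq_mul] at h2
    push_cast at h2
    linarith
  calc (E.card : ℝ) ≤ ∑ b ∈ Cells, ((Rb b).card : ℝ) := hcard1.trans hcard2
    _ ≤ ∑ _b ∈ Cells, B := Finset.sum_le_sum hbound
    _ = (Cells.card : ℝ) * B := by rw [Finset.sum_const, nsmul_eq_mul]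
    _ ≤ ((k : ℝ) + 1) * ((N : ℝ) + 7) ^ k * B := mul_le_mul_of_nonneg_right hcard3 hB0

end

end Vale.Agent.Lib.P031V
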