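import Mathlib

/-! # Fejer pair used in the proof of the prime number theorem (module for P031). -/

namespace Vale.Agent.Lib.P031V

open Filter Topology MeasureTheory Set Complex

/-- The Fejer kernel `2 (1 - cos u) / u ^ 2`. -/
noncomputable def fejerK (u : ℝ) : ℝ := if u = 0 then 1 else 2 * (1 - Real.cos u) / u ^ 2

/-- The triangle function. -/
noncomputable def fejerPhi (v : ℝ) : ℝ := max (1 - |v|) 0

lemma fejerK_nonneg (u : ℝ) : 0 ≤ fejerK u := by
  unfold fejerK
  split_ifs
  · norm_num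
  · exact div_nonneg (mul_nonneg (by norm_num) (by linarith [Real.cos_le_one u])) (sq_nonneg u)

lemma fejerK_le_one (u : ℝ) : fejerK u ≤ 1 := by
  unfold fejerK
  split_ifs with h
  · exact le_rfl
  · have hu : 0 < u ^ 2 := by positivity
    rw [div_le_one hu]
    have := Real.one_sub_sq_div_two_le_cos (x := u)
    linarith

lemma fejerK_le (u : ℝ) : fejerK u ≤ 8 * (1 + u ^ 2)⁻¹ := by
  have h1 : (0 : ℝ) < 1 + u ^ 2 := by positivity
  by_cases hu : u ^ 2 ≤ 1
  · have h2 : (1 : ℝ) ≤ 8 * (1 + u ^ 2)⁻¹ := by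
      rw [← div_eq_mul_inv, le_div_iff₀ h1]
      linarith
    exact (fejerK_le_one u).trans h2
  · push Not at hu
    have hu0 : u ≠ 0 := by
      rintro rfl
      norm_num at hu
    unfold fejerK
    rw [if_neg hu0, ← div_eq_mul_inv, div_le_div_iff₀ (by positivity) h1]
    have := Real.neg_one_le_cos u
    nlinarith

lemma measurable_fejerK : Measurable fejerK := by
  unfold fejerK
  refine Measurable.ite (measurableSet_singleton 0) measurable_const ?_
  exact ((Real.measurable_cos.const_sub 1).const_mul 2).div (measurable_id.pow_const 2)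

lemma integrable_fejerK : Integrable fejerK := by
  refine Integrable.mono' (integrable_inv_one_add_sq.const_mul 8)
    measurable_fejerK.aestronglyMeasurable (ae_of_all _ fun u => ?_)
  rw [Real.norm_of_nonneg (fejerK_nonneg u)]
  exact fejerK_le u

lemma integral_fejerK_pos : 0 < ∫ u, fejerK u := by
  rw [integral_pos_iff_support_of_nonneg fejerK_nonneg integrable_fejerK]
  have hsub : Ioo (0 : ℝ) 1 ⊆ Function.support fejerK := by
    intro u hu
    have hu0 : u ≠ 0 := hu.1.ne'
    simp only [Function.mem_support, fejerK, if_neg hu0]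
    have hc : Real.cos u < 1 := by
      have := Real.cos_lt_cos_of_nonneg_of_le_pi_div_two (le_refl (0 : ℝ))
        (hu.2.le.trans (by linarith [Real.pi_gt_three])) hu.1
      simpa using this
    have : 0 < 1 - Real.cos u := by linarith
    positivity
  refine lt_of_lt_of_le ?_ (measure_mono hsub)
  simp

lemma fejerPhi_nonneg (v : ℝ) : 0 ≤ fejerPhi v := le_max_right _ _

lemma fejerPhi_le_one (v : ℝ) : fejerPhi v ≤ 1 := by
  unfold fejerPhi
  exact max_le (by linarith [abs_nonneg v]) zero_le_one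

lemma fejerPhi_eq_zero {v : ℝ} (hv : 1 ≤ |v|) : fejerPhi v = 0 := by
  unfold fejerPhi
  exact max_eq_right (by linarith)

lemma continuous_fejerPhi : Continuous fejerPhi := by
  unfold fejerPhi
  fun_prop

private lemma hasDerivAt_cexp_mul (a : ℂ) (v : ℝ) :
    HasDerivAt (fun v : ℝ => cexp (a * v)) (cexp (a * v) * a) v := by
  have h1 : HasDerivAt (fun v : ℝ => a * (v : ℂ)) a v := by
    simpa using (hasDerivAt_id v).ofReal_comp.const_mul a
  exact h1.cexp

private lemma int_right (a : ℂ) (ha : a ≠ 0) :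
    ∫ v in (0 : ℝ)..1, ((1 - v : ℝ) : ℂ) * cexp (a * v) = cexp a / a ^ 2 - 1 / a - 1 / a ^ 2 := by
  have key : ∀ v ∈ uIcc (0 : ℝ) 1, HasDerivAt
      (fun v : ℝ => ((1 - v : ℝ) : ℂ) * cexp (a * v) / a + cexp (a * v) / a ^ 2)
      (((1 - v : ℝ) : ℂ) * cexp (a * v)) v := by
    intro v _
    have h0 : HasDerivAt (fun v : ℝ => ((1 - v : ℝ) : ℂ)) (-1) v := by
      have : HasDerivAt (fun v : ℝ => 1 - v) (-1) v := by
        simpa using (hasDerivAt_id v).const_sub 1
      simpa using this.ofReal_comp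
    have h1 := ((h0.mul (hasDerivAt_cexp_mul a v)).div_const a).add
      ((hasDerivAt_cexp_mul a v).div_const (a ^ 2))
    refine h1.congr_deriv ?_
    field_simp
    ring
  rw [intervalIntegral.integral_eq_sub_of_hasDerivAt key]
  · simp
    field_simp
    ring
  · apply Continuous.intervalIntegrable
    fun_prop

private lemma int_left (a : ℂ) (ha : a ≠ 0) :
    ∫ v in (-1 : ℝ)..0, ((1 + v : ℝ) : ℂ) * cexp (a * v)
      = 1 / a - 1 / a ^ 2 + cexp (-a) / a ^ 2 := by
  have key : ∀ v ∈ uIcc (-1 : ℝ) 0, HasDerivAt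
      (fun v : ℝ => ((1 + v : ℝ) : ℂ) * cexp (a * v) / a - cexp (a * v) / a ^ 2)
      (((1 + v : ℝ) : ℂ) * cexp (a * v)) v := by
    intro v _
    have h0 : HasDerivAt (fun v : ℝ => ((1 + v : ℝ) : ℂ)) 1 v := by
      have : HasDerivAt (fun v : ℝ => 1 + v) 1 v := by
        simpa using (hasDerivAt_id v).const_add 1
      simpa using this.ofReal_comp
    have h1 := ((h0.mul (hasDerivAt_cexp_mul a v)).div_const a).sub
      ((hasDerivAt_cexp_mul a v).div_const (a ^ 2))
    refine h1.congr_deriv ?_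
    field_simp
    ring
  rw [intervalIntegral.integral_eq_sub_of_hasDerivAt key]
  · simp
  · apply Continuous.intervalIntegrable
    fun_prop

lemma integral_fejer_eq (a : ℂ) :
    ∫ v, ((fejerPhi v : ℝ) : ℂ) * cexp (a * v)
      = (∫ v in (-1 : ℝ)..0, ((1 + v : ℝ) : ℂ) * cexp (a * v))
        + ∫ v in (0 : ℝ)..1, ((1 - v : ℝ) : ℂ) * cexp (a * v) := by
  have hcont : Continuous fun v : ℝ => ((fejerPhi v : ℝ) : ℂ) * cexp (a * v) := by
    have := continuous_fejerPhi
    fun_prop
  have h1 : ∫ v, ((fejerPhi v : ℝ) : ℂ) * cexp (a * v)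
      = ∫ v in Ioc (-1 : ℝ) 1, ((fejerPhi v : ℝ) : ℂ) * cexp (a * v) := by
    symm
    apply setIntegral_eq_integral_of_forall_compl_eq_zero
    intro v hv
    have : 1 ≤ |v| := by
      by_contra hlt
      push Not at hlt
      exact hv ⟨(abs_lt.mp hlt).1, (abs_lt.mp hlt).2.le⟩
    rw [fejerPhi_eq_zero this]
    simp
  rw [h1, ← intervalIntegral.integral_of_le (by norm_num : (-1 : ℝ) ≤ 1),
    ← intervalIntegral.integral_add_adjacent_intervals (b := 0)
      (hcont.intervalIntegrable _ _) (hcont.intervalIntegrable _ _)]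
  congr 1
  · apply intervalIntegral.integral_congr
    intro v hv
    have hv' : v ∈ Icc (-1 : ℝ) 0 := by
      simpa [uIcc_of_le (by norm_num : (-1 : ℝ) ≤ 0)] using hv
    have : fejerPhi v = 1 + v := by
      unfold fejerPhi
      rw [abs_of_nonpos hv'.2, max_eq_left (by linarith [hv'.1])]
      ring
    simp only [this]
  · apply intervalIntegral.integral_congr
    intro v hv
    have hv' : v ∈ Icc (0 : ℝ) 1 := by
      simpa [uIcc_of_le (by norm_num : (0 : ℝ) ≤ 1)] using hv
    have : fejerPhi v = 1 - v := by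
      unfold fejerPhi
      rw [abs_of_nonneg hv'.1, max_eq_left (by linarith [hv'.2])]
    simp only [this]

/-- Fourier transform of the triangle function. -/
lemma fejer_fourier (u : ℝ) :
    ∫ v, ((fejerPhi v : ℝ) : ℂ) * cexp (I * u * v) = (fejerK u : ℂ) := by
  rw [integral_fejer_eq]
  by_cases hu : u = 0
  · subst hu
    have h1 : ∫ v in (-1 : ℝ)..0, ((1 + v : ℝ) : ℂ) * cexp (I * ((0 : ℝ) : ℂ) * v) = (1 / 2 : ℝ) := by
      have : ∀ v : ℝ, ((1 + v : ℝ) : ℂ) * cexp (I * ((0 : ℝ) : ℂ) * v) = ((1 + v : ℝ) : ℂ) := by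
        intro v; simp
      simp only [this]
      rw [intervalIntegral.integral_ofReal]
      congr 1
      rw [intervalIntegral.integral_add (by simp) (by simp)]
      simp
      norm_num
    have h2 : ∫ v in (0 : ℝ)..1, ((1 - v : ℝ) : ℂ) * cexp (I * ((0 : ℝ) : ℂ) * v) = (1 / 2 : ℝ) := by
      have : ∀ v : ℝ, ((1 - v : ℝ) : ℂ) * cexp (I * ((0 : ℝ) : ℂ) * v) = ((1 - v : ℝ) : ℂ) := by
        intro v; simp
      simp only [this]
      rw [intervalIntegral.integral_ofReal]
      congr 1
      rw [intervalIntegral.integral_sub (by simp) (by simp)]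
      simp
      norm_num
    rw [h1, h2]
    simp [fejerK]
    norm_num
  · have ha : I * (u : ℂ) ≠ 0 := mul_ne_zero I_ne_zero (by exact_mod_cast hu)
    rw [int_left _ ha, int_right _ ha]
    have hcos : Complex.cos (u : ℂ) = (cexp (I * u) + cexp (-(I * u))) / 2 := by
      rw [Complex.cos, neg_mul, mul_comm (u : ℂ) I]
    simp only [fejerK, if_neg hu]
    have hu' : (u : ℂ) ≠ 0 := by exact_mod_cast hu
    push_cast
    rw [hcos]
    have hI : (I * (u : ℂ)) ^ 2 = -(u : ℂ) ^ 2 := by
      rw [mul_pow, I_sq]; ring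
    rw [hI]
    field_simp
    ring_nf

end Vale.Agent.Lib.P031V
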