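import Mathlib
import Vale.Agent.Lib.P031V.PNTFejer

/-! # Laplace transform of `psi(e^t) e^{-t}` (module for P031). -/

namespace Vale.Agent.Lib.P031V

open Filter Topology MeasureTheory Set Complex
open ArithmeticFunction.vonMangoldt

/-- The normalised Chebyshev function. -/
noncomputable def hh (t : ℝ) : ℝ := Chebyshev.psi (Real.exp t) * Real.exp (-t)

lemma hh_nonneg (t : ℝ) : 0 ≤ hh t :=
  mul_nonneg (Chebyshev.psi_nonneg _) (Real.exp_pos _).le

lemma hh_le (t : ℝ) : hh t ≤ Real.log 4 + 4 := by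
  have h := Chebyshev.psi_le_const_mul_self (Real.exp_pos t).le
  calc hh t ≤ (Real.log 4 + 4) * Real.exp t * Real.exp (-t) := by
        unfold hh
        exact mul_le_mul_of_nonneg_right h (Real.exp_pos _).le
    _ = Real.log 4 + 4 := by
        rw [mul_assoc, ← Real.exp_add]
        simp

lemma measurable_hh : Measurable hh :=
  (Chebyshev.psi_mono.measurable.comp Real.measurable_exp).mul
    (Real.measurable_exp.comp measurable_neg)

lemma const_pos : 0 < Real.log 4 + 4 := by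
  have : 0 < Real.log 4 := Real.log_pos (by norm_num)
  linarith

/-- Lower monotonicity bound. -/
lemma hh_lower {x δ t : ℝ} (h1 : x - δ ≤ t) (h2 : t ≤ x + δ) :
    hh (x - δ) * Real.exp (-(2 * δ)) ≤ hh t := by
  unfold hh
  have hm : Chebyshev.psi (Real.exp (x - δ)) ≤ Chebyshev.psi (Real.exp t) :=
    Chebyshev.psi_mono (Real.exp_le_exp.mpr h1)
  have hexp : Real.exp (-(x - δ)) * Real.exp (-(2 * δ)) ≤ Real.exp (-t) := by
    rw [← Real.exp_add]
    exact Real.exp_le_exp.mpr (by linarith)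
  calc Chebyshev.psi (Real.exp (x - δ)) * Real.exp (-(x - δ)) * Real.exp (-(2 * δ))
      = Chebyshev.psi (Real.exp (x - δ)) * (Real.exp (-(x - δ)) * Real.exp (-(2 * δ))) := by ring
    _ ≤ Chebyshev.psi (Real.exp t) * Real.exp (-t) :=
        mul_le_mul hm hexp (by positivity) (Chebyshev.psi_nonneg _)

/-- Upper monotonicity bound. -/
lemma hh_upper {x δ t : ℝ} (h1 : x - δ ≤ t) (h2 : t ≤ x + δ) :
    hh t ≤ hh (x + δ) * Real.exp (2 * δ) := by
  unfold hh
  have hm : Chebyshev.psi (Real.exp t) ≤ Chebyshev.psi (Real.exp (x + δ)) :=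
    Chebyshev.psi_mono (Real.exp_le_exp.mpr h2)
  have hexp : Real.exp (-t) ≤ Real.exp (-(x + δ)) * Real.exp (2 * δ) := by
    rw [← Real.exp_add]
    exact Real.exp_le_exp.mpr (by linarith)
  calc Chebyshev.psi (Real.exp t) * Real.exp (-t)
      ≤ Chebyshev.psi (Real.exp (x + δ)) * (Real.exp (-(x + δ)) * Real.exp (2 * δ)) :=
        mul_le_mul hm hexp (by positivity) (Chebyshev.psi_nonneg _)
    _ = Chebyshev.psi (Real.exp (x + δ)) * Real.exp (-(x + δ)) * Real.exp (2 * δ) := by ring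

lemma residueClass_one_eq (n : ℕ) :
    residueClass (1 : ZMod 1) n = ArithmeticFunction.vonMangoldt n := by
  have : n ∈ {n : ℕ | ((n : ZMod 1)) = 1} := Subsingleton.elim _ _
  simp only [residueClass, Set.indicator_of_mem this]

/-- The sum over `Icc 1 n` is `ψ n`. -/
lemma sum_Icc_eq_psi (t : ℝ) :
    ∑ k ∈ Finset.Icc 1 ⌊t⌋₊, ArithmeticFunction.vonMangoldt k = Chebyshev.psi t := by
  unfold Chebyshev.psi
  refine Finset.sum_congr ?_ fun _ _ => rfl
  ext k
  simp [Nat.succ_le_iff]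

lemma bigO_sums :
    (fun n : ℕ => ∑ k ∈ Finset.Icc 1 n, residueClass (1 : ZMod 1) k)
      =O[atTop] fun n : ℕ => (n : ℝ) ^ (1 : ℝ) := by
  refine Asymptotics.IsBigO.of_bound (Real.log 4 + 4) (Eventually.of_forall fun n => ?_)
  have h1 : ∑ k ∈ Finset.Icc 1 n, residueClass (1 : ZMod 1) k = Chebyshev.psi n := by
    rw [← sum_Icc_eq_psi, Nat.floor_natCast]
    exact Finset.sum_congr rfl fun k _ => residueClass_one_eq k
  rw [h1, Real.norm_of_nonneg (Chebyshev.psi_nonneg _), Real.rpow_one,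
    Real.norm_of_nonneg (Nat.cast_nonneg n)]
  exact Chebyshev.psi_le_const_mul_self (Nat.cast_nonneg n)

lemma image_exp_Ioi : Real.exp '' Ioi 0 = Ioi 1 := by
  ext y
  constructor
  · rintro ⟨t, ht, rfl⟩
    have := Real.exp_lt_exp.mpr (show (0 : ℝ) < t from ht)
    rwa [Real.exp_zero] at this
  · intro hy
    have hy' : (1 : ℝ) < y := hy
    exact ⟨Real.log y, Real.log_pos hy', Real.exp_log (by linarith)⟩

lemma laplace_eq {s : ℂ} (hs : 1 < s.re) :
    LSeries (fun n => ((residueClass (1 : ZMod 1) n : ℝ) : ℂ)) s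
      = s * ∫ t in Ioi (0 : ℝ), ((hh t : ℝ) : ℂ) * cexp (-(s - 1) * t) := by
  have h := LSeries_eq_mul_integral_of_nonneg (residueClass (1 : ZMod 1)) (r := 1) zero_le_one hs
    bigO_sums (residueClass_nonneg _)
  rw [h]
  congr 1
  rw [← image_exp_Ioi, integral_image_eq_integral_abs_deriv_smul measurableSet_Ioi
    (fun x _ => (Real.hasDerivAt_exp x).hasDerivWithinAt) Real.exp_injective.injOn]
  apply setIntegral_congr_fun measurableSet_Ioi
  intro t _
  have hsum : (∑ k ∈ Finset.Icc 1 ⌊Real.exp t⌋₊, ((residueClass (1 : ZMod 1) k : ℝ) : ℂ))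
      = ((Chebyshev.psi (Real.exp t) : ℝ) : ℂ) := by
    rw [← sum_Icc_eq_psi, Complex.ofReal_sum]
    exact Finset.sum_congr rfl fun k _ => by rw [residueClass_one_eq]
  have e1 : ((Real.exp t : ℝ) : ℂ) = cexp t := Complex.ofReal_exp t
  have e2 : ((Real.exp (-t) : ℝ) : ℂ) = cexp (-(t : ℂ)) := by
    rw [Complex.ofReal_exp]; push_cast; rfl
  have e3 : ((Real.exp t : ℝ) : ℂ) ^ (-(s + 1)) = cexp (t * (-(s + 1))) := by
    rw [Complex.cpow_def_of_ne_zero (by exact_mod_cast (Real.exp_pos t).ne'),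
      ← Complex.ofReal_log (Real.exp_pos t).le, Real.log_exp]
  simp only [hh]
  rw [hsum, abs_of_pos (Real.exp_pos t), Complex.real_smul, e3, Complex.ofReal_mul, e2, e1]
  calc cexp t * (((Chebyshev.psi (Real.exp t) : ℝ) : ℂ) * cexp (t * (-(s + 1))))
      = ((Chebyshev.psi (Real.exp t) : ℝ) : ℂ) * (cexp t * cexp (t * (-(s + 1)))) := by ring
    _ = ((Chebyshev.psi (Real.exp t) : ℝ) : ℂ) * (cexp (-(t : ℂ)) * cexp (-(s - 1) * t)) := by
        rw [← Complex.exp_add, ← Complex.exp_add]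
        congr 2
        ring
    _ = _ := by ring

/-- The transform, extended to the closed half plane. -/
noncomputable def pntGG (z : ℂ) : ℂ :=
  (LFunctionResidueClassAux (1 : ZMod 1) (1 + z) - 1) / (1 + z)

lemma one_add_ne_zero {z : ℂ} (hz : 0 ≤ z.re) : 1 + z ≠ 0 := by
  intro h0
  have := congrArg Complex.re h0
  simp only [add_re, one_re, zero_re] at this
  linarith

lemma continuousOn_GG : ContinuousOn pntGG {z | 0 ≤ z.re} := by
  have h1 : ContinuousOn (fun z : ℂ => 1 + z) {z | 0 ≤ z.re} := by fun_prop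
  have h2 : ContinuousOn (fun z => LFunctionResidueClassAux (1 : ZMod 1) (1 + z))
      {z | 0 ≤ z.re} :=
    (continuousOn_LFunctionResidueClassAux (1 : ZMod 1)).comp h1 fun z hz => by
      have hz' : 0 ≤ z.re := hz
      simp only [Set.mem_ofPred_eq, add_re, one_re]
      linarith
  exact (h2.sub continuousOn_const).div h1 fun z hz => one_add_ne_zero hz

lemma integrableOn_exp_neg_mul {z : ℂ} (hz : 0 < z.re) :
    IntegrableOn (fun t : ℝ => cexp (-z * t)) (Ioi 0) :=
  integrableOn_exp_mul_complex_Ioi (a := -z) (by simpa using hz) 0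

lemma integrableOn_hh_exp {z : ℂ} (hz : 0 < z.re) :
    IntegrableOn (fun t : ℝ => ((hh t : ℝ) : ℂ) * cexp (-z * t)) (Ioi 0) := by
  refine Integrable.bdd_mul (c := Real.log 4 + 4) (integrableOn_exp_neg_mul hz)
    (Complex.measurable_ofReal.comp measurable_hh).aestronglyMeasurable
    (ae_of_all _ fun t => ?_)
  rw [Complex.norm_real, Real.norm_of_nonneg (hh_nonneg t)]
  exact hh_le t

lemma GG_eq {z : ℂ} (hz : 0 < z.re) :
    pntGG z = ∫ t in Ioi (0 : ℝ), ((hh t - 1 : ℝ) : ℂ) * cexp (-z * t) := by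
  have h1 : ∫ t in Ioi (0 : ℝ), ((hh t - 1 : ℝ) : ℂ) * cexp (-z * t)
      = (∫ t in Ioi (0 : ℝ), ((hh t : ℝ) : ℂ) * cexp (-z * t))
        - ∫ t in Ioi (0 : ℝ), cexp (-z * t) := by
    rw [← integral_sub (integrableOn_hh_exp hz) (integrableOn_exp_neg_mul hz)]
    refine integral_congr_ae (ae_of_all _ fun t => ?_)
    simp only []
    push_cast
    ring
  have h2 : ∫ t in Ioi (0 : ℝ), cexp (-z * t) = 1 / z := by
    have := integral_exp_mul_complex_Ioi (a := -z) (by simpa using hz) 0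
    rw [this]
    have hz0 : z ≠ 0 := fun h => by simp [h] at hz
    simp
  have hs : 1 < (1 + z).re := by simp [hz]
  have h3 := laplace_eq hs
  have h4 : (1 + z) - 1 = z := by ring
  rw [h4] at h3
  have hz1 : 1 + z ≠ 0 := one_add_ne_zero hz.le
  have hz0 : z ≠ 0 := fun h => by simp [h] at hz
  have h5 := eqOn_LFunctionResidueClassAux (q := 1) (a := 1) isUnit_one
    (show (1 + z) ∈ {s : ℂ | 1 < s.re} from hs)
  simp only [Nat.totient_one, Nat.cast_one, inv_one] at h5
  rw [h4] at h5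
  rw [h1, h2]
  have h6 : ∫ t in Ioi (0 : ℝ), ((hh t : ℝ) : ℂ) * cexp (-z * t)
      = LSeries (fun n => ((residueClass (1 : ZMod 1) n : ℝ) : ℂ)) (1 + z) / (1 + z) := by
    rw [h3]
    field_simp
  rw [h6]
  unfold pntGG
  rw [h5]
  field_simp
  ring

/-! ### Fubini -/

lemma integrable_K_shift {A : ℝ} (hA : 0 < A) (x : ℝ) :
    Integrable (fun t : ℝ => fejerK (A * (x - t))) :=
  (integrable_fejerK.comp_mul_left' hA.ne').comp_sub_left x

lemma measurable_gg : Measurable (fun t : ℝ => hh t - 1) := measurable_hh.sub_const 1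

lemma abs_gg_le (t : ℝ) : |hh t - 1| ≤ Real.log 4 + 5 := by
  have h1 := hh_nonneg t
  have h2 := hh_le t
  have h3 : 0 < Real.log 4 := Real.log_pos (by norm_num)
  rw [abs_le]
  constructor <;> linarith

lemma integrableOn_gg_exp {σ : ℝ} (hσ : 0 < σ) :
    IntegrableOn (fun t : ℝ => (hh t - 1) * Real.exp (-σ * t)) (Ioi 0) := by
  refine Integrable.bdd_mul (c := Real.log 4 + 5) (exp_neg_integrableOn_Ioi 0 hσ)
    measurable_gg.aestronglyMeasurable (ae_of_all _ fun t => ?_)
  rw [Real.norm_eq_abs]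
  exact abs_gg_le t

lemma integrable_phi : Integrable fejerPhi := by
  refine continuous_fejerPhi.integrable_of_hasCompactSupport ?_
  refine HasCompactSupport.intro (isCompact_Icc (a := (-1 : ℝ)) (b := 1)) fun v hv => ?_
  apply fejerPhi_eq_zero
  by_contra hlt
  push Not at hlt
  exact hv ⟨(abs_lt.mp hlt).1.le, (abs_lt.mp hlt).2.le⟩

/-- The key identity, for `σ > 0`. -/
lemma fubini_identity {A : ℝ} (x σ : ℝ) (hσ : 0 < σ) :
    ∫ v : ℝ, ((fejerPhi v : ℝ) : ℂ) * cexp (I * ((A * x : ℝ) : ℂ) * v)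
        * pntGG ((σ : ℂ) + I * ((A * v : ℝ) : ℂ))
      = ((∫ t in Ioi (0 : ℝ), (hh t - 1) * Real.exp (-σ * t) * fejerK (A * (x - t)) : ℝ) : ℂ) := by
  -- the integrand on the product
  let F : ℝ → ℝ → ℂ := fun v t => ((fejerPhi v : ℝ) : ℂ) * cexp (I * ((A * x : ℝ) : ℂ) * v)
      * (((hh t - 1 : ℝ) : ℂ) * cexp (-((σ : ℂ) + I * ((A * v : ℝ) : ℂ)) * t))
  have hF : ∀ v t, F v t = (((hh t - 1) * Real.exp (-σ * t) : ℝ) : ℂ)
      * (((fejerPhi v : ℝ) : ℂ) * cexp (I * ((A * (x - t) : ℝ) : ℂ) * v)) := by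
    intro v t
    simp only [F]
    have e : cexp (I * ((A * x : ℝ) : ℂ) * v)
        * cexp (-((σ : ℂ) + I * ((A * v : ℝ) : ℂ)) * t)
        = ((Real.exp (-σ * t) : ℝ) : ℂ) * cexp (I * ((A * (x - t) : ℝ) : ℂ) * v) := by
      rw [Complex.ofReal_exp, ← Complex.exp_add, ← Complex.exp_add]
      congr 1
      push_cast
      ring
    calc ((fejerPhi v : ℝ) : ℂ) * cexp (I * ((A * x : ℝ) : ℂ) * v)
          * (((hh t - 1 : ℝ) : ℂ) * cexp (-((σ : ℂ) + I * ((A * v : ℝ) : ℂ)) * t))
        = ((fejerPhi v : ℝ) : ℂ) * ((hh t - 1 : ℝ) : ℂ) * (cexp (I * ((A * x : ℝ) : ℂ) * v)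
          * cexp (-((σ : ℂ) + I * ((A * v : ℝ) : ℂ)) * t)) := by ring
      _ = _ := by
        rw [e]
        push_cast
        ring
  have hint : Integrable (Function.uncurry F)
      ((volume : Measure ℝ).prod ((volume : Measure ℝ).restrict (Ioi 0))) := by
    have h1 : Integrable (fun v : ℝ => ((fejerPhi v : ℝ) : ℂ)) := integrable_phi.ofReal
    have h2 : Integrable (fun t : ℝ => (((hh t - 1) * Real.exp (-σ * t) : ℝ) : ℂ))
        ((volume : Measure ℝ).restrict (Ioi 0)) := (integrableOn_gg_exp hσ).ofReal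
    have h3 := Integrable.mul_prod h1 h2
    have h4 := h3.mul_bdd (c := 1)
      (g := fun p : ℝ × ℝ => cexp (I * ((A * (x - p.2) : ℝ) : ℂ) * p.1))
      (Continuous.aestronglyMeasurable (by fun_prop))
      (ae_of_all _ fun p => by
        have : I * ((A * (x - p.2) : ℝ) : ℂ) * p.1 = ((A * (x - p.2) * p.1 : ℝ) : ℂ) * I := by
          push_cast
          ring
        rw [this, Complex.norm_exp_ofReal_mul_I])
    refine h4.congr (ae_of_all _ fun p => ?_)
    simp only [Function.uncurry, hF]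
    ring
  -- rewrite the left side
  have hL : ∀ v : ℝ, ((fejerPhi v : ℝ) : ℂ) * cexp (I * ((A * x : ℝ) : ℂ) * v)
        * pntGG ((σ : ℂ) + I * ((A * v : ℝ) : ℂ)) = ∫ t in Ioi (0 : ℝ), F v t := by
    intro v
    have hre : 0 < ((σ : ℂ) + I * ((A * v : ℝ) : ℂ)).re := by
      simpa using hσ
    rw [GG_eq hre, ← integral_const_mul]
  simp only [hL]
  rw [integral_integral_swap hint, ← integral_complex_ofReal]
  refine setIntegral_congr_fun measurableSet_Ioi fun t _ => ?_
  simp only [hF]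
  rw [integral_const_mul, fejer_fourier]
  push_cast
  ring

/-! ### The limit `σ → 0` -/

lemma continuous_GG_line {A : ℝ} {σ : ℝ} (hσ : 0 ≤ σ) :
    Continuous (fun v : ℝ => pntGG ((σ : ℂ) + I * ((A * v : ℝ) : ℂ))) := by
  refine continuousOn_GG.comp_continuous (by fun_prop) fun v => ?_
  simpa using hσ

lemma norm_phase (y v : ℝ) : ‖cexp (I * (y : ℂ) * v)‖ = 1 := by
  have : I * (y : ℂ) * v = ((y * v : ℝ) : ℂ) * I := by
    push_cast
    ring
  rw [this, Complex.norm_exp_ofReal_mul_I]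

lemma tendsto_left {A : ℝ} (x : ℝ) :
    Tendsto (fun σ : ℝ => ∫ v : ℝ, ((fejerPhi v : ℝ) : ℂ) * cexp (I * ((A * x : ℝ) : ℂ) * v)
        * pntGG ((σ : ℂ) + I * ((A * v : ℝ) : ℂ))) (𝓝[>] 0)
      (𝓝 (∫ v : ℝ, ((fejerPhi v : ℝ) : ℂ) * cexp (I * ((A * x : ℝ) : ℂ) * v)
        * pntGG (I * ((A * v : ℝ) : ℂ)))) := by
  -- a bound for `pntGG` on a compact rectangle
  have hcomp : IsCompact (Icc (0 : ℝ) 1 ×ˢ Icc (-1 : ℝ) 1) := isCompact_Icc.prod isCompact_Icc
  have hcont : ContinuousOn (fun p : ℝ × ℝ => pntGG ((p.1 : ℂ) + I * ((A * p.2 : ℝ) : ℂ)))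
      (Icc (0 : ℝ) 1 ×ˢ Icc (-1 : ℝ) 1) := by
    refine continuousOn_GG.comp (by fun_prop) fun p hp => ?_
    simpa using hp.1.1
  obtain ⟨C, hC⟩ := hcomp.exists_bound_of_continuousOn hcont
  have hev : ∀ᶠ σ : ℝ in 𝓝[>] 0, σ ∈ Ioo (0 : ℝ) 1 := Ioo_mem_nhdsGT (by norm_num)
  refine tendsto_integral_filter_of_dominated_convergence (fun v => fejerPhi v * C) ?_ ?_ ?_ ?_
  · filter_upwards [hev] with σ hσ
    have h1 := continuous_GG_line (A := A) hσ.1.le
    have h2 := continuous_fejerPhi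
    exact Continuous.aestronglyMeasurable (by fun_prop)
  · filter_upwards [hev] with σ hσ
    refine ae_of_all _ fun v => ?_
    by_cases hv : 1 ≤ |v|
    · rw [fejerPhi_eq_zero hv]
      simp
    · push Not at hv
      have hb := hC (σ, v) ⟨⟨hσ.1.le, hσ.2.le⟩, (abs_lt.mp hv).1.le, (abs_lt.mp hv).2.le⟩
      simp only at hb
      rw [norm_mul, norm_mul, norm_phase, Complex.norm_real, Real.norm_of_nonneg (fejerPhi_nonneg v),
        mul_one]
      exact mul_le_mul_of_nonneg_left hb (fejerPhi_nonneg v)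
  · exact integrable_phi.mul_const C
  · refine ae_of_all _ fun v => ?_
    refine Tendsto.const_mul _ ?_
    have hc : ContinuousWithinAt pntGG {z | 0 ≤ z.re} (I * ((A * v : ℝ) : ℂ)) :=
      continuousOn_GG _ (by simp)
    refine hc.tendsto.comp (tendsto_nhdsWithin_iff.mpr ⟨?_, ?_⟩)
    · have h : Continuous (fun σ : ℝ => (σ : ℂ) + I * ((A * v : ℝ) : ℂ)) := by fun_prop
      have h' := h.tendsto 0
      simp only [Complex.ofReal_zero, zero_add] at h'
      exact h'.mono_left nhdsWithin_le_nhds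
    · filter_upwards [self_mem_nhdsWithin] with σ hσ
      have hσ' : (0 : ℝ) < σ := hσ
      simpa using hσ'.le

lemma tendsto_right {A : ℝ} (hA : 0 < A) (x : ℝ) :
    Tendsto (fun σ : ℝ => ∫ t in Ioi (0 : ℝ), (hh t - 1) * Real.exp (-σ * t) * fejerK (A * (x - t)))
      (𝓝[>] 0) (𝓝 (∫ t in Ioi (0 : ℝ), (hh t - 1) * fejerK (A * (x - t)))) := by
  have hmeasK : Measurable (fun t : ℝ => fejerK (A * (x - t))) :=
    measurable_fejerK.comp (measurable_const.mul (measurable_const.sub measurable_id))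
  refine tendsto_integral_filter_of_dominated_convergence
    (fun t => (Real.log 4 + 5) * fejerK (A * (x - t))) ?_ ?_ ?_ ?_
  · refine Eventually.of_forall fun σ => ?_
    exact ((measurable_gg.mul (Real.measurable_exp.comp
      (measurable_const.mul measurable_id))).mul hmeasK).aestronglyMeasurable
  · filter_upwards [self_mem_nhdsWithin] with σ hσ
    have hσ' : (0 : ℝ) < σ := hσ
    refine (ae_restrict_iff' measurableSet_Ioi).mpr (ae_of_all _ fun t ht => ?_)
    have ht' : (0 : ℝ) < t := ht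
    have hexp : Real.exp (-σ * t) ≤ 1 := by
      rw [Real.exp_le_one_iff]
      nlinarith
    have hK := fejerK_nonneg (A * (x - t))
    rw [Real.norm_eq_abs, abs_mul, abs_mul, abs_of_pos (Real.exp_pos _), abs_of_nonneg hK]
    refine mul_le_mul_of_nonneg_right ?_ hK
    calc |hh t - 1| * Real.exp (-σ * t) ≤ (Real.log 4 + 5) * 1 :=
          mul_le_mul (abs_gg_le t) hexp (Real.exp_pos _).le (by
            have := Real.log_pos (show (1 : ℝ) < 4 by norm_num)
            linarith)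
      _ = Real.log 4 + 5 := mul_one _
  · exact ((integrable_K_shift hA x).const_mul _).restrict
  · refine ae_of_all _ fun t => ?_
    have h : Continuous (fun σ : ℝ => (hh t - 1) * Real.exp (-σ * t) * fejerK (A * (x - t))) := by
      fun_prop
    have h' := h.tendsto 0
    simp only [neg_zero, zero_mul, Real.exp_zero, mul_one] at h'
    exact h'.mono_left nhdsWithin_le_nhds

lemma limit_identity {A : ℝ} (hA : 0 < A) (x : ℝ) :
    ∫ v : ℝ, ((fejerPhi v : ℝ) : ℂ) * cexp (I * ((A * x : ℝ) : ℂ) * v)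
        * pntGG (I * ((A * v : ℝ) : ℂ))
      = ((∫ t in Ioi (0 : ℝ), (hh t - 1) * fejerK (A * (x - t)) : ℝ) : ℂ) := by
  refine tendsto_nhds_unique (tendsto_left x) ?_
  have h := (Complex.continuous_ofReal.tendsto _).comp (tendsto_right hA x)
  refine h.congr' ?_
  filter_upwards [self_mem_nhdsWithin] with σ hσ
  exact (fubini_identity x σ hσ).symm

lemma rl_limit {A : ℝ} (hA : 0 < A) :
    Tendsto (fun x : ℝ => ∫ v : ℝ, ((fejerPhi v : ℝ) : ℂ) * cexp (I * ((A * x : ℝ) : ℂ) * v)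
        * pntGG (I * ((A * v : ℝ) : ℂ))) atTop (𝓝 0) := by
  have h := Real.tendsto_integral_exp_smul_cocompact
    (fun v : ℝ => ((fejerPhi v : ℝ) : ℂ) * pntGG (I * ((A * v : ℝ) : ℂ)))
  have hpi : (0 : ℝ) < 2 * Real.pi := by positivity
  have hw : Tendsto (fun x : ℝ => -(A / (2 * Real.pi)) * x) atTop (cocompact ℝ) := by
    have h1 : Tendsto (fun x : ℝ => -(A / (2 * Real.pi)) * x) atTop atBot :=
      tendsto_id.const_mul_atTop_of_neg (by
        have : 0 < A / (2 * Real.pi) := div_pos hA hpi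
        linarith)
    exact h1.mono_right atBot_le_cocompact
  refine (h.comp hw).congr fun x => ?_
  simp only [Function.comp]
  refine integral_congr_ae (ae_of_all _ fun v => ?_)
  simp only [Circle.smul_def, Real.fourierChar_apply, smul_eq_mul]
  have e : 2 * Real.pi * -(v * (-(A / (2 * Real.pi)) * x)) = A * x * v := by
    field_simp
  rw [e]
  have e2 : ((A * x * v : ℝ) : ℂ) * I = I * ((A * x : ℝ) : ℂ) * v := by
    push_cast
    ring
  rw [e2]
  ring

/-- The output of the analytic part. -/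
lemma main_limit {A : ℝ} (hA : 0 < A) :
    Tendsto (fun x : ℝ => ∫ t in Ioi (0 : ℝ), (hh t - 1) * fejerK (A * (x - t))) atTop (𝓝 0) := by
  have h := rl_limit hA
  simp only [limit_identity hA] at h
  have h2 := (Complex.continuous_re.tendsto _).comp h
  simpa [Function.comp_def] using h2

end Vale.Agent.Lib.P031V
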