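import Mathlib
import Vale.Agent.Lib.P031V.PNTTransform

/-! # The Tauberian step (module for P031). -/

namespace Vale.Agent.Lib.P031V

open Filter Topology MeasureTheory Set

lemma integral_shift {A : ℝ} (hA : 0 < A) (f : ℝ → ℝ) (x : ℝ) :
    ∫ t, f (A * (x - t)) = A⁻¹ * ∫ v, f v := by
  have h1 := integral_sub_left_eq_self (fun y => f (A * y)) (volume : Measure ℝ) x
  rw [h1, Measure.integral_comp_mul_left, abs_of_pos (inv_pos.2 hA), smul_eq_mul]

/-- Truncated kernel. -/
noncomputable def KB (B : ℝ) (v : ℝ) : ℝ := (Ioc (-B) B).indicator fejerK v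

/-- Complementary kernel. -/
noncomputable def KC (B : ℝ) (v : ℝ) : ℝ := fejerK v - KB B v

lemma KB_nonneg (B v : ℝ) : 0 ≤ KB B v := indicator_nonneg (fun u _ => fejerK_nonneg u) v

lemma KB_le (B v : ℝ) : KB B v ≤ fejerK v :=
  indicator_le_self' (fun u _ => fejerK_nonneg u) v

lemma KC_nonneg (B v : ℝ) : 0 ≤ KC B v := sub_nonneg.mpr (KB_le B v)

lemma integrable_KB (B : ℝ) : Integrable (KB B) :=
  integrable_fejerK.indicator measurableSet_Ioc

lemma integrable_KC (B : ℝ) : Integrable (KC B) := integrable_fejerK.sub (integrable_KB B)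

lemma integrable_shift {A : ℝ} (hA : 0 < A) {f : ℝ → ℝ} (hf : Integrable f) (x : ℝ) :
    Integrable (fun t : ℝ => f (A * (x - t))) :=
  (hf.comp_mul_left' hA.ne').comp_sub_left x

/-- The two inequalities from monotonicity of `ψ`. -/
lemma tauber_ineq {A δ x : ℝ} (hA : 0 < A) (_hδ : 0 < δ) (hx : δ < x) :
    hh (x - δ) * Real.exp (-(2 * δ)) * (∫ v, KB (A * δ) v)
        ≤ A * (∫ t in Ioi (0 : ℝ), (hh t - 1) * fejerK (A * (x - t))) + ∫ v, fejerK v
    ∧ (∫ v, KB (A * δ) v) + A * (∫ t in Ioi (0 : ℝ), (hh t - 1) * fejerK (A * (x - t)))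
        ≤ hh (x + δ) * Real.exp (2 * δ) * (∫ v, KB (A * δ) v)
          + (Real.log 4 + 4) * ((∫ v, fejerK v) - ∫ v, KB (A * δ) v) := by
  set B := A * δ with hB
  have hKi := integrable_shift hA integrable_fejerK x
  have hKBi := integrable_shift hA (integrable_KB B) x
  have hKCi := integrable_shift hA (integrable_KC B) x
  have hmeasK : Measurable (fun t : ℝ => fejerK (A * (x - t))) :=
    measurable_fejerK.comp (measurable_const.mul (measurable_const.sub measurable_id))
  -- membership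
  have hmem : ∀ t : ℝ, A * (x - t) ∈ Ioc (-B) B → x - δ ≤ t ∧ t ≤ x + δ := by
    intro t ht
    have h1 : -(A * δ) < A * (x - t) := ht.1
    have h2 : A * (x - t) ≤ A * δ := ht.2
    have h3 : -δ < x - t := by
      by_contra hcon
      push Not at hcon
      have := mul_le_mul_of_nonneg_left hcon hA.le
      nlinarith
    have h4 : x - t ≤ δ := le_of_mul_le_mul_left h2 hA
    constructor <;> linarith
  have hmem' : ∀ t : ℝ, t ≤ 0 → KB B (A * (x - t)) = 0 := by
    intro t ht
    unfold KB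
    apply indicator_of_notMem
    intro hin
    have := (hmem t hin).1
    have hx' : 0 < x - δ := by linarith
    linarith
  -- the integrals
  have hPi : IntegrableOn (fun t : ℝ => hh t * fejerK (A * (x - t))) (Ioi 0) := by
    refine (hKi.restrict (s := Ioi 0)).bdd_mul (c := Real.log 4 + 4)
      measurable_hh.aestronglyMeasurable (ae_of_all _ fun t => ?_)
    rw [Real.norm_of_nonneg (hh_nonneg t)]
    exact hh_le t
  have hQi : IntegrableOn (fun t : ℝ => fejerK (A * (x - t))) (Ioi 0) := hKi.restrict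
  have hS : ∫ t in Ioi (0 : ℝ), (hh t - 1) * fejerK (A * (x - t))
      = (∫ t in Ioi (0 : ℝ), hh t * fejerK (A * (x - t)))
        - ∫ t in Ioi (0 : ℝ), fejerK (A * (x - t)) := by
    rw [← integral_sub hPi hQi]
    refine integral_congr_ae (ae_of_all _ fun t => ?_)
    simp only []
    ring
  have hKBint : ∫ t in Ioi (0 : ℝ), KB B (A * (x - t)) = A⁻¹ * ∫ v, KB B v := by
    rw [← integral_shift hA]
    apply setIntegral_eq_integral_of_forall_compl_eq_zero
    intro t ht
    exact hmem' t (by simpa using ht)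
  have hKall : ∫ t, fejerK (A * (x - t)) = A⁻¹ * ∫ v, fejerK v := integral_shift hA _ x
  have hKCall : ∫ t, KC B (A * (x - t)) = A⁻¹ * ((∫ v, fejerK v) - ∫ v, KB B v) := by
    rw [integral_shift hA]
    congr 1
    exact integral_sub integrable_fejerK (integrable_KB B)
  have hKBall : ∫ t, KB B (A * (x - t)) = A⁻¹ * ∫ v, KB B v := integral_shift hA _ x
  -- bounds on Q
  have hQup : ∫ t in Ioi (0 : ℝ), fejerK (A * (x - t)) ≤ A⁻¹ * ∫ v, fejerK v := by
    rw [← hKall]
    exact setIntegral_le_integral hKi (ae_of_all _ fun t => fejerK_nonneg _)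
  have hQlow : A⁻¹ * (∫ v, KB B v) ≤ ∫ t in Ioi (0 : ℝ), fejerK (A * (x - t)) := by
    rw [← hKBint]
    exact setIntegral_mono hKBi.restrict hQi (fun t => KB_le B _)
  have hApos : A * A⁻¹ = 1 := mul_inv_cancel₀ hA.ne'
  constructor
  · -- upper bound for `hh`
    have hb : 0 ≤ hh (x - δ) * Real.exp (-(2 * δ)) :=
      mul_nonneg (hh_nonneg _) (Real.exp_pos _).le
    have hP : hh (x - δ) * Real.exp (-(2 * δ)) * (A⁻¹ * ∫ v, KB B v)
        ≤ ∫ t in Ioi (0 : ℝ), hh t * fejerK (A * (x - t)) := by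
      rw [← hKBint, ← integral_const_mul]
      refine setIntegral_mono_on ((hKBi.restrict).const_mul _) hPi measurableSet_Ioi fun t _ => ?_
      by_cases hin : A * (x - t) ∈ Ioc (-B) B
      · have hm := hmem t hin
        have h1 : KB B (A * (x - t)) = fejerK (A * (x - t)) := indicator_of_mem hin _
        rw [h1]
        exact mul_le_mul_of_nonneg_right (hh_lower hm.1 hm.2) (fejerK_nonneg _)
      · have h1 : KB B (A * (x - t)) = 0 := indicator_of_notMem hin _
        rw [h1, mul_zero]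
        exact mul_nonneg (hh_nonneg _) (fejerK_nonneg _)
    rw [hS]
    have := mul_le_mul_of_nonneg_left hP hA.le
    have h5 := mul_le_mul_of_nonneg_left hQup hA.le
    have e1 : A * (hh (x - δ) * Real.exp (-(2 * δ)) * (A⁻¹ * ∫ v, KB B v))
        = hh (x - δ) * Real.exp (-(2 * δ)) * (∫ v, KB B v) := by
      calc _ = hh (x - δ) * Real.exp (-(2 * δ)) * (A * A⁻¹) * (∫ v, KB B v) := by ring
        _ = _ := by rw [hApos, mul_one]
    have e2 : A * (A⁻¹ * ∫ v, fejerK v) = ∫ v, fejerK v := by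
      rw [← mul_assoc, hApos, one_mul]
    rw [e1] at this
    rw [e2] at h5
    rw [mul_sub]
    linarith
  · -- lower bound for `hh`
    have hP : ∫ t in Ioi (0 : ℝ), hh t * fejerK (A * (x - t))
        ≤ hh (x + δ) * Real.exp (2 * δ) * (A⁻¹ * ∫ v, KB B v)
          + (Real.log 4 + 4) * (A⁻¹ * ((∫ v, fejerK v) - ∫ v, KB B v)) := by
      have hi := (hKBi.const_mul (hh (x + δ) * Real.exp (2 * δ))).add
        (hKCi.const_mul (Real.log 4 + 4))
      have e : hh (x + δ) * Real.exp (2 * δ) * (A⁻¹ * ∫ v, KB B v)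
          + (Real.log 4 + 4) * (A⁻¹ * ((∫ v, fejerK v) - ∫ v, KB B v))
          = ∫ t, (hh (x + δ) * Real.exp (2 * δ) * KB B (A * (x - t))
              + (Real.log 4 + 4) * KC B (A * (x - t))) := by
        rw [integral_add (hKBi.const_mul _) (hKCi.const_mul _), integral_const_mul,
          integral_const_mul, hKBall, hKCall]
      rw [e]
      have hnn : ∀ t, 0 ≤ hh (x + δ) * Real.exp (2 * δ) * KB B (A * (x - t))
              + (Real.log 4 + 4) * KC B (A * (x - t)) := fun t =>
        add_nonneg (mul_nonneg (mul_nonneg (hh_nonneg _) (Real.exp_pos _).le) (KB_nonneg _ _))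
          (mul_nonneg const_pos.le (KC_nonneg _ _))
      refine le_trans ?_ (setIntegral_le_integral (s := Ioi 0) hi (ae_of_all _ hnn))
      refine setIntegral_mono_on hPi hi.restrict measurableSet_Ioi fun t _ => ?_
      by_cases hin : A * (x - t) ∈ Ioc (-B) B
      · have hm := hmem t hin
        have h1 : KB B (A * (x - t)) = fejerK (A * (x - t)) := indicator_of_mem hin _
        have h2 : KC B (A * (x - t)) = 0 := by
          unfold KC
          rw [h1, sub_self]
        rw [h1, h2, mul_zero, add_zero]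
        exact mul_le_mul_of_nonneg_right (hh_upper hm.1 hm.2) (fejerK_nonneg _)
      · have h1 : KB B (A * (x - t)) = 0 := indicator_of_notMem hin _
        have h2 : KC B (A * (x - t)) = fejerK (A * (x - t)) := by
          unfold KC
          rw [h1, sub_zero]
        rw [h1, h2, mul_zero, zero_add]
        exact mul_le_mul_of_nonneg_right (hh_le t) (fejerK_nonneg _)
    rw [hS]
    have h5 := mul_le_mul_of_nonneg_left hQlow hA.le
    have h6 := mul_le_mul_of_nonneg_left hP hA.le
    have e2 : A * (A⁻¹ * ∫ v, KB B v) = ∫ v, KB B v := by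
      rw [← mul_assoc, hApos, one_mul]
    have e3 : A * (hh (x + δ) * Real.exp (2 * δ) * (A⁻¹ * ∫ v, KB B v)
          + (Real.log 4 + 4) * (A⁻¹ * ((∫ v, fejerK v) - ∫ v, KB B v)))
        = hh (x + δ) * Real.exp (2 * δ) * (∫ v, KB B v)
          + (Real.log 4 + 4) * ((∫ v, fejerK v) - ∫ v, KB B v) := by
      calc _ = (A * A⁻¹) * (hh (x + δ) * Real.exp (2 * δ) * (∫ v, KB B v)
          + (Real.log 4 + 4) * ((∫ v, fejerK v) - ∫ v, KB B v)) := by ring
        _ = _ := by rw [hApos, one_mul]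
    rw [e2] at h5
    rw [e3] at h6
    rw [mul_sub]
    linarith

lemma arith_lower {C η ε E κ κB S y : ℝ} (hC1 : 1 ≤ C) (hηpos : 0 < η)
    (hη12 : 12 * (C + 1) * η = ε) (hεle : ε ≤ 1) (hεpos : 0 < ε) (hE : E = 1 + ε / 3)
    (hκpos : 0 < κ) (hB1 : (1 - η) * κ < κB) (hS : -(η * κ) ≤ S)
    (hineq : κB + S ≤ y * E * κB + C * (κ - κB)) : 1 - ε < y := by
  have hηle : η ≤ ε / 24 := by
    have : 24 * η ≤ ε := by nlinarith
    linarith
  have hEpos : 0 < E := by
    rw [hE]
    positivity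
  have hηlt : η < 1 := by linarith
  have hκBpos : 0 < κB := by
    have : 0 < (1 - η) * κ := by
      apply mul_pos <;> linarith
    linarith
  have hκ2 : κ ≤ 2 * κB := by nlinarith
  have h3 : κB * (1 - 2 * (C + 1) * η) ≤ y * E * κB := by
    have h4 : κ - κB ≤ η * κ := by nlinarith
    have h5 : C * (κ - κB) ≤ C * (η * κ) := mul_le_mul_of_nonneg_left h4 (by linarith)
    have h6 : (C + 1) * (η * κ) ≤ (C + 1) * (η * (2 * κB)) :=
      mul_le_mul_of_nonneg_left (mul_le_mul_of_nonneg_left hκ2 hηpos.le) (by linarith)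
    nlinarith
  have h7 : 1 - 2 * (C + 1) * η ≤ y * E := by
    have : κB * (1 - 2 * (C + 1) * η) ≤ κB * (y * E) := by linarith
    exact le_of_mul_le_mul_left this hκBpos
  have h8 : 2 * (C + 1) * η = ε / 6 := by linarith
  have h9 : 1 - ε / 6 ≤ y * E := by linarith
  by_contra hcon
  push Not at hcon
  have h11 : y * E ≤ (1 - ε) * E := mul_le_mul_of_nonneg_right hcon hEpos.le
  have h12 : (1 - ε) * E < 1 - ε / 6 := by
    rw [hE]
    nlinarith
  linarith

lemma arith_upper {C η ε E κ κB S y : ℝ} (hC1 : 1 ≤ C) (hηpos : 0 < η)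
    (hη12 : 12 * (C + 1) * η = ε) (hεle : ε ≤ 1) (hεpos : 0 < ε) (hE : E = 1 + ε / 3)
    (hκpos : 0 < κ) (hB1 : (1 - η) * κ < κB) (hS : S ≤ η * κ) (hyn : 0 ≤ y)
    (hineq : y * E⁻¹ * κB ≤ S + κ) : y < 1 + ε := by
  have hηle : η ≤ ε / 24 := by
    have : 24 * η ≤ ε := by nlinarith
    linarith
  have hEpos : 0 < E := by
    rw [hE]
    positivity
  have hηlt : η < 1 := by linarith
  have h3 : y * E⁻¹ * κB ≤ (1 + η) * κ := by nlinarith
  have h4 : y * E⁻¹ * ((1 - η) * κ) ≤ (1 + η) * κ := by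
    refine le_trans (mul_le_mul_of_nonneg_left hB1.le ?_) h3
    exact mul_nonneg hyn (inv_pos.mpr hEpos).le
  have h5 : y * E⁻¹ * (1 - η) ≤ 1 + η := by
    have : κ * (y * E⁻¹ * (1 - η)) ≤ κ * (1 + η) := by nlinarith
    exact le_of_mul_le_mul_left this hκpos
  have h6 : y * (1 - η) ≤ (1 + η) * E := by
    have h7 : y * E⁻¹ * (1 - η) * E ≤ (1 + η) * E :=
      mul_le_mul_of_nonneg_right h5 hEpos.le
    have h8 : y * E⁻¹ * (1 - η) * E = y * (1 - η) := by
      field_simp
    linarith
  have h9 : 1 + η ≤ E * (1 - η) := by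
    rw [hE]
    nlinarith
  have h10 : y * (1 - η) ≤ E * E * (1 - η) := by
    have := mul_le_mul_of_nonneg_right h9 hEpos.le
    nlinarith
  have h11 : y ≤ E * E := le_of_mul_le_mul_right h10 (by linarith)
  have h12 : E * E < 1 + ε := by
    rw [hE]
    nlinarith
  linarith

/-- Choice of the cutoff. -/
lemma exists_cutoff {η : ℝ} (hηpos : 0 < η) :
    ∃ B : ℝ, 0 < B ∧ (1 - η) * (∫ v, fejerK v) < ∫ v, KB B v := by
  have hκpos : 0 < ∫ v, fejerK v := integral_fejerK_pos
  have htail : ∀ᶠ B : ℝ in atTop, (1 - η) * (∫ v, fejerK v) < ∫ v, KB B v := by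
    have h1 := intervalIntegral_tendsto_integral (μ := volume) integrable_fejerK
      (a := fun B : ℝ => -B) (b := fun B : ℝ => B) tendsto_neg_atTop_atBot tendsto_id
    have hlt : (1 - η) * (∫ v, fejerK v) < ∫ v, fejerK v := by nlinarith
    filter_upwards [h1.eventually (lt_mem_nhds hlt), eventually_gt_atTop 0] with B hB hB0
    have e : ∫ v in (-B)..B, fejerK v = ∫ v, KB B v := by
      rw [intervalIntegral.integral_of_le (by linarith)]
      exact (integral_indicator measurableSet_Ioc).symm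
    rwa [e] at hB
  obtain ⟨B, hB1, hB0⟩ := (htail.and (eventually_gt_atTop 0)).exists
  exact ⟨B, hB0, hB1⟩

/-- The Tauberian conclusion for fixed small `ε`. -/
lemma hh_eventually {ε : ℝ} (hεpos : 0 < ε) (hεle : ε ≤ 1) :
    ∀ᶠ y : ℝ in atTop, 1 - ε < hh y ∧ hh y < 1 + ε := by
  have hC1 : 1 ≤ Real.log 4 + 4 := by
    have := Real.log_pos (show (1 : ℝ) < 4 by norm_num)
    linarith
  obtain ⟨η, hη⟩ : ∃ η : ℝ, η = ε / (12 * (Real.log 4 + 4 + 1)) := ⟨_, rfl⟩
  have hηpos : 0 < η := by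
    rw [hη]
    positivity
  have hη12 : 12 * (Real.log 4 + 4 + 1) * η = ε := by
    rw [hη]
    field_simp
  obtain ⟨E, hE⟩ : ∃ E : ℝ, E = 1 + ε / 3 := ⟨_, rfl⟩
  have hEpos : 0 < E := by
    rw [hE]
    positivity
  have hE1 : 1 < E := by
    rw [hE]
    linarith
  obtain ⟨δ, hδ⟩ : ∃ δ : ℝ, δ = Real.log E / 2 := ⟨_, rfl⟩
  have hδpos : 0 < δ := by
    have := Real.log_pos hE1
    rw [hδ]
    positivity
  have hexp1 : Real.exp (2 * δ) = E := by
    have : 2 * δ = Real.log E := by
      rw [hδ]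
      ring
    rw [this, Real.exp_log hEpos]
  have hexp2 : Real.exp (-(2 * δ)) = E⁻¹ := by
    rw [Real.exp_neg, hexp1]
  obtain ⟨B, hB0, hB1⟩ := exists_cutoff hηpos
  obtain ⟨A, hA⟩ : ∃ A : ℝ, A = B / δ := ⟨_, rfl⟩
  have hApos : 0 < A := by
    rw [hA]
    exact div_pos hB0 hδpos
  have hAδ : A * δ = B := by
    rw [hA]
    field_simp
  have hκpos : 0 < ∫ v, fejerK v := integral_fejerK_pos
  have hlim' : ∀ᶠ x : ℝ in atTop,
      |A * ∫ t in Ioi (0 : ℝ), (hh t - 1) * fejerK (A * (x - t))| ≤ η * ∫ v, fejerK v := by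
    have h2 : Tendsto (fun x : ℝ => A * ∫ t in Ioi (0 : ℝ), (hh t - 1) * fejerK (A * (x - t)))
        atTop (𝓝 0) := by
      simpa using (main_limit hApos).const_mul A
    have hpos : 0 < η * ∫ v, fejerK v := mul_pos hηpos hκpos
    have := (Metric.tendsto_nhds.mp h2) _ hpos
    filter_upwards [this] with x hx
    rw [Real.dist_eq, sub_zero] at hx
    exact hx.le
  obtain ⟨X, hX⟩ := eventually_atTop.mp hlim'
  filter_upwards [eventually_ge_atTop (max (X + δ) (2 * δ + 1))] with y hy
  have hy1 : X + δ ≤ y := (le_max_left _ _).trans hy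
  have hy2 : 2 * δ + 1 ≤ y := (le_max_right _ _).trans hy
  constructor
  · have hx1 : δ < y - δ := by linarith
    have hS := hX (y - δ) (by linarith)
    have hineq := (tauber_ineq hApos hδpos hx1).2
    rw [hAδ, hexp1, show y - δ + δ = y by ring] at hineq
    exact arith_lower hC1 hηpos hη12 hεle hεpos hE hκpos hB1 (abs_le.mp hS).1 hineq
  · have hx1 : δ < y + δ := by linarith
    have hS := hX (y + δ) (by linarith)
    have hineq := (tauber_ineq hApos hδpos hx1).1
    rw [hAδ, hexp2, show y + δ - δ = y by ring] at hineq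
    exact arith_upper hC1 hηpos hη12 hεle hεpos hE hκpos hB1 (abs_le.mp hS).2 (hh_nonneg y) hineq

/-- The Tauberian conclusion: `ψ(e^t) e^{-t} → 1`. -/
theorem hh_tendsto : Tendsto hh atTop (𝓝 1) := by
  rw [Metric.tendsto_nhds]
  intro ε0 hε0
  have hεpos : 0 < min ε0 1 := lt_min hε0 one_pos
  filter_upwards [hh_eventually hεpos (min_le_right _ _)] with y hy
  have h := min_le_left ε0 1
  rw [Real.dist_eq, abs_lt]
  constructor <;> linarith [hy.1, hy.2]

end Vale.Agent.Lib.P031V
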