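import Mathlib
import Vale.Agent.Lib.P031V.PNTTaub

/-! # Prime number theorem (module for P031). See notes/P031_PNT.md for the paper proof. -/

namespace Vale.Agent.Lib.P031V

open Filter Topology

/-- `ψ(x)/x → 1`. -/
theorem psi_div_tendsto : Tendsto (fun x : ℝ => Chebyshev.psi x / x) atTop (𝓝 1) := by
  refine (hh_tendsto.comp Real.tendsto_log_atTop).congr' ?_
  filter_upwards [eventually_gt_atTop 0] with x hx
  simp only [Function.comp, hh]
  rw [Real.exp_log hx, Real.exp_neg, Real.exp_log hx, div_eq_mul_inv]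

/-- `log x / √x → 0`. -/
lemma log_div_sqrt_tendsto : Tendsto (fun x : ℝ => Real.log x / Real.sqrt x) atTop (𝓝 0) := by
  have h := (isLittleO_log_rpow_atTop (r := 1 / 2) (by norm_num)).tendsto_div_nhds_zero
  refine h.congr' ?_
  filter_upwards [eventually_ge_atTop 0] with x hx
  rw [Real.sqrt_eq_rpow]

/-- `θ(x)/x → 1`. -/
theorem theta_div_tendsto : Tendsto (fun x : ℝ => Chebyshev.theta x / x) atTop (𝓝 1) := by
  have h0 : Tendsto (fun x : ℝ => (Chebyshev.psi x - Chebyshev.theta x) / x) atTop (𝓝 0) := by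
    have hb : Tendsto (fun x : ℝ => 2 * (Real.log x / Real.sqrt x)) atTop (𝓝 0) := by
      simpa using log_div_sqrt_tendsto.const_mul 2
    refine squeeze_zero_norm' ?_ hb
    filter_upwards [eventually_gt_atTop 1] with x hx
    have hx0 : 0 < x := by linarith
    rw [norm_div, Real.norm_eq_abs, Real.norm_of_nonneg hx0.le]
    have h1 := Chebyshev.abs_psi_sub_theta_le_sqrt_mul_log hx.le
    have hs : 0 < Real.sqrt x := Real.sqrt_pos.mpr hx0
    rw [div_le_iff₀ hx0]
    have e : 2 * (Real.log x / Real.sqrt x) * x = 2 * Real.sqrt x * Real.log x := by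
      have hss : Real.sqrt x ^ 2 = x := Real.sq_sqrt hx0.le
      field_simp
      rw [hss]
    rw [e]
    exact h1
  have h := psi_div_tendsto.sub h0
  simp only [sub_zero] at h
  refine h.congr fun x => ?_
  ring

/-- The prime number theorem. -/
theorem pnt : Tendsto (fun x : ℝ => (Nat.primeCounting ⌊x⌋₊ : ℝ) * Real.log x / x) atTop (𝓝 1) := by
  have hO := Chebyshev.primeCounting_sub_theta_div_log_isBigO
  have hc := hO.mul (Asymptotics.isBigO_refl (fun x : ℝ => Real.log x / x) atTop)
  have hlim : Tendsto (fun x : ℝ => x / Real.log x ^ 2 * (Real.log x / x)) atTop (𝓝 0) := by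
    have h1 : Tendsto (fun x : ℝ => (Real.log x)⁻¹) atTop (𝓝 0) :=
      Real.tendsto_log_atTop.inv_tendsto_atTop
    refine h1.congr' ?_
    filter_upwards [eventually_gt_atTop 1] with x hx
    have hx0 : x ≠ 0 := by linarith
    have hl : Real.log x ≠ 0 := (Real.log_pos hx).ne'
    field_simp
  have h0 := hc.trans_tendsto hlim
  have h := h0.add theta_div_tendsto
  simp only [zero_add] at h
  refine h.congr' ?_
  filter_upwards [eventually_gt_atTop 1] with x hx
  have hx0 : x ≠ 0 := by linarith
  have hl : Real.log x ≠ 0 := (Real.log_pos hx).ne'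
  field_simp
  ring

lemma log_ratio_tendsto {c : ℝ} (hc : 0 < c) :
    Tendsto (fun X : ℝ => Real.log X / Real.log (c * X)) atTop (𝓝 1) := by
  have h1 : Tendsto (fun X : ℝ => Real.log c + Real.log X) atTop atTop :=
    tendsto_atTop_add_const_left _ _ Real.tendsto_log_atTop
  have h2 : Tendsto (fun X : ℝ => Real.log c / (Real.log c + Real.log X)) atTop (𝓝 0) :=
    h1.const_div_atTop _
  have h3 := (tendsto_const_nhds (x := (1 : ℝ))).sub h2
  simp only [sub_zero] at h3
  refine h3.congr' ?_
  filter_upwards [eventually_gt_atTop 0, h1.eventually_gt_atTop 0] with X hX hX2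
  rw [Real.log_mul hc.ne' hX.ne']
  field_simp
  ring

/-- Ratio form: primes in `(X, cX]`. -/
theorem pnt_interval (c : ℝ) (hc : 1 < c) :
    Tendsto (fun X : ℝ => ((Nat.primeCounting ⌊c * X⌋₊ : ℝ) - (Nat.primeCounting ⌊X⌋₊ : ℝ)) * Real.log X / X)
      atTop (𝓝 (c - 1)) := by
  have hc0 : 0 < c := by linarith
  have h1 : Tendsto (fun X : ℝ => (Nat.primeCounting ⌊c * X⌋₊ : ℝ) * Real.log (c * X) / (c * X))
      atTop (𝓝 1) := pnt.comp (tendsto_id.const_mul_atTop hc0)
  have h2 := (h1.mul_const c).mul (log_ratio_tendsto hc0)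
  have h3 := h2.sub pnt
  simp only [one_mul, mul_one] at h3
  refine h3.congr' ?_
  filter_upwards [eventually_gt_atTop 1,
    (tendsto_id.const_mul_atTop hc0).eventually_gt_atTop 1] with X hX hX2
  have hX0 : X ≠ 0 := by linarith
  have hl : Real.log (c * X) ≠ 0 := (Real.log_pos hX2).ne'
  field_simp

end Vale.Agent.Lib.P031V
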