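import Vale.Agent.Lib.P031V.ThmB
import Vale.Agent.Lib.P031V.PNT

/-! # P031: lower bound of Theorem A, blueprint section 7. -/

namespace Vale.Agent.Lib.P031V
open Real Finset
open scoped Classical
noncomputable section

private lemma log_x_bounds {N : ℕ} {x : ℝ} (hx : 1 < x) (h : |levR x - N| ≤ 2) :
    Real.exp ((N : ℝ) - 2) ≤ Real.log x ∧ Real.log x ≤ Real.exp ((N : ℝ) + 2) := by
  have hl : 0 < Real.log x := Real.log_pos hx
  have h1 := abs_le.mp h
  have e : Real.exp (levR x) = Real.log x := by simp [levR, Real.exp_log hl]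
  constructor
  · rw [← e]; exact Real.exp_le_exp.mpr (by linarith [h1.1])
  · rw [← e]; exact Real.exp_le_exp.mpr (by linarith [h1.2])

private lemma exp_two_le : Real.exp 2 ≤ 8 := by
  have h := Real.exp_one_lt_d9
  have e : Real.exp 2 = Real.exp 1 * Real.exp 1 := by
    rw [← Real.exp_add]; norm_num
  rw [e]
  have h0 : 0 < Real.exp 1 := Real.exp_pos 1
  nlinarith

/-- Size of the tail. -/
private lemma log_m_le {N m : ℕ} {x : ℝ} (hN : 5 ≤ N) (hN3 : (N : ℝ) ^ 3 ≤ Real.exp N) (hx : 1 < x)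
    (h : |levR x - N| ≤ 2) (hm0 : m ≠ 0) (hm : m < Bnd N) :
    Real.log m ≤ Real.log x / 4 := by
  have hN0 : (0 : ℝ) < N := by positivity
  have hN5 : (5 : ℝ) ≤ N := by exact_mod_cast hN
  have hN3pos : (0 : ℝ) < (N : ℝ) ^ 3 := by positivity
  have hA : 1 ≤ Real.exp N / (N : ℝ) ^ 3 := by rwa [one_le_div hN3pos]
  have hY : 1 ≤ Ymax N := by
    unfold Ymax
    exact Real.one_le_exp (by linarith)
  have hle : m ≤ ⌈(Ymax N) ^ 2⌉₊ := by
    unfold Bnd at hm; omega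
  have h1 : (m : ℝ) ≤ (Ymax N) ^ 2 + 1 := by
    have h2 : (m : ℝ) ≤ (⌈(Ymax N) ^ 2⌉₊ : ℝ) := by exact_mod_cast hle
    have h3 := Nat.ceil_lt_add_one (a := (Ymax N) ^ 2) (by positivity)
    linarith
  have h2 : (m : ℝ) ≤ 2 * (Ymax N) ^ 2 := by nlinarith
  have hm1 : (0 : ℝ) < m := by exact_mod_cast Nat.pos_of_ne_zero hm0
  have h3 : Real.log m ≤ Real.log (2 * (Ymax N) ^ 2) := Real.log_le_log hm1 h2
  have h4 : Real.log (2 * (Ymax N) ^ 2) = Real.log 2 + 2 * (Real.exp N / (N : ℝ) ^ 3) := by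
    rw [Real.log_mul (by norm_num) (by positivity), Real.log_pow]
    unfold Ymax
    rw [Real.log_exp]
    norm_num
  have h5 : Real.log 2 ≤ 1 := by
    have := Real.log_two_lt_d9
    linarith
  have h6 : Real.log m ≤ 3 * (Real.exp N / (N : ℝ) ^ 3) := by
    rw [h4] at h3
    linarith
  have hb := (log_x_bounds hx h).1
  have e : Real.exp N = Real.exp ((N : ℝ) - 2) * Real.exp 2 := by
    rw [← Real.exp_add]; congr 1; ring
  have hexp2 := exp_two_le
  have hNc : (125 : ℝ) ≤ (N : ℝ) ^ 3 := by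
    have : (5 : ℝ) ^ 3 ≤ (N : ℝ) ^ 3 := by gcongr
    linarith [this]
  have h7 : 3 * (Real.exp N / (N : ℝ) ^ 3) ≤ Real.exp ((N : ℝ) - 2) / 4 := by
    have hE := Real.exp_pos ((N : ℝ) - 2)
    rw [e, mul_div_assoc', div_le_iff₀ hN3pos]
    have : Real.exp ((N : ℝ) - 2) * Real.exp 2 * 3 ≤ Real.exp ((N : ℝ) - 2) * 24 := by nlinarith
    have h8 : Real.exp ((N : ℝ) - 2) * 24 ≤ Real.exp ((N : ℝ) - 2) / 4 * (N : ℝ) ^ 3 := by
      nlinarith
    nlinarith
  linarith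

private lemma primeCounting_le_add (a b : ℕ) :
    Nat.primeCounting b ≤ Nat.primeCounting a + ((Finset.Ioc a b).filter Nat.Prime).card := by
  have e : ∀ n : ℕ, Nat.primeCounting n = ((Finset.range (n + 1)).filter Nat.Prime).card := by
    intro n
    simp [Nat.primeCounting, Nat.primeCounting', Nat.count_eq_card_filter_range]
  rw [e, e]
  have hsub : (Finset.range (b + 1)).filter Nat.Prime ⊆
      (Finset.range (a + 1)).filter Nat.Prime ∪ (Finset.Ioc a b).filter Nat.Prime := by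
    intro p hp
    simp only [Finset.mem_filter, Finset.mem_range, Finset.mem_union, Finset.mem_Ioc] at hp ⊢
    by_cases h : p ≤ a
    · left; exact ⟨by omega, hp.2⟩
    · right; exact ⟨⟨by omega, by omega⟩, hp.2⟩
  exact (Finset.card_le_card hsub).trans (Finset.card_union_le _ _)

private lemma clean_mul_split {N k m : ℕ} (hm : Clean N m) (hnot : ¬ Clean N (k * m)) :
    ∃ r : ℕ, r.Prime ∧ ts N < lev r ∧ ((r ∣ m ∧ r ∣ k) ∨ r ^ 2 ∣ k) := by
  unfold Clean at hnot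
  push Not at hnot
  obtain ⟨r, hr, hl, hd⟩ := hnot
  refine ⟨r, hr, hl, ?_⟩
  by_cases hrm : r ∣ m
  · left
    refine ⟨hrm, ?_⟩
    by_contra hrk
    have h1 : Nat.Coprime (r ^ 2) k :=
      Nat.Coprime.pow_left 2 ((Nat.Prime.coprime_iff_not_dvd hr).mpr hrk)
    exact hm r hr hl (h1.dvd_of_dvd_mul_left hd)
  · right
    have h1 : Nat.Coprime (r ^ 2) m :=
      Nat.Coprime.pow_left 2 ((Nat.Prime.coprime_iff_not_dvd hr).mpr hrm)
    exact h1.dvd_of_dvd_mul_right hd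

private lemma card_multiples_le (K d : ℕ) :
    (((Finset.Ioc 0 K).filter (fun k => d ∣ k)).card : ℝ) ≤ (K : ℝ) / d := by
  rw [Nat.Ioc_filter_dvd_card_eq_div]
  exact Nat.cast_div_le

private lemma dirty_card (N m K R : ℕ) (hR : 0 < R) (hRr : ∀ r : ℕ, r.Prime → ts N < lev r → R ≤ r)
    (hm : Clean N m) :
    (((Finset.Ioc 0 K).filter (fun k => ¬ Clean N (k * m))).card : ℝ)
      ≤ (K : ℝ) * ((m.primeFactors.card : ℝ) + 2) / R := by
  set A := m.primeFactors.filter (fun r => ts N < lev r) with hA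
  set B := (Finset.Ioo (R - 1) (K + 1)).filter (fun r => r.Prime ∧ ts N < lev r) with hB
  have hsub : (Finset.Ioc 0 K).filter (fun k => ¬ Clean N (k * m)) ⊆
      (A.biUnion fun r => (Finset.Ioc 0 K).filter (fun k => r ∣ k)) ∪
      (B.biUnion fun r => (Finset.Ioc 0 K).filter (fun k => r ^ 2 ∣ k)) := by
    intro k hk
    simp only [Finset.mem_filter, Finset.mem_Ioc] at hk
    obtain ⟨⟨hk0, hkK⟩, hnot⟩ := hk
    obtain ⟨r, hr, hl, hd⟩ := clean_mul_split hm hnot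
    simp only [Finset.mem_union, Finset.mem_biUnion, Finset.mem_filter, Finset.mem_Ioc]
    rcases hd with ⟨hrm, hrk⟩ | hrk
    · left
      refine ⟨r, ?_, ⟨hk0, hkK⟩, hrk⟩
      rw [hA, Finset.mem_filter]
      refine ⟨?_, hl⟩
      by_cases hm0 : m = 0
      · subst hm0
        exact absurd (dvd_zero _) (hm r hr hl)
      · exact Nat.mem_primeFactors.mpr ⟨hr, hrm, hm0⟩
    · right
      refine ⟨r, ?_, ⟨hk0, hkK⟩, hrk⟩
      rw [hB, Finset.mem_filter, Finset.mem_Ioo]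
      refine ⟨⟨?_, ?_⟩, hr, hl⟩
      · have := hRr r hr hl
        omega
      · have h1 : r ^ 2 ≤ k := Nat.le_of_dvd hk0 hrk
        have h2 : r ≤ r ^ 2 := Nat.le_self_pow (by norm_num) r
        omega
  have hRpos : (0 : ℝ) < R := by exact_mod_cast hR
  have hcard := (Finset.card_le_card hsub).trans (Finset.card_union_le _ _)
  have h1 : ((A.biUnion fun r => (Finset.Ioc 0 K).filter (fun k => r ∣ k)).card : ℝ)
      ≤ (K : ℝ) * (m.primeFactors.card : ℝ) / R := by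
    calc ((A.biUnion fun r => (Finset.Ioc 0 K).filter (fun k => r ∣ k)).card : ℝ)
        ≤ ∑ r ∈ A, (((Finset.Ioc 0 K).filter (fun k => r ∣ k)).card : ℝ) := by
          exact_mod_cast Finset.card_biUnion_le
      _ ≤ ∑ r ∈ A, (K : ℝ) / R := by
          refine Finset.sum_le_sum fun r hr => (card_multiples_le K r).trans ?_
          rw [hA, Finset.mem_filter] at hr
          have hrp : r.Prime := Nat.prime_of_mem_primeFactors hr.1
          have : (R : ℝ) ≤ r := by exact_mod_cast hRr r hrp hr.2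
          gcongr
      _ = (A.card : ℝ) * ((K : ℝ) / R) := by rw [Finset.sum_const, nsmul_eq_mul]
      _ ≤ (m.primeFactors.card : ℝ) * ((K : ℝ) / R) := by
          have : (A.card : ℝ) ≤ (m.primeFactors.card : ℝ) := by
            exact_mod_cast Finset.card_filter_le _ _
          gcongr
      _ = (K : ℝ) * (m.primeFactors.card : ℝ) / R := by ring
  have h2 : ((B.biUnion fun r => (Finset.Ioc 0 K).filter (fun k => r ^ 2 ∣ k)).card : ℝ)
      ≤ (K : ℝ) * 2 / R := by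
    calc ((B.biUnion fun r => (Finset.Ioc 0 K).filter (fun k => r ^ 2 ∣ k)).card : ℝ)
        ≤ ∑ r ∈ B, (((Finset.Ioc 0 K).filter (fun k => r ^ 2 ∣ k)).card : ℝ) := by
          exact_mod_cast Finset.card_biUnion_le
      _ ≤ ∑ r ∈ B, (K : ℝ) * (((r : ℝ) ^ 2))⁻¹ := by
          refine Finset.sum_le_sum fun r _ => (card_multiples_le K (r ^ 2)).trans ?_
          push_cast
          rw [div_eq_mul_inv]
      _ = (K : ℝ) * ∑ r ∈ B, (((r : ℝ) ^ 2))⁻¹ := by rw [Finset.mul_sum]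
      _ ≤ (K : ℝ) * ∑ r ∈ Finset.Ioo (R - 1) (K + 1), (((r : ℝ) ^ 2))⁻¹ := by
          refine mul_le_mul_of_nonneg_left ?_ (Nat.cast_nonneg K)
          exact Finset.sum_le_sum_of_subset_of_nonneg (Finset.filter_subset _ _)
            (fun i _ _ => by positivity)
      _ ≤ (K : ℝ) * (2 / (((R - 1 : ℕ) : ℝ) + 1)) := by
          gcongr
          exact sum_Ioo_inv_sq_le (R - 1) (K + 1)
      _ = (K : ℝ) * 2 / R := by
          have : ((R - 1 : ℕ) : ℝ) + 1 = R := by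
            have h3 : R - 1 + 1 = R := by omega
            exact_mod_cast h3
          rw [this]; ring
  have h3 : (((Finset.Ioc 0 K).filter (fun k => ¬ Clean N (k * m))).card : ℝ) ≤
      ((A.biUnion fun r => (Finset.Ioc 0 K).filter (fun k => r ∣ k)).card : ℝ) +
      ((B.biUnion fun r => (Finset.Ioc 0 K).filter (fun k => r ^ 2 ∣ k)).card : ℝ) := by
    exact_mod_cast hcard
  calc _ ≤ _ := h3
    _ ≤ (K : ℝ) * (m.primeFactors.card : ℝ) / R + (K : ℝ) * 2 / R := add_le_add h1 h2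
    _ = _ := by ring


open Filter Topology

private lemma tendsto_natCast_sub (a : ℝ) : Tendsto (fun N : ℕ => (N : ℝ) - a) atTop atTop :=
  tendsto_atTop_add_const_right _ (-a) tendsto_natCast_atTop_atTop

private lemma tendsto_exp_natCast_sub (a : ℝ) : Tendsto (fun N : ℕ => Real.exp ((N : ℝ) - a)) atTop atTop :=
  Real.tendsto_exp_atTop.comp (tendsto_natCast_sub a)

private lemma ev_cube : ∀ᶠ N : ℕ in atTop, (N : ℝ) ^ 3 ≤ Real.exp N := by
  have h := (Real.tendsto_exp_div_pow_atTop 3).comp tendsto_natCast_atTop_atTop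
  filter_upwards [h.eventually_ge_atTop 1, eventually_gt_atTop 0] with N hN hN0
  have hp : (0 : ℝ) < (N : ℝ) ^ 3 := by positivity
  simp only [Function.comp] at hN
  rwa [one_le_div hp] at hN

private lemma ev_ts : ∀ᶠ N : ℕ in atTop, 3 * (N : ℝ) ≤ Real.exp (ts N) := by
  have h1 := (isLittleO_log_rpow_atTop (r := 4 / 5) (by norm_num)).bound (c := 1 / 4) (by norm_num)
  have h2 := tendsto_natCast_atTop_atTop (R := ℝ) |>.eventually h1
  have h3 : Tendsto (fun N : ℕ => (N : ℝ) ^ ((4 : ℝ) / 5)) atTop atTop :=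
    (tendsto_rpow_atTop (by norm_num)).comp tendsto_natCast_atTop_atTop
  filter_upwards [h2, h3.eventually_ge_atTop (4 * Real.log 3), eventually_gt_atTop 0] with N hN hN3 hN0
  have hN0' : (0 : ℝ) < N := by exact_mod_cast hN0
  have hp : 0 ≤ (N : ℝ) ^ ((4 : ℝ) / 5) := by positivity
  rw [Real.norm_eq_abs, Real.norm_eq_abs, abs_of_nonneg hp] at hN
  have h4 : Real.log N ≤ 1 / 4 * (N : ℝ) ^ ((4 : ℝ) / 5) := (le_abs_self _).trans hN
  have e : 3 * (N : ℝ) = Real.exp (Real.log 3 + Real.log N) := by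
    rw [Real.exp_add, Real.exp_log (by norm_num), Real.exp_log hN0']
  rw [e]
  apply Real.exp_le_exp.mpr
  unfold ts t0
  linarith


/-- Primes `p` with `X + 1 < p ≤ Y`. -/
private def P0set (X Y : ℝ) : Finset ℕ := ((Finset.Ioc ⌊X⌋₊ ⌊Y⌋₊).filter Nat.Prime).erase (⌊X⌋₊ + 1)

/-- The good primes for the tail `m`. -/
private def Gset (N : ℕ) (x c : ℝ) (m : ℕ) : Finset ℕ :=
  (Finset.range (⌊c * x⌋₊ + 2)).filter
    (fun p => Normal N p ∧ (p - 1) * m ∈ Win x c ∧ Clean N ((p - 1) * m))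

/-- The abnormal primes up to `Y`. -/
private def AbSet (N : ℕ) (Y : ℝ) : Finset ℕ :=
  (Finset.Icc (⌈Real.exp (Real.exp ((N : ℝ) - 9))⌉₊) ⌊Y⌋₊).filter
    (fun p => p.Prime ∧ ¬ Normal N p)

/-- The dirty primes of `P0set`. -/
private def DiSet (N : ℕ) (X Y : ℝ) (m : ℕ) : Finset ℕ :=
  (P0set X Y).filter (fun p => ¬ Clean N ((p - 1) * m))

private lemma P0_facts {X Y : ℝ} (hY0 : 0 ≤ Y) {p : ℕ} (hp : p ∈ P0set X Y) :
    p.Prime ∧ X < ((p - 1 : ℕ) : ℝ) ∧ ((p - 1 : ℕ) : ℝ) ≤ Y ∧ p ≤ ⌊Y⌋₊ ∧ X < (p : ℝ) := by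
  rw [P0set, Finset.mem_erase, Finset.mem_filter, Finset.mem_Ioc] at hp
  obtain ⟨hne, ⟨h1, h2⟩, hpp⟩ := hp
  have h3 : ⌊X⌋₊ + 1 ≤ p - 1 := by omega
  have h4 : X < ((p - 1 : ℕ) : ℝ) := by
    have h5 := Nat.lt_floor_add_one X
    have h6 : ((⌊X⌋₊ + 1 : ℕ) : ℝ) ≤ ((p - 1 : ℕ) : ℝ) := by exact_mod_cast h3
    push_cast at h6
    linarith
  have h5 : ((p - 1 : ℕ) : ℝ) ≤ Y := by
    have h6 : p - 1 ≤ ⌊Y⌋₊ := by omega
    exact (Nat.cast_le.mpr h6).trans (Nat.floor_le hY0)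
  refine ⟨hpp, h4, h5, h2, ?_⟩
  have h6 : ((p - 1 : ℕ) : ℝ) ≤ p := by exact_mod_cast Nat.sub_le p 1
  linarith

private lemma P0_win {X Y x c : ℝ} {m : ℕ} (hY0 : 0 ≤ Y) (hx0 : 0 < x) (hm0 : m ≠ 0) (hXm : X * m = x)
    (hYm : Y * m = c * x) {p : ℕ} (hp : p ∈ P0set X Y) :
    (p - 1) * m ∈ Win x c ∧ p < ⌊c * x⌋₊ + 2 := by
  obtain ⟨hpp, h1, h2, -, -⟩ := P0_facts hY0 hp
  have hm' : (0 : ℝ) < m := by exact_mod_cast Nat.pos_of_ne_zero hm0
  have h3 : x < (((p - 1) * m : ℕ) : ℝ) := by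
    push_cast
    calc x = X * m := hXm.symm
      _ < _ := by gcongr
  have h4 : (((p - 1) * m : ℕ) : ℝ) ≤ c * x := by
    push_cast
    calc _ ≤ Y * m := by gcongr
      _ = c * x := hYm
  have h5 : (p - 1) * m ≤ ⌊c * x⌋₊ := Nat.le_floor h4
  have h6 : ⌊x⌋₊ < (p - 1) * m := (Nat.floor_lt hx0.le).mpr h3
  refine ⟨Finset.mem_Ioc.mpr ⟨h6, h5⟩, ?_⟩
  have h7 : p - 1 ≤ (p - 1) * m := Nat.le_mul_of_pos_right _ (Nat.pos_of_ne_zero hm0)
  omega

private lemma P0_cover {N : ℕ} {X Y x c : ℝ} {m : ℕ} (hY0 : 0 ≤ Y) (hx0 : 0 < x) (hm0 : m ≠ 0)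
    (hXm : X * m = x) (hYm : Y * m = c * x)
    (hXe : Real.exp (Real.exp ((N : ℝ) - 9)) ≤ X) :
    P0set X Y ⊆ Gset N x c m ∪ AbSet N Y ∪ DiSet N X Y m := by
  intro p hp
  obtain ⟨hpp, h1, h2, h3, h4⟩ := P0_facts hY0 hp
  obtain ⟨hW, hlt⟩ := P0_win hY0 hx0 hm0 hXm hYm hp
  by_cases hn : Normal N p
  · by_cases hcl : Clean N ((p - 1) * m)
    · refine Finset.mem_union_left _ (Finset.mem_union_left _ ?_)
      rw [Gset, Finset.mem_filter]
      exact ⟨Finset.mem_range.mpr hlt, hn, hW, hcl⟩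
    · refine Finset.mem_union_right _ ?_
      rw [DiSet, Finset.mem_filter]
      exact ⟨hp, hcl⟩
  · refine Finset.mem_union_left _ (Finset.mem_union_right _ ?_)
    rw [AbSet, Finset.mem_filter, Finset.mem_Icc]
    refine ⟨⟨?_, h3⟩, hpp, hn⟩
    apply Nat.ceil_le.mpr
    linarith

private lemma P0_card_ge (X Y : ℝ) :
    (Nat.primeCounting ⌊Y⌋₊ : ℝ) - (Nat.primeCounting ⌊X⌋₊ : ℝ) ≤ (P0set X Y).card + 1 := by
  have h1 := primeCounting_le_add ⌊X⌋₊ ⌊Y⌋₊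
  have h2 := Finset.pred_card_le_card_erase (s := (Finset.Ioc ⌊X⌋₊ ⌊Y⌋₊).filter Nat.Prime)
    (a := ⌊X⌋₊ + 1)
  have h3 : Nat.primeCounting ⌊Y⌋₊ ≤ Nat.primeCounting ⌊X⌋₊ + ((P0set X Y).card + 1) := by
    unfold P0set
    omega
  have h4 : (Nat.primeCounting ⌊Y⌋₊ : ℝ) ≤ (Nat.primeCounting ⌊X⌋₊ : ℝ) + ((P0set X Y).card + 1) := by
    exact_mod_cast h3
  linarith

private lemma R_of_prime {N r : ℕ} (hr : r.Prime) (hlev : ts N < lev r) :
    ⌈Real.exp (Real.exp (ts N))⌉₊ ≤ r := by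
  apply Nat.ceil_le.mpr
  have hr1 : (1 : ℝ) < r := by exact_mod_cast hr.one_lt
  have hlr : 0 < Real.log r := Real.log_pos hr1
  have h1 : Real.exp (ts N) < Real.log r := (Real.lt_log_iff_exp_lt hlr).mp hlev
  have h2 := (Real.lt_log_iff_exp_lt (by linarith)).mp h1
  exact h2.le

private lemma card_primeFactors_le {m : ℕ} {l : ℝ} (hm0 : m ≠ 0) (hml : Real.log m ≤ l / 4) :
    (m.primeFactors.card : ℝ) ≤ l / 2 := by
  have h3 : 2 ^ m.primeFactors.card ≤ m := by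
    calc 2 ^ m.primeFactors.card = ∏ _r ∈ m.primeFactors, 2 := by
          rw [Finset.prod_const]
      _ ≤ ∏ r ∈ m.primeFactors, r := by
          apply Finset.prod_le_prod
          · intro i _; norm_num
          · intro i hi; exact (Nat.prime_of_mem_primeFactors hi).two_le
      _ ≤ m := Nat.le_of_dvd (Nat.pos_of_ne_zero hm0) (Nat.prod_primeFactors_dvd m)
  have h4 : ((2 : ℝ) ^ m.primeFactors.card) ≤ m := by exact_mod_cast h3
  have h5 := Real.log_le_log (by positivity) h4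
  rw [Real.log_pow] at h5
  have h6 := Real.log_two_gt_d9
  have h7 : (0 : ℝ) ≤ (m.primeFactors.card : ℝ) := Nat.cast_nonneg _
  nlinarith

private lemma R_big {N : ℕ} {c ε l : ℝ} (hc0 : 0 < c) (hε : 0 < ε) (hl0 : 0 < l)
    (hl2 : l ≤ Real.exp ((N : ℝ) + 2))
    (hNts : 3 * (N : ℝ) ≤ Real.exp (ts N)) (hNR : 8 * c / ε * Real.exp 4 ≤ Real.exp N) :
    8 * c / ε * l ^ 2 ≤ (⌈Real.exp (Real.exp (ts N))⌉₊ : ℝ) := by
  have h3 : Real.exp (Real.exp (ts N)) ≤ (⌈Real.exp (Real.exp (ts N))⌉₊ : ℝ) := Nat.le_ceil _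
  have h4 : Real.exp (3 * (N : ℝ)) ≤ Real.exp (Real.exp (ts N)) := Real.exp_le_exp.mpr hNts
  have h5 : l ^ 2 ≤ Real.exp 4 * Real.exp (2 * (N : ℝ)) := by
    have e : Real.exp 4 * Real.exp (2 * (N : ℝ)) = Real.exp ((N : ℝ) + 2) ^ 2 := by
      rw [← Real.exp_add, sq, ← Real.exp_add]; congr 1; ring
    rw [e]
    gcongr
  have h6 : Real.exp (3 * (N : ℝ)) = Real.exp N * Real.exp (2 * (N : ℝ)) := by
    rw [← Real.exp_add]; congr 1; ring
  have h7 : 8 * c / ε * l ^ 2 ≤ 8 * c / ε * (Real.exp 4 * Real.exp (2 * (N : ℝ))) := by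
    gcongr
  have h8 : 8 * c / ε * (Real.exp 4 * Real.exp (2 * (N : ℝ))) ≤
      Real.exp N * Real.exp (2 * (N : ℝ)) := by
    rw [← mul_assoc]
    gcongr
  linarith

private lemma Di_card {N m : ℕ} {c ε l X Y : ℝ} (hc0 : 0 < c) (hε : 0 < ε) (hl0 : 0 < l) (hl2' : 2 ≤ l)
    (hl2 : l ≤ Real.exp ((N : ℝ) + 2)) (hX0 : 0 < X) (hY : Y = c * X) (hY0 : 0 ≤ Y)
    (hNts : 3 * (N : ℝ) ≤ Real.exp (ts N)) (hNR : 8 * c / ε * Real.exp 4 ≤ Real.exp N)
    (hm0 : m ≠ 0) (hml : Real.log m ≤ l / 4) (hmC : Clean N m) :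
    ((DiSet N X Y m).card : ℝ) ≤ ε / 4 * (X / l) := by
  have hRpos : 0 < ⌈Real.exp (Real.exp (ts N))⌉₊ := Nat.ceil_pos.mpr (Real.exp_pos _)
  have h1 : ((DiSet N X Y m).card : ℝ) ≤
      (((Finset.Ioc 0 ⌊Y⌋₊).filter (fun k => ¬ Clean N (k * m))).card : ℝ) := by
    apply Nat.cast_le.mpr
    apply Finset.card_le_card_of_injOn (fun p => p - 1)
    · intro p hp
      have hp' := (Finset.mem_filter.mp hp)
      obtain ⟨hpp, -, -, h3, -⟩ := P0_facts hY0 hp'.1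
      have h2 := hpp.two_le
      simp only [Finset.coe_filter, Finset.mem_Ioc, Set.mem_ofPred_eq]
      exact ⟨⟨by omega, by omega⟩, hp'.2⟩
    · intro p hp q hq hpq
      have hp' := (Finset.mem_filter.mp hp)
      have hq' := (Finset.mem_filter.mp hq)
      have h2 := (P0_facts hY0 hp'.1).1.two_le
      have h3 := (P0_facts hY0 hq'.1).1.two_le
      simp only at hpq
      omega
  have h2 := dirty_card N m ⌊Y⌋₊ _ hRpos (fun r hr hlev => R_of_prime hr hlev) hmC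
  have hK : (⌊Y⌋₊ : ℝ) ≤ Y := Nat.floor_le hY0
  have hpf := card_primeFactors_le hm0 hml
  have hpf2 : (m.primeFactors.card : ℝ) + 2 ≤ 2 * l := by linarith
  have hRbig := R_big hc0 hε hl0 hl2 hNts hNR
  have hRpos' : (0 : ℝ) < (⌈Real.exp (Real.exp (ts N))⌉₊ : ℝ) := by exact_mod_cast hRpos
  have h3 : ((⌊Y⌋₊ : ℝ)) * ((m.primeFactors.card : ℝ) + 2) / (⌈Real.exp (Real.exp (ts N))⌉₊ : ℝ)
      ≤ ε / 4 * (X / l) := by
    rw [div_le_iff₀ hRpos']
    have h4 : ((⌊Y⌋₊ : ℝ)) * ((m.primeFactors.card : ℝ) + 2) ≤ Y * (2 * l) := by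
      gcongr
    have h5 : Y * (2 * l) = ε / 4 * (X / l) * (8 * c / ε * l ^ 2) := by
      rw [hY]
      field_simp
      ring
    have h6 : ε / 4 * (X / l) * (8 * c / ε * l ^ 2) ≤
        ε / 4 * (X / l) * (⌈Real.exp (Real.exp (ts N))⌉₊ : ℝ) := by
      apply mul_le_mul_of_nonneg_left hRbig
      positivity
    linarith
  linarith

private lemma Ab_card {N : ℕ} {c ε l X Y : ℝ} (hc0 : 0 < c) (hl0 : 0 < l) (hX0 : 0 < X) (hY : Y = c * X)
    (hlogY1 : 3 * l / 4 ≤ Real.log Y) (hNeps : 16 * c * eps0 N ≤ ε)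
    (habn : ((AbSet N Y).card : ℝ) ≤ 3 * eps0 N * (Y / Real.log Y)) :
    ((AbSet N Y).card : ℝ) ≤ ε / 4 * (X / l) := by
  have hlogYpos : 0 < Real.log Y := by
    have : 0 < 3 * l / 4 := by positivity
    linarith
  have heps0 : 0 ≤ eps0 N := (Real.exp_pos _).le
  have h2 : Y / Real.log Y ≤ 4 * c / 3 * (X / l) := by
    rw [div_le_iff₀ hlogYpos]
    have h3 : 4 * c / 3 * (X / l) * Real.log Y ≥ 4 * c / 3 * (X / l) * (3 * l / 4) := by
      apply mul_le_mul_of_nonneg_left hlogY1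
      positivity
    have h4 : 4 * c / 3 * (X / l) * (3 * l / 4) = c * X := by
      field_simp
    calc Y = c * X := hY
      _ = _ := h4.symm
      _ ≤ _ := h3
  have hQ0 : 0 < X / l := by positivity
  calc ((AbSet N Y).card : ℝ) ≤ 3 * eps0 N * (Y / Real.log Y) := habn
    _ ≤ 3 * eps0 N * (4 * c / 3 * (X / l)) := by gcongr
    _ = (16 * c * eps0 N) * ((X / l) / 4) := by ring
    _ ≤ ε * ((X / l) / 4) := by gcongr
    _ = ε / 4 * (X / l) := by ring

private lemma one_le_Q {N : ℕ} {ε l X : ℝ} (hε : 0 < ε) (hl0 : 0 < l)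
    (hl1 : Real.exp ((N : ℝ) - 2) ≤ l) (hXexp : Real.exp (3 * l / 4) ≤ X)
    (hNone : 1 ≤ ε / 4 * (9 / 32) * Real.exp ((N : ℝ) - 2)) :
    1 ≤ ε / 4 * (X / l) := by
  have h1 := Real.quadratic_le_exp_of_nonneg (x := 3 * l / 4) (by positivity)
  have h2 : 9 / 32 * l ^ 2 ≤ X := by
    have h3 : 0 ≤ 3 * l / 4 := by positivity
    nlinarith
  have h3 : 9 / 32 * l ≤ X / l := by
    rw [le_div_iff₀ hl0]
    nlinarith
  have h5 : (9 / 32) * Real.exp ((N : ℝ) - 2) ≤ X / l := by linarith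
  have h4 : ε / 4 * (9 / 32) * Real.exp ((N : ℝ) - 2) ≤ ε / 4 * (X / l) := by
    calc ε / 4 * (9 / 32) * Real.exp ((N : ℝ) - 2) = ε / 4 * ((9 / 32) * Real.exp ((N : ℝ) - 2)) := by
          ring
      _ ≤ ε / 4 * (X / l) := by gcongr
  linarith

private lemma levY_bounds {N : ℕ} {l Y : ℝ} (hlY : 0 < Real.log Y)
    (h1 : Real.exp ((N : ℝ) - 9) ≤ Real.log Y) (h2 : Real.log Y ≤ 2 * l)
    (hl2 : l ≤ Real.exp ((N : ℝ) + 2)) :
    (N : ℝ) - 9 ≤ levR Y ∧ levR Y ≤ (N : ℝ) + 4 := by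
  constructor
  · unfold levR
    rw [Real.le_log_iff_exp_le hlY]
    exact h1
  · unfold levR
    rw [Real.log_le_iff_le_exp hlY]
    have e : Real.exp ((N : ℝ) + 4) = Real.exp ((N : ℝ) + 2) * Real.exp 2 := by
      rw [← Real.exp_add]; congr 1; ring
    have h3 : (2 : ℝ) ≤ Real.exp 2 := by
      have := Real.add_one_le_exp (2 : ℝ)
      linarith
    have h4 := Real.exp_pos ((N : ℝ) + 2)
    rw [e]
    nlinarith

private lemma exp_N_sub_9_le {N : ℕ} {l : ℝ} (hl1 : Real.exp ((N : ℝ) - 2) ≤ l) :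
    Real.exp ((N : ℝ) - 9) ≤ 3 * l / 4 := by
  have e : Real.exp ((N : ℝ) - 2) = Real.exp ((N : ℝ) - 9) * Real.exp 7 := by
    rw [← Real.exp_add]; congr 1; ring
  have h6 : (2 : ℝ) ≤ Real.exp 7 := by
    have := Real.add_one_le_exp (7 : ℝ)
    linarith
  have h7 := Real.exp_pos ((N : ℝ) - 9)
  rw [e] at hl1
  nlinarith

/-- Numerical core for one tail. -/
private lemma good_core {N m : ℕ} {x c ε X₀ : ℝ} (hc : 1 < c) (hε : 0 < ε) (hx : 1 < x)
    (hLx : |levR x - N| ≤ 2) (hm0 : m ≠ 0) (hmB : m < Bnd N) (hmC : Clean N m) (hN5 : 5 ≤ N)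
    (hN3 : (N : ℝ) ^ 3 ≤ Real.exp N) (hNX : X₀ ≤ Real.exp (3 / 4 * Real.exp ((N : ℝ) - 2)))
    (hNeps : 16 * c * eps0 N ≤ ε) (hNts : 3 * (N : ℝ) ≤ Real.exp (ts N))
    (hNR : 8 * c / ε * Real.exp 4 ≤ Real.exp N)
    (hNone : 1 ≤ ε / 4 * (9 / 32) * Real.exp ((N : ℝ) - 2))
    (hNlc : Real.log c ≤ Real.exp ((N : ℝ) - 2))
    (hX₀ : ∀ X ≥ X₀, c - 1 - ε / 4 ≤
      ((Nat.primeCounting ⌊c * X⌋₊ : ℝ) - (Nat.primeCounting ⌊X⌋₊ : ℝ)) * Real.log X / X)
    (habn : ∀ Y : ℝ, 1 < Y → (N : ℝ) - 9 ≤ levR Y → levR Y ≤ (N : ℝ) + 4 →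
      ((AbSet N Y).card : ℝ) ≤ 3 * eps0 N * (Y / Real.log Y))
    (hsign : 0 < c - 1 - ε) :
    (c - 1 - ε) * (x / m) / Real.log x ≤ ((Gset N x c m).card : ℝ) := by
  have hc0 : 0 < c := by linarith
  have hx0 : 0 < x := by linarith
  have hl0 : 0 < Real.log x := Real.log_pos hx
  obtain ⟨hl1, hl2⟩ := log_x_bounds hx hLx
  have hm1 : (1 : ℝ) ≤ m := by exact_mod_cast Nat.one_le_iff_ne_zero.mpr hm0
  have hm' : (0 : ℝ) < m := by linarith
  have hml : Real.log m ≤ Real.log x / 4 := log_m_le hN5 hN3 hx hLx hm0 hmB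
  have hml0 : 0 ≤ Real.log m := Real.log_nonneg hm1
  have hN5' : (5 : ℝ) ≤ N := by exact_mod_cast hN5
  have hE3 : (2 : ℝ) ≤ Real.exp ((N : ℝ) - 2) := by
    have h := Real.add_one_le_exp ((N : ℝ) - 2)
    linarith
  have hl2' : (2 : ℝ) ≤ Real.log x := by linarith
  have hX0 : 0 < x / m := by positivity
  have hXm : x / m * m = x := by field_simp
  have hlogX : Real.log (x / m) = Real.log x - Real.log m := Real.log_div hx0.ne' hm'.ne'
  have hlogX1 : 3 * Real.log x / 4 ≤ Real.log (x / m) := by linarith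
  have hlogX2 : Real.log (x / m) ≤ Real.log x := by linarith
  have hlogXpos : 0 < Real.log (x / m) := by linarith
  have hXexp : Real.exp (3 * Real.log x / 4) ≤ x / m := by
    have h := Real.exp_le_exp.mpr hlogX1
    rwa [Real.exp_log hX0] at h
  have hXX0 : X₀ ≤ x / m := hNX.trans ((Real.exp_le_exp.mpr (by linarith)).trans hXexp)
  have hpnt := hX₀ _ hXX0
  have hpnt' : (c - 1 - ε / 4) * (x / m / Real.log (x / m)) ≤
      (Nat.primeCounting ⌊c * (x / m)⌋₊ : ℝ) - (Nat.primeCounting ⌊x / m⌋₊ : ℝ) := by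
    rw [le_div_iff₀ hX0] at hpnt
    rw [← mul_div_assoc, div_le_iff₀ hlogXpos]
    linarith
  have hY0 : 0 < c * (x / m) := by positivity
  have hYm : c * (x / m) * m = c * x := by rw [mul_assoc, hXm]
  have hlogY : Real.log (c * (x / m)) = Real.log c + Real.log (x / m) :=
    Real.log_mul hc0.ne' hX0.ne'
  have hlc0 : 0 ≤ Real.log c := Real.log_nonneg hc.le
  have hlogY1 : 3 * Real.log x / 4 ≤ Real.log (c * (x / m)) := by linarith
  have hlogY2 : Real.log (c * (x / m)) ≤ 2 * Real.log x := by linarith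
  have hlogYpos : 0 < Real.log (c * (x / m)) := by linarith
  have hlow := exp_N_sub_9_le hl1
  obtain ⟨hlevY1, hlevY2⟩ := levY_bounds hlogYpos (hlow.trans hlogY1) hlogY2 hl2
  have hY1 : 1 < c * (x / m) := (Real.log_pos_iff hY0.le).mp hlogYpos
  have hAb := Ab_card hc0 hl0 hX0 rfl hlogY1 hNeps (habn _ hY1 hlevY1 hlevY2)
  have hDi := Di_card hc0 hε hl0 hl2' hl2 hX0 rfl hY0.le hNts hNR hm0 hml hmC
  have hone := one_le_Q hε hl0 hl1 hXexp hNone
  have hP := P0_card_ge (x / m) (c * (x / m))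
  have hXe : Real.exp (Real.exp ((N : ℝ) - 9)) ≤ x / m :=
    (Real.exp_le_exp.mpr hlow).trans hXexp
  have hcover := P0_cover (N := N) hY0.le hx0 hm0 hXm hYm hXe
  have hcovercard : ((P0set (x / m) (c * (x / m))).card : ℝ) ≤
      (Gset N x c m).card + (AbSet N (c * (x / m))).card + (DiSet N (x / m) (c * (x / m)) m).card := by
    have h1 := Finset.card_le_card hcover
    have h2 := Finset.card_union_le (Gset N x c m ∪ AbSet N (c * (x / m)))
      (DiSet N (x / m) (c * (x / m)) m)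
    have h3 := Finset.card_union_le (Gset N x c m) (AbSet N (c * (x / m)))
    have h4 : (P0set (x / m) (c * (x / m))).card ≤
        (Gset N x c m).card + (AbSet N (c * (x / m))).card +
          (DiSet N (x / m) (c * (x / m)) m).card := by omega
    exact_mod_cast h4
  have hfinal : (c - 1 - ε / 4) * (x / m / Real.log x) ≤
      (c - 1 - ε / 4) * (x / m / Real.log (x / m)) := by
    have h1 : 0 ≤ c - 1 - ε / 4 := by linarith
    apply mul_le_mul_of_nonneg_left _ h1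
    exact div_le_div_of_nonneg_left hX0.le hlogXpos hlogX2
  have hgoal : (c - 1 - ε) * (x / m) / Real.log x = (c - 1 - ε) * (x / m / Real.log x) := by
    ring
  rw [hgoal]
  nlinarith

/-- One tail: the primes `p` with `(p - 1) m` in the window. -/
private lemma good_count (c : ℝ) (hc : 1 < c) (ε : ℝ) (hε : 0 < ε) :
    ∃ N₀ : ℕ, ∀ N ≥ N₀, ∀ x : ℝ, 1 < x → |levR x - N| ≤ 2 →
    ∀ m : ℕ, m ≠ 0 → m < Bnd N → Clean N m →
    (c - 1 - ε) * (x / m) / Real.log x ≤ ((Gset N x c m).card : ℝ) := by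
  have hc0 : 0 < c := by linarith
  obtain ⟨X₀, hX₀⟩ : ∃ X₀ : ℝ, ∀ X ≥ X₀, c - 1 - ε / 4 ≤
      ((Nat.primeCounting ⌊c * X⌋₊ : ℝ) - (Nat.primeCounting ⌊X⌋₊ : ℝ)) * Real.log X / X := by
    have := (pnt_interval c hc).eventually_const_lt (u := c - 1 - ε / 4) (by linarith)
    obtain ⟨X₀, h⟩ := Filter.eventually_atTop.mp this
    exact ⟨X₀, fun X hX => (h X hX).le⟩
  obtain ⟨N₁, habn⟩ := abn_count_le
  have e1 : ∀ᶠ N : ℕ in atTop, 5 ≤ N := eventually_ge_atTop 5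
  have e2 := ev_cube
  have e3 : ∀ᶠ N : ℕ in atTop, X₀ ≤ Real.exp (3 / 4 * Real.exp ((N : ℝ) - 2)) := by
    have h : Tendsto (fun N : ℕ => Real.exp (3 / 4 * Real.exp ((N : ℝ) - 2))) atTop atTop :=
      Real.tendsto_exp_atTop.comp ((tendsto_exp_natCast_sub 2).const_mul_atTop (by norm_num))
    exact h.eventually_ge_atTop X₀
  have e4 : ∀ᶠ N : ℕ in atTop, 16 * c * eps0 N ≤ ε := by
    have h0 : Tendsto (fun N : ℕ => (N : ℝ) ^ ((23 : ℝ) / 100)) atTop atTop :=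
      (tendsto_rpow_atTop (by norm_num)).comp tendsto_natCast_atTop_atTop
    have h1 : Tendsto (fun N : ℕ => eps0 N) atTop (𝓝 0) :=
      Real.tendsto_exp_neg_atTop_nhds_zero.comp h0
    have h2 : Tendsto (fun N : ℕ => 16 * c * eps0 N) atTop (𝓝 0) := by
      simpa using h1.const_mul (16 * c)
    exact (h2.eventually_lt_const hε).mono fun _ h => h.le
  have e5 := ev_ts
  have e6 : ∀ᶠ N : ℕ in atTop, 8 * c / ε * Real.exp 4 ≤ Real.exp N :=
    (Real.tendsto_exp_atTop.comp tendsto_natCast_atTop_atTop).eventually_ge_atTop _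
  have e7 : ∀ᶠ N : ℕ in atTop, 1 ≤ ε / 4 * (9 / 32) * Real.exp ((N : ℝ) - 2) :=
    ((tendsto_exp_natCast_sub 2).const_mul_atTop (by positivity)).eventually_ge_atTop 1
  have e8 : ∀ᶠ N : ℕ in atTop, Real.log c ≤ Real.exp ((N : ℝ) - 2) :=
    (tendsto_exp_natCast_sub 2).eventually_ge_atTop _
  obtain ⟨N₀, hN₀⟩ := Filter.eventually_atTop.mp
    (e1.and (e2.and (e3.and (e4.and (e5.and (e6.and (e7.and e8)))))))
  refine ⟨max N₀ N₁, fun N hN x hx hLx m hm0 hmB hmC => ?_⟩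
  obtain ⟨hN5, hN3, hNX, hNeps, hNts, hNR, hNone, hNlc⟩ := hN₀ N (le_trans (le_max_left _ _) hN)
  have hN1 : N₁ ≤ N := le_trans (le_max_right _ _) hN
  by_cases hsign : c - 1 - ε ≤ 0
  · have hl := Real.log_pos hx
    have hm' : (0 : ℝ) < m := by exact_mod_cast Nat.pos_of_ne_zero hm0
    have hx0 : 0 < x := by linarith
    have h0 : (c - 1 - ε) * (x / m) / Real.log x ≤ 0 := by
      apply div_nonpos_of_nonpos_of_nonneg _ hl.le
      exact mul_nonpos_of_nonpos_of_nonneg hsign (by positivity)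
    exact h0.trans (Nat.cast_nonneg _)
  push Not at hsign
  exact good_core hc hε hx hLx hm0 hmB hmC hN5 hN3 hNX hNeps hNts hNR hNone hNlc hX₀
    (fun Y h0 h1 h2 => habn N hN1 Y h0 h1 h2) hsign


/-- Pairs `(p, m)`. -/
def PairsL (N : ℕ) (x c : ℝ) : Finset (ℕ × ℕ) :=
  ((Finset.range (⌊c * x⌋₊ + 2)) ×ˢ Aset N (levR x - wd N)).filter (fun τ => Normal N τ.1 ∧
    (τ.1 - 1) * τ.2 ∈ Win x c ∧ Clean N ((τ.1 - 1) * τ.2))

private lemma Aset_spec {N m : ℕ} {T : ℝ} (h : m ∈ Aset N T) :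
    m < Bnd N ∧ ∃ l low, IsRep N l low m ∧ Th N 0 l ≤ T := by
  rw [Aset, Finset.mem_filter, Finset.mem_range] at h
  exact h

private lemma sum_Gset_le (N : ℕ) (x c : ℝ) :
    ∑ m ∈ Aset N (levR x - wd N), ((Gset N x c m).card : ℝ) ≤ ((PairsL N x c).card : ℝ) := by
  have h1 : (PairsL N x c).card = ∑ m ∈ Aset N (levR x - wd N),
      ((PairsL N x c).filter (fun τ => τ.2 = m)).card := by
    apply Finset.card_eq_sum_card_fiberwise
    intro τ hτ
    have h := (Finset.mem_filter.mp hτ).1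
    exact (Finset.mem_product.mp h).2
  rw [h1]
  push_cast
  refine Finset.sum_le_sum fun m hm => ?_
  apply Nat.cast_le.mpr
  apply Finset.card_le_card_of_injOn (fun p => (p, m))
  · intro p hp
    have hp' := Finset.mem_filter.mp hp
    simp only [Finset.coe_filter, Set.mem_ofPred_eq]
    refine ⟨?_, trivial⟩
    rw [PairsL, Finset.mem_filter, Finset.mem_product]
    exact ⟨⟨hp'.1, hm⟩, hp'.2⟩
  · intro p _ q _ hpq
    exact (Prod.mk.inj hpq).1

/-- Count of pairs by PNT. -/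
theorem pairs_count (c : ℝ) (hc : 1 < c) (ε : ℝ) (hε : 0 < ε) : ∃ N₀ : ℕ, ∀ N ≥ N₀, ∀ x : ℝ, 1 < x → |levR x - N| ≤ 2 →
    (c - 1 - ε) * (x / Real.log x) * Ss N (levR x - wd N) ≤ ((PairsL N x c).card : ℝ) := by
  obtain ⟨N₀, h⟩ := good_count c hc ε hε
  refine ⟨N₀, fun N hN x hx hL => ?_⟩
  have e : (c - 1 - ε) * (x / Real.log x) * Ss N (levR x - wd N) =
      ∑ m ∈ Aset N (levR x - wd N), (c - 1 - ε) * (x / m) / Real.log x := by
    rw [Ss, Finset.mul_sum]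
    refine Finset.sum_congr rfl fun m _ => ?_
    ring
  rw [e]
  refine le_trans (Finset.sum_le_sum fun m hm => ?_) (sum_Gset_le N x c)
  obtain ⟨hB, l, low, hrep, -⟩ := Aset_spec hm
  by_cases hm0 : m = 0
  · subst hm0
    simp
  · exact h N hN x hx hL m hm0 hB hrep.clean

private lemma dvd_rowsProd {l : List ℕ} {q : ℕ} (hq : q ∈ l) : q - 1 ∣ rowsProd l := by
  unfold rowsProd
  exact List.dvd_prod (List.mem_map.mpr ⟨q, hq, rfl⟩)

private lemma totient_rows {N : ℕ} {n0 : ℕ} (hn0 : n0 ≠ 0)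
    (hlow : ∀ r : ℕ, r.Prime → r ∣ n0 → lev r < t0 N) (l : List ℕ) (hs : l.Pairwise (· > ·))
    (hn : ∀ p ∈ l, p.Prime ∧ t0 N ≤ lev p) :
    ∃ n : ℕ, n ≠ 0 ∧ n.totient = rowsProd l * n0.totient ∧
      ∀ r : ℕ, r.Prime → r ∣ n → r ∈ l ∨ lev r < t0 N := by
  induction l with
  | nil =>
    refine ⟨n0, hn0, by simp [rowsProd], fun r hr hd => Or.inr (hlow r hr hd)⟩
  | cons p l ih =>
    have hs' := List.pairwise_cons.mp hs
    obtain ⟨n', hn'0, hn't, hn'r⟩ := ih hs'.2 (fun q hq => hn q (List.mem_cons_of_mem _ hq))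
    obtain ⟨hpp, hpl⟩ := hn p List.mem_cons_self
    have hcop : Nat.Coprime p n' := by
      rw [Nat.Prime.coprime_iff_not_dvd hpp]
      intro hd
      rcases hn'r p hpp hd with h | h
      · exact lt_irrefl _ (hs'.1 p h)
      · exact absurd hpl (not_le.mpr h)
    refine ⟨p * n', mul_ne_zero hpp.ne_zero hn'0, ?_, ?_⟩
    · rw [Nat.totient_mul hcop, Nat.totient_prime hpp, hn't]
      simp [rowsProd, mul_assoc]
    · intro r hr hd
      rcases (Nat.Prime.dvd_mul hr).mp hd with h | h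
      · left
        have := (Nat.prime_dvd_prime_iff_eq hr hpp).mp h
        rw [this]
        exact List.mem_cons_self
      · rcases hn'r r hr h with h' | h'
        · exact Or.inl (List.mem_cons_of_mem _ h')
        · exact Or.inr h'

/-- Each pair gives a totient. -/
theorem pair_totient (c : ℝ) (hc : 1 < c) : ∃ N₀ : ℕ, ∀ N ≥ N₀, ∀ x : ℝ, 1 < x → |levR x - N| ≤ 2 →
    ∀ τ ∈ PairsL N x c, ∃ n : ℕ, n.totient = (τ.1 - 1) * τ.2 := by
  obtain ⟨N₀, hN₀⟩ := Filter.eventually_atTop.mp ((eventually_ge_atTop 5).and ev_cube)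
  refine ⟨N₀, fun N hN x hx hL τ hτ => ?_⟩
  obtain ⟨hN5, hN3⟩ := hN₀ N hN
  rw [PairsL, Finset.mem_filter, Finset.mem_product] at hτ
  obtain ⟨⟨-, hA⟩, hnorm, hW, -⟩ := hτ
  obtain ⟨hB, l, low, hrep, -⟩ := Aset_spec hA
  have hx0 : 0 < x := by linarith
  rw [Win, Finset.mem_Ioc] at hW
  have hlt : x < (((τ.1 - 1) * τ.2 : ℕ) : ℝ) := (Nat.floor_lt hx0.le).mp hW.1
  have hm0 : τ.2 ≠ 0 := by
    intro h0
    rw [h0] at hlt
    simp at hlt
    linarith
  have hml := log_m_le hN5 hN3 hx hL hm0 hB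
  have hm' : (0 : ℝ) < τ.2 := by exact_mod_cast Nat.pos_of_ne_zero hm0
  have hm2 : (τ.2 : ℝ) * τ.2 ≤ x := by
    have h1 : Real.log ((τ.2 : ℝ) * τ.2) ≤ Real.log x := by
      rw [Real.log_mul hm'.ne' hm'.ne']
      have h2 := Real.log_pos hx
      have h3 : 0 ≤ Real.log τ.2 := Real.log_nonneg (by exact_mod_cast Nat.pos_of_ne_zero hm0)
      linarith
    exact (Real.log_le_log_iff (by positivity) hx0).mp h1
  have hgt : τ.2 < τ.1 - 1 := by
    have h1 : (τ.2 : ℝ) * τ.2 < ((τ.1 - 1 : ℕ) : ℝ) * τ.2 := by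
      push_cast at hlt
      linarith
    have h2 : (τ.2 : ℝ) < ((τ.1 - 1 : ℕ) : ℝ) := lt_of_mul_lt_mul_right h1 hm'.le
    exact_mod_cast h2
  -- the list with the new top entry
  have hmeq : τ.2 = rowsProd l * low := hrep.eq
  have htop : ∀ q ∈ l, τ.1 > q := by
    intro q hq
    have h1 : q - 1 ∣ τ.2 := by
      rw [hmeq]
      exact Dvd.dvd.mul_right (dvd_rowsProd hq) low
    have h2 := Nat.le_of_dvd (Nat.pos_of_ne_zero hm0) h1
    omega
  obtain ⟨n0, hn00, hn0low, hlowt, -⟩ := hrep.lowv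
  have hs : (τ.1 :: l).Pairwise (· > ·) := List.pairwise_cons.mpr ⟨htop, hrep.sorted⟩
  have hn : ∀ p ∈ τ.1 :: l, p.Prime ∧ t0 N ≤ lev p := by
    intro p hp
    rcases List.mem_cons.mp hp with h | h
    · rw [h]; exact ⟨hnorm.1, hnorm.2.1⟩
    · have := hrep.normal p h
      exact ⟨this.1, this.2.1⟩
  obtain ⟨n, -, hn', -⟩ := totient_rows hn00 hn0low (τ.1 :: l) hs hn
  refine ⟨n, ?_⟩
  rw [hn', ← hlowt, hmeq]
  simp [rowsProd, mul_assoc]

/-- Collisions: the map on a finite set misses at most the number of colliding pairs. -/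
private lemma card_le_image_add {α β : Type*} [DecidableEq α] [DecidableEq β] (S : Finset α) (G : α → β)
    (R : α → α → Prop) (hR : ∀ τ ∈ S, ∀ τ' ∈ S, τ ≠ τ' → G τ = G τ' → R τ τ') :
    S.card ≤ (S.image G).card + ((S ×ˢ S).filter (fun t => R t.1 t.2 ∧ G t.1 = G t.2)).card := by
  set C := S.filter (fun τ => ∃ τ' ∈ S, R τ τ' ∧ G τ = G τ') with hC
  have h1 : (S.filter (fun τ => ¬ ∃ τ' ∈ S, R τ τ' ∧ G τ = G τ')).card ≤ (S.image G).card := by
    rw [← Finset.card_image_of_injOn (f := G) (s := S.filter (fun τ => ¬ ∃ τ' ∈ S, R τ τ' ∧ G τ = G τ'))]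
    · apply Finset.card_le_card
      exact Finset.image_subset_image (Finset.filter_subset _ _)
    · intro a ha b hb hab
      have ha' := Finset.mem_filter.mp (Finset.mem_coe.mp ha)
      have hb' := Finset.mem_filter.mp (Finset.mem_coe.mp hb)
      by_contra hne
      exact ha'.2 ⟨b, hb'.1, hR a ha'.1 b hb'.1 hne hab, hab⟩
  have h2 : C.card ≤ ((S ×ˢ S).filter (fun t => R t.1 t.2 ∧ G t.1 = G t.2)).card := by
    have hsub : C ⊆ ((S ×ˢ S).filter (fun t => R t.1 t.2 ∧ G t.1 = G t.2)).image Prod.fst := by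
      intro τ hτ
      obtain ⟨h1, τ', h2, h3, h4⟩ := Finset.mem_filter.mp hτ
      refine Finset.mem_image.mpr ⟨(τ, τ'), ?_, rfl⟩
      rw [Finset.mem_filter, Finset.mem_product]
      exact ⟨⟨h1, h2⟩, h3, h4⟩
    exact (Finset.card_le_card hsub).trans Finset.card_image_le
  have h3 := Finset.card_filter_add_card_filter_not (s := S) (fun τ => ∃ τ' ∈ S, R τ τ' ∧ G τ = G τ')
  rw [← hC] at h3
  omega

private lemma Vf_diff_ge (x c : ℝ) (hc : 1 < c) (hx : 0 < x) :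
    (((Win x c).filter (fun v => ∃ n : ℕ, n.totient = v)).card : ℝ) ≤ (Vf (c * x) : ℝ) - Vf x := by
  have hle : ⌊x⌋₊ ≤ ⌊c * x⌋₊ := Nat.floor_le_floor (by nlinarith)
  have hsub : (Finset.Icc 1 ⌊x⌋₊).filter (fun v => ∃ n : ℕ, n.totient = v) ∪
      (Win x c).filter (fun v => ∃ n : ℕ, n.totient = v) ⊆
      (Finset.Icc 1 ⌊c * x⌋₊).filter (fun v => ∃ n : ℕ, n.totient = v) := by
    intro v hv
    simp only [Finset.mem_union, Finset.mem_filter, Finset.mem_Icc, Win, Finset.mem_Ioc] at hv ⊢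
    rcases hv with ⟨⟨h1, h2⟩, h3⟩ | ⟨⟨h1, h2⟩, h3⟩
    · exact ⟨⟨h1, h2.trans hle⟩, h3⟩
    · exact ⟨⟨by omega, h2⟩, h3⟩
  have hdisj : Disjoint ((Finset.Icc 1 ⌊x⌋₊).filter (fun v => ∃ n : ℕ, n.totient = v))
      ((Win x c).filter (fun v => ∃ n : ℕ, n.totient = v)) := by
    rw [Finset.disjoint_left]
    intro v hv hv'
    simp only [Finset.mem_filter, Finset.mem_Icc, Win, Finset.mem_Ioc] at hv hv'
    omega
  have h := Finset.card_le_card hsub
  rw [Finset.card_union_of_disjoint hdisj] at h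
  have h' : ((Vf x : ℕ) : ℝ) + (((Win x c).filter (fun v => ∃ n : ℕ, n.totient = v)).card : ℝ)
      ≤ (Vf (c * x) : ℝ) := by
    unfold Vf
    exact_mod_cast h
  linarith

/-- The lower bound for the image, from the two counts. -/
private lemma image_count {N : ℕ} {x c : ℝ} (hc : 1 < c) (hx : 1 < x)
    (htot : ∀ τ ∈ PairsL N x c, ∃ n : ℕ, n.totient = (τ.1 - 1) * τ.2)
    (hcoll : ∀ F : Finset (ℕ × ℕ × ℕ × ℕ),
      (∀ τ ∈ F, τ.1 ≠ τ.2.2.1 ∧ Normal N τ.1 ∧ Normal N τ.2.2.1 ∧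
        τ.2.1 ∈ Aset N (levR x - wd N) ∧ τ.2.2.2 ∈ Aset N (levR x - wd N) ∧
        (τ.1 - 1) * τ.2.1 = (τ.2.2.1 - 1) * τ.2.2.2 ∧ (τ.1 - 1) * τ.2.1 ∈ Win x c ∧
        Clean N ((τ.1 - 1) * τ.2.1)) →
      (F.card : ℝ) ≤ (x / Real.log x) * Real.exp (-(wd N / 2))) :
    ((PairsL N x c).card : ℝ) - (x / Real.log x) * Real.exp (-(wd N / 2)) ≤
      (Vf (c * x) : ℝ) - Vf x := by
  have hx0 : 0 < x := by linarith
  set S := PairsL N x c with hS
  set G : ℕ × ℕ → ℕ := fun τ => (τ.1 - 1) * τ.2 with hG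
  have hmem : ∀ τ ∈ S, τ.2 ∈ Aset N (levR x - wd N) ∧ Normal N τ.1 ∧
      (τ.1 - 1) * τ.2 ∈ Win x c ∧ Clean N ((τ.1 - 1) * τ.2) := by
    intro τ hτ
    rw [hS, PairsL, Finset.mem_filter, Finset.mem_product] at hτ
    exact ⟨hτ.1.2, hτ.2⟩
  have h1 := card_le_image_add S G (fun τ τ' => τ.1 ≠ τ'.1) (by
    intro τ hτ τ' hτ' hne hGe heq
    apply hne
    have hpos : 0 < (τ.1 - 1) * τ.2 := by
      have := (hmem τ hτ).2.2.1
      rw [Win, Finset.mem_Ioc] at this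
      omega
    have hp1 : 0 < τ.1 - 1 := Nat.pos_of_mul_pos_right hpos
    have h2 : (τ.1 - 1) * τ.2 = (τ.1 - 1) * τ'.2 := by
      have : (τ.1 - 1) * τ.2 = (τ'.1 - 1) * τ'.2 := hGe
      rw [← heq] at this
      exact this
    exact Prod.ext heq (Nat.eq_of_mul_eq_mul_left hp1 h2))
  set F0 := (S ×ˢ S).filter (fun t => t.1.1 ≠ t.2.1 ∧ G t.1 = G t.2) with hF0
  set e : (ℕ × ℕ) × (ℕ × ℕ) → ℕ × ℕ × ℕ × ℕ := fun t => (t.1.1, t.1.2, t.2.1, t.2.2) with he
  have hinj : Function.Injective e := by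
    intro a b hab
    simp only [he, Prod.mk.injEq] at hab
    exact Prod.ext (Prod.ext hab.1 hab.2.1) (Prod.ext hab.2.2.1 hab.2.2.2)
  have hF := hcoll (F0.image e) (by
    intro τ hτ
    obtain ⟨t, ht, rfl⟩ := Finset.mem_image.mp hτ
    rw [hF0, Finset.mem_filter, Finset.mem_product] at ht
    obtain ⟨⟨h1, h2⟩, h3, h4⟩ := ht
    obtain ⟨h5, h6, h7, h8⟩ := hmem _ h1
    obtain ⟨h5', h6', -, -⟩ := hmem _ h2
    exact ⟨h3, h6, h6', h5, h5', h4, h7, h8⟩)
  rw [Finset.card_image_of_injective _ hinj] at hF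
  have himg : ((S.image G).card : ℝ) ≤ (Vf (c * x) : ℝ) - Vf x := by
    refine le_trans ?_ (Vf_diff_ge x c hc hx0)
    apply Nat.cast_le.mpr
    apply Finset.card_le_card
    intro v hv
    obtain ⟨τ, hτ, rfl⟩ := Finset.mem_image.mp hv
    rw [Finset.mem_filter]
    exact ⟨(hmem τ hτ).2.2.1, htot τ hτ⟩
  have h2 : (S.card : ℝ) ≤ ((S.image G).card : ℝ) + (F0.card : ℝ) := by
    exact_mod_cast h1
  linarith

private lemma Ss_mono' (N : ℕ) {T T' : ℝ} (h : T ≤ T') : Ss N T ≤ Ss N T' := by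
  unfold Ss
  apply Finset.sum_le_sum_of_subset_of_nonneg
  · intro m hm
    rw [Aset, Finset.mem_filter] at hm ⊢
    obtain ⟨h1, l, low, h2, h3⟩ := hm
    exact ⟨h1, l, low, h2, h3.trans h⟩
  · intro i _ _
    positivity

private lemma Ss_nonneg (N : ℕ) (T : ℝ) : 0 ≤ Ss N T :=
  Finset.sum_nonneg fun _ _ => by positivity

/-- Lower bound of Theorem A. -/
theorem lower_bound (c : ℝ) (hc : 1 < c) (ε : ℝ) (hε : 0 < ε) : ∃ N₀ : ℕ, ∀ N ≥ N₀, ∀ x : ℝ, 1 < x → |levR x - N| ≤ 2 →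
    (c - 1 - ε) * (x / Real.log x) * Ss N ((N : ℝ) - 4 * wd N) ≤ (Vf (c * x) : ℝ) - Vf x := by
  obtain ⟨N₁, h1⟩ := pairs_count c hc (ε / 2) (by positivity)
  obtain ⟨N₂, h2⟩ := pair_totient c hc
  obtain ⟨N₃, h3⟩ := pair_count c hc
  obtain ⟨N₄, h4⟩ := one_le_Ss
  have hw : Tendsto (fun N : ℕ => wd N) atTop atTop :=
    (tendsto_rpow_atTop (by norm_num)).comp tendsto_natCast_atTop_atTop
  have e1 : ∀ᶠ N : ℕ in atTop, Real.exp (-(wd N / 2)) ≤ ε / 2 := by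
    have h5 : Tendsto (fun N : ℕ => wd N / 2) atTop atTop := hw.atTop_div_const (by norm_num)
    have h6 : Tendsto (fun N : ℕ => Real.exp (-(wd N / 2))) atTop (𝓝 0) :=
      Real.tendsto_exp_neg_atTop_nhds_zero.comp h5
    exact (h6.eventually_lt_const (by positivity)).mono fun _ h => h.le
  have e2 : ∀ᶠ N : ℕ in atTop, 1 ≤ wd N := hw.eventually_ge_atTop 1
  obtain ⟨N₅, h5⟩ := Filter.eventually_atTop.mp (e1.and e2)
  refine ⟨max (max N₁ N₂) (max N₃ (max N₄ N₅)), fun N hN x hx hL => ?_⟩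
  have hN1 : N₁ ≤ N := by
    have := le_trans (le_max_left (max N₁ N₂) _) hN
    exact le_trans (le_max_left _ _) this
  have hN2 : N₂ ≤ N := by
    have := le_trans (le_max_left (max N₁ N₂) _) hN
    exact le_trans (le_max_right _ _) this
  have hN' := le_trans (le_max_right (max N₁ N₂) _) hN
  have hN3 : N₃ ≤ N := le_trans (le_max_left _ _) hN'
  have hN4 : N₄ ≤ N := le_trans (le_max_left _ _) (le_trans (le_max_right _ _) hN')
  have hN5 : N₅ ≤ N := le_trans (le_max_right _ _) (le_trans (le_max_right _ _) hN')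
  obtain ⟨he, hw1⟩ := h5 N hN5
  have hx0 : 0 < x := by linarith
  have hl := Real.log_pos hx
  have hQ : 0 < x / Real.log x := by positivity
  have hS1 := h4 N hN4
  by_cases hsign : c - 1 - ε / 2 ≤ 0
  · have h6 : (c - 1 - ε) * (x / Real.log x) * Ss N ((N : ℝ) - 4 * wd N) ≤ 0 := by
      apply mul_nonpos_of_nonpos_of_nonneg _ (Ss_nonneg _ _)
      apply mul_nonpos_of_nonpos_of_nonneg _ hQ.le
      linarith
    have h7 := Vf_diff_ge x c hc hx0
    have h8 : (0 : ℝ) ≤ (((Win x c).filter (fun v => ∃ n : ℕ, n.totient = v)).card : ℝ) :=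
      Nat.cast_nonneg _
    linarith
  push Not at hsign
  have h6 := image_count (N := N) hc hx (h2 N hN2 x hx hL) (h3 N hN3 x hx hL)
  have h7 := h1 N hN1 x hx hL
  have hab := abs_le.mp hL
  have hmono : Ss N ((N : ℝ) - 4 * wd N) ≤ Ss N (levR x - wd N) :=
    Ss_mono' N (by linarith [hab.1])
  have h8 : (c - 1 - ε / 2) * (x / Real.log x) * Ss N ((N : ℝ) - 4 * wd N) ≤
      (c - 1 - ε / 2) * (x / Real.log x) * Ss N (levR x - wd N) := by
    apply mul_le_mul_of_nonneg_left hmono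
    positivity
  have h9 : (x / Real.log x) * Real.exp (-(wd N / 2)) ≤
      (x / Real.log x) * (ε / 2 * Ss N ((N : ℝ) - 4 * wd N)) := by
    apply mul_le_mul_of_nonneg_left _ hQ.le
    have hεS : ε / 2 ≤ ε / 2 * Ss N ((N : ℝ) - 4 * wd N) := by
      have : 0 ≤ ε / 2 := by positivity
      nlinarith
    linarith
  nlinarith

end
end Vale.Agent.Lib.P031V
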