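import Vale.Agent.Lib.P031V.Upper
import Vale.Agent.Lib.P031V.Lower

/-! # P031: final assembly, blueprint section 9. -/

namespace Vale.Agent.Lib.P031V
open Real Finset Filter Topology
open scoped Classical
noncomputable section

theorem Vf_le {X : ℝ} (hX : 0 ≤ X) : (Vf X : ℝ) ≤ X := by
  have h1 : Vf X ≤ ⌊X⌋₊ := by
    unfold Vf
    refine (Finset.card_filter_le _ _).trans ?_
    simp
  calc (Vf X : ℝ) ≤ (⌊X⌋₊ : ℝ) := by exact_mod_cast h1
    _ ≤ X := Nat.floor_le hX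

theorem geom_aux {c : ℝ} (hc : 1 < c) (K : ℕ) :
    ∑ k ∈ Finset.range K, (1 : ℝ) / c ^ (k + 1) = (1 - 1 / c ^ K) / (c - 1) := by
  have hc0 : c ≠ 0 := by linarith
  have hc1 : c - 1 ≠ 0 := by linarith
  induction K with
  | zero => simp
  | succ K ih =>
    rw [Finset.sum_range_succ, ih]
    field_simp
    ring

/-- The telescoping sum. -/
theorem tel_sum (f : ℕ → ℝ) (K : ℕ) :
    ∑ k ∈ Finset.range K, (f k - f (k + 1)) = f 0 - f K :=
  Finset.sum_range_sub' f K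

/-- Elementary estimate of the sum of `Y/log Y` along a geometric sequence. -/
theorem sum_L_bounds {c x : ℝ} (hc : 1 < c) (hx : 1 < x) {K : ℕ} {η : ℝ} (hη : 0 < η) (hη1 : η < 1)
    (hK : (K : ℝ) * Real.log c ≤ η * Real.log x) :
    (x / Real.log x) * ((1 - 1 / c ^ K) / (c - 1))
        ≤ ∑ k ∈ Finset.range K, (x / c ^ (k + 1)) / Real.log (x / c ^ (k + 1)) ∧
      ∑ k ∈ Finset.range K, (x / c ^ (k + 1)) / Real.log (x / c ^ (k + 1))
        ≤ (x / Real.log x) * ((1 / (1 - η)) * ((1 - 1 / c ^ K) / (c - 1))) := by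
  have hl : 0 < Real.log x := Real.log_pos hx
  have ha : 0 < Real.log c := Real.log_pos hc
  have hx0 : 0 < x := by linarith
  have hc0 : 0 < c := by linarith
  have hlog : ∀ k ∈ Finset.range K, (1 - η) * Real.log x ≤ Real.log (x / c ^ (k + 1)) ∧
      Real.log (x / c ^ (k + 1)) ≤ Real.log x := by
    intro k hk
    have hk' : ((k : ℝ) + 1) ≤ K := by
      have := Finset.mem_range.1 hk
      exact_mod_cast this
    rw [Real.log_div hx0.ne' (pow_pos hc0 _).ne', Real.log_pow]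
    push_cast
    constructor
    · have : ((k : ℝ) + 1) * Real.log c ≤ K * Real.log c := by gcongr
      linarith
    · have : 0 ≤ ((k : ℝ) + 1) * Real.log c := by positivity
      linarith
  have h1η : 0 < 1 - η := by linarith
  rw [← geom_aux hc K, Finset.mul_sum, Finset.mul_sum, Finset.mul_sum]
  constructor
  · refine Finset.sum_le_sum fun k hk => ?_
    obtain ⟨h1, h2⟩ := hlog k hk
    have hpos : 0 < Real.log (x / c ^ (k + 1)) := lt_of_lt_of_le (by positivity) h1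
    have hc' : 0 < c ^ (k + 1) := pow_pos hc0 _
    rw [div_mul_div_comm, mul_one, div_le_div_iff₀ (by positivity) hpos]
    have : x / c ^ (k + 1) * (Real.log x * c ^ (k + 1)) = x * Real.log x := by
      field_simp
    rw [this]
    exact mul_le_mul_of_nonneg_left h2 hx0.le
  · refine Finset.sum_le_sum fun k hk => ?_
    obtain ⟨h1, h2⟩ := hlog k hk
    have hpos : 0 < Real.log (x / c ^ (k + 1)) := lt_of_lt_of_le (by positivity) h1
    have hc' : 0 < c ^ (k + 1) := pow_pos hc0 _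
    have e : x / Real.log x * (1 / (1 - η) * (1 / c ^ (k + 1)))
        = x / c ^ (k + 1) / ((1 - η) * Real.log x) := by
      field_simp
    rw [e]
    exact div_le_div_of_nonneg_left (by positivity) (by positivity) h1

theorem log_Y_bounds {c x : ℝ} (hc : 1 < c) (hx : 1 < x) {K : ℕ} {η : ℝ}
    (hK : (K : ℝ) * Real.log c ≤ η * Real.log x) (k : ℕ) (hk : k < K) :
    (1 - η) * Real.log x ≤ Real.log (x / c ^ (k + 1)) ∧
      Real.log (x / c ^ (k + 1)) ≤ Real.log x := by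
  have ha : 0 < Real.log c := Real.log_pos hc
  have hx0 : 0 < x := by linarith
  have hc0 : 0 < c := by linarith
  have hk' : ((k : ℝ) + 1) ≤ K := by exact_mod_cast hk
  rw [Real.log_div hx0.ne' (pow_pos hc0 _).ne', Real.log_pow]
  push_cast
  constructor
  · have : ((k : ℝ) + 1) * Real.log c ≤ K * Real.log c := by gcongr
    linarith
  · have : 0 ≤ ((k : ℝ) + 1) * Real.log c := by positivity
    linarith

theorem real_up {d e ε : ℝ} (hd0 : 0 < d) (he0 : 0 < e) (he1 : e ≤ 1 / 2) (he3 : e ≤ ε * d / 8)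
    (he4 : e ≤ ε / 8) (hε : 0 < ε) (hε1 : ε ≤ 1) :
    (d + e) * (1 / (1 - e)) * (1 / d) + e ≤ 1 + ε := by
  have h1e : 0 < 1 - e := by linarith
  have e1 : (d + e) * (1 / d) ≤ 1 + ε / 8 := by
    have : (d + e) * (1 / d) = 1 + e / d := by field_simp
    rw [this]
    have : e / d ≤ ε / 8 := by
      rw [div_le_iff₀ hd0]
      linarith
    linarith
  have e2 : 1 / (1 - e) ≤ 1 + ε / 4 := by
    rw [div_le_iff₀ h1e]
    nlinarith
  have e3 : (d + e) * (1 / (1 - e)) * (1 / d) = ((d + e) * (1 / d)) * (1 / (1 - e)) := by ring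
  rw [e3]
  have e4 : ((d + e) * (1 / d)) * (1 / (1 - e)) ≤ (1 + ε / 8) * (1 + ε / 4) :=
    mul_le_mul e1 e2 (by positivity) (by positivity)
  nlinarith

theorem real_lo {d e ε : ℝ} (hd0 : 0 < d) (he0 : 0 < e) (he1 : e ≤ 1 / 2) (he2 : e ≤ d / 2)
    (he3 : e ≤ ε * d / 8) (he4 : e ≤ ε / 8) (hε : 0 < ε) (hε1 : ε ≤ 1) :
    1 - ε ≤ (d - e) * ((1 - e) / d) := by
  have e1 : (d - e) * ((1 - e) / d) = (1 - e / d) * (1 - e) := by field_simp
  rw [e1]
  have e2 : e / d ≤ ε / 8 := by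
    rw [div_le_iff₀ hd0]
    linarith
  have e3 : 0 ≤ 1 - e := by linarith
  have e4 : 0 ≤ 1 - e / d := by
    have : e / d ≤ 1 / 2 := by
      rw [div_le_iff₀ hd0]
      linarith
    linarith
  nlinarith [mul_nonneg e4 e3]

theorem bound_lo {d e ε Lx S q Sg V T : ℝ} (hde : 0 ≤ d - e) (hS0 : 0 < S) (hLx0 : 0 < Lx)
    (hsum : Lx * q ≤ Sg) (hq0 : (1 - e) / d ≤ q) (hlo : (d - e) * Sg * S ≤ V - T) (hT : 0 ≤ T)
    (hreal : 1 - ε ≤ (d - e) * ((1 - e) / d)) : (1 - ε) * Lx * S ≤ V := by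
  have h1 : (d - e) * (Lx * q) * S ≤ (d - e) * Sg * S := by gcongr
  have h2 : (d - e) * (Lx * q) * S = ((d - e) * q) * (Lx * S) := by ring
  have hB : 0 < Lx * S := mul_pos hLx0 hS0
  have h3 : (1 - ε) * (Lx * S) ≤ ((d - e) * q) * (Lx * S) :=
    mul_le_mul_of_nonneg_right (hreal.trans (mul_le_mul_of_nonneg_left hq0 hde)) hB.le
  have h4 : (1 - ε) * Lx * S = (1 - ε) * (Lx * S) := by ring
  linarith

theorem bound_up {d e ε Lx S q Sg V T : ℝ} (hd0 : 0 < d) (he0 : 0 < e) (he1 : e ≤ 1 / 2)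
    (hS1 : 1 ≤ S) (hLx0 : 0 < Lx)
    (hsum : Sg ≤ Lx * (1 / (1 - e) * q)) (hq1 : q ≤ 1 / d) (hup : V - T ≤ (d + e) * Sg * S)
    (hT : T ≤ e * Lx) (hreal : (d + e) * (1 / (1 - e)) * (1 / d) + e ≤ 1 + ε) :
    V ≤ (1 + ε) * Lx * S := by
  have hS0 : 0 < S := by linarith
  have hB : 0 < Lx * S := mul_pos hLx0 hS0
  have hde : 0 ≤ d + e := by linarith
  have h1e : 0 < 1 - e := by linarith
  have h1 : (d + e) * Sg * S ≤ (d + e) * (Lx * (1 / (1 - e) * q)) * S := by gcongr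
  have h2 : (d + e) * (Lx * (1 / (1 - e) * q)) * S = ((d + e) * (1 / (1 - e)) * q) * (Lx * S) := by
    ring
  have h3 : ((d + e) * (1 / (1 - e)) * q) ≤ (d + e) * (1 / (1 - e)) * (1 / d) := by gcongr
  have h4 : e * Lx ≤ e * (Lx * S) := by
    have : Lx ≤ Lx * S := by nlinarith
    gcongr
  have h5 := mul_le_mul_of_nonneg_right h3 hB.le
  have h6 := mul_le_mul_of_nonneg_right hreal hB.le
  have h7 : (1 + ε) * Lx * S = (1 + ε) * (Lx * S) := by ring
  have h8 : ((d + e) * (1 / (1 - e)) * (1 / d) + e) * (Lx * S)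
      = (d + e) * (1 / (1 - e)) * (1 / d) * (Lx * S) + e * (Lx * S) := by ring
  linarith

/-- The number of steps. -/
theorem exists_steps {c e l : ℝ} (hc : 1 < c) (he0 : 0 < e) (he1 : e ≤ 1 / 2) (hl1 : 1 ≤ l)
    (hl2 : Real.log (1 / e) + Real.log c ≤ l * (e / 2)) (hl3 : Real.log l ≤ e / 2 * l) :
    ∃ K : ℕ, (K : ℝ) * Real.log c ≤ e * l ∧ 1 / c ^ K ≤ e / l := by
  have ha : 0 < Real.log c := Real.log_pos hc
  have hc0 : 0 < c := by linarith
  have hl0 : 0 < l := by linarith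
  have hq1 : 1 ≤ l / e := by
    rw [le_div_iff₀ he0]
    linarith
  have hlogq : Real.log (l / e) = Real.log l + Real.log (1 / e) := by
    rw [div_eq_mul_one_div, Real.log_mul hl0.ne' (by positivity)]
  have hlogq0 : 0 ≤ Real.log (l / e) := Real.log_nonneg hq1
  refine ⟨⌈Real.log (l / e) / Real.log c⌉₊, ?_, ?_⟩
  · have h1 : ((⌈Real.log (l / e) / Real.log c⌉₊ : ℕ) : ℝ) < Real.log (l / e) / Real.log c + 1 :=
      Nat.ceil_lt_add_one (by positivity)
    have h2 : ((⌈Real.log (l / e) / Real.log c⌉₊ : ℕ) : ℝ) * Real.log c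
        ≤ (Real.log (l / e) / Real.log c + 1) * Real.log c := by
      gcongr
    have h3 : (Real.log (l / e) / Real.log c + 1) * Real.log c
        = Real.log (l / e) + Real.log c := by
      field_simp
    rw [h3, hlogq] at h2
    nlinarith
  · have hK1 : Real.log (l / e) ≤ (⌈Real.log (l / e) / Real.log c⌉₊ : ℕ) * Real.log c := by
      have := Nat.le_ceil (Real.log (l / e) / Real.log c)
      rwa [div_le_iff₀ ha] at this
    set K := ⌈Real.log (l / e) / Real.log c⌉₊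
    have hpow : l / e ≤ c ^ K := by
      have h1 : Real.log (c ^ K) = K * Real.log c := Real.log_pow _ _
      have h2 : Real.log (l / e) ≤ Real.log (c ^ K) := by rw [h1]; exact hK1
      exact (Real.log_le_log_iff (by positivity) (by positivity)).1 h2
    have hpos : 0 < c ^ K := pow_pos hc0 _
    rw [div_le_div_iff₀ hpos hl0]
    rw [div_le_iff₀ he0] at hpow
    linarith

/-- Geometry of the points. -/
theorem geo_points {c x : ℝ} {K N : ℕ} {e : ℝ} (hc : 1 < c) (hx1 : 1 < x) (he1 : e ≤ 1 / 2)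
    (hl1 : 1 ≤ Real.log x) (hK2 : (K : ℝ) * Real.log c ≤ e * Real.log x)
    (hfl1 : (N : ℝ) ≤ levR x) (hfl2 : levR x < (N : ℝ) + 1) (k : ℕ) (hk : k < K) :
    1 < x / c ^ (k + 1) ∧ |levR (x / c ^ (k + 1)) - N| ≤ 2 := by
  have hl0 : 0 < Real.log x := by linarith
  have hx0 : 0 < x := by linarith
  have hc0 : 0 < c := by linarith
  obtain ⟨h1, h2⟩ := log_Y_bounds hc hx1 hK2 k hk
  have hhalf : Real.log x / 2 ≤ Real.log (x / c ^ (k + 1)) := by nlinarith
  have hpos : 0 < Real.log (x / c ^ (k + 1)) := by linarith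
  have hY0 : 0 < x / c ^ (k + 1) := by positivity
  constructor
  · by_contra hcon
    push Not at hcon
    have := Real.log_nonpos hY0.le hcon
    linarith
  · have e1 : levR (x / c ^ (k + 1)) ≤ levR x := Real.log_le_log hpos h2
    have e2 : levR x - Real.log 2 ≤ levR (x / c ^ (k + 1)) := by
      have e3 : Real.log (Real.log x / 2) ≤ levR (x / c ^ (k + 1)) :=
        Real.log_le_log (by positivity) hhalf
      rw [Real.log_div hl0.ne' (by norm_num)] at e3
      exact e3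
    have e4 : Real.log 2 ≤ 1 := by
      have := Real.log_two_lt_d9
      linarith
    rw [abs_le]
    constructor <;> linarith

/-- One scale of the telescoping: bounds on `Vf x` from bounds on all steps. -/
theorem tel_scale {c x S e ε : ℝ} {K : ℕ} (hc : 1 < c) (hx1 : 1 < x) (hl1 : 1 ≤ Real.log x)
    (he0 : 0 < e) (he1 : e ≤ 1 / 2) (he2 : e ≤ (c - 1) / 2) (he3 : e ≤ ε * (c - 1) / 8)
    (he4 : e ≤ ε / 8) (hε : 0 < ε) (hε1 : ε ≤ 1) (hS1 : 1 ≤ S)
    (hK2 : (K : ℝ) * Real.log c ≤ e * Real.log x) (hK3 : 1 / c ^ K ≤ e / Real.log x)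
    (hU : ∀ k, k < K → (Vf (c * (x / c ^ (k + 1))) : ℝ) - Vf (x / c ^ (k + 1)) ≤
      (c - 1 + e) * ((x / c ^ (k + 1)) / Real.log (x / c ^ (k + 1))) * S)
    (hL : ∀ k, k < K → (c - 1 - e) * ((x / c ^ (k + 1)) / Real.log (x / c ^ (k + 1))) * S ≤
      (Vf (c * (x / c ^ (k + 1))) : ℝ) - Vf (x / c ^ (k + 1))) :
    (1 - ε) * (x / Real.log x) * S ≤ (Vf x : ℝ) ∧ (Vf x : ℝ) ≤ (1 + ε) * (x / Real.log x) * S := by
  have hc0 : 0 < c := by linarith
  have hl0 : 0 < Real.log x := by linarith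
  have hx0 : 0 < x := by linarith
  have hd0 : 0 < c - 1 := by linarith
  have hS0 : 0 < S := by linarith
  have hLx0 : 0 < x / Real.log x := div_pos hx0 hl0
  have hK4 : 1 / c ^ K ≤ e := by
    refine hK3.trans ?_
    rw [div_le_iff₀ hl0]
    nlinarith
  have htail : (Vf (x / c ^ K) : ℝ) ≤ e * (x / Real.log x) := by
    refine (Vf_le (by positivity)).trans ?_
    have : x / c ^ K = x * (1 / c ^ K) := by ring
    rw [this]
    calc x * (1 / c ^ K) ≤ x * (e / Real.log x) := by gcongr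
      _ = e * (x / Real.log x) := by ring
  have htel := tel_sum (fun k => (Vf (x / c ^ k) : ℝ)) K
  simp only [pow_zero, div_one] at htel
  have hstep : ∀ k, c * (x / c ^ (k + 1)) = x / c ^ k := by
    intro k
    rw [pow_succ]
    field_simp
  obtain ⟨hsum1, hsum2⟩ := sum_L_bounds hc hx1 (K := K) he0 (by linarith) hK2
  have hq0 : (1 - e) / (c - 1) ≤ (1 - 1 / c ^ K) / (c - 1) := by
    gcongr
  have hq1' : (1 - 1 / c ^ K) / (c - 1) ≤ 1 / (c - 1) := by
    have : 0 < 1 / c ^ K := by positivity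
    gcongr
    linarith
  have hup : (Vf x : ℝ) - Vf (x / c ^ K) ≤
      (c - 1 + e) * (∑ k ∈ Finset.range K, (x / c ^ (k + 1)) / Real.log (x / c ^ (k + 1))) * S := by
    rw [← htel, Finset.mul_sum, Finset.sum_mul]
    refine Finset.sum_le_sum fun k hk => ?_
    have := hU k (Finset.mem_range.1 hk)
    rw [hstep] at this
    exact this
  have hlo : (c - 1 - e) * (∑ k ∈ Finset.range K, (x / c ^ (k + 1)) / Real.log (x / c ^ (k + 1))) * S
      ≤ (Vf x : ℝ) - Vf (x / c ^ K) := by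
    rw [← htel, Finset.mul_sum, Finset.sum_mul]
    refine Finset.sum_le_sum fun k hk => ?_
    have := hL k (Finset.mem_range.1 hk)
    rw [hstep] at this
    exact this
  have hV0 : (0 : ℝ) ≤ Vf (x / c ^ K) := Nat.cast_nonneg _
  exact ⟨bound_lo (by linarith) hS0 hLx0 hsum1 hq0 hlo hV0
      (real_lo hd0 he0 he1 he2 he3 he4 hε hε1),
    bound_up hd0 he0 he1 hS1 hLx0 hsum2 hq1' hup htail (real_up hd0 he0 he1 he3 he4 hε hε1)⟩

/-- The key comparison: the totient count against the mass. -/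
theorem tel_main (c : ℝ) (hc : 1 < c) (ε : ℝ) (hε : 0 < ε) (hε1 : ε ≤ 1) : ∀ᶠ x : ℝ in atTop,
    1 < x ∧ 0 < Real.log x ∧ 1 ≤ Ss ⌊levR x⌋₊ ((⌊levR x⌋₊ : ℝ) - 4 * wd ⌊levR x⌋₊) ∧
    (1 - ε) * (x / Real.log x) * Ss ⌊levR x⌋₊ ((⌊levR x⌋₊ : ℝ) - 4 * wd ⌊levR x⌋₊) ≤ (Vf x : ℝ) ∧
    (Vf x : ℝ) ≤ (1 + ε) * (x / Real.log x) * Ss ⌊levR x⌋₊ ((⌊levR x⌋₊ : ℝ) - 4 * wd ⌊levR x⌋₊) ∧
    (c - 1 - ε) * (x / Real.log x) * Ss ⌊levR x⌋₊ ((⌊levR x⌋₊ : ℝ) - 4 * wd ⌊levR x⌋₊)
      ≤ (Vf (c * x) : ℝ) - Vf x ∧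
    (Vf (c * x) : ℝ) - Vf x
      ≤ (c - 1 + ε) * (x / Real.log x) * Ss ⌊levR x⌋₊ ((⌊levR x⌋₊ : ℝ) - 4 * wd ⌊levR x⌋₊) := by
  have hd0 : 0 < c - 1 := by linarith
  have ha : 0 < Real.log c := Real.log_pos hc
  -- the small parameter
  obtain ⟨e, he0, he1, he2, he3, he4⟩ : ∃ e : ℝ, 0 < e ∧ e ≤ 1 / 2 ∧ e ≤ (c - 1) / 2 ∧
      e ≤ ε * (c - 1) / 8 ∧ e ≤ ε / 8 :=
    ⟨min (1 / 2) (min ((c - 1) / 2) (min (ε * (c - 1) / 8) (ε / 8))),
      lt_min (by norm_num) (lt_min (by positivity) (lt_min (by positivity) (by positivity))),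
      min_le_left _ _, (min_le_right _ _).trans (min_le_left _ _),
      (min_le_right _ _).trans ((min_le_right _ _).trans (min_le_left _ _)),
      (min_le_right _ _).trans ((min_le_right _ _).trans (min_le_right _ _))⟩
  -- the inputs
  obtain ⟨N1, hN1⟩ := upper_bound c hc e he0
  obtain ⟨N2, hN2⟩ := lower_bound c hc e he0
  obtain ⟨N3, hN3⟩ := upper_bound c hc ε hε
  obtain ⟨N4, hN4⟩ := lower_bound c hc ε hε
  obtain ⟨N5, hN5⟩ := one_le_Ss
  -- eventual conditions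
  have htl : Tendsto (fun x : ℝ => Real.log x) atTop atTop := Real.tendsto_log_atTop
  have htll : Tendsto levR atTop atTop := Real.tendsto_log_atTop.comp Real.tendsto_log_atTop
  have hfl : Tendsto (fun x : ℝ => ⌊levR x⌋₊) atTop atTop := tendsto_nat_floor_atTop.comp htll
  have ev1 := hfl.eventually_ge_atTop N1
  have ev1b := hfl.eventually_ge_atTop N2
  have ev1c := hfl.eventually_ge_atTop N3
  have ev1d := hfl.eventually_ge_atTop N4
  have ev1e := hfl.eventually_ge_atTop N5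
  have ev2 := htll.eventually_ge_atTop 1
  have ev3 := htl.eventually_ge_atTop 1
  have ev3b := htl.eventually_ge_atTop ((Real.log (1 / e) + Real.log c) / (e / 2))
  have ev4 : ∀ᶠ x : ℝ in atTop, Real.log (Real.log x) ≤ e / 2 * Real.log x := by
    have h := Real.isLittleO_log_id_atTop.def (c := e / 2) (by positivity)
    filter_upwards [htl.eventually h, htl.eventually_ge_atTop 1] with x h1 h2
    have h3 : 0 ≤ Real.log (Real.log x) := Real.log_nonneg h2
    simpa [abs_of_nonneg h3, abs_of_nonneg (by linarith : (0 : ℝ) ≤ Real.log x)] using h1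
  have ev5 := eventually_gt_atTop (1 : ℝ)
  filter_upwards [ev1, ev1b, ev1c, ev1d, ev1e, ev2, ev3, ev3b, ev4, ev5] with
    x hv1 hv1b hv1c hv1d hv1e hv2 hl1 hl2 hv4 hx1
  rw [div_le_iff₀ (by positivity)] at hl2
  have hl0 : 0 < Real.log x := by linarith
  have hfl1 : ((⌊levR x⌋₊ : ℕ) : ℝ) ≤ levR x := Nat.floor_le (by linarith)
  have hfl2 : levR x < ((⌊levR x⌋₊ : ℕ) : ℝ) + 1 := Nat.lt_floor_add_one _
  have habsx : |levR x - (⌊levR x⌋₊ : ℕ)| ≤ 2 := by
    rw [abs_le]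
    constructor <;> linarith
  obtain ⟨K, hK2, hK3⟩ := exists_steps (l := Real.log x) hc he0 he1 hl1 hl2 hv4
  have hS1 := hN5 _ hv1e
  obtain ⟨h1, h2⟩ := tel_scale hc hx1 hl1 he0 he1 he2 he3 he4 hε hε1 hS1 hK2 hK3
    (fun k hk => hN1 _ hv1 _ (geo_points hc hx1 he1 hl1 hK2 hfl1 hfl2 k hk).1
      (geo_points hc hx1 he1 hl1 hK2 hfl1 hfl2 k hk).2)
    (fun k hk => hN2 _ hv1b _ (geo_points hc hx1 he1 hl1 hK2 hfl1 hfl2 k hk).1
      (geo_points hc hx1 he1 hl1 hK2 hfl1 hfl2 k hk).2)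
  exact ⟨hx1, hl0, hS1, h1, h2, hN4 _ hv1d x hx1 habsx, hN3 _ hv1c x hx1 habsx⟩

/-- Erdős–Hall: `V(cx)/V(x) → c` for every fixed `c > 1`. -/
theorem totient_ratio (c : ℝ) (hc : 1 < c) :
    Tendsto (fun x : ℝ => (Vf (c * x) : ℝ) / (Vf x : ℝ)) atTop (𝓝 c) := by
  have hc0 : 0 < c := by linarith
  rw [Metric.tendsto_nhds]
  intro δ hδ
  set ε : ℝ := min (1 / 2) (δ / (8 * (c + 2))) with hε
  have hε0 : 0 < ε := lt_min (by norm_num) (by positivity)
  have hε1 : ε ≤ 1 / 2 := min_le_left _ _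
  have hε2 : ε * (8 * (c + 2)) ≤ δ := by
    have : ε ≤ δ / (8 * (c + 2)) := min_le_right _ _
    rwa [le_div_iff₀ (by positivity)] at this
  filter_upwards [tel_main c hc ε hε0 (by linarith)] with x hx
  obtain ⟨hx1, hl, hS, h1, h2, h3, h4⟩ := hx
  set S := Ss ⌊levR x⌋₊ ((⌊levR x⌋₊ : ℝ) - 4 * wd ⌊levR x⌋₊) with hSdef
  set Lx := x / Real.log x with hLx
  have hL0 : 0 < Lx := div_pos (by linarith) hl
  set B := Lx * S with hB
  have hB0 : 0 < B := mul_pos hL0 (by linarith)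
  have e1 : (1 - ε) * B ≤ (Vf x : ℝ) := by rw [hB]; linarith [h1, mul_assoc (1 - ε) Lx S]
  have e2 : (Vf x : ℝ) ≤ (1 + ε) * B := by rw [hB]; linarith [h2, mul_assoc (1 + ε) Lx S]
  have e3 : (c - 1 - ε) * B ≤ (Vf (c * x) : ℝ) - Vf x := by
    rw [hB]; linarith [h3, mul_assoc (c - 1 - ε) Lx S]
  have e4 : (Vf (c * x) : ℝ) - Vf x ≤ (c - 1 + ε) * B := by
    rw [hB]; linarith [h4, mul_assoc (c - 1 + ε) Lx S]
  have hV : 0 < (Vf x : ℝ) := lt_of_lt_of_le (by nlinarith) e1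
  rw [Real.dist_eq, abs_lt]
  have key : ε * (c + 2) * 4 ≤ δ := by nlinarith
  constructor
  · -- lower bound for the ratio
    have : c - δ < (Vf (c * x) : ℝ) / Vf x := by
      rw [lt_div_iff₀ hV]
      have e5 : (c - 2 * ε) * B ≤ (Vf (c * x) : ℝ) := by nlinarith
      by_cases hcd : 0 ≤ c - δ
      · have e6 : (c - δ) * (Vf x : ℝ) ≤ (c - δ) * ((1 + ε) * B) :=
          mul_le_mul_of_nonneg_left e2 hcd
        have e7 : (c - δ) * ((1 + ε) * B) < (c - 2 * ε) * B := by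
          have : (c - δ) * (1 + ε) < c - 2 * ε := by nlinarith
          nlinarith
        linarith
      · push Not at hcd
        have e6 : (c - δ) * (Vf x : ℝ) < 0 := mul_neg_of_neg_of_pos hcd hV
        have e7 : 0 < (c - 2 * ε) * B := by
          have : 0 < c - 2 * ε := by linarith
          positivity
        linarith
    linarith
  · -- upper bound for the ratio
    have : (Vf (c * x) : ℝ) / Vf x < c + δ := by
      rw [div_lt_iff₀ hV]
      have e5 : (Vf (c * x) : ℝ) ≤ (c + 2 * ε) * B := by nlinarith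
      have e6 : (c + δ) * ((1 - ε) * B) ≤ (c + δ) * (Vf x : ℝ) :=
        mul_le_mul_of_nonneg_left e1 (by linarith)
      have e7 : (c + 2 * ε) * B < (c + δ) * ((1 - ε) * B) := by
        have : c + 2 * ε < (c + δ) * (1 - ε) := by nlinarith
        nlinarith
      linarith
    linarith

end
end Vale.Agent.Lib.P031V
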