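import Mathlib
import Vale.Agent.Lib.P001.Mertens

/-! Second Mertens theorem in level form: the sum of `1/(p-1)` over primes with
`a ≤ log log p < b` is `b - a + O(exp (-a))`.  From `P001.mertens` by partial summation. -/

namespace Vale.Agent.Lib.P031V

open Finset Real

noncomputable section

/-- Sum of `1/p` over primes in `(u, v]`. -/
def primeSum (u v : ℕ) : ℝ := ∑ p ∈ (Ioc u v).filter Nat.Prime, (1 : ℝ) / p

lemma primeSum_succ {u v : ℕ} (h : u ≤ v) :
    primeSum u (v + 1) = primeSum u v +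
      (if (v + 1).Prime then (1 : ℝ) / ((v + 1 : ℕ) : ℝ) else 0) := by
  unfold primeSum
  rw [Finset.sum_filter, Finset.sum_filter, Finset.sum_Ioc_succ_top h]

lemma primeSum_self (u : ℕ) : primeSum u u = 0 := by simp [primeSum]

lemma primesLE_eq (n : ℕ) : Nat.primesLE n = (Ioc 0 n).filter Nat.Prime := by
  ext p
  simp only [Nat.mem_primesLE, mem_filter, mem_Ioc]
  constructor
  · rintro ⟨h1, h2⟩
    exact ⟨⟨h2.pos, h1⟩, h2⟩
  · rintro ⟨⟨_, h1⟩, h2⟩
    exact ⟨h1, h2⟩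

lemma M_succ (v : ℕ) : P001.M (v + 1) = P001.M v +
    (if (v + 1).Prime then Real.log ((v + 1 : ℕ) : ℝ) / ((v + 1 : ℕ) : ℝ) else 0) := by
  unfold P001.M
  rw [primesLE_eq, primesLE_eq, Finset.sum_filter, Finset.sum_filter,
    Finset.sum_Ioc_succ_top (Nat.zero_le v)]

/-- Error term in the first Mertens theorem. -/
def EE (n : ℕ) : ℝ := P001.M n - Real.log n

lemma one_div_prime_step {v : ℕ} (hv : 1 ≤ v) :
    (if (v + 1).Prime then (1 : ℝ) / ((v + 1 : ℕ) : ℝ) else 0) =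
      (Real.log ((v + 1 : ℕ) : ℝ) - Real.log v) / Real.log ((v + 1 : ℕ) : ℝ)
        + (EE (v + 1) - EE v) / Real.log ((v + 1 : ℕ) : ℝ) := by
  have hlog : 0 < Real.log ((v + 1 : ℕ) : ℝ) := by
    apply Real.log_pos
    have : (2 : ℕ) ≤ v + 1 := by omega
    have h2 : ((2 : ℕ) : ℝ) ≤ ((v + 1 : ℕ) : ℝ) := by exact_mod_cast this
    norm_num at h2 ⊢
    linarith
  have hM := M_succ v
  unfold EE
  rw [hM]
  split_ifs with h
  · have hne : ((v + 1 : ℕ) : ℝ) ≠ 0 := by positivity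
    field_simp
    ring
  · field_simp
    ring

/-- The main term of the partial summation. -/
def TT (u v : ℕ) : ℝ := ∑ n ∈ Ico u v,
  (Real.log ((n + 1 : ℕ) : ℝ) - Real.log n) / Real.log ((n + 1 : ℕ) : ℝ)

/-- The error term of the partial summation. -/
def RR (u v : ℕ) : ℝ := ∑ n ∈ Ico u v, (EE (n + 1) - EE n) / Real.log ((n + 1 : ℕ) : ℝ)

lemma primeSum_eq {u : ℕ} (hu : 1 ≤ u) {v : ℕ} (h : u ≤ v) :
    primeSum u v = TT u v + RR u v := by
  induction v, h using Nat.le_induction with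
  | base => simp [primeSum_self, TT, RR]
  | succ v hv ih =>
    rw [primeSum_succ hv, ih, one_div_prime_step (le_trans hu hv)]
    unfold TT RR
    rw [Finset.sum_Ico_succ_top hv, Finset.sum_Ico_succ_top hv]
    ring

lemma RR_parts {u : ℕ} (hu : 2 ≤ u) {v : ℕ} (h : u ≤ v) :
    RR u v = EE v / Real.log v - EE u / Real.log u +
      ∑ n ∈ Ico u v, EE n * (1 / Real.log n - 1 / Real.log ((n + 1 : ℕ) : ℝ)) := by
  induction v, h using Nat.le_induction with
  | base => simp [RR]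
  | succ v hv ih =>
    unfold RR at ih ⊢
    rw [Finset.sum_Ico_succ_top hv, Finset.sum_Ico_succ_top hv, ih]
    ring

lemma log_pos_of_two_le {n : ℕ} (hn : 2 ≤ n) : 0 < Real.log n := by
  apply Real.log_pos
  have h2 : ((2 : ℕ) : ℝ) ≤ (n : ℝ) := by exact_mod_cast hn
  norm_num at h2 ⊢
  linarith

lemma log_mono_nat {m n : ℕ} (hm : 1 ≤ m) (h : m ≤ n) : Real.log m ≤ Real.log n := by
  apply Real.log_le_log (by exact_mod_cast hm) (by exact_mod_cast h)

lemma telescope_inv {u : ℕ} {v : ℕ} (h : u ≤ v) :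
    ∑ n ∈ Ico u v, (1 / Real.log n - 1 / Real.log ((n + 1 : ℕ) : ℝ)) =
      1 / Real.log u - 1 / Real.log v := by
  induction v, h using Nat.le_induction with
  | base => simp
  | succ v hv ih =>
    rw [Finset.sum_Ico_succ_top hv, ih]
    ring

lemma delta_nonneg {n : ℕ} (hn : 2 ≤ n) :
    0 ≤ 1 / Real.log n - 1 / Real.log ((n + 1 : ℕ) : ℝ) := by
  have h1 := log_pos_of_two_le hn
  have h2 : Real.log n ≤ Real.log ((n + 1 : ℕ) : ℝ) :=
    log_mono_nat (by omega) (by omega)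
  have := one_div_le_one_div_of_le h1 h2
  linarith

lemma abs_RR_le {C : ℝ} (hC : ∀ n : ℕ, 1 ≤ n → |EE n| ≤ C) {u : ℕ} (hu : 2 ≤ u) {v : ℕ}
    (h : u ≤ v) : |RR u v| ≤ 2 * C / Real.log u := by
  have hlu := log_pos_of_two_le hu
  have hlv := log_pos_of_two_le (le_trans hu h)
  have hC0 : 0 ≤ C := le_trans (abs_nonneg _) (hC 1 le_rfl)
  rw [RR_parts hu h]
  have h1 : |EE v / Real.log v| ≤ C / Real.log v := by
    rw [abs_div, abs_of_pos hlv]
    exact div_le_div_of_nonneg_right (hC v (by omega)) hlv.le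
  have h2 : |EE u / Real.log u| ≤ C / Real.log u := by
    rw [abs_div, abs_of_pos hlu]
    exact div_le_div_of_nonneg_right (hC u (by omega)) hlu.le
  have h3 : |∑ n ∈ Ico u v, EE n * (1 / Real.log n - 1 / Real.log ((n + 1 : ℕ) : ℝ))| ≤
      C * (1 / Real.log u - 1 / Real.log v) := by
    rw [← telescope_inv h, Finset.mul_sum]
    refine (Finset.abs_sum_le_sum_abs _ _).trans (Finset.sum_le_sum ?_)
    intro n hn
    have hn' : u ≤ n := (Finset.mem_Ico.1 hn).1
    rw [abs_mul, abs_of_nonneg (delta_nonneg (le_trans hu hn'))]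
    exact mul_le_mul_of_nonneg_right (hC n (by omega)) (delta_nonneg (le_trans hu hn'))
  have e : 2 * C / Real.log u = C / Real.log v + C / Real.log u +
      C * (1 / Real.log u - 1 / Real.log v) := by
    field_simp
    ring
  rw [e]
  calc |EE v / Real.log v - EE u / Real.log u +
        ∑ n ∈ Ico u v, EE n * (1 / Real.log n - 1 / Real.log ((n + 1 : ℕ) : ℝ))|
      ≤ |EE v / Real.log v| + |EE u / Real.log u| +
        |∑ n ∈ Ico u v, EE n * (1 / Real.log n - 1 / Real.log ((n + 1 : ℕ) : ℝ))| := by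
        refine (abs_add_le _ _).trans ?_
        have := abs_sub (EE v / Real.log v) (EE u / Real.log u)
        linarith
    _ ≤ _ := by linarith

/-- Elementary two sided bound for `log log (n+1) - log log n`. -/
lemma loglog_step {n : ℕ} (hn : 3 ≤ n) :
    (Real.log ((n + 1 : ℕ) : ℝ) - Real.log n) / Real.log ((n + 1 : ℕ) : ℝ) ≤
        Real.log (Real.log ((n + 1 : ℕ) : ℝ)) - Real.log (Real.log n) ∧
    Real.log (Real.log ((n + 1 : ℕ) : ℝ)) - Real.log (Real.log n) ≤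
        (Real.log ((n + 1 : ℕ) : ℝ) - Real.log n) / Real.log n := by
  have hx : 0 < Real.log n := log_pos_of_two_le (by omega)
  have hy : 0 < Real.log ((n + 1 : ℕ) : ℝ) := log_pos_of_two_le (by omega)
  constructor
  · -- log(x/y) ≥ 1 - y/x form: use log t ≤ t - 1 with t = x/y
    have h := Real.log_le_sub_one_of_pos (div_pos hx hy)
    rw [Real.log_div hx.ne' hy.ne'] at h
    have e : (Real.log ((n + 1 : ℕ) : ℝ) - Real.log n) / Real.log ((n + 1 : ℕ) : ℝ) =
        1 - Real.log n / Real.log ((n + 1 : ℕ) : ℝ) := by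
      field_simp
    rw [e]
    linarith
  · have h := Real.log_le_sub_one_of_pos (div_pos hy hx)
    rw [Real.log_div hy.ne' hx.ne'] at h
    have e : (Real.log ((n + 1 : ℕ) : ℝ) - Real.log n) / Real.log n =
        Real.log ((n + 1 : ℕ) : ℝ) / Real.log n - 1 := by
      field_simp
    rw [e]
    linarith

lemma log_succ_sub_le {n : ℕ} (hn : 1 ≤ n) :
    Real.log ((n + 1 : ℕ) : ℝ) - Real.log n ≤ 1 := by
  have hn0 : (0 : ℝ) < n := by exact_mod_cast hn
  have h := Real.log_le_sub_one_of_pos (x := ((n + 1 : ℕ) : ℝ) / n) (by positivity)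
  rw [Real.log_div (by positivity) hn0.ne'] at h
  have e : ((n + 1 : ℕ) : ℝ) / n - 1 = 1 / n := by
    push_cast
    field_simp
    ring
  rw [e] at h
  have : (1 : ℝ) / n ≤ 1 := by
    rw [div_le_one hn0]
    exact_mod_cast hn
  linarith

lemma log_succ_sub_nonneg {n : ℕ} (hn : 1 ≤ n) :
    0 ≤ Real.log ((n + 1 : ℕ) : ℝ) - Real.log n := by
  have := log_mono_nat (m := n) (n := n + 1) hn (by omega)
  linarith

lemma TT_bounds {u : ℕ} (hu : 3 ≤ u) {v : ℕ} (h : u ≤ v) :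
    TT u v ≤ Real.log (Real.log v) - Real.log (Real.log u) ∧
    Real.log (Real.log v) - Real.log (Real.log u) ≤
      TT u v + (1 / Real.log u - 1 / Real.log v) := by
  induction v, h using Nat.le_induction with
  | base => simp [TT]
  | succ v hv ih =>
    obtain ⟨i1, i2⟩ := ih
    have hv3 : 3 ≤ v := le_trans hu hv
    obtain ⟨s1, s2⟩ := loglog_step hv3
    have hT : TT u (v + 1) = TT u v +
        (Real.log ((v + 1 : ℕ) : ℝ) - Real.log v) / Real.log ((v + 1 : ℕ) : ℝ) := by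
      unfold TT
      rw [Finset.sum_Ico_succ_top hv]
    constructor
    · rw [hT]
      linarith
    · rw [hT]
      have hd := delta_nonneg (n := v) (by omega)
      have hdL := log_succ_sub_le (n := v) (by omega)
      have hdL0 := log_succ_sub_nonneg (n := v) (by omega)
      have e : (Real.log ((v + 1 : ℕ) : ℝ) - Real.log v) / Real.log v -
          (Real.log ((v + 1 : ℕ) : ℝ) - Real.log v) / Real.log ((v + 1 : ℕ) : ℝ) =
          (Real.log ((v + 1 : ℕ) : ℝ) - Real.log v) *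
            (1 / Real.log v - 1 / Real.log ((v + 1 : ℕ) : ℝ)) := by
        ring
      have h4 : (Real.log ((v + 1 : ℕ) : ℝ) - Real.log v) *
            (1 / Real.log v - 1 / Real.log ((v + 1 : ℕ) : ℝ)) ≤
            1 * (1 / Real.log v - 1 / Real.log ((v + 1 : ℕ) : ℝ)) :=
        mul_le_mul_of_nonneg_right hdL hd
      linarith

/-- Mertens second theorem on integer intervals. -/
theorem primeSum_bound : ∃ C : ℝ, 0 ≤ C ∧ ∀ u v : ℕ, 3 ≤ u → u ≤ v →
    |primeSum u v - (Real.log (Real.log v) - Real.log (Real.log u))| ≤ C / Real.log u := by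
  obtain ⟨C0, hC0, hC⟩ := P001.mertens
  refine ⟨2 * C0 + 1, by linarith, ?_⟩
  intro u v hu huv
  have hC' : ∀ n : ℕ, 1 ≤ n → |EE n| ≤ C0 := fun n hn => hC n hn
  have h1 := abs_RR_le hC' (u := u) (by omega) huv
  obtain ⟨t1, t2⟩ := TT_bounds hu huv
  have hlu := log_pos_of_two_le (n := u) (by omega)
  have hlv := log_pos_of_two_le (n := v) (by omega)
  rw [primeSum_eq (by omega) huv]
  have e : (2 * C0 + 1) / Real.log u = 2 * C0 / Real.log u + 1 / Real.log u := by ring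
  rw [e]
  have hinv : 0 < 1 / Real.log v := by positivity
  have hR := abs_le.1 h1
  rw [abs_le]
  constructor <;> linarith [hR.1, hR.2]

/-- Sum of `1/(p-1) - 1/p` over primes in `(u, v]` is at most `1/u`. -/
lemma sum_diff_le {u : ℕ} (hu : 1 ≤ u) {v : ℕ} (h : u ≤ v) :
    ∑ p ∈ (Ioc u v).filter Nat.Prime, ((1 : ℝ) / ((p : ℝ) - 1) - 1 / p) ≤ 1 / u - 1 / v := by
  induction v, h using Nat.le_induction with
  | base => simp
  | succ v hv ih =>
    rw [Finset.sum_filter, Finset.sum_Ioc_succ_top hv, ← Finset.sum_filter]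
    have hv1 : 1 ≤ v := le_trans hu hv
    have hv0 : (0 : ℝ) < v := by exact_mod_cast hv1
    have e : ((1 : ℝ) / (((v + 1 : ℕ) : ℝ) - 1) - 1 / ((v + 1 : ℕ) : ℝ)) =
        1 / v - 1 / ((v + 1 : ℕ) : ℝ) := by
      push_cast
      rw [add_sub_cancel_right]
    split_ifs with hp
    · rw [e]
      linarith
    · have : (0 : ℝ) ≤ 1 / v - 1 / ((v + 1 : ℕ) : ℝ) := by
        have h2 : (v : ℝ) ≤ ((v + 1 : ℕ) : ℝ) := by push_cast; linarith
        have := one_div_le_one_div_of_le hv0 h2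
        linarith
      linarith

/-- The primes of level in `[a, b)` as a finite set. -/
def levPrimes (a b : ℝ) : Finset ℕ :=
  (Finset.range ⌈Real.exp (Real.exp b)⌉₊).filter
    (fun p => p.Prime ∧ a ≤ Real.log (Real.log p) ∧ Real.log (Real.log p) < b)

lemma lt_exp_exp_of_level {p : ℕ} (hp : p.Prime) {b : ℝ}
    (h : Real.log (Real.log p) < b) : (p : ℝ) < Real.exp (Real.exp b) := by
  have hp1 : (1 : ℝ) < p := by exact_mod_cast hp.one_lt
  have hl : 0 < Real.log p := Real.log_pos hp1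
  have h1 : Real.log p < Real.exp b := (Real.log_lt_iff_lt_exp hl).1 h
  exact (Real.log_lt_iff_lt_exp (by linarith)).1 h1

lemma mem_levPrimes {a b : ℝ} {p : ℕ} :
    p ∈ levPrimes a b ↔ p.Prime ∧ a ≤ Real.log (Real.log p) ∧ Real.log (Real.log p) < b := by
  unfold levPrimes
  simp only [mem_filter, mem_range, and_iff_right_iff_imp]
  rintro ⟨hp, _, h⟩
  exact_mod_cast Nat.lt_ceil.2 (lt_exp_exp_of_level hp h)

lemma exp_exp_ge (a : ℝ) (ha : 1 ≤ a) : (14 : ℝ) ≤ Real.exp (Real.exp a) := by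
  have h1 : Real.exp 1 ≤ Real.exp a := Real.exp_le_exp.2 ha
  have h2 : (2.7 : ℝ) ≤ Real.exp 1 := by
    have := Real.exp_one_gt_d9
    linarith
  have h3 : Real.exp 2.7 ≤ Real.exp (Real.exp a) := Real.exp_le_exp.2 (by linarith)
  have h5 : Real.exp 2.7 = Real.exp 1 ^ (2 : ℕ) * Real.exp 0.7 := by
    rw [← Real.exp_nat_mul, ← Real.exp_add]
    norm_num
  have h7 : (7.29 : ℝ) ≤ Real.exp 1 ^ (2 : ℕ) := by nlinarith
  have h8 : (1.945 : ℝ) ≤ Real.exp 0.7 := by
    have h9 := Real.quadratic_le_exp_of_nonneg (x := (0.7 : ℝ)) (by norm_num)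
    norm_num at h9 ⊢
    linarith
  have h10 : (14 : ℝ) ≤ Real.exp 2.7 := by
    rw [h5]
    nlinarith
  linarith

/-- Floor type data: `u < exp (exp a) ≤ u + 1`. -/
lemma exists_floor (a : ℝ) (ha : 1 ≤ a) : ∃ u : ℕ, 13 ≤ u ∧
    (u : ℝ) < Real.exp (Real.exp a) ∧ Real.exp (Real.exp a) ≤ ((u + 1 : ℕ) : ℝ) := by
  have hX := exp_exp_ge a ha
  have hc : 14 ≤ ⌈Real.exp (Real.exp a)⌉₊ := by
    have h1 := Nat.le_ceil (Real.exp (Real.exp a))
    have h2 : (14 : ℝ) ≤ (⌈Real.exp (Real.exp a)⌉₊ : ℝ) := le_trans hX h1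
    exact_mod_cast h2
  refine ⟨⌈Real.exp (Real.exp a)⌉₊ - 1, by omega, ?_, ?_⟩
  · exact Nat.lt_ceil.1 (by omega)
  · have e : ⌈Real.exp (Real.exp a)⌉₊ - 1 + 1 = ⌈Real.exp (Real.exp a)⌉₊ := by omega
    rw [e]
    exact Nat.le_ceil _

lemma level_ge_iff {a : ℝ} {u : ℕ} (hu : (u : ℝ) < Real.exp (Real.exp a))
    (hu' : Real.exp (Real.exp a) ≤ ((u + 1 : ℕ) : ℝ)) {p : ℕ} (hp : p.Prime) :
    a ≤ Real.log (Real.log p) ↔ u < p := by
  have hp1 : (1 : ℝ) < p := by exact_mod_cast hp.one_lt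
  have hl : 0 < Real.log p := Real.log_pos hp1
  constructor
  · intro h
    have h1 : Real.exp a ≤ Real.log p := (Real.le_log_iff_exp_le hl).1 h
    have h2 : Real.exp (Real.exp a) ≤ p := (Real.le_log_iff_exp_le (by linarith)).1 h1
    exact_mod_cast lt_of_lt_of_le hu h2
  · intro h
    have h1 : ((u + 1 : ℕ) : ℝ) ≤ p := by exact_mod_cast h
    have h2 : Real.exp (Real.exp a) ≤ p := le_trans hu' h1
    have h3 : Real.exp a ≤ Real.log p := (Real.le_log_iff_exp_le (by linarith)).2 h2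
    exact (Real.le_log_iff_exp_le hl).2 h3

lemma level_lt_iff {b : ℝ} {v : ℕ} (hv : (v : ℝ) < Real.exp (Real.exp b))
    (hv' : Real.exp (Real.exp b) ≤ ((v + 1 : ℕ) : ℝ)) {p : ℕ} (hp : p.Prime) :
    Real.log (Real.log p) < b ↔ p ≤ v := by
  have hp1 : (1 : ℝ) < p := by exact_mod_cast hp.one_lt
  have hl : 0 < Real.log p := Real.log_pos hp1
  constructor
  · intro h
    have h1 := lt_exp_exp_of_level hp h
    have h2 : (p : ℝ) < ((v + 1 : ℕ) : ℝ) := lt_of_lt_of_le h1 hv'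
    have h3 : p < v + 1 := by exact_mod_cast h2
    omega
  · intro h
    have h1 : (p : ℝ) ≤ v := by exact_mod_cast h
    have h2 : (p : ℝ) < Real.exp (Real.exp b) := lt_of_le_of_lt h1 hv
    have h3 : Real.log p < Real.exp b := (Real.log_lt_iff_lt_exp (by linarith)).2 h2
    exact (Real.log_lt_iff_lt_exp hl).2 h3

lemma levPrimes_eq {a b : ℝ} {u v : ℕ} (hu : (u : ℝ) < Real.exp (Real.exp a))
    (hu' : Real.exp (Real.exp a) ≤ ((u + 1 : ℕ) : ℝ))
    (hv : (v : ℝ) < Real.exp (Real.exp b))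
    (hv' : Real.exp (Real.exp b) ≤ ((v + 1 : ℕ) : ℝ)) :
    levPrimes a b = (Ioc u v).filter Nat.Prime := by
  ext p
  rw [mem_levPrimes, mem_filter, mem_Ioc]
  constructor
  · rintro ⟨hp, h1, h2⟩
    exact ⟨⟨(level_ge_iff hu hu' hp).1 h1, (level_lt_iff hv hv' hp).1 h2⟩, hp⟩
  · rintro ⟨⟨h1, h2⟩, hp⟩
    exact ⟨hp, (level_ge_iff hu hu' hp).2 h1, (level_lt_iff hv hv' hp).2 h2⟩

/-- Level of the floor: `a - 1 / log u ≤ log log u < a`. -/
lemma floor_level {a : ℝ} {u : ℕ} (hu3 : 3 ≤ u) (hu : (u : ℝ) < Real.exp (Real.exp a))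
    (hu' : Real.exp (Real.exp a) ≤ ((u + 1 : ℕ) : ℝ)) :
    Real.log (Real.log u) ≤ a ∧ a - 1 / Real.log u ≤ Real.log (Real.log u) := by
  have hlu := log_pos_of_two_le (n := u) (by omega)
  have hlu1 := log_pos_of_two_le (n := u + 1) (by omega)
  have hu0 : (0 : ℝ) < u := by
    have : 0 < u := by omega
    exact_mod_cast this
  constructor
  · have h1 : Real.log u < Real.exp a := (Real.log_lt_iff_lt_exp hu0).2 hu
    exact ((Real.log_lt_iff_lt_exp hlu).2 h1).le
  · have h1 : Real.exp a ≤ Real.log ((u + 1 : ℕ) : ℝ) :=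
      (Real.le_log_iff_exp_le (by positivity)).2 hu'
    have h2 : a ≤ Real.log (Real.log ((u + 1 : ℕ) : ℝ)) := (Real.le_log_iff_exp_le hlu1).2 h1
    obtain ⟨_, s2⟩ := loglog_step hu3
    have h3 := log_succ_sub_le (n := u) (by omega)
    have h4 : (Real.log ((u + 1 : ℕ) : ℝ) - Real.log u) / Real.log u ≤ 1 / Real.log u :=
      div_le_div_of_nonneg_right h3 hlu.le
    linarith

/-- Lower bound for `log u` at the floor. -/
lemma floor_log_ge {a : ℝ} (ha : 1 ≤ a) {u : ℕ} (hu3 : 3 ≤ u)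
    (hu' : Real.exp (Real.exp a) ≤ ((u + 1 : ℕ) : ℝ)) :
    Real.exp a / 2 ≤ Real.log u := by
  have h1 : Real.exp a ≤ Real.log ((u + 1 : ℕ) : ℝ) :=
    (Real.le_log_iff_exp_le (by positivity)).2 hu'
  have h3 := log_succ_sub_le (n := u) (by omega)
  have h4 : (2 : ℝ) ≤ Real.exp a := by
    have h5 := Real.add_one_le_exp a
    linarith
  linarith

/-- **Mertens in level form.** -/
theorem mertens_lev : ∃ C : ℝ, 0 ≤ C ∧ ∀ a b : ℝ, 1 ≤ a → a ≤ b →
    |∑ p ∈ levPrimes a b, (1 : ℝ) / ((p : ℝ) - 1) - (b - a)| ≤ C * Real.exp (-a) := by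
  obtain ⟨C, hC0, hC⟩ := primeSum_bound
  refine ⟨2 * (C + 3), by linarith, ?_⟩
  intro a b ha hab
  obtain ⟨u, hu13, hu, hu'⟩ := exists_floor a ha
  obtain ⟨v, hv13, hv, hv'⟩ := exists_floor b (le_trans ha hab)
  have huv : u ≤ v := by
    have h1 : Real.exp (Real.exp a) ≤ Real.exp (Real.exp b) :=
      Real.exp_le_exp.2 (Real.exp_le_exp.2 hab)
    have h2 : (u : ℝ) < ((v + 1 : ℕ) : ℝ) := lt_of_lt_of_le hu (le_trans h1 hv')
    have h3 : u < v + 1 := by exact_mod_cast h2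
    omega
  rw [levPrimes_eq hu hu' hv hv']
  have hS := hC u v (by omega) huv
  have hD := sum_diff_le (u := u) (by omega) huv
  have hlu := log_pos_of_two_le (n := u) (by omega)
  have hlv := log_pos_of_two_le (n := v) (by omega)
  obtain ⟨a1, a2⟩ := floor_level (by omega) hu hu'
  obtain ⟨b1, b2⟩ := floor_level (by omega) hv hv'
  have hlogle : Real.log u ≤ Real.log v := log_mono_nat (by omega) huv
  have hinv : 1 / Real.log v ≤ 1 / Real.log u := one_div_le_one_div_of_le hlu hlogle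
  have hu0 : (0 : ℝ) < u := by
    have : 0 < u := by omega
    exact_mod_cast this
  have hv0 : (0 : ℝ) < v := by
    have : 0 < v := by omega
    exact_mod_cast this
  have hloglt : Real.log u ≤ u := by
    have := Real.log_le_sub_one_of_pos hu0
    linarith
  have hinvu : 1 / (u : ℝ) ≤ 1 / Real.log u := one_div_le_one_div_of_le hlu hloglt
  have hDnn : 0 ≤ ∑ p ∈ (Ioc u v).filter Nat.Prime, ((1 : ℝ) / ((p : ℝ) - 1) - 1 / p) := by
    apply Finset.sum_nonneg
    intro p hp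
    have hp' := (mem_filter.1 hp).2
    have hp1 : (1 : ℝ) < p := by exact_mod_cast hp'.one_lt
    have : (1 : ℝ) / p ≤ 1 / ((p : ℝ) - 1) :=
      one_div_le_one_div_of_le (by linarith) (by linarith)
    linarith
  have hsplit : ∑ p ∈ (Ioc u v).filter Nat.Prime, (1 : ℝ) / ((p : ℝ) - 1) =
      primeSum u v + ∑ p ∈ (Ioc u v).filter Nat.Prime, ((1 : ℝ) / ((p : ℝ) - 1) - 1 / p) := by
    unfold primeSum
    rw [← Finset.sum_add_distrib]
    apply Finset.sum_congr rfl
    intro p _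
    ring
  rw [hsplit]
  have hvinv : 0 < 1 / (v : ℝ) := by positivity
  have hbound : (C + 3) / Real.log u ≤ 2 * (C + 3) * Real.exp (-a) := by
    have h1 := floor_log_ge ha (u := u) (by omega) hu'
    have hexp : 0 < Real.exp a := Real.exp_pos a
    rw [Real.exp_neg, div_le_iff₀ hlu]
    have h2 : (C + 3) = (C + 3) * (Real.exp a)⁻¹ * Real.exp a := by
      field_simp
    have h3 : 0 ≤ 2 * (C + 3) * (Real.exp a)⁻¹ := by positivity
    calc C + 3 = 2 * (C + 3) * (Real.exp a)⁻¹ * (Real.exp a / 2) := by field_simp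
      _ ≤ 2 * (C + 3) * (Real.exp a)⁻¹ * Real.log u :=
        mul_le_mul_of_nonneg_left h1 h3
  have e : (C + 3) / Real.log u = C / Real.log u + 3 * (1 / Real.log u) := by ring
  have hS' := abs_le.1 hS
  refine le_trans ?_ hbound
  rw [e, abs_le]
  constructor <;> linarith [hS'.1, hS'.2]

/-- Upper bound form, for any finite set of primes of level in `[a, b)`. -/
theorem mass_le_of_level : ∃ C : ℝ, 0 ≤ C ∧ ∀ a b : ℝ, 1 ≤ a → a ≤ b → ∀ P : Finset ℕ,
    (∀ p ∈ P, p.Prime ∧ a ≤ Real.log (Real.log p) ∧ Real.log (Real.log p) < b) →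
    ∑ p ∈ P, (1 : ℝ) / ((p : ℝ) - 1) ≤ b - a + C * Real.exp (-a) := by
  obtain ⟨C, hC0, hC⟩ := mertens_lev
  refine ⟨C, hC0, ?_⟩
  intro a b ha hab P hP
  have hsub : P ⊆ levPrimes a b := fun p hp => mem_levPrimes.2 (hP p hp)
  have h1 : ∑ p ∈ P, (1 : ℝ) / ((p : ℝ) - 1) ≤ ∑ p ∈ levPrimes a b, (1 : ℝ) / ((p : ℝ) - 1) := by
    apply Finset.sum_le_sum_of_subset_of_nonneg hsub
    intro p hp _
    have hp' := (mem_levPrimes.1 hp).1
    have hp1 : (1 : ℝ) < p := by exact_mod_cast hp'.one_lt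
    have : 0 < (p : ℝ) - 1 := by linarith
    positivity
  have h2 := (abs_le.1 (hC a b ha hab)).2
  linarith

end

end Vale.Agent.Lib.P031V
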