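import Vale.Agent.Lib.P031V.Defs
import Vale.Agent.Lib.P031V.MertensLev

/-! # P031: second Mertens theorem in level form. Use `Vale/Agent/Lib/P001/Mertens.lean` (first Mertens) and Abel summation.
Blueprint section 5. -/

namespace Vale.Agent.Lib.P031V
open Real Finset
open scoped Classical
noncomputable section

/-- Primes of level in `[a,b)`. -/
def primesLev (a b : ℝ) : Finset ℕ :=
  (Finset.range (⌈Real.exp (Real.exp b)⌉₊ + 1)).filter (fun p => p.Prime ∧ a ≤ lev p ∧ lev p < b)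

/-- Mass of primes of level in `[a,b)`. -/
def massI (a b : ℝ) : ℝ := ∑ p ∈ primesLev a b, (1 : ℝ) / ((p : ℝ) - 1)

/-- Second Mertens theorem: the `1/(p-1)`-mass of a level interval is its length, up to `C e^{-a}`. -/
theorem mert_interval : ∃ C a₀ : ℝ, 0 < C ∧ ∀ a b : ℝ, a₀ ≤ a → a ≤ b →
    |massI a b - (b - a)| ≤ C * Real.exp (-a) := by
  obtain ⟨C, hC0, hC⟩ := mertens_lev
  refine ⟨C + 1, 1, by linarith, ?_⟩
  intro a b ha hab
  have hset : primesLev a b = levPrimes a b := by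
    ext p
    rw [mem_levPrimes]
    unfold primesLev lev
    simp only [mem_filter, mem_range, and_iff_right_iff_imp]
    rintro ⟨hp, _, h⟩
    have := Nat.lt_ceil.2 (lt_exp_exp_of_level hp h)
    omega
  unfold massI
  rw [hset]
  refine le_trans (hC a b ha hab) ?_
  have := Real.exp_pos (-a)
  nlinarith

/-- Upper Mertens from the bottom: `∑_{p ≤ y} 1/(p-1) ≤ log log y + C`, in level form. -/
theorem mert_low : ∃ C : ℝ, 0 < C ∧ ∀ b : ℝ, 0 ≤ b →
    ∑ p ∈ (Finset.range (⌈Real.exp (Real.exp b)⌉₊ + 1)).filter (fun p => p.Prime ∧ lev p < b),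
      (1 : ℝ) / ((p : ℝ) - 1) ≤ b + C := by
  obtain ⟨C, hC0, hC⟩ := mass_le_of_level
  set n0 : ℕ := ⌈Real.exp (Real.exp 1)⌉₊ with hn0
  have hterm : ∀ p : ℕ, p.Prime → (1 : ℝ) / ((p : ℝ) - 1) ≤ 1 := by
    intro p hp
    have h2 : (2 : ℝ) ≤ p := by exact_mod_cast hp.two_le
    rw [div_le_one (by linarith)]
    linarith
  have hnonneg : ∀ p : ℕ, p.Prime → 0 ≤ (1 : ℝ) / ((p : ℝ) - 1) := by
    intro p hp
    have h2 : (2 : ℝ) ≤ p := by exact_mod_cast hp.two_le
    have : 0 < (p : ℝ) - 1 := by linarith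
    positivity
  have hsmall : ∑ p ∈ (Finset.range n0).filter Nat.Prime, (1 : ℝ) / ((p : ℝ) - 1) ≤ n0 := by
    calc ∑ p ∈ (Finset.range n0).filter Nat.Prime, (1 : ℝ) / ((p : ℝ) - 1)
        ≤ ∑ p ∈ (Finset.range n0).filter Nat.Prime, (1 : ℝ) := by
          apply Finset.sum_le_sum
          intro p hp
          exact hterm p (Finset.mem_filter.1 hp).2
      _ = (((Finset.range n0).filter Nat.Prime).card : ℝ) := by simp
      _ ≤ n0 := by
          have := Finset.card_filter_le (Finset.range n0) Nat.Prime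
          rw [Finset.card_range] at this
          exact_mod_cast this
  refine ⟨(n0 : ℝ) + C + 1, by positivity, ?_⟩
  intro b hb
  by_cases hb1 : 1 ≤ b
  · -- split according to the level
    have hsplit : (Finset.range (⌈Real.exp (Real.exp b)⌉₊ + 1)).filter (fun p => p.Prime ∧ lev p < b) ⊆
        (Finset.range n0).filter Nat.Prime ∪ levPrimes 1 b := by
      intro p hp
      obtain ⟨_, hp1, hp2⟩ := Finset.mem_filter.1 hp
      by_cases h1 : lev p < 1
      · refine Finset.mem_union_left _ (Finset.mem_filter.2 ⟨Finset.mem_range.2 ?_, hp1⟩)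
        exact Nat.lt_ceil.2 (lt_exp_exp_of_level hp1 h1)
      · exact Finset.mem_union_right _ (mem_levPrimes.2 ⟨hp1, not_lt.1 h1, hp2⟩)
    have h1 : ∑ p ∈ (Finset.range (⌈Real.exp (Real.exp b)⌉₊ + 1)).filter (fun p => p.Prime ∧ lev p < b),
        (1 : ℝ) / ((p : ℝ) - 1) ≤ ∑ p ∈ (Finset.range n0).filter Nat.Prime ∪ levPrimes 1 b,
        (1 : ℝ) / ((p : ℝ) - 1) := by
      apply Finset.sum_le_sum_of_subset_of_nonneg hsplit
      intro p hp _
      rcases Finset.mem_union.1 hp with h | h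
      · exact hnonneg p (Finset.mem_filter.1 h).2
      · exact hnonneg p (mem_levPrimes.1 h).1
    have h2 := Finset.sum_union_inter (s₁ := (Finset.range n0).filter Nat.Prime) (s₂ := levPrimes 1 b)
      (f := fun p : ℕ => (1 : ℝ) / ((p : ℝ) - 1))
    have h3 : 0 ≤ ∑ p ∈ (Finset.range n0).filter Nat.Prime ∩ levPrimes 1 b, (1 : ℝ) / ((p : ℝ) - 1) := by
      apply Finset.sum_nonneg
      intro p hp
      exact hnonneg p (Finset.mem_filter.1 (Finset.mem_inter.1 hp).1).2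
    have h4 := hC 1 b le_rfl hb1 (levPrimes 1 b) (fun p hp => mem_levPrimes.1 hp)
    have h5 : Real.exp (-1) ≤ 1 := by
      rw [Real.exp_le_one_iff]
      norm_num
    have h6 : C * Real.exp (-1) ≤ C := by nlinarith
    linarith
  · have hsub : (Finset.range (⌈Real.exp (Real.exp b)⌉₊ + 1)).filter (fun p => p.Prime ∧ lev p < b) ⊆
        (Finset.range n0).filter Nat.Prime := by
      intro p hp
      obtain ⟨_, hp1, hp2⟩ := Finset.mem_filter.1 hp
      refine Finset.mem_filter.2 ⟨Finset.mem_range.2 ?_, hp1⟩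
      exact Nat.lt_ceil.2 (lt_exp_exp_of_level hp1 (lt_trans hp2 (not_le.1 hb1)))
    have h1 : ∑ p ∈ (Finset.range (⌈Real.exp (Real.exp b)⌉₊ + 1)).filter (fun p => p.Prime ∧ lev p < b),
        (1 : ℝ) / ((p : ℝ) - 1) ≤ ∑ p ∈ (Finset.range n0).filter Nat.Prime, (1 : ℝ) / ((p : ℝ) - 1) := by
      apply Finset.sum_le_sum_of_subset_of_nonneg hsub
      intro p hp _
      exact hnonneg p (Finset.mem_filter.1 hp).2
    linarith

/-- Lower Mertens from the bottom, for the sieve: `∑_{s ≤ z} 1/s ≥ log log z - C`. -/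
theorem mert_low_inv : ∃ C : ℝ, 0 < C ∧ ∀ z : ℝ, 3 ≤ z →
    Real.log (Real.log z) - C ≤
      ∑ s ∈ (Finset.range (⌊z⌋₊ + 1)).filter (fun s => s.Prime), (1 : ℝ) / s := by
  obtain ⟨C, hC0, hC⟩ := primeSum_bound
  have hl3 : (1 : ℝ) ≤ Real.log ((3 : ℕ) : ℝ) := by
    have h4 : Real.exp 1 ≤ ((3 : ℕ) : ℝ) := by
      have := Real.exp_one_lt_d9
      norm_num
      linarith
    exact (Real.le_log_iff_exp_le (by norm_num)).2 h4
  have hB : 0 ≤ Real.log (Real.log ((3 : ℕ) : ℝ)) := Real.log_nonneg hl3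
  refine ⟨C + Real.log (Real.log ((3 : ℕ) : ℝ)) + 2, by linarith, ?_⟩
  intro z hz
  have hv3 : 3 ≤ ⌊z⌋₊ := Nat.le_floor (by exact_mod_cast hz)
  have h1 := (abs_le.1 (hC 3 ⌊z⌋₊ le_rfl hv3)).1
  have hsub : (Ioc 3 ⌊z⌋₊).filter Nat.Prime ⊆ (Finset.range (⌊z⌋₊ + 1)).filter (fun s => s.Prime) := by
    intro p hp
    obtain ⟨h2, h3⟩ := Finset.mem_filter.1 hp
    exact Finset.mem_filter.2 ⟨Finset.mem_range.2 (by have := (Finset.mem_Ioc.1 h2).2; omega), h3⟩
  have h2 : primeSum 3 ⌊z⌋₊ ≤ ∑ s ∈ (Finset.range (⌊z⌋₊ + 1)).filter (fun s => s.Prime), (1 : ℝ) / s := by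
    unfold primeSum
    apply Finset.sum_le_sum_of_subset_of_nonneg hsub
    intro _ _ _
    positivity
  have h6 : C / Real.log ((3 : ℕ) : ℝ) ≤ C := by
    rw [div_le_iff₀ (by linarith)]
    nlinarith
  -- comparison of `z` and its floor
  have hzpos : 0 < z := by linarith
  have hlt : z < ((⌊z⌋₊ + 1 : ℕ) : ℝ) := by
    push_cast
    exact Nat.lt_floor_add_one z
  have hlz : 0 < Real.log z := Real.log_pos (by linarith)
  have h7 : Real.log z ≤ Real.log ((⌊z⌋₊ + 1 : ℕ) : ℝ) := Real.log_le_log hzpos hlt.le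
  have h8 : Real.log (Real.log z) ≤ Real.log (Real.log ((⌊z⌋₊ + 1 : ℕ) : ℝ)) := Real.log_le_log hlz h7
  obtain ⟨_, s2⟩ := loglog_step hv3
  have h9 := log_succ_sub_le (n := ⌊z⌋₊) (by omega)
  have hlv : (1 : ℝ) ≤ Real.log (⌊z⌋₊ : ℝ) := by
    have h10 : (3 : ℝ) ≤ (⌊z⌋₊ : ℝ) := by exact_mod_cast hv3
    have h11 : Real.log ((3 : ℕ) : ℝ) ≤ Real.log (⌊z⌋₊ : ℝ) :=
      Real.log_le_log (by norm_num) (by exact_mod_cast h10)
    linarith
  have h12 : (Real.log ((⌊z⌋₊ + 1 : ℕ) : ℝ) - Real.log ⌊z⌋₊) / Real.log ⌊z⌋₊ ≤ 1 := by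
    rw [div_le_one (by linarith)]
    linarith
  generalize Real.log (Real.log ((3 : ℕ) : ℝ)) = B at *
  generalize C / Real.log ((3 : ℕ) : ℝ) = D at *
  generalize Real.log (Real.log (⌊z⌋₊ : ℝ)) = A at *
  generalize primeSum 3 ⌊z⌋₊ = S at *
  linarith

/-- Harmonic bound: `∑_{p ≤ X, r ∣ p-1} 1/(p-1) ≤ (log X + 1)/r`. -/
theorem harmonic_dvd (X : ℕ) (r : ℕ) (hr : 0 < r) :
    ∑ p ∈ (Finset.range (X + 1)).filter (fun p => 2 ≤ p ∧ r ∣ p - 1), (1 : ℝ) / ((p : ℝ) - 1)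
      ≤ (Real.log (X + 1) + 1) / r := by
  have hr0 : (0 : ℝ) < r := by exact_mod_cast hr
  set S := (Finset.range (X + 1)).filter (fun p => 2 ≤ p ∧ r ∣ p - 1) with hS
  have hinj : Set.InjOn (fun p : ℕ => (p - 1) / r) (S : Set ℕ) := by
    intro p hp q hq hpq
    obtain ⟨_, hp2, hpd⟩ := Finset.mem_filter.1 hp
    obtain ⟨_, hq2, hqd⟩ := Finset.mem_filter.1 hq
    have h1 : p - 1 = q - 1 := by
      have h3 := Nat.div_mul_cancel hpd
      have h4 := Nat.div_mul_cancel hqd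
      simp only at hpq
      rw [← h3, ← h4, hpq]
    omega
  have hval : ∀ p ∈ S, (1 : ℝ) / ((p : ℝ) - 1) = (1 / r) * (1 / (((p - 1) / r : ℕ) : ℝ)) := by
    intro p hp
    obtain ⟨_, hp2, hpd⟩ := Finset.mem_filter.1 hp
    have h3 := Nat.div_mul_cancel hpd
    have hk : (((p - 1) / r : ℕ) : ℝ) * r = (p : ℝ) - 1 := by
      have : ((((p - 1) / r * r : ℕ)) : ℝ) = ((p - 1 : ℕ) : ℝ) := by rw [h3]
      push_cast at this
      rw [this]
      rw [Nat.cast_sub (by omega)]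
      simp
    rw [← hk]
    rw [one_div_mul_one_div, mul_comm]
  have h1 : ∑ p ∈ S, (1 : ℝ) / ((p : ℝ) - 1) =
      (1 / r) * ∑ k ∈ S.image (fun p : ℕ => (p - 1) / r), (1 / (k : ℝ)) := by
    rw [Finset.sum_image hinj, Finset.mul_sum]
    exact Finset.sum_congr rfl hval
  have hsub : S.image (fun p : ℕ => (p - 1) / r) ⊆ Finset.Icc 1 (X / r) := by
    intro k hk
    obtain ⟨p, hp, rfl⟩ := Finset.mem_image.1 hk
    obtain ⟨hp1, hp2, hpd⟩ := Finset.mem_filter.1 hp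
    have hple : p ≤ X := by
      have := Finset.mem_range.1 hp1
      omega
    refine Finset.mem_Icc.2 ⟨?_, Nat.div_le_div_right (by omega)⟩
    exact Nat.div_pos (Nat.le_of_dvd (by omega) hpd) hr
  have hharm : ∀ n : ℕ, 1 ≤ n → ∑ k ∈ Finset.Icc 1 n, (1 / (k : ℝ)) ≤ 1 + Real.log (n : ℝ) := by
    intro n hn
    induction n, hn using Nat.le_induction with
    | base => simp
    | succ n hn ih =>
      rw [Finset.sum_Icc_succ_top (by omega)]
      have hn0 : (0 : ℝ) < (n : ℝ) := by exact_mod_cast hn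
      have hn1 : (0 : ℝ) < ((n + 1 : ℕ) : ℝ) := by positivity
      have h2 := Real.log_le_sub_one_of_pos (x := (n : ℝ) / ((n + 1 : ℕ) : ℝ)) (by positivity)
      rw [Real.log_div hn0.ne' hn1.ne'] at h2
      have e : (n : ℝ) / ((n + 1 : ℕ) : ℝ) - 1 = -(1 / ((n + 1 : ℕ) : ℝ)) := by
        push_cast
        field_simp
        ring
      rw [e] at h2
      linarith
  have hX0 : (0 : ℝ) < (X : ℝ) + 1 := by positivity
  have hlogX : 0 ≤ Real.log ((X : ℝ) + 1) := Real.log_nonneg (by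
    have : (0 : ℝ) ≤ X := Nat.cast_nonneg X
    linarith)
  have hsum : ∑ k ∈ Finset.Icc 1 (X / r), (1 / (k : ℝ)) ≤ Real.log ((X : ℝ) + 1) + 1 := by
    by_cases hq : 1 ≤ X / r
    · refine le_trans (hharm _ hq) ?_
      have h3 : ((X / r : ℕ) : ℝ) ≤ (X : ℝ) + 1 := by
        have h4 : X / r ≤ X := Nat.div_le_self X r
        have h5 : ((X / r : ℕ) : ℝ) ≤ (X : ℝ) := by exact_mod_cast h4
        linarith
      have h6 : (0 : ℝ) < ((X / r : ℕ) : ℝ) := by exact_mod_cast hq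
      have := Real.log_le_log h6 h3
      linarith
    · have : X / r = 0 := Nat.lt_one_iff.1 (not_le.1 hq)
      rw [this]
      simp only [Finset.Icc_eq_empty_of_lt (show (0 : ℕ) < 1 by omega), Finset.sum_empty]
      linarith
  have h3 : ∑ k ∈ S.image (fun p : ℕ => (p - 1) / r), (1 / (k : ℝ)) ≤
      ∑ k ∈ Finset.Icc 1 (X / r), (1 / (k : ℝ)) := by
    apply Finset.sum_le_sum_of_subset_of_nonneg hsub
    intro _ _ _
    positivity
  rw [h1, div_eq_mul_one_div (Real.log ((X : ℝ) + 1) + 1), mul_comm (Real.log ((X : ℝ) + 1) + 1)]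
  exact mul_le_mul_of_nonneg_left (le_trans h3 hsum) (by positivity)

end
end Vale.Agent.Lib.P031V
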