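import Vale.Agent.Lib.P031V.Defs

/-! Dyadic summation: from counts at dyadic scales to the mass `∑ 1/(p-1)` (P031, section 4). -/

namespace Vale.Agent.Lib.P031V.NormalInt

open Finset
open scoped Classical

noncomputable section

/-- Harmonic sums on an interval. -/
lemma sum_Icc_inv_le {m n : ℕ} (hm : 1 ≤ m) (hmn : m ≤ n) :
    ∑ k ∈ Finset.Icc m n, (1 / (k : ℝ)) ≤ 1 / (m : ℝ) + (Real.log n - Real.log m) := by
  induction n, hmn using Nat.le_induction with
  | base => simp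
  | succ n hmn ih =>
    rw [Finset.sum_Icc_succ_top (by omega)]
    have hn0 : (0 : ℝ) < (n : ℝ) := by
      have : 1 ≤ n := by omega
      exact_mod_cast this
    have hn1 : (0 : ℝ) < ((n + 1 : ℕ) : ℝ) := by positivity
    have h2 := Real.log_le_sub_one_of_pos (x := (n : ℝ) / ((n + 1 : ℕ) : ℝ)) (by positivity)
    rw [Real.log_div hn0.ne' hn1.ne'] at h2
    have e : (n : ℝ) / ((n + 1 : ℕ) : ℝ) - 1 = -(1 / ((n + 1 : ℕ) : ℝ)) := by
      push_cast
      field_simp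
      ring
    rw [e] at h2
    linarith

lemma floor_two_pow (i : ℕ) :
    ⌊(((2 ^ i : ℕ) : ℝ))⌋₊ = 2 ^ i ∧ ⌊2 * (((2 ^ i : ℕ) : ℝ))⌋₊ = 2 ^ (i + 1) := by
  constructor
  · exact Nat.floor_natCast _
  · have : 2 * (((2 ^ i : ℕ) : ℝ)) = ((2 ^ (i + 1) : ℕ) : ℝ) := by
      push_cast
      ring
    rw [this]
    exact Nat.floor_natCast _

/-- Generic dyadic summation.  `Bad` is any predicate; the count at the scale `X = 2^i` holds for
those `i` with level of `X` in `[a - 1, b]`. -/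
theorem dyadic_mass (Bad : ℕ → Prop) {ε a b : ℝ} (hε : 0 ≤ ε) (ha : 1 ≤ a) (hab : a ≤ b)
    (hcount : ∀ i : ℕ, 1 ≤ i → a - 1 ≤ levR ((2 ^ i : ℕ) : ℝ) → levR ((2 ^ i : ℕ) : ℝ) ≤ b →
      (((Finset.Ioc (2 ^ i) (2 ^ (i + 1))).filter (fun p => p.Prime ∧ Bad p)).card : ℝ)
        ≤ ε * (((2 ^ i : ℕ) : ℝ) / Real.log ((2 ^ i : ℕ) : ℝ)))
    (P : Finset ℕ) (hP : ∀ p ∈ P, p.Prime ∧ Bad p ∧ a ≤ lev p ∧ lev p ≤ b) :
    ∑ p ∈ P, (1 : ℝ) / ((p : ℝ) - 1) ≤ 2 * ε * (b - a + 2) := by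
  have hlog2 : 0 < Real.log 2 := Real.log_pos (by norm_num)
  have hlog2a : (1 / 2 : ℝ) ≤ Real.log 2 := by
    have := Real.log_two_gt_d9
    linarith
  have hlog2b : Real.log 2 < 1 := by
    have := Real.log_two_lt_d9
    linarith
  -- the index of a prime
  set idx : ℕ → ℕ := fun p => Nat.log 2 (p - 1) with hidx
  have hp3 : ∀ p ∈ P, 3 ≤ p := by
    intro p hp
    obtain ⟨hpp, -, h1, -⟩ := hP p hp
    by_contra hlt
    have h2 := hpp.two_le
    have hp2 : p = 2 := by omega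
    rw [hp2] at h1
    unfold lev at h1
    have h3 : Real.log ((2 : ℕ) : ℝ) = Real.log 2 := by norm_num
    rw [h3] at h1
    have h4 : Real.log (Real.log 2) ≤ 0 := by
      apply Real.log_nonpos hlog2.le hlog2b.le
    linarith
  have hspec : ∀ p ∈ P, 1 ≤ idx p ∧ 2 ^ idx p < p ∧ p ≤ 2 ^ (idx p + 1) := by
    intro p hp
    have h3 := hp3 p hp
    have h1 : 2 ^ Nat.log 2 (p - 1) ≤ p - 1 := Nat.pow_log_le_self 2 (by omega)
    have h2 : p - 1 < 2 ^ (Nat.log 2 (p - 1) + 1) := Nat.lt_pow_succ_log_self (by norm_num) _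
    refine ⟨?_, by simp only [hidx]; omega, by simp only [hidx]; omega⟩
    simp only [hidx]
    exact Nat.log_pos (by norm_num) (by omega)
  set i1 : ℕ := ⌈Real.exp (a - 1) / Real.log 2⌉₊ with hi1
  set i2 : ℕ := ⌊Real.exp b / Real.log 2⌋₊ with hi2
  have hi1R : Real.exp (a - 1) / Real.log 2 ≤ (i1 : ℝ) := Nat.le_ceil _
  have hi1pos : 1 ≤ i1 := by
    have h1 : (0 : ℝ) < Real.exp (a - 1) / Real.log 2 := by positivity
    exact Nat.ceil_pos.2 h1
  have hi2R : (i2 : ℝ) ≤ Real.exp b / Real.log 2 := Nat.floor_le (by positivity)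
  have hlev_idx : ∀ p ∈ P, a - 1 ≤ levR ((2 ^ idx p : ℕ) : ℝ) ∧ levR ((2 ^ idx p : ℕ) : ℝ) ≤ b := by
    intro p hp
    obtain ⟨hpp, -, h1, h2⟩ := hP p hp
    obtain ⟨hi, h3, h4⟩ := hspec p hp
    have hpR : (1 : ℝ) < p := by exact_mod_cast hpp.one_lt
    have hlogp : Real.log p = Real.exp (lev p) := by
      unfold lev
      rw [Real.exp_log (Real.log_pos hpR)]
    have hpow : Real.log ((2 ^ idx p : ℕ) : ℝ) = (idx p : ℝ) * Real.log 2 := by
      push_cast
      rw [Real.log_pow]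
    have hipos : (1 : ℝ) ≤ idx p := by exact_mod_cast hi
    have hpowpos : 0 < Real.log ((2 ^ idx p : ℕ) : ℝ) := by
      rw [hpow]
      nlinarith
    constructor
    · have h5 : Real.log p ≤ ((idx p : ℝ) + 1) * Real.log 2 := by
        have h6 : (p : ℝ) ≤ ((2 ^ (idx p + 1) : ℕ) : ℝ) := by exact_mod_cast h4
        have h7 := Real.log_le_log (by linarith) h6
        push_cast at h7
        rw [Real.log_pow] at h7
        push_cast at h7
        exact h7
      have h8 : Real.exp a ≤ Real.log p := by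
        rw [hlogp]
        exact Real.exp_le_exp.2 h1
      have h9 : Real.exp (a - 1) ≤ (idx p : ℝ) * Real.log 2 := by
        have e : Real.exp a = Real.exp (a - 1) * Real.exp 1 := by
          rw [← Real.exp_add]; congr 1; ring
        have h10 : 1 ≤ Real.exp (a - 1) := Real.one_le_exp (by linarith)
        have h11 : (2 : ℝ) ≤ Real.exp 1 := by
          have := Real.add_one_le_exp (1 : ℝ)
          linarith
        nlinarith
      unfold levR
      rw [hpow]
      rw [Real.le_log_iff_exp_le (by nlinarith)]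
      exact h9
    · have h5 : ((2 ^ idx p : ℕ) : ℝ) ≤ p := by exact_mod_cast h3.le
      have h6 := Real.log_le_log (by positivity) h5
      have h7 : Real.log (Real.log ((2 ^ idx p : ℕ) : ℝ)) ≤ Real.log (Real.log p) :=
        Real.log_le_log hpowpos h6
      exact h7.trans h2
  have hidx_mem : ∀ p ∈ P, idx p ∈ Finset.Icc i1 i2 := by
    intro p hp
    obtain ⟨hi, -, -⟩ := hspec p hp
    obtain ⟨h1, h2⟩ := hlev_idx p hp
    have hipos : (1 : ℝ) ≤ idx p := by exact_mod_cast hi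
    have hpow : Real.log ((2 ^ idx p : ℕ) : ℝ) = (idx p : ℝ) * Real.log 2 := by
      push_cast
      rw [Real.log_pow]
    have hpowpos : 0 < (idx p : ℝ) * Real.log 2 := by nlinarith
    unfold levR at h1 h2
    rw [hpow] at h1 h2
    rw [Finset.mem_Icc]
    constructor
    · apply Nat.ceil_le.2
      rw [div_le_iff₀ hlog2]
      exact (Real.le_log_iff_exp_le hpowpos).1 h1
    · apply Nat.le_floor
      rw [le_div_iff₀ hlog2]
      exact (Real.log_le_iff_le_exp hpowpos).1 h2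
  -- the sum over a fibre
  have hfib : ∀ i ∈ P.image idx, ∑ p ∈ P.filter (fun p => idx p = i), (1 : ℝ) / ((p : ℝ) - 1)
      ≤ 2 * ε * (1 / (i : ℝ)) := by
    intro i hi
    obtain ⟨p0, hp0, rfl⟩ := Finset.mem_image.1 hi
    set i := idx p0 with hidef
    obtain ⟨hi1, -, -⟩ := hspec p0 hp0
    obtain ⟨h1, h2⟩ := hlev_idx p0 hp0
    have hc := hcount i hi1 h1 h2
    have hipos : (0 : ℝ) < i := by exact_mod_cast hi1
    have hbound : ∀ p ∈ P.filter (fun p => idx p = i), (1 : ℝ) / ((p : ℝ) - 1) ≤ 1 / ((2 ^ i : ℕ) : ℝ) := by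
      intro p hp
      obtain ⟨hpP, hpi⟩ := Finset.mem_filter.1 hp
      obtain ⟨-, h3, -⟩ := hspec p hpP
      rw [hpi] at h3
      have h4 : ((2 ^ i : ℕ) : ℝ) ≤ (p : ℝ) - 1 := by
        have h5 : 2 ^ i + 1 ≤ p := h3
        have h6 : (((2 ^ i + 1 : ℕ)) : ℝ) ≤ p := by exact_mod_cast h5
        push_cast at h6 ⊢
        linarith
      apply one_div_le_one_div_of_le (by positivity) h4
    have hsub : P.filter (fun p => idx p = i) ⊆
        (Finset.Ioc (2 ^ i) (2 ^ (i + 1))).filter (fun p => p.Prime ∧ Bad p) := by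
      intro p hp
      obtain ⟨hpP, hpi⟩ := Finset.mem_filter.1 hp
      obtain ⟨-, h3, h4⟩ := hspec p hpP
      rw [hpi] at h3 h4
      exact Finset.mem_filter.2 ⟨Finset.mem_Ioc.2 ⟨h3, h4⟩, (hP p hpP).1, (hP p hpP).2.1⟩
    have hcard : (((P.filter (fun p => idx p = i)).card : ℝ))
        ≤ ε * (((2 ^ i : ℕ) : ℝ) / Real.log ((2 ^ i : ℕ) : ℝ)) := by
      refine le_trans ?_ hc
      exact_mod_cast Finset.card_le_card hsub
    have hs1 : ∑ p ∈ P.filter (fun p => idx p = i), (1 : ℝ) / ((p : ℝ) - 1)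
        ≤ ((P.filter (fun p => idx p = i)).card : ℝ) * (1 / ((2 ^ i : ℕ) : ℝ)) := by
      have := Finset.sum_le_card_nsmul _ _ _ hbound
      simpa [nsmul_eq_mul] using this
    refine hs1.trans ?_
    have hpow2 : (0 : ℝ) < ((2 ^ i : ℕ) : ℝ) := by positivity
    have h3 : ((P.filter (fun p => idx p = i)).card : ℝ) * (1 / ((2 ^ i : ℕ) : ℝ))
        ≤ ε * (((2 ^ i : ℕ) : ℝ) / Real.log ((2 ^ i : ℕ) : ℝ)) * (1 / ((2 ^ i : ℕ) : ℝ)) :=
      mul_le_mul_of_nonneg_right hcard (by positivity)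
    refine h3.trans ?_
    have hpow : Real.log ((2 ^ i : ℕ) : ℝ) = (i : ℝ) * Real.log 2 := by
      push_cast
      rw [Real.log_pow]
    rw [hpow]
    have e : ε * (((2 ^ i : ℕ) : ℝ) / ((i : ℝ) * Real.log 2)) * (1 / ((2 ^ i : ℕ) : ℝ))
        = ε * (1 / (i : ℝ)) * (1 / Real.log 2) := by
      field_simp
    rw [e]
    have h4 : 1 / Real.log 2 ≤ 2 := by
      rw [div_le_iff₀ hlog2]
      linarith
    have h5 : 0 ≤ ε * (1 / (i : ℝ)) := by positivity
    calc ε * (1 / (i : ℝ)) * (1 / Real.log 2) ≤ ε * (1 / (i : ℝ)) * 2 :=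
          mul_le_mul_of_nonneg_left h4 h5
      _ = _ := by ring
  -- the total
  have hsum : ∑ p ∈ P, (1 : ℝ) / ((p : ℝ) - 1)
      = ∑ i ∈ P.image idx, ∑ p ∈ P.filter (fun p => idx p = i), (1 : ℝ) / ((p : ℝ) - 1) :=
    (Finset.sum_fiberwise_of_maps_to (fun p hp => Finset.mem_image_of_mem _ hp) _).symm
  rw [hsum]
  refine (Finset.sum_le_sum hfib).trans ?_
  rw [← Finset.mul_sum]
  have hP0 : 0 ≤ 2 * ε := by positivity
  apply mul_le_mul_of_nonneg_left _ hP0
  rcases P.eq_empty_or_nonempty with rfl | ⟨p0, hp0⟩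
  · simp only [image_empty, sum_empty]
    linarith
  have hi12 : i1 ≤ i2 := by
    have := Finset.mem_Icc.1 (hidx_mem p0 hp0)
    omega
  have hsubI : P.image idx ⊆ Finset.Icc i1 i2 := by
    intro i hi
    obtain ⟨p, hp, rfl⟩ := Finset.mem_image.1 hi
    exact hidx_mem p hp
  have h1 : ∑ i ∈ P.image idx, (1 / (i : ℝ)) ≤ ∑ i ∈ Finset.Icc i1 i2, (1 / (i : ℝ)) :=
    Finset.sum_le_sum_of_subset_of_nonneg hsubI (fun _ _ _ => by positivity)
  refine h1.trans ((sum_Icc_inv_le hi1pos hi12).trans ?_)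
  have hi1R0 : (1 : ℝ) ≤ i1 := by exact_mod_cast hi1pos
  have h2 : 1 / (i1 : ℝ) ≤ 1 := by
    rw [div_le_one (by linarith)]
    exact hi1R0
  have hexp0 : 0 < Real.exp (a - 1) / Real.log 2 := by positivity
  have h3 : Real.log (Real.exp (a - 1) / Real.log 2) ≤ Real.log i1 := Real.log_le_log hexp0 hi1R
  rw [Real.log_div (Real.exp_pos _).ne' hlog2.ne', Real.log_exp] at h3
  have hi2pos : (0 : ℝ) < i2 := by
    have : 1 ≤ i2 := by omega
    exact_mod_cast this
  have h4 : Real.log i2 ≤ Real.log (Real.exp b / Real.log 2) := Real.log_le_log hi2pos hi2R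
  rw [Real.log_div (Real.exp_pos _).ne' hlog2.ne', Real.log_exp] at h4
  linarith

end

end Vale.Agent.Lib.P031V.NormalInt
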