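import Vale.Agent.Lib.P031V.NormalMain
import Vale.Agent.Lib.P031V.NormalDyadic

/-! # P031: normal primes, blueprint section 4. -/

namespace Vale.Agent.Lib.P031V
open Finset NormalCore Filter NormalInt
open scoped Classical
noncomputable section

namespace NormalInt

lemma lev_ge_of_floor_lt {X : ℝ} (hX : 1 < X) {p : ℕ} (hp : ⌊X⌋₊ < p) : levR X ≤ lev p := by
  have h1 : X < (p : ℝ) := (Nat.floor_lt (by linarith)).1 hp
  have h2 : 0 < Real.log X := Real.log_pos hX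
  have h3 : Real.log X ≤ Real.log p := Real.log_le_log (by linarith) h1.le
  exact Real.log_le_log h2 h3

lemma badNormal_of_not_normal {N p : ℕ} (hp : p.Prime) (h : ¬ Normal N p) (h2 : t0 N ≤ lev p) :
    BadNormal N p := by
  intro h3
  exact h ⟨hp, h2, h3⟩

end NormalInt

/-- Almost all primes are normal. -/
theorem normal_count : ∃ N₀ : ℕ, ∀ N ≥ N₀, ∀ X : ℝ, 1 < X → t0 N ≤ levR X → levR X ≤ N + 5 →
    (((Finset.Ioc ⌊X⌋₊ ⌊2 * X⌋₊).filter (fun p => p.Prime ∧ ¬ Normal N p)).card : ℝ)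
      ≤ eps0 N * (X / Real.log X) := by
  obtain ⟨N₀, h⟩ := abn_internal
  refine ⟨N₀, fun N hN X hX h1 h2 => ?_⟩
  refine le_trans ?_ (h N hN X hX (by linarith) (by linarith))
  have : ((Finset.Ioc ⌊X⌋₊ ⌊2 * X⌋₊).filter (fun p => p.Prime ∧ ¬ Normal N p)).card
      ≤ ((Finset.Ioc ⌊X⌋₊ ⌊2 * X⌋₊).filter (fun p => p.Prime ∧ BadNormal N p)).card := by
    apply Finset.card_le_card
    intro p hp
    obtain ⟨h3, h4, h5⟩ := Finset.mem_filter.1 hp
    refine Finset.mem_filter.2 ⟨h3, h4, badNormal_of_not_normal h4 h5 ?_⟩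
    exact h1.trans (lev_ge_of_floor_lt hX (Finset.mem_Ioc.1 h3).1)
  exact_mod_cast this

/-- Mass of abnormal primes. -/
theorem abn_mass : ∃ N₀ : ℕ, ∀ N ≥ N₀, ∀ P : Finset ℕ,
    (∀ p ∈ P, p.Prime ∧ ¬ Normal N p ∧ t0 N ≤ lev p ∧ lev p ≤ (N : ℝ) + 5) →
    ∑ p ∈ P, (1 : ℝ) / ((p : ℝ) - 1) ≤ 10 * (N : ℝ) * eps0 N := by
  obtain ⟨N₀, h⟩ := abn_internal
  have ev : ∀ᶠ N : ℕ in atTop, (1 : ℝ) + 0 * (N : ℝ) ^ (0 : ℝ) ≤ 1 * (N : ℝ) ^ ((4 : ℝ) / 5) :=
    NormalEv.ev_nat (NormalEv.ev_pow 1 0 1 le_rfl (by norm_num) (by norm_num))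
  obtain ⟨N₁, hN₁⟩ := Filter.eventually_atTop.1 ev
  refine ⟨max (max N₀ N₁) 2, fun N hN P hP => ?_⟩
  have hN0 : N₀ ≤ N := le_trans (le_trans (le_max_left _ _) (le_max_left _ _)) hN
  have hN1 : N₁ ≤ N := le_trans (le_trans (le_max_right _ _) (le_max_left _ _)) hN
  have hN2 : 2 ≤ N := le_trans (le_max_right _ _) hN
  have hNR : (2 : ℝ) ≤ N := by exact_mod_cast hN2
  have ht0 : (1 : ℝ) ≤ t0 N := by
    have := hN₁ N hN1
    simp only [zero_mul, add_zero, one_mul] at this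
    exact this
  have hε : 0 ≤ eps0 N := (Real.exp_pos _).le
  rcases lt_or_ge ((N : ℝ) + 5) (t0 N) with hlt | hab
  · -- empty range
    have : P = ∅ := by
      apply Finset.eq_empty_of_forall_notMem
      intro p hp
      obtain ⟨-, -, h1, h2⟩ := hP p hp
      linarith
    rw [this]
    simp only [sum_empty]
    positivity
  have h1 := dyadic_mass (BadNormal N) (ε := eps0 N) (a := t0 N) (b := (N : ℝ) + 5) hε ht0 hab
    (by
      intro i hi h2 h3
      have hX : (1 : ℝ) < ((2 ^ i : ℕ) : ℝ) := by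
        have : 1 < 2 ^ i := Nat.one_lt_two_pow (by omega)
        exact_mod_cast this
      have := h N hN0 _ hX h2 (by linarith)
      rw [(floor_two_pow i).1, (floor_two_pow i).2] at this
      exact this)
    P (by
      intro p hp
      obtain ⟨h2, h3, h4, h5⟩ := hP p hp
      exact ⟨h2, badNormal_of_not_normal h2 h3 h4, h4, h5⟩)
  refine h1.trans ?_
  have : (N : ℝ) + 5 - t0 N + 2 ≤ 5 * (N : ℝ) := by linarith
  have h2 : 2 * eps0 N * ((N : ℝ) + 5 - t0 N + 2) ≤ 2 * eps0 N * (5 * (N : ℝ)) :=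
    mul_le_mul_of_nonneg_left this (by positivity)
  linarith

namespace NormalInt

lemma weak_exp_bound {N h K t : ℝ} (hN : 0 < N) (hK : K = N / 100) (hh : (49 / 100) * N ≤ h)
    (hhle : h ≤ N / 2) (ht : t = K / h) : -h - K * Real.log t + t * (h + 1) ≤ 1 - (44 / 100) * N := by
  have hKpos : 0 < K := by rw [hK]; positivity
  have hhpos : 0 < h := by nlinarith
  have ht1 : t ≤ 1 := by
    rw [ht, div_le_one hhpos, hK]
    nlinarith
  have hlogt : -Real.log t ≤ 4 := by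
    have h5 : (1 / 50 : ℝ) ≤ t := by
      rw [ht, le_div_iff₀ hhpos, hK]
      linarith
    have h6 : Real.log (1 / 50 : ℝ) ≤ Real.log t := Real.log_le_log (by norm_num) h5
    have h7 : Real.log (1 / 50 : ℝ) = -Real.log 50 := by
      rw [one_div, Real.log_inv]
    have h8 : Real.log 50 ≤ 4 := by
      rw [Real.log_le_iff_le_exp (by norm_num)]
      have h9 : Real.exp 4 = Real.exp 1 ^ 4 := by
        rw [← Real.exp_nat_mul]; norm_num
      rw [h9]
      have h10 := Real.exp_one_gt_d9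
      have h11 : (2.7 : ℝ) ^ 4 ≤ Real.exp 1 ^ 4 :=
        pow_le_pow_left₀ (by norm_num) (by linarith) 4
      norm_num at h11 ⊢
      linarith
    linarith
  have h5 : t * (h + 1) ≤ K + 1 := by
    have : t * h = K := by
      rw [ht]; field_simp
    nlinarith
  have h6 : -(K * Real.log t) ≤ K * 4 := by
    have := mul_le_mul_of_nonneg_left hlogt hKpos.le
    linarith
  rw [hK] at h5 h6 ⊢
  linarith

lemma weak_final {n CB e W0 : ℝ} (hn : 8 ≤ n) (hCB : 0 < CB) (he : e = Real.exp 1)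
    (hW0 : W0 = Real.exp (-((2 / 100) * n)))
    (h7 : (2 * (4 * CB * 8 * e)) * n ^ 3 * W0 ≤ 1) :
    Real.exp (-(2 * n)) + 4 * CB * (n + 8) ^ 3 * Real.exp (1 - (44 / 100) * n)
      ≤ Real.exp (-(0.42 * n)) := by
  have hA : Real.exp (-(2 * n)) ≤ Real.exp (-(0.42 * n)) / 2 := by
    have h5 : Real.exp (-(2 * n)) = Real.exp (-(0.42 * n)) * Real.exp (-(1.58 * n)) := by
      rw [← Real.exp_add]
      congr 1
      ring
    have h6 : Real.exp (-(1.58 * n)) ≤ 1 / 2 := by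
      rw [Real.exp_neg, inv_eq_one_div]
      apply one_div_le_one_div_of_le (by norm_num)
      have := Real.add_one_le_exp (1.58 * n)
      linarith
    rw [h5]
    have := Real.exp_pos (-(0.42 * n))
    nlinarith
  have hB : 4 * CB * (n + 8) ^ 3 * Real.exp (1 - (44 / 100) * n) ≤ Real.exp (-(0.42 * n)) / 2 := by
    have h83 : (n + 8) ^ 3 ≤ 8 * n ^ 3 := by
      calc (n + 8) ^ 3 ≤ (2 * n) ^ 3 := pow_le_pow_left₀ (by linarith) (by linarith) 3
        _ = _ := by ring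
    have h5 : Real.exp (1 - (44 / 100) * n) = e * (Real.exp (-(0.42 * n)) * W0) := by
      rw [he, hW0, ← Real.exp_add, ← Real.exp_add]
      congr 1
      ring
    rw [h5]
    set Z := Real.exp (-(0.42 * n)) with hZ
    have hZpos : 0 < Z := Real.exp_pos _
    have hexp : 0 < e := by rw [he]; exact Real.exp_pos 1
    have hW00 : 0 < W0 := by rw [hW0]; exact Real.exp_pos _
    have h8 : 4 * CB * (n + 8) ^ 3 * (e * (Z * W0)) ≤ 4 * CB * (8 * n ^ 3) * (e * (Z * W0)) := by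
      apply mul_le_mul_of_nonneg_right _ (by positivity)
      apply mul_le_mul_of_nonneg_left h83 (by positivity)
    have h9 : 4 * CB * (8 * n ^ 3) * (e * (Z * W0)) = ((2 * (4 * CB * 8 * e)) * n ^ 3 * W0) * (Z / 2) := by
      ring
    rw [h9] at h8
    have h10 : ((2 * (4 * CB * 8 * e)) * n ^ 3 * W0) * (Z / 2) ≤ 1 * (Z / 2) :=
      mul_le_mul_of_nonneg_right h7 (by positivity)
    linarith
  linarith

namespace Good

variable {N : ℕ} {X CB CR CM C1 Y1 : ℝ} (G : Good N X CB CR CM C1 Y1)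
include G

theorem weak_core (hbt : BTH CB Y1)
    (hR : ∀ Y Z : ℝ, 1 ≤ Y → Real.exp 10 ≤ Z → ∀ F : Finset ℕ,
      (∀ d ∈ F, d ≠ 0 ∧ Y < d ∧ ∀ r : ℕ, r.Prime → r ∣ d → (r : ℝ) ≤ Z) →
      ∑ d ∈ F, (1 : ℝ) / d ≤ Real.exp (-(Real.log Y / Real.log Z)) * (CR * Real.log Z) ^ 3)
    (hC : ∀ a b : ℝ, 1 ≤ a → a ≤ b →
      ∑ r ∈ primesIn a b, (1 : ℝ) / ((r : ℝ) - 1) ≤ b - a + 1 / 2 + CM * Real.exp (-a))
    (hts01 : ts N ≤ (N : ℝ) / 100) (hN3 : 8 ≤ (N : ℝ))
    (hyx : (N : ℝ) / 2 ≤ levR X - Real.log (C1 * N)) :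
    (((Finset.Ioc ⌊X⌋₊ ⌊2 * X⌋₊).filter
        (fun p => p.Prime ∧ (W N (p - 1) ((N : ℝ) / 2) : ℝ) < (N : ℝ) / 100)).card : ℝ)
      ≤ (X / Real.log X) * Real.exp (-(2 * (N : ℝ))) + BB N X CB * Real.exp (1 - (44 / 100) * (N : ℝ)) := by
  set y := (N : ℝ) / 2 with hy
  have hts3 := G.hts
  have hy0 : ts N ≤ y := by rw [hy]; linarith
  have hy3 : 3 ≤ y := by linarith
  set h := y - ts N with hh
  set K := (N : ℝ) / 100 with hK
  have hNpos : (0 : ℝ) < N := by linarith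
  have hhge : (49 / 100) * (N : ℝ) ≤ h := by rw [hh, hy]; linarith
  have hKpos : 0 < K := by rw [hK]; positivity
  have hhpos : 0 < h := by nlinarith
  set I := primesIn (ts N) y with hI
  have hS : ∑ r ∈ I, (1 : ℝ) / ((r : ℝ) - 1) ≤ h + 1 := G.sum_primesIn_le hC le_rfl hy0
  set t := K / h with ht
  have ht0'' : 0 < t := div_pos hKpos hhpos
  have ht1 : t ≤ 1 := by
    rw [ht, div_le_one hhpos, hK]
    nlinarith
  set P := (Finset.Ioc ⌊X⌋₊ ⌊2 * X⌋₊).filter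
        (fun p => p.Prime ∧ (W N (p - 1) y : ℝ) < K) with hP
  set Pe := P.filter (fun p => ⌊2 * X⌋₊ < (Ipart I (p - 1)) ^ 2) with hPe
  set Pl := P.filter (fun p => ¬ ⌊2 * X⌋₊ < (Ipart I (p - 1)) ^ 2) with hPl
  have hcard : (P.card : ℝ) = (Pe.card : ℝ) + (Pl.card : ℝ) := by
    have := Finset.card_filter_add_card_filter_not (s := P) (fun p => ⌊2 * X⌋₊ < (Ipart I (p - 1)) ^ 2)
    rw [hPe, hPl]
    exact_mod_cast this.symm
  have he : (Pe.card : ℝ) ≤ (X / Real.log X) * Real.exp (-(2 * (N : ℝ))) := by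
    apply G.tail_exc hR (α := ts N) (y := y) hy3 hyx Pe
    intro p hp
    obtain ⟨h1', h2'⟩ := Finset.mem_filter.1 hp
    obtain ⟨h3', h4', h5'⟩ := Finset.mem_filter.1 h1'
    exact ⟨h4', (Finset.mem_Ioc.1 h3').2, h2'⟩
  have hl : (Pl.card : ℝ) ≤ BB N X CB * Real.exp (1 - (44 / 100) * (N : ℝ)) := by
    have h1' := G.tail_lower hbt (α := ts N) (y := y) (K := K) (t := t) G.ts_nonneg hy0 hyx ht0'' ht1
      (h + 1) hS Pl (by
        intro p hp
        obtain ⟨h1', h2'⟩ := Finset.mem_filter.1 hp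
        obtain ⟨h3', h4', h5'⟩ := Finset.mem_filter.1 h1'
        refine ⟨h4', (Finset.mem_Ioc.1 h3').2, not_lt.1 h2', ?_⟩
        rw [← W_eq_card]
        exact h5')
    refine h1'.trans (mul_le_mul_of_nonneg_left (Real.exp_le_exp.2 ?_) G.BB_nonneg)
    exact weak_exp_bound hNpos rfl hhge (by
      rw [hy]
      linarith [G.ts_nonneg]) rfl
  rw [hcard]
  linarith

end Good

end NormalInt

/-- Weak normality with exponentially small exceptional set. -/
theorem weak_count : ∃ N₀ : ℕ, ∀ N ≥ N₀, ∀ X : ℝ, 1 < X → 0.9 * (N : ℝ) - 1 ≤ levR X →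
    levR X ≤ (N : ℝ) + 6 →
    (((Finset.Ioc ⌊X⌋₊ ⌊2 * X⌋₊).filter
        (fun p => p.Prime ∧ (W N (p - 1) ((N : ℝ) / 2) : ℝ) < (N : ℝ) / 100)).card : ℝ)
      ≤ Real.exp (-(0.42 * (N : ℝ))) * (X / Real.log X) := by
  obtain ⟨CB, Y0, hCB, hbt0⟩ := bt_hole
  obtain ⟨CR, hCR, hR⟩ := rankin_sum
  obtain ⟨CM, hCM, hC⟩ := mass_primesIn
  set Y1 := max Y0 0 with hY1
  have hbt : BTH CB Y1 := by
    intro Y Q α β d h1 h2 h3 h4 h5 h6 h7 h8
    exact hbt0 Y Q α β d ((le_max_left _ _).trans h1) h2 h3 h4 h5 h6 h7 h8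
  set C1 := max 20 (4 * CB) with hC1
  have hC1a : 20 ≤ C1 := le_max_left _ _
  have hC1b : 4 * CB ≤ C1 := le_max_right _ _
  have hC1pos : 0 < C1 := by linarith
  have e1 := eventually_large (CM := CM) (Y1 := Y1) hCB hCR hCM hC1pos (CR := CR)
  have e2 : ∀ᶠ N : ℕ in atTop, (0 : ℝ) + 1 * (N : ℝ) ^ ((4 : ℝ) / 5) ≤ (1 / 100) * (N : ℝ) ^ (1 : ℝ) :=
    NormalEv.ev_nat (NormalEv.ev_pow 0 1 (1 / 100) (by norm_num) (by norm_num) (by norm_num))
  have e3 : ∀ᶠ N : ℕ in atTop, (Real.log C1 + 1) + 1 * Real.log (N : ℝ) ≤ (3 / 10) * (N : ℝ) ^ (1 : ℝ) :=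
    NormalEv.ev_nat (NormalEv.ev_log _ 1 (3 / 10) (by norm_num) (by norm_num))
  have e4 : ∀ᶠ N : ℕ in atTop, (2 * (4 * CB * 8 * Real.exp 1)) * (N : ℝ) ^ 3 *
        Real.exp (-((2 / 100) * (N : ℝ) ^ (1 : ℝ))) ≤ Real.exp (-((N : ℝ) ^ ((1 : ℝ) / 2))) :=
    NormalEv.ev_nat (NormalEv.ev_exp (by positivity) 3 (by norm_num) (by norm_num) (by norm_num))
  obtain ⟨N₀, hN₀⟩ := Filter.eventually_atTop.1 (e1.and (e2.and (e3.and e4)))
  refine ⟨N₀, ?_⟩
  intro N hN X hX hx0 hx1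
  obtain ⟨hL, h2, h3, h4⟩ := hN₀ N hN
  obtain ⟨p1, p2, p3, p4, p5, p7, p8, p9, p10, p11, p12⟩ := hL
  rw [Real.rpow_one] at h2 h3
  simp only [zero_add, one_mul] at h2 h3
  rw [Real.rpow_one] at h4
  have hN8 : (8 : ℝ) ≤ N := by exact_mod_cast p1
  have hNpos : (0 : ℝ) < N := by linarith
  have hLpos : 0 < Real.log X := Real.log_pos hX
  have hXeq : X = Real.exp (Real.exp (levR X)) := by
    unfold levR
    rw [Real.exp_log hLpos, Real.exp_log (by linarith)]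
  have ht0' : t0 N = (N : ℝ) ^ ((4 : ℝ) / 5) := rfl
  have hXge : t0 N ≤ X := by
    have h1 := Real.add_one_le_exp (levR X)
    have h2' := Real.add_one_le_exp (Real.exp (levR X))
    rw [← hXeq] at h2'
    rw [ht0']
    linarith
  have hY1nn : 0 ≤ Y1 := le_max_right _ _
  have hy2 : 0 ≤ Y1 ^ 2 := by positivity
  have G : Good N X CB CR CM C1 Y1 :=
    { hN := by omega
      hX := hX
      hx0 := by rw [ht0']; linarith
      hx1 := hx1
      hY1 := hY1nn
      hY := by linarith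
      h4 := by linarith
      hts := p2
      hCB := hCB
      hCR := hCR
      hCM := hCM
      hC1 := hC1a
      hC1' := by
        have h6 : 2 * CB * ((N : ℝ) + 8) ≤ 2 * CB * (2 * (N : ℝ)) :=
          mul_le_mul_of_nonneg_left (by linarith) (by linarith)
        have h7 : (4 * CB) * (N : ℝ) ≤ C1 * N := mul_le_mul_of_nonneg_right hC1b hNpos.le
        linarith
      hE := p3
      hM := p4
      hx2 := by linarith }
  have hts01 : ts N ≤ (N : ℝ) / 100 := by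
    have : ts N = (1 / 2) * (N : ℝ) ^ ((4 : ℝ) / 5) := ts_eq N
    rw [this]
    have h5 : (0 : ℝ) ≤ (N : ℝ) ^ ((4 : ℝ) / 5) := by positivity
    linarith
  have hlogeq : Real.log (C1 * N) = Real.log C1 + Real.log N := Real.log_mul hC1pos.ne' hNpos.ne'
  have hyx : (N : ℝ) / 2 ≤ levR X - Real.log (C1 * N) := by
    rw [hlogeq]
    linarith
  have hcore := G.weak_core hbt hR hC hts01 hN8 hyx
  refine hcore.trans ?_
  have hXL : 0 ≤ X / Real.log X := div_nonneg (by linarith) hLpos.le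
  have hbound := weak_final (n := (N : ℝ)) (CB := CB) hN8 hCB rfl rfl (h4.trans (Real.exp_le_one_iff.2 (by
    have : 0 ≤ (N : ℝ) ^ ((1 : ℝ) / 2) := by positivity
    linarith)))
  have h5 := mul_le_mul_of_nonneg_right hbound hXL
  have hBB : BB N X CB = 4 * CB * ((N : ℝ) + 8) ^ 3 * (X / Real.log X) := rfl
  rw [hBB]
  calc _ = (Real.exp (-(2 * (N : ℝ))) + 4 * CB * ((N : ℝ) + 8) ^ 3 *
        Real.exp (1 - (44 / 100) * (N : ℝ))) * (X / Real.log X) := by ring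
    _ ≤ _ := h5

/-- Mass of weakly abnormal primes. -/
theorem weak_mass : ∃ N₀ : ℕ, ∀ N ≥ N₀, ∀ P : Finset ℕ,
    (∀ p ∈ P, p.Prime ∧ (W N (p - 1) ((N : ℝ) / 2) : ℝ) < (N : ℝ) / 100 ∧
      0.9 * (N : ℝ) ≤ lev p ∧ lev p ≤ (N : ℝ) + 5) →
    ∑ p ∈ P, (1 : ℝ) / ((p : ℝ) - 1) ≤ (N : ℝ) * Real.exp (-(0.41 * (N : ℝ))) := by
  obtain ⟨N₀, h⟩ := weak_count
  refine ⟨max N₀ 20, fun N hN P hP => ?_⟩
  have hN0 : N₀ ≤ N := le_trans (le_max_left _ _) hN
  have hN2 : 20 ≤ N := le_trans (le_max_right _ _) hN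
  have hNR : (20 : ℝ) ≤ N := by exact_mod_cast hN2
  have h1 := dyadic_mass (fun p => (W N (p - 1) ((N : ℝ) / 2) : ℝ) < (N : ℝ) / 100)
    (ε := Real.exp (-(0.42 * (N : ℝ)))) (a := 0.9 * (N : ℝ)) (b := (N : ℝ) + 5)
    (Real.exp_pos _).le (by linarith) (by linarith)
    (by
      intro i hi h2 h3
      have hX : (1 : ℝ) < ((2 ^ i : ℕ) : ℝ) := by
        have : 1 < 2 ^ i := Nat.one_lt_two_pow (by omega)
        exact_mod_cast this
      have := h N hN0 _ hX h2 (by linarith)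
      rw [(floor_two_pow i).1, (floor_two_pow i).2] at this
      exact this)
    P hP
  refine h1.trans ?_
  have h2 : Real.exp (-(0.42 * (N : ℝ))) ≤ Real.exp (-(0.41 * (N : ℝ))) :=
    Real.exp_le_exp.2 (by linarith)
  have h3 : 2 * ((N : ℝ) + 5 - 0.9 * (N : ℝ) + 2) ≤ N := by linarith
  have h4 := Real.exp_pos (-(0.42 * (N : ℝ)))
  calc 2 * Real.exp (-(0.42 * (N : ℝ))) * ((N : ℝ) + 5 - 0.9 * (N : ℝ) + 2)
      = (2 * ((N : ℝ) + 5 - 0.9 * (N : ℝ) + 2)) * Real.exp (-(0.42 * (N : ℝ))) := by ring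
    _ ≤ (N : ℝ) * Real.exp (-(0.42 * (N : ℝ))) := mul_le_mul_of_nonneg_right h3 h4.le
    _ ≤ _ := mul_le_mul_of_nonneg_left h2 (by positivity)

namespace NormalInt

lemma sum_half_pow_le (s : Finset ℕ) : ∑ j ∈ s, ((1 : ℝ) / 2) ^ (j + 1) ≤ 1 := by
  have h : ∀ m : ℕ, ∑ j ∈ Finset.range m, ((1 : ℝ) / 2) ^ (j + 1) = 1 - (1 / 2) ^ m := by
    intro m
    induction m with
    | zero => simp
    | succ m ih =>
      rw [Finset.sum_range_succ, ih]
      ring
  obtain ⟨m, hm⟩ : ∃ m, s ⊆ Finset.range m :=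
    ⟨s.sup id + 1, fun j hj => Finset.mem_range.2 (Nat.lt_succ_of_le (Finset.le_sup (f := id) hj))⟩
  have h1 : ∑ j ∈ s, ((1 : ℝ) / 2) ^ (j + 1) ≤ ∑ j ∈ Finset.range m, ((1 : ℝ) / 2) ^ (j + 1) :=
    Finset.sum_le_sum_of_subset_of_nonneg hm (fun _ _ _ => by positivity)
  rw [h m] at h1
  have : (0 : ℝ) ≤ (1 / 2) ^ m := by positivity
  linarith

/-- Count form at the top of the range, for primes above `sqrt Y`. -/
theorem abn_top : ∀ N₀ : ℕ, (∀ N ≥ N₀, ∀ X : ℝ, 1 < X → t0 N - 1 ≤ levR X → levR X ≤ (N : ℝ) + 6 →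
    (((Finset.Ioc ⌊X⌋₊ ⌊2 * X⌋₊).filter (fun p => p.Prime ∧ BadNormal N p)).card : ℝ)
      ≤ eps0 N * (X / Real.log X)) → ∀ N ≥ N₀, ∀ Y : ℝ, 1 < Y → t0 N + 1 ≤ levR Y →
    levR Y ≤ (N : ℝ) + 6 → 10 ≤ Real.log Y → 16 ≤ Y → ∀ S : Finset ℕ,
    (∀ p ∈ S, p.Prime ∧ BadNormal N p ∧ Real.sqrt Y < p ∧ (p : ℝ) ≤ Y) →
    (S.card : ℝ) ≤ (5 / 2) * eps0 N * (Y / Real.log Y) := by
  intro N₀ h N hN Y hY hlow hup hlogY hY16 S hS
  have hYpos : 0 < Y := by linarith
  have hLpos : 0 < Real.log Y := by linarith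
  have hε : 0 ≤ eps0 N := (Real.exp_pos _).le
  have hsq : 4 ≤ Real.sqrt Y := by
    rw [show (4 : ℝ) = Real.sqrt 16 by
      rw [show (16 : ℝ) = 4 ^ 2 by norm_num]
      exact (Real.sqrt_sq (by norm_num)).symm]
    exact Real.sqrt_le_sqrt hY16
  set jf : ℕ → ℕ := fun p => Nat.log 2 ⌊Y / p⌋₊ with hjf
  have hprop : ∀ p ∈ S, (p : ℝ) ≤ Y / 2 ^ jf p ∧ Y / 2 ^ (jf p + 1) < (p : ℝ) := by
    intro p hp
    obtain ⟨hpp, -, h1, h2⟩ := hS p hp
    have hp0 : (0 : ℝ) < p := by exact_mod_cast hpp.pos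
    have hq1 : 1 ≤ Y / p := by
      rw [le_div_iff₀ hp0]
      linarith
    have hfl : ⌊Y / p⌋₊ ≠ 0 := by
      have : 1 ≤ ⌊Y / p⌋₊ := Nat.le_floor (by exact_mod_cast hq1)
      omega
    have h3 : 2 ^ jf p ≤ ⌊Y / p⌋₊ := Nat.pow_log_le_self 2 hfl
    have h4 : ⌊Y / p⌋₊ < 2 ^ (jf p + 1) := Nat.lt_pow_succ_log_self (by norm_num) _
    have h5 : ((2 : ℝ)) ^ jf p ≤ Y / p := by
      have h6 : ((2 ^ jf p : ℕ) : ℝ) ≤ (⌊Y / p⌋₊ : ℝ) := by exact_mod_cast h3
      have h7 : (⌊Y / p⌋₊ : ℝ) ≤ Y / p := Nat.floor_le (by positivity)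
      push_cast at h6
      linarith
    have h8 : Y / p < (2 : ℝ) ^ (jf p + 1) := by
      have := (Nat.floor_lt (by positivity)).1 h4
      push_cast at this
      exact this
    constructor
    · rw [le_div_iff₀ (by positivity)]
      rw [le_div_iff₀ hp0] at h5
      linarith
    · rw [div_lt_iff₀ (by positivity)]
      rw [div_lt_iff₀ hp0] at h8
      linarith
  have hfib : ∀ j ∈ S.image jf, ((S.filter (fun p => jf p = j)).card : ℝ)
      ≤ eps0 N * (5 / 2) * (Y / Real.log Y) * ((1 : ℝ) / 2) ^ (j + 1) := by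
    intro j hj
    obtain ⟨p0, hp0, rfl⟩ := Finset.mem_image.1 hj
    set j := jf p0 with hjdef
    obtain ⟨h1, h2⟩ := hprop p0 hp0
    obtain ⟨hpp, -, h3, h4⟩ := hS p0 hp0
    set X := Y / 2 ^ (j + 1) with hX
    have hpow : (0 : ℝ) < 2 ^ (j + 1) := by positivity
    have h2X : 2 * X = Y / 2 ^ j := by
      rw [hX, pow_succ]
      field_simp
    have hXlow : Real.sqrt Y / 2 ≤ X := by
      have : (p0 : ℝ) ≤ 2 * X := by rw [h2X]; exact h1
      linarith
    have hX1 : 1 < X := by linarith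
    have hXY : X ≤ Y := by
      rw [hX]
      apply div_le_self hYpos.le
      exact one_le_pow₀ (by norm_num)
    have hXpos : 0 < X := by linarith
    have hlogX : (2 / 5) * Real.log Y ≤ Real.log X := by
      have h5 : Real.log (Real.sqrt Y / 2) ≤ Real.log X :=
        Real.log_le_log (by linarith) hXlow
      rw [Real.log_div (by linarith) (by norm_num), Real.log_sqrt hYpos.le] at h5
      have := Real.log_two_lt_d9
      linarith
    have hlogXpos : 0 < Real.log X := by linarith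
    have hlevX1 : levR Y - 1 ≤ levR X := by
      unfold levR
      have h5 : Real.log ((2 / 5) * Real.log Y) ≤ Real.log (Real.log X) :=
        Real.log_le_log (by positivity) hlogX
      rw [Real.log_mul (by norm_num) hLpos.ne'] at h5
      have h6 : -1 ≤ Real.log (2 / 5 : ℝ) := by
        have h7 : Real.exp (-1) ≤ (2 / 5 : ℝ) := by
          rw [Real.exp_neg, inv_eq_one_div, div_le_iff₀ (Real.exp_pos 1)]
          have := Real.exp_one_gt_d9
          linarith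
        exact (Real.le_log_iff_exp_le (by norm_num)).2 h7
      linarith
    have hlevX2 : levR X ≤ levR Y := by
      unfold levR
      exact Real.log_le_log hlogXpos (Real.log_le_log hXpos hXY)
    have hc := h N hN X hX1 (by linarith) (by linarith)
    have hsub : S.filter (fun p => jf p = j) ⊆
        (Finset.Ioc ⌊X⌋₊ ⌊2 * X⌋₊).filter (fun p => p.Prime ∧ BadNormal N p) := by
      intro p hp
      obtain ⟨hpS, hpj⟩ := Finset.mem_filter.1 hp
      obtain ⟨h5, h6⟩ := hprop p hpS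
      rw [hpj] at h5 h6
      refine Finset.mem_filter.2 ⟨Finset.mem_Ioc.2 ⟨?_, ?_⟩, (hS p hpS).1, (hS p hpS).2.1⟩
      · exact (Nat.floor_lt hXpos.le).2 h6
      · apply Nat.le_floor
        rw [h2X]
        exact h5
    have hcard : ((S.filter (fun p => jf p = j)).card : ℝ) ≤ eps0 N * (X / Real.log X) := by
      refine le_trans ?_ hc
      exact_mod_cast Finset.card_le_card hsub
    refine hcard.trans ?_
    have h5 : X / Real.log X ≤ (5 / 2) * (X / Real.log Y) := by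
      rw [div_le_iff₀ hlogXpos]
      have h6 : (5 / 2) * (X / Real.log Y) * Real.log X
          ≥ (5 / 2) * (X / Real.log Y) * ((2 / 5) * Real.log Y) :=
        mul_le_mul_of_nonneg_left hlogX (by positivity)
      have h7 : (5 / 2) * (X / Real.log Y) * ((2 / 5) * Real.log Y) = X := by
        field_simp
      linarith
    have h6 : X = Y * ((1 : ℝ) / 2) ^ (j + 1) := by
      rw [hX, one_div, inv_pow]
      rfl
    calc eps0 N * (X / Real.log X) ≤ eps0 N * ((5 / 2) * (X / Real.log Y)) :=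
          mul_le_mul_of_nonneg_left h5 hε
      _ = _ := by
          rw [h6]
          ring
  have hsum : (S.card : ℝ) = ∑ j ∈ S.image jf, ((S.filter (fun p => jf p = j)).card : ℝ) := by
    rw [Finset.card_eq_sum_card_image jf S]
    push_cast
    rfl
  rw [hsum]
  refine (Finset.sum_le_sum hfib).trans ?_
  rw [← Finset.mul_sum]
  have h7 := sum_half_pow_le (S.image jf)
  have h8 : 0 ≤ eps0 N * (5 / 2) * (Y / Real.log Y) := by positivity
  have h9 := mul_le_mul_of_nonneg_left h7 h8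
  calc _ ≤ eps0 N * (5 / 2) * (Y / Real.log Y) * 1 := h9
    _ = _ := by ring

end NormalInt

/-- Count form on an arbitrary range: abnormal primes up to `Y`, for `levR Y` in the range. -/
theorem abn_count_le : ∃ N₀ : ℕ, ∀ N ≥ N₀, ∀ Y : ℝ, 1 < Y → (N : ℝ) - 9 ≤ levR Y → levR Y ≤ (N : ℝ) + 4 →
    (((Finset.Icc (⌈Real.exp (Real.exp ((N : ℝ) - 9))⌉₊) ⌊Y⌋₊).filter (fun p => p.Prime ∧ ¬ Normal N p)).card : ℝ)
      ≤ 3 * eps0 N * (Y / Real.log Y) := by
  obtain ⟨N₀, h⟩ := abn_internal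
  have e1 : ∀ᶠ N : ℕ in atTop, (11 : ℝ) + 1 * (N : ℝ) ^ ((4 : ℝ) / 5) ≤ 1 * (N : ℝ) ^ (1 : ℝ) :=
    NormalEv.ev_nat (NormalEv.ev_pow 11 1 1 (by norm_num) (by norm_num) (by norm_num))
  obtain ⟨N₁, hN₁⟩ := Filter.eventually_atTop.1 e1
  refine ⟨max (max N₀ N₁) 40, ?_⟩
  intro N hN Y hY hlow hup
  have hN0 : N₀ ≤ N := le_trans (le_trans (le_max_left _ _) (le_max_left _ _)) hN
  have hN1 : N₁ ≤ N := le_trans (le_trans (le_max_right _ _) (le_max_left _ _)) hN
  have hN2 : 40 ≤ N := le_trans (le_max_right _ _) hN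
  have hNR : (40 : ℝ) ≤ N := by exact_mod_cast hN2
  have ht := hN₁ N hN1
  rw [Real.rpow_one] at ht
  simp only [one_mul] at ht
  have ht0 : t0 N = (N : ℝ) ^ ((4 : ℝ) / 5) := rfl
  have hYpos : 0 < Y := by linarith
  have hLpos : 0 < Real.log Y := Real.log_pos hY
  have hlogeq : Real.log Y = Real.exp (levR Y) := by
    unfold levR
    rw [Real.exp_log hLpos]
  have hYeq : Y = Real.exp (Real.log Y) := (Real.exp_log hYpos).symm
  -- sizes
  have hexp : ∀ u : ℝ, 0 ≤ u → (1 + u / 2) ^ 2 ≤ Real.exp u := by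
    intro u hu
    have h1 := Real.add_one_le_exp (u / 2)
    have h2 : Real.exp u = Real.exp (u / 2) ^ 2 := by
      rw [← Real.exp_nat_mul]; congr 1; push_cast; ring
    rw [h2]
    exact pow_le_pow_left₀ (by linarith) (by linarith) 2
  have hLbig : (N : ℝ) + 3 ≤ (1 / 4) * Real.log Y := by
    have h1 : Real.exp ((N : ℝ) - 9) ≤ Real.log Y := by
      rw [hlogeq]
      exact Real.exp_le_exp.2 hlow
    have h2 := hexp ((N : ℝ) - 9) (by linarith)
    nlinarith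
  have hlogY10 : 10 ≤ Real.log Y := by linarith
  have hY16 : 16 ≤ Y := by
    have h1 := Real.add_one_le_exp (Real.log Y)
    rw [← hYeq] at h1
    linarith
  -- lower part: trivial bound
  set S := (Finset.Icc (⌈Real.exp (Real.exp ((N : ℝ) - 9))⌉₊) ⌊Y⌋₊).filter (fun p => p.Prime ∧ ¬ Normal N p) with hS
  set S1 := S.filter (fun p : ℕ => (p : ℝ) ≤ Real.sqrt Y) with hS1
  set S2 := S.filter (fun p : ℕ => ¬ (p : ℝ) ≤ Real.sqrt Y) with hS2
  have hcard : (S.card : ℝ) = (S1.card : ℝ) + (S2.card : ℝ) := by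
    have := Finset.card_filter_add_card_filter_not (s := S) (fun p : ℕ => (p : ℝ) ≤ Real.sqrt Y)
    rw [hS1, hS2]
    exact_mod_cast this.symm
  have hsqrtY : Real.sqrt Y * Real.sqrt Y = Y := Real.mul_self_sqrt hYpos.le
  have hsqrtpos : 0 < Real.sqrt Y := Real.sqrt_pos.2 hYpos
  have hS1card : (S1.card : ℝ) ≤ Real.sqrt Y := by
    have hsub : S1 ⊆ Finset.Icc 1 ⌊Real.sqrt Y⌋₊ := by
      intro p hp
      obtain ⟨h1, h2⟩ := Finset.mem_filter.1 hp
      obtain ⟨-, h3, -⟩ := Finset.mem_filter.1 h1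
      exact Finset.mem_Icc.2 ⟨h3.pos, Nat.le_floor h2⟩
    have h1 := Finset.card_le_card hsub
    rw [Nat.card_Icc] at h1
    have h2 : (⌊Real.sqrt Y⌋₊ : ℝ) ≤ Real.sqrt Y := Nat.floor_le hsqrtpos.le
    have h3 : (S1.card : ℝ) ≤ (⌊Real.sqrt Y⌋₊ : ℝ) := by
      have : S1.card ≤ ⌊Real.sqrt Y⌋₊ := by omega
      exact_mod_cast this
    linarith
  -- compare sqrt Y with eps0 Y / log Y
  have hcomp : Real.sqrt Y ≤ (1 / 2) * eps0 N * (Y / Real.log Y) := by
    have h1 : Real.log Y ≤ Real.sqrt (Real.sqrt Y) * 4 := by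
      have h2 := Real.log_sqrt (x := Real.sqrt Y) hsqrtpos.le
      have h3 := Real.log_sqrt (x := Y) hYpos.le
      have h4 : Real.log (Real.sqrt (Real.sqrt Y)) ≤ Real.sqrt (Real.sqrt Y) - 1 :=
        Real.log_le_sub_one_of_pos (Real.sqrt_pos.2 hsqrtpos)
      have h5 := Real.sqrt_pos.2 hsqrtpos
      linarith
    set r := Real.sqrt (Real.sqrt Y) with hr
    have hrpos : 0 < r := Real.sqrt_pos.2 hsqrtpos
    have hr2 : r * r = Real.sqrt Y := Real.mul_self_sqrt hsqrtpos.le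
    -- eps0 is not too small
    have hr3 : 8 * Real.exp ((N : ℝ) ^ ((23 : ℝ) / 100)) ≤ r := by
      have h2 : Real.log r = (1 / 4) * Real.log Y := by
        rw [hr, Real.log_sqrt hsqrtpos.le, Real.log_sqrt hYpos.le]
        ring
      have h3 : (N : ℝ) ^ ((23 : ℝ) / 100) ≤ (N : ℝ) := by
        calc (N : ℝ) ^ ((23 : ℝ) / 100) ≤ (N : ℝ) ^ (1 : ℝ) :=
              Real.rpow_le_rpow_of_exponent_le (by linarith) (by norm_num)
          _ = _ := Real.rpow_one _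
      have h4 : (8 : ℝ) ≤ Real.exp 3 := by
        have := Real.add_one_le_exp (1 : ℝ)
        have h5 : Real.exp 3 = Real.exp 1 ^ 3 := by
          rw [← Real.exp_nat_mul]; norm_num
        rw [h5]
        have h6 : (2 : ℝ) ^ 3 ≤ Real.exp 1 ^ 3 := pow_le_pow_left₀ (by norm_num) (by linarith) 3
        norm_num at h6 ⊢
        linarith
      have h5 : r = Real.exp (Real.log r) := (Real.exp_log hrpos).symm
      rw [h5, h2]
      calc 8 * Real.exp ((N : ℝ) ^ ((23 : ℝ) / 100)) ≤ Real.exp 3 * Real.exp ((N : ℝ)) :=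
            mul_le_mul h4 (Real.exp_le_exp.2 h3) (Real.exp_pos _).le (Real.exp_pos _).le
        _ = Real.exp ((N : ℝ) + 3) := by
            rw [← Real.exp_add]; congr 1; ring
        _ ≤ _ := Real.exp_le_exp.2 hLbig
    have he : eps0 N * Real.exp ((N : ℝ) ^ ((23 : ℝ) / 100)) = 1 := by
      unfold eps0
      rw [← Real.exp_add]
      simp
    have hεpos : 0 < eps0 N := Real.exp_pos _
    have hr4 : 8 ≤ eps0 N * r := by
      have := mul_le_mul_of_nonneg_left hr3 hεpos.le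
      rw [show eps0 N * (8 * Real.exp ((N : ℝ) ^ ((23 : ℝ) / 100)))
          = 8 * (eps0 N * Real.exp ((N : ℝ) ^ ((23 : ℝ) / 100))) by ring, he] at this
      linarith
    rw [show (1 / 2) * eps0 N * (Y / Real.log Y) = ((1 / 2) * eps0 N * Y) / Real.log Y by ring,
      le_div_iff₀ hLpos]
    have h6 : Real.sqrt Y * Real.log Y ≤ Real.sqrt Y * (r * 4) :=
      mul_le_mul_of_nonneg_left h1 hsqrtpos.le
    have h7 : Real.sqrt Y * (r * 4) = (r * Real.sqrt Y) * 4 := by ring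
    have h8 : (1 / 2) * eps0 N * Y = (1 / 2) * (eps0 N * r) * (r * Real.sqrt Y) := by
      have : Y = r * (r * Real.sqrt Y) := by
        rw [← mul_assoc, hr2, hsqrtY]
      conv_lhs => rw [this]
      ring
    have h9 : 0 < r * Real.sqrt Y := by positivity
    nlinarith
  -- upper part
  have hS2card : (S2.card : ℝ) ≤ (5 / 2) * eps0 N * (Y / Real.log Y) := by
    apply abn_top N₀ h N hN0 Y hY (by rw [ht0]; linarith) (by linarith) hlogY10 hY16 S2
    intro p hp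
    obtain ⟨h1, h2⟩ := Finset.mem_filter.1 hp
    obtain ⟨h3, h4, h5⟩ := Finset.mem_filter.1 h1
    have hp1 : (1 : ℝ) < p := by exact_mod_cast h4.one_lt
    have hsq1 : Real.sqrt Y < p := not_le.1 h2
    have hlevp : t0 N ≤ lev p := by
      have h6 : Real.log (Real.sqrt Y) ≤ Real.log p := Real.log_le_log hsqrtpos hsq1.le
      rw [Real.log_sqrt hYpos.le] at h6
      have h7 : Real.log (Real.log Y / 2) ≤ Real.log (Real.log p) :=
        Real.log_le_log (by positivity) h6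
      rw [Real.log_div hLpos.ne' (by norm_num)] at h7
      have h8 := Real.log_two_lt_d9
      have h9 : levR Y = Real.log (Real.log Y) := rfl
      have h10 : lev p = Real.log (Real.log p) := rfl
      rw [h10, ht0]
      linarith
    refine ⟨h4, badNormal_of_not_normal h4 h5 hlevp, hsq1, ?_⟩
    have h6 : p ≤ ⌊Y⌋₊ := (Finset.mem_Icc.1 h3).2
    have h7 : (p : ℝ) ≤ (⌊Y⌋₊ : ℝ) := by exact_mod_cast h6
    exact h7.trans (Nat.floor_le hYpos.le)
  rw [hcard]
  linarith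

namespace NormalInt

lemma split_clean {r a u : ℕ} (hr : r.Prime) (hu : ¬ r ^ 2 ∣ u) (h : r ^ 2 ∣ a * u) :
    (r ∣ u ∧ r ∣ a) ∨ r ^ 2 ∣ a := by
  by_cases hd : r ∣ u
  · left
    refine ⟨hd, ?_⟩
    obtain ⟨v, rfl⟩ := hd
    have hrv : ¬ r ∣ v := by
      intro h2
      apply hu
      obtain ⟨w, rfl⟩ := h2
      exact ⟨w, by ring⟩
    have h3 : r ∣ a * v := by
      have h4 : r * r ∣ r * (a * v) := by
        have : a * (r * v) = r * (a * v) := by ring
        rw [this, pow_two] at h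
        exact h
      exact (Nat.mul_dvd_mul_iff_left hr.pos).1 h4
    exact (hr.dvd_mul.1 h3).resolve_right hrv
  · right
    have hco : Nat.Coprime (r ^ 2) u := Nat.Coprime.pow_left 2 ((Nat.Prime.coprime_iff_not_dvd hr).2 hd)
    exact hco.dvd_of_dvd_mul_right h

lemma high_prime_gt {N r : ℕ} (hr : r.Prime) (h : ts N < lev r) :
    Real.exp (Real.exp (ts N)) < (r : ℝ) := by
  have hp1 : (1 : ℝ) < r := by exact_mod_cast hr.one_lt
  have hl : 0 < Real.log r := Real.log_pos hp1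
  have h1 : Real.exp (ts N) < Real.log r := (Real.lt_log_iff_exp_lt hl).1 h
  exact (Real.lt_log_iff_exp_lt (by linarith)).1 h1

/-- Mass of the primes making a clean `u` unclean. -/
theorem unclean_mass {N : ℕ} {u Xb : ℕ} {L R0 : ℝ} (hL : L = Real.log ((Xb : ℝ) + 1) + 1)
    (hL0 : 0 ≤ L) (hR0 : R0 = Real.exp (Real.exp (ts N))) (hR1 : 2 ≤ R0)
    (hu : Clean N u) (A : Finset ℕ)
    (hA : ∀ p ∈ A, p ≤ Xb ∧ 2 ≤ p ∧ ¬ Clean N ((p - 1) * u)) :
    ∑ p ∈ A, (1 : ℝ) / ((p : ℝ) - 1) ≤ ((u.primeFactors.card : ℝ) + 2) * L / R0 := by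
  classical
  have hR0pos : 0 < R0 := by linarith
  set F : ℕ → Finset ℕ := fun d => (Finset.range (Xb + 1)).filter (fun p => 2 ≤ p ∧ d ∣ p - 1) with hF
  set R₁ := u.primeFactors.filter (fun r => ts N < lev r) with hR₁
  set k := ⌊R0⌋₊ with hk
  have hk0 : (k : ℝ) ≤ R0 := Nat.floor_le hR0pos.le
  have hk1 : R0 < (k : ℝ) + 1 := Nat.lt_floor_add_one _
  have hkpos : k ≠ 0 := by
    intro h
    rw [h] at hk1
    norm_num at hk1
    linarith
  set R₂ := (Finset.Ioc k (max k Xb)).filter (fun r => r.Prime) with hR₂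
  have hsub : A ⊆ (R₁.biUnion (fun r => F r)) ∪ (R₂.biUnion (fun r => F (r ^ 2))) := by
    intro p hp
    obtain ⟨h1, h2, h3⟩ := hA p hp
    unfold Clean at h3
    push Not at h3
    obtain ⟨r, hr, hlev, hdvd⟩ := h3
    have hrgt := high_prime_gt hr hlev
    rw [← hR0] at hrgt
    rcases split_clean hr (hu r hr hlev) hdvd with ⟨h4, h5⟩ | h4
    · apply Finset.mem_union_left
      refine Finset.mem_biUnion.2 ⟨r, ?_, ?_⟩
      · refine Finset.mem_filter.2 ⟨Nat.mem_primeFactors.2 ⟨hr, h4, ?_⟩, hlev⟩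
        rintro rfl
        exact hu r hr hlev (dvd_zero _)
      · exact Finset.mem_filter.2 ⟨Finset.mem_range.2 (by omega), h2, h5⟩
    · apply Finset.mem_union_right
      refine Finset.mem_biUnion.2 ⟨r, ?_, ?_⟩
      · refine Finset.mem_filter.2 ⟨Finset.mem_Ioc.2 ⟨?_, ?_⟩, hr⟩
        · have : (k : ℝ) < r := by linarith
          exact_mod_cast this
        · have h6 : r ^ 2 ≤ p - 1 := Nat.le_of_dvd (by omega) h4
          have h7 : r ≤ r ^ 2 := Nat.le_self_pow (by norm_num) r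
          exact le_max_of_le_right (by omega)
      · exact Finset.mem_filter.2 ⟨Finset.mem_range.2 (by omega), h2, h4⟩
  have hnn : ∀ p ∈ (R₁.biUnion (fun r => F r)) ∪ (R₂.biUnion (fun r => F (r ^ 2))),
      0 ≤ (1 : ℝ) / ((p : ℝ) - 1) := by
    intro p hp
    have h2 : 2 ≤ p := by
      rcases Finset.mem_union.1 hp with h | h
      · obtain ⟨r, _, h3⟩ := Finset.mem_biUnion.1 h
        exact (Finset.mem_filter.1 h3).2.1
      · obtain ⟨r, _, h3⟩ := Finset.mem_biUnion.1 h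
        exact (Finset.mem_filter.1 h3).2.1
    have h3 : (2 : ℝ) ≤ p := by exact_mod_cast h2
    have : 0 < (p : ℝ) - 1 := by linarith
    positivity
  have h1 := Finset.sum_le_sum_of_subset_of_nonneg hsub (fun p hp _ => hnn p hp)
  refine h1.trans ?_
  have hnnF : ∀ d, ∀ p ∈ F d, 0 ≤ (1 : ℝ) / ((p : ℝ) - 1) := by
    intro d p hp
    have h3 : (2 : ℝ) ≤ p := by exact_mod_cast (Finset.mem_filter.1 hp).2.1
    have : 0 < (p : ℝ) - 1 := by linarith
    positivity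
  have hbU : ∀ (I : Finset ℕ) (g : ℕ → ℕ),
      ∑ p ∈ I.biUnion (fun r => F (g r)), (1 : ℝ) / ((p : ℝ) - 1)
        ≤ ∑ r ∈ I, ∑ p ∈ F (g r), (1 : ℝ) / ((p : ℝ) - 1) := by
    intro I g
    induction I using Finset.induction_on with
    | empty => simp
    | insert a s ha ih =>
      rw [Finset.biUnion_insert, Finset.sum_insert ha]
      have hnnU : ∀ p ∈ F (g a) ∩ s.biUnion (fun r => F (g r)), 0 ≤ (1 : ℝ) / ((p : ℝ) - 1) :=
        fun p hp => hnnF _ p (Finset.mem_inter.1 hp).1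
      have h2 := Finset.sum_union_inter (s₁ := F (g a)) (s₂ := s.biUnion (fun r => F (g r)))
        (f := fun p : ℕ => (1 : ℝ) / ((p : ℝ) - 1))
      have h3 := Finset.sum_nonneg hnnU
      linarith
  have hharm : ∀ d : ℕ, 0 < d → ∑ p ∈ F d, (1 : ℝ) / ((p : ℝ) - 1) ≤ L / d := by
    intro d hd
    rw [hL]
    have := harmonic_dvd Xb d hd
    exact this
  have hunion := Finset.sum_union_inter (s₁ := R₁.biUnion (fun r => F r))
    (s₂ := R₂.biUnion (fun r => F (r ^ 2))) (f := fun p : ℕ => (1 : ℝ) / ((p : ℝ) - 1))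
  have hinter : 0 ≤ ∑ p ∈ (R₁.biUnion (fun r => F r)) ∩ (R₂.biUnion (fun r => F (r ^ 2))),
      (1 : ℝ) / ((p : ℝ) - 1) := by
    apply Finset.sum_nonneg
    intro p hp
    exact hnn p (Finset.mem_union_left _ (Finset.mem_inter.1 hp).1)
  have hprimes : ∀ r ∈ R₁, r.Prime ∧ R0 < (r : ℝ) := by
    intro r hr
    obtain ⟨h2, h3⟩ := Finset.mem_filter.1 hr
    have hrp := Nat.prime_of_mem_primeFactors h2
    refine ⟨hrp, ?_⟩
    rw [hR0]
    exact high_prime_gt hrp h3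
  have hS1 : ∑ p ∈ R₁.biUnion (fun r => F r), (1 : ℝ) / ((p : ℝ) - 1)
      ≤ (u.primeFactors.card : ℝ) * (L / R0) := by
    have h2 := hbU R₁ id
    simp only [id] at h2
    refine h2.trans ?_
    have h3 : ∀ r ∈ R₁, ∑ p ∈ F r, (1 : ℝ) / ((p : ℝ) - 1) ≤ L / R0 := by
      intro r hr
      obtain ⟨h4, h5⟩ := hprimes r hr
      refine (hharm r h4.pos).trans ?_
      exact div_le_div_of_nonneg_left hL0 hR0pos h5.le
    have h4 := Finset.sum_le_card_nsmul _ _ _ h3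
    rw [nsmul_eq_mul] at h4
    refine h4.trans ?_
    apply mul_le_mul_of_nonneg_right _ (by positivity)
    exact_mod_cast Finset.card_filter_le _ _
  have hS2 : ∑ p ∈ R₂.biUnion (fun r => F (r ^ 2)), (1 : ℝ) / ((p : ℝ) - 1)
      ≤ 2 * (L / R0) := by
    have h2 := hbU R₂ (fun r => r ^ 2)
    refine h2.trans ?_
    have h3 : ∀ r ∈ R₂, ∑ p ∈ F (r ^ 2), (1 : ℝ) / ((p : ℝ) - 1) ≤ L * ((r : ℝ) ^ 2)⁻¹ := by
      intro r hr
      have hrp := (Finset.mem_filter.1 hr).2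
      have := hharm (r ^ 2) (pow_pos hrp.pos 2)
      refine this.trans (le_of_eq ?_)
      push_cast
      rw [div_eq_mul_inv]
    refine (Finset.sum_le_sum h3).trans ?_
    rw [← Finset.mul_sum]
    have h4 : ∑ r ∈ R₂, ((r : ℝ) ^ 2)⁻¹ ≤ ∑ r ∈ Finset.Ioc k (max k Xb), ((r : ℝ) ^ 2)⁻¹ :=
      Finset.sum_le_sum_of_subset_of_nonneg (Finset.filter_subset _ _) (fun _ _ _ => by positivity)
    have h5 := sum_Ioc_inv_sq_le_sub (α := ℝ) hkpos (le_max_left k Xb)
    have h6 : (0 : ℝ) ≤ ((max k Xb : ℕ) : ℝ)⁻¹ := by positivity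
    have h7 : ((k : ℝ))⁻¹ ≤ 2 / R0 := by
      have hkR : R0 / 2 ≤ (k : ℝ) := by linarith
      have hkposR : (0 : ℝ) < k := by
        have : 0 < k := Nat.pos_of_ne_zero hkpos
        exact_mod_cast this
      rw [inv_eq_one_div, div_le_div_iff₀ hkposR hR0pos]
      linarith
    have h8 : ∑ r ∈ R₂, ((r : ℝ) ^ 2)⁻¹ ≤ 2 / R0 := by linarith
    have h9 := mul_le_mul_of_nonneg_left h8 hL0
    refine h9.trans (le_of_eq ?_)
    ring
  have e : ((u.primeFactors.card : ℝ) + 2) * L / R0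
      = (u.primeFactors.card : ℝ) * (L / R0) + 2 * (L / R0) := by ring
  rw [e]
  linarith

end NormalInt

/-- Chain mass of primes in a level interval, restricted to normal primes avoiding `Bad`:
used to choose rows in Theorem B and the lower bound. -/
theorem good_mass : ∃ N₀ : ℕ, ∀ N ≥ N₀, ∀ (a b : ℝ) (u : ℕ), t0 N ≤ a → a ≤ b → b ≤ (N : ℝ) + 5 →
    Clean N u → u ≠ 0 → (u.primeFactors.card : ℝ) ≤ Real.exp ((N : ℝ) + 7) →
    b - a - 1 ≤ ∑ p ∈ (primesLev a b).filter (fun p => Normal N p ∧ Clean N ((p - 1) * u)),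
      (1 : ℝ) / ((p : ℝ) - 1) := by
  obtain ⟨C, a₀, hC0, hmert⟩ := mert_interval
  obtain ⟨N₁, habn⟩ := abn_mass
  have e1 : ∀ᶠ N : ℕ in atTop, (|a₀| + 4 * C + 1) + 0 * (N : ℝ) ^ (0 : ℝ) ≤ 1 * (N : ℝ) ^ ((4 : ℝ) / 5) :=
    NormalEv.ev_nat (NormalEv.ev_pow _ 0 1 le_rfl (by norm_num) (by norm_num))
  have e2 : ∀ᶠ N : ℕ in atTop, (40 : ℝ) * (N : ℝ) ^ 1 * Real.exp (-(1 * (N : ℝ) ^ ((23 : ℝ) / 100)))
      ≤ Real.exp (-((N : ℝ) ^ ((1 : ℝ) / 5))) :=
    NormalEv.ev_nat (NormalEv.ev_exp (by norm_num) 1 (by norm_num) (by norm_num) (by norm_num))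
  have e3 : ∀ᶠ N : ℕ in atTop, (240 : ℝ) + 32 * (N : ℝ) ^ (1 : ℝ) ≤ 1 * (N : ℝ) ^ ((8 : ℝ) / 5) :=
    NormalEv.ev_nat (NormalEv.ev_pow _ _ 1 (by norm_num) (by norm_num) (by norm_num))
  obtain ⟨N₂, hN₂⟩ := Filter.eventually_atTop.1 (e1.and (e2.and e3))
  refine ⟨max (max N₁ N₂) 9, ?_⟩
  intro N hN a b u ha hab hb hu hu0 hcard
  have hN1 : N₁ ≤ N := le_trans (le_trans (le_max_left _ _) (le_max_left _ _)) hN
  have hN2 : N₂ ≤ N := le_trans (le_trans (le_max_right _ _) (le_max_left _ _)) hN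
  have hN3 : 9 ≤ N := le_trans (le_max_right _ _) hN
  obtain ⟨h1, h2, h3⟩ := hN₂ N hN2
  simp only [zero_mul, add_zero, one_mul] at h1 h2 h3
  rw [Real.rpow_one] at h3
  rw [pow_one] at h2
  have hNR : (9 : ℝ) ≤ N := by exact_mod_cast hN3
  have ht0 : t0 N = (N : ℝ) ^ ((4 : ℝ) / 5) := rfl
  have htsE : ts N = (1 / 2) * (N : ℝ) ^ ((4 : ℝ) / 5) := ts_eq N
  have habs := abs_nonneg a₀
  have hat0 : a₀ ≤ a := by
    have := le_abs_self a₀
    rw [ht0] at ha
    linarith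
  have hapos : 1 ≤ a := by
    rw [ht0] at ha
    linarith
  have hm := (abs_le.1 (hmert a b hat0 hab)).1
  -- the three error terms
  have herr1 : C * Real.exp (-a) ≤ 1 / 4 := by
    have h4 : Real.exp (-a) * a ≤ 1 := by
      have h5 := Real.add_one_le_exp a
      have h6 : Real.exp (-a) * Real.exp a = 1 := by
        rw [← Real.exp_add]; simp
      have h7 := Real.exp_pos (-a)
      nlinarith
    have h8 : 4 * C ≤ a := by
      rw [ht0] at ha
      linarith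
    have h9 := Real.exp_pos (-a)
    nlinarith
  have herr2 : 10 * (N : ℝ) * eps0 N ≤ 1 / 4 := by
    have h4 : Real.exp (-((N : ℝ) ^ ((1 : ℝ) / 5))) ≤ 1 := Real.exp_le_one_iff.2 (by
      have : 0 ≤ (N : ℝ) ^ ((1 : ℝ) / 5) := by positivity
      linarith)
    have h5 := h2.trans h4
    unfold eps0
    nlinarith
  set Xb := ⌈Real.exp (Real.exp b)⌉₊ with hXb
  set L := Real.log ((Xb : ℝ) + 1) + 1 with hL
  set R0 := Real.exp (Real.exp (ts N)) with hR0
  have htsge : 0 ≤ ts N := by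
    rw [htsE]; positivity
  have hexpts : 2 * (N : ℝ) + 15 ≤ Real.exp (ts N) := by
    have h4 : (1 + ts N / 2) ^ 2 ≤ Real.exp (ts N) := by
      have h5 := Real.add_one_le_exp (ts N / 2)
      have h6 : Real.exp (ts N) = Real.exp (ts N / 2) ^ 2 := by
        rw [← Real.exp_nat_mul]; congr 1; push_cast; ring
      rw [h6]
      exact pow_le_pow_left₀ (by linarith) (by linarith) 2
    have h5 : ts N ^ 2 = (1 / 4) * (N : ℝ) ^ ((8 : ℝ) / 5) := by
      have h6 : ((N : ℝ) ^ ((4 : ℝ) / 5)) ^ 2 = (N : ℝ) ^ ((8 : ℝ) / 5) := by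
        rw [← Real.rpow_natCast, ← Real.rpow_mul (by positivity)]
        norm_num
      rw [htsE, mul_pow, h6]
      norm_num
    nlinarith
  have hR1 : 2 ≤ R0 := by
    have h4 := Real.add_one_le_exp (Real.exp (ts N))
    linarith
  have hbpos : 0 ≤ b := by linarith
  have hLle : L ≤ 2 * Real.exp ((N : ℝ) + 5) := by
    have h4 : (Xb : ℝ) < Real.exp (Real.exp b) + 1 := Nat.ceil_lt_add_one (by positivity)
    have h5 : (Xb : ℝ) + 1 ≤ Real.exp (Real.exp b + 2) := by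
      have h6 : Real.exp (Real.exp b + 2) = Real.exp (Real.exp b) * Real.exp 2 := Real.exp_add _ _
      have h7 : (3 : ℝ) ≤ Real.exp 2 := by
        have := Real.add_one_le_exp (2 : ℝ)
        linarith
      have h8 : 1 ≤ Real.exp (Real.exp b) := Real.one_le_exp (by positivity)
      rw [h6]
      nlinarith
    have h6 : Real.log ((Xb : ℝ) + 1) ≤ Real.exp b + 2 := by
      rw [Real.log_le_iff_le_exp (by positivity)]
      exact h5
    have h7 : Real.exp b ≤ Real.exp ((N : ℝ) + 5) := Real.exp_le_exp.2 hb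
    have h8 : 3 ≤ Real.exp ((N : ℝ) + 5) := by
      have := Real.add_one_le_exp ((N : ℝ) + 5)
      linarith
    rw [hL]
    linarith
  have hL0 : 0 ≤ L := by
    rw [hL]
    have : 0 ≤ Real.log ((Xb : ℝ) + 1) := Real.log_nonneg (by
      have : (0 : ℝ) ≤ Xb := Nat.cast_nonneg _
      linarith)
    linarith
  -- the decomposition
  set A := primesLev a b with hA
  have hAmem : ∀ p ∈ A, p ≤ Xb ∧ p.Prime ∧ a ≤ lev p ∧ lev p < b := by
    intro p hp
    obtain ⟨h4, h5, h6, h7⟩ := Finset.mem_filter.1 hp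
    have := Finset.mem_range.1 h4
    exact ⟨by omega, h5, h6, h7⟩
  set Gd := A.filter (fun p => Normal N p ∧ Clean N ((p - 1) * u)) with hGd
  set Ab := A.filter (fun p => ¬ Normal N p) with hAb
  set NC := A.filter (fun p => ¬ Clean N ((p - 1) * u)) with hNC
  have hsubA : A ⊆ Gd ∪ (Ab ∪ NC) := by
    intro p hp
    by_cases h4 : Normal N p
    · by_cases h5 : Clean N ((p - 1) * u)
      · exact Finset.mem_union_left _ (Finset.mem_filter.2 ⟨hp, h4, h5⟩)
      · exact Finset.mem_union_right _ (Finset.mem_union_right _ (Finset.mem_filter.2 ⟨hp, h5⟩))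
    · exact Finset.mem_union_right _ (Finset.mem_union_left _ (Finset.mem_filter.2 ⟨hp, h4⟩))
  have hnn : ∀ p ∈ A, 0 ≤ (1 : ℝ) / ((p : ℝ) - 1) := by
    intro p hp
    have h3' : (2 : ℝ) ≤ p := by exact_mod_cast (hAmem p hp).2.1.two_le
    have : 0 < (p : ℝ) - 1 := by linarith
    positivity
  have hbreak : massI a b ≤ ∑ p ∈ Gd, (1 : ℝ) / ((p : ℝ) - 1) + (∑ p ∈ Ab, (1 : ℝ) / ((p : ℝ) - 1)
      + ∑ p ∈ NC, (1 : ℝ) / ((p : ℝ) - 1)) := by
    have hEq : A = Gd ∪ (Ab ∪ NC) := by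
      apply Finset.Subset.antisymm hsubA
      intro p hp
      rcases Finset.mem_union.1 hp with h | h
      · exact (Finset.mem_filter.1 h).1
      · rcases Finset.mem_union.1 h with h | h
        · exact (Finset.mem_filter.1 h).1
        · exact (Finset.mem_filter.1 h).1
    unfold massI
    rw [← hA, hEq]
    have h4 := Finset.sum_union_inter (s₁ := Gd) (s₂ := Ab ∪ NC)
      (f := fun p : ℕ => (1 : ℝ) / ((p : ℝ) - 1))
    have h5 := Finset.sum_union_inter (s₁ := Ab) (s₂ := NC)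
      (f := fun p : ℕ => (1 : ℝ) / ((p : ℝ) - 1))
    have h6 : 0 ≤ ∑ p ∈ Gd ∩ (Ab ∪ NC), (1 : ℝ) / ((p : ℝ) - 1) :=
      Finset.sum_nonneg (fun p hp => hnn p (Finset.mem_filter.1 (Finset.mem_inter.1 hp).1).1)
    have h7 : 0 ≤ ∑ p ∈ Ab ∩ NC, (1 : ℝ) / ((p : ℝ) - 1) :=
      Finset.sum_nonneg (fun p hp => hnn p (Finset.mem_filter.1 (Finset.mem_inter.1 hp).1).1)
    linarith
  have hAbmass : ∑ p ∈ Ab, (1 : ℝ) / ((p : ℝ) - 1) ≤ 10 * (N : ℝ) * eps0 N := by
    apply habn N hN1 Ab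
    intro p hp
    obtain ⟨h4, h5⟩ := Finset.mem_filter.1 hp
    obtain ⟨_, h6, h7, h8⟩ := hAmem p h4
    exact ⟨h6, h5, ha.trans h7, by linarith⟩
  have hNCmass : ∑ p ∈ NC, (1 : ℝ) / ((p : ℝ) - 1) ≤ 1 / 4 := by
    have h4 := unclean_mass (N := N) (u := u) (Xb := Xb) hL hL0 hR0 hR1 hu NC (by
      intro p hp
      obtain ⟨h4, h5⟩ := Finset.mem_filter.1 hp
      obtain ⟨h6, h7, _, _⟩ := hAmem p h4
      exact ⟨h6, h7.two_le, h5⟩)
    refine h4.trans ?_
    have hR0pos : 0 < R0 := by linarith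
    rw [div_le_iff₀ hR0pos]
    have h5 : 2 ≤ Real.exp ((N : ℝ) + 7) := by
      have := Real.add_one_le_exp ((N : ℝ) + 7)
      linarith
    have h6 : ((u.primeFactors.card : ℝ) + 2) * L
        ≤ (2 * Real.exp ((N : ℝ) + 7)) * (2 * Real.exp ((N : ℝ) + 5)) := by
      apply mul_le_mul (by linarith) hLle hL0 (by positivity)
    have h7 : (2 * Real.exp ((N : ℝ) + 7)) * (2 * Real.exp ((N : ℝ) + 5))
        = 4 * Real.exp (2 * (N : ℝ) + 12) := by
      have h8 : Real.exp (2 * (N : ℝ) + 12) = Real.exp ((N : ℝ) + 7) * Real.exp ((N : ℝ) + 5) := by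
        rw [← Real.exp_add]
        congr 1
        ring
      rw [h8]
      ring
    have h8 : Real.exp (2 * (N : ℝ) + 15) ≤ R0 := Real.exp_le_exp.2 hexpts
    have h9 : Real.exp (2 * (N : ℝ) + 15) = Real.exp (2 * (N : ℝ) + 12) * Real.exp 3 := by
      rw [← Real.exp_add]; congr 1; ring
    have h10 : (16 : ℝ) ≤ Real.exp 3 := by
      have h11 : Real.exp 3 = Real.exp 1 ^ 3 := by
        rw [← Real.exp_nat_mul]; norm_num
      rw [h11]
      have h12 := Real.exp_one_gt_d9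
      have h13 : (2.7 : ℝ) ^ 3 ≤ Real.exp 1 ^ 3 := pow_le_pow_left₀ (by norm_num) (by linarith) 3
      norm_num at h13 ⊢
      linarith
    have h14 := Real.exp_pos (2 * (N : ℝ) + 12)
    nlinarith
  linarith

end
end Vale.Agent.Lib.P031V
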