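import Mathlib
import Vale.Agent.Lib.P031V.MertensLev

/-! Rankin's trick: smooth numbers above `Y` have small reciprocal sum (blueprint (Si5)). -/

namespace Vale.Agent.Lib.P031V

open Finset Real

noncomputable section

/-- The completely multiplicative function `d ↦ d ^ s` (`0 ↦ 0`). -/
def rpowHom (s : ℝ) : ℕ →* ℝ where
  toFun n := if n = 0 then 0 else (n : ℝ) ^ s
  map_one' := by simp
  map_mul' a b := by
    by_cases ha : a = 0
    · simp [ha]
    by_cases hb : b = 0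
    · simp [hb]
    have : a * b ≠ 0 := mul_ne_zero ha hb
    simp only [this, ha, hb, if_false]
    push_cast
    exact Real.mul_rpow (by positivity) (by positivity)

lemma rpowHom_apply {s : ℝ} {n : ℕ} (hn : n ≠ 0) : rpowHom s n = (n : ℝ) ^ s := by
  simp [rpowHom, hn]

/-- Euler product bound for a finite set of smooth numbers. -/
lemma sum_rpow_le_euler {s : ℝ} (hs : s < 0) (N : ℕ) (F : Finset ℕ)
    (hF : ∀ d ∈ F, d ∈ N.smoothNumbers) :
    ∑ d ∈ F, (d : ℝ) ^ s ≤ ∏ p ∈ N.primesBelow, (1 - (p : ℝ) ^ s)⁻¹ := by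
  have hlt : ∀ {p : ℕ}, p.Prime → ‖rpowHom s p‖ < 1 := by
    intro p hp
    rw [rpowHom_apply hp.ne_zero, Real.norm_eq_abs,
      abs_of_nonneg (by positivity)]
    exact Real.rpow_lt_one_of_one_lt_of_neg (by exact_mod_cast hp.one_lt) hs
  obtain ⟨_, hsum⟩ := EulerProduct.summable_and_hasSum_smoothNumbers_prod_primesBelow_geometric
    hlt N
  have hprod : ∏ p ∈ N.primesBelow, (1 - rpowHom s p)⁻¹ =
      ∏ p ∈ N.primesBelow, (1 - (p : ℝ) ^ s)⁻¹ := by
    apply Finset.prod_congr rfl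
    intro p hp
    rw [rpowHom_apply (Nat.prime_of_mem_primesBelow hp).ne_zero]
  rw [hprod] at hsum
  have hnn : ∀ i : N.smoothNumbers, 0 ≤ rpowHom s (i : ℕ) := by
    intro i
    by_cases h : (i : ℕ) = 0
    · simp [rpowHom, h]
    · rw [rpowHom_apply h]
      positivity
  have h1 := sum_le_hasSum (F.subtype (· ∈ N.smoothNumbers)) (fun i _ => hnn i) hsum
  have h2 : ∑ i ∈ F.subtype (· ∈ N.smoothNumbers), rpowHom s (i : ℕ) =
      ∑ d ∈ F, rpowHom s d :=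
    Finset.sum_subtype_of_mem (fun d => rpowHom s d) hF
  rw [h2] at h1
  refine le_trans (le_of_eq ?_) h1
  apply Finset.sum_congr rfl
  intro d hd
  rw [rpowHom_apply (hF d hd).1]

lemma inv_one_sub_le_exp {x : ℝ} (h0 : 0 ≤ x) (h1 : x ≤ 2 / 3) :
    (1 - x)⁻¹ ≤ Real.exp (x + 3 * x ^ 2) := by
  have hpos : 0 < 1 - x := by linarith
  have h2 : 1 + (x + 3 * x ^ 2) ≤ Real.exp (x + 3 * x ^ 2) := by
    have := Real.add_one_le_exp (x + 3 * x ^ 2)
    linarith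
  refine le_trans ?_ h2
  rw [inv_le_iff_one_le_mul₀ hpos]
  have : 0 ≤ x ^ 2 * (2 - 3 * x) := by
    apply mul_nonneg (by positivity)
    linarith
  nlinarith

/-- Sum of `1/n^2`. -/
lemma sum_inv_sq_le (N : ℕ) :
    ∑ n ∈ Ico 2 N, (1 : ℝ) / (n : ℝ) ^ 2 ≤ 1 := by
  have key : ∀ M : ℕ, 2 ≤ M → ∑ n ∈ Ico 2 M, (1 : ℝ) / (n : ℝ) ^ 2 ≤ 1 - 1 / ((M : ℝ) - 1) := by
    intro M hM
    induction M, hM using Nat.le_induction with
    | base => norm_num
    | succ M hM ih =>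
      rw [Finset.sum_Ico_succ_top hM]
      have hM1 : (1 : ℝ) < M := by
        have : (2 : ℝ) ≤ M := by exact_mod_cast hM
        linarith
      have hpos : (0 : ℝ) < (M : ℝ) - 1 := by linarith
      have hM0 : (0 : ℝ) < M := by linarith
      have e : (1 : ℝ) / ((M : ℝ) - 1) - 1 / (((M + 1 : ℕ) : ℝ) - 1) = 1 / ((M : ℝ) * ((M : ℝ) - 1)) := by
        push_cast
        rw [add_sub_cancel_right]
        field_simp
        ring
      have h1 : (1 : ℝ) / (M : ℝ) ^ 2 ≤ 1 / ((M : ℝ) * ((M : ℝ) - 1)) := by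
        apply one_div_le_one_div_of_le (by positivity)
        nlinarith
      linarith
  by_cases h : 2 ≤ N
  · have := key N h
    have hN : (0 : ℝ) < (N : ℝ) - 1 := by
      have : (2 : ℝ) ≤ N := by exact_mod_cast h
      linarith
    have : 0 < 1 / ((N : ℝ) - 1) := by positivity
    linarith
  · rw [Finset.Ico_eq_empty (by omega)]
    simp

/-- Sum of `1/p` over primes up to `Z`. -/
lemma sum_inv_primes_le : ∃ C : ℝ, 0 ≤ C ∧ ∀ Z : ℝ, Real.exp 10 ≤ Z →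
    ∑ p ∈ (⌊Z⌋₊ + 1).primesBelow, (1 : ℝ) / p ≤ Real.log (Real.log Z) + C := by
  obtain ⟨C, hC0, hC⟩ := primeSum_bound
  refine ⟨C + 2, by linarith, ?_⟩
  intro Z hZ
  have hZ1 : (3 : ℝ) ≤ Z := by
    have := Real.add_one_le_exp (10 : ℝ)
    linarith
  have hfl : 3 ≤ ⌊Z⌋₊ := Nat.le_floor (by exact_mod_cast hZ1)
  have hZpos : 0 < Z := by linarith
  have hsub : (⌊Z⌋₊ + 1).primesBelow ⊆
      insert 2 (insert 3 ((Ioc 3 ⌊Z⌋₊).filter Nat.Prime)) := by
    intro p hp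
    have hp' := Nat.prime_of_mem_primesBelow hp
    have hlt := Nat.lt_of_mem_primesBelow hp
    simp only [mem_insert, mem_filter, mem_Ioc]
    by_cases h2 : p = 2
    · exact Or.inl h2
    by_cases h3 : p = 3
    · exact Or.inr (Or.inl h3)
    refine Or.inr (Or.inr ⟨⟨?_, by omega⟩, hp'⟩)
    have := hp'.two_le
    omega
  have hnn : ∀ p ∈ insert 2 (insert 3 ((Ioc 3 ⌊Z⌋₊).filter Nat.Prime)),
      p ∉ (⌊Z⌋₊ + 1).primesBelow → (0 : ℝ) ≤ (1 : ℝ) / p := fun _ _ _ => by positivity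
  have h1 := Finset.sum_le_sum_of_subset_of_nonneg hsub hnn
  have h2 : ∑ p ∈ insert 2 (insert 3 ((Ioc 3 ⌊Z⌋₊).filter Nat.Prime)), (1 : ℝ) / (p : ℝ) =
      1 / 2 + (1 / 3 + primeSum 3 ⌊Z⌋₊) := by
    rw [Finset.sum_insert (by simp), Finset.sum_insert (by simp)]
    unfold primeSum
    norm_num
  have h3 := (abs_le.1 (hC 3 ⌊Z⌋₊ le_rfl hfl)).2
  have hl3 : (1 : ℝ) ≤ Real.log 3 := by
    have h4 : Real.exp 1 ≤ 3 := by
      have := Real.exp_one_lt_d9
      linarith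
    exact (Real.le_log_iff_exp_le (by norm_num)).2 h4
  have hl3' : (1 : ℝ) ≤ Real.log ((3 : ℕ) : ℝ) := by
    norm_num
    exact hl3
  have h5 : 0 ≤ Real.log (Real.log ((3 : ℕ) : ℝ)) := Real.log_nonneg hl3'
  have h6 : C / Real.log ((3 : ℕ) : ℝ) ≤ C := by
    rw [div_le_iff₀ (by linarith)]
    nlinarith
  have h7 : Real.log (Real.log (⌊Z⌋₊ : ℝ)) ≤ Real.log (Real.log Z) := by
    have hfl0 : (3 : ℝ) ≤ (⌊Z⌋₊ : ℝ) := by exact_mod_cast hfl
    have hle : (⌊Z⌋₊ : ℝ) ≤ Z := Nat.floor_le hZpos.le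
    have h8 : Real.log (⌊Z⌋₊ : ℝ) ≤ Real.log Z := Real.log_le_log (by linarith) hle
    have h9 : 0 < Real.log (⌊Z⌋₊ : ℝ) := Real.log_pos (by linarith)
    exact Real.log_le_log h9 h8
  rw [h2] at h1
  generalize Real.log (Real.log ((3 : ℕ) : ℝ)) = B at *
  generalize C / Real.log ((3 : ℕ) : ℝ) = D at *
  generalize Real.log (Real.log (⌊Z⌋₊ : ℝ)) = A at *
  generalize primeSum 3 ⌊Z⌋₊ = S at *
  linarith

/-- Small primes are only mildly affected by the Rankin exponent. -/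
lemma small_prime_rpow_le {σ : ℝ} (h0 : 0 ≤ σ) (h1 : σ ≤ 1 / 10) {p : ℕ} (hp : p.Prime)
    (hp4 : p ≤ 4) : (p : ℝ) ^ σ ≤ 4 / 3 := by
  have hp0 : (0 : ℝ) < p := by exact_mod_cast hp.pos
  rw [Real.rpow_def_of_pos hp0]
  have hlog : Real.log p ≤ Real.log 4 := by
    apply Real.log_le_log hp0
    exact_mod_cast hp4
  have hl4 : Real.log 4 ≤ 1.4 := by
    have e : Real.log 4 = 2 * Real.log 2 := by
      rw [show (4 : ℝ) = 2 ^ 2 by norm_num, Real.log_pow]
      norm_num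
    have := Real.log_two_lt_d9
    rw [e]
    linarith
  have hlnn : 0 ≤ Real.log p := Real.log_nonneg (by exact_mod_cast hp.one_lt.le)
  have hmul : Real.log p * σ ≤ 0.14 := by nlinarith
  have h3 : Real.exp (Real.log p * σ) ≤ Real.exp 0.14 := Real.exp_le_exp.2 hmul
  have h4 : Real.exp 0.14 ≤ 4 / 3 := by
    have h5 := Real.add_one_le_exp (-(0.14 : ℝ))
    have h6 : Real.exp (0.14 : ℝ) * Real.exp (-(0.14 : ℝ)) = 1 := by
      rw [← Real.exp_add]
      simp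
    have h7 := Real.exp_pos (0.14 : ℝ)
    nlinarith
  linarith

/-- Bound of the local factors. -/
lemma euler_prod_le {Z : ℝ} (hZ : Real.exp 10 ≤ Z) :
    ∏ p ∈ (⌊Z⌋₊ + 1).primesBelow, (1 - (p : ℝ) ^ (1 / Real.log Z - 1))⁻¹ ≤
      Real.exp (3 * ∑ p ∈ (⌊Z⌋₊ + 1).primesBelow, (1 : ℝ) / p + 27) := by
  have hZpos : 0 < Z := lt_of_lt_of_le (Real.exp_pos _) hZ
  have hlogZ : 10 ≤ Real.log Z := (Real.le_log_iff_exp_le hZpos).2 hZ
  set σ : ℝ := 1 / Real.log Z with hσ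
  have hσ0 : 0 < σ := by positivity
  have hσ1 : σ ≤ 1 / 10 := by
    rw [hσ]
    exact one_div_le_one_div_of_le (by norm_num) hlogZ
  have hfac : ∀ p ∈ (⌊Z⌋₊ + 1).primesBelow,
      0 ≤ (p : ℝ) ^ (σ - 1) ∧ (p : ℝ) ^ (σ - 1) ≤ 2 / 3 ∧ (p : ℝ) ^ (σ - 1) ≤ 3 / p := by
    intro p hp
    have hp' := Nat.prime_of_mem_primesBelow hp
    have hlt := Nat.lt_of_mem_primesBelow hp
    have hp0 : (0 : ℝ) < p := by exact_mod_cast hp'.pos
    have hpZ : (p : ℝ) ≤ Z := by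
      have h1 : p ≤ ⌊Z⌋₊ := by omega
      exact le_trans (by exact_mod_cast h1) (Nat.floor_le hZpos.le)
    have e : (p : ℝ) ^ (σ - 1) = (p : ℝ) ^ σ / p := by
      rw [Real.rpow_sub hp0, Real.rpow_one]
    have hpσ : (p : ℝ) ^ σ ≤ 3 := by
      rw [Real.rpow_def_of_pos hp0]
      have h1 : Real.log p ≤ Real.log Z := Real.log_le_log hp0 hpZ
      have h2 : Real.log p * σ ≤ 1 := by
        rw [hσ, mul_one_div]
        rw [div_le_one (by linarith)]
        exact h1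
      have h3 := Real.exp_le_exp.2 h2
      have h4 := Real.exp_one_lt_d9
      linarith
    refine ⟨by positivity, ?_, ?_⟩
    · rw [e]
      by_cases h4 : p ≤ 4
      · have h5 := small_prime_rpow_le hσ0.le hσ1 hp' h4
        have h6 : (2 : ℝ) ≤ p := by exact_mod_cast hp'.two_le
        rw [div_le_iff₀ hp0]
        nlinarith
      · have h5 : (5 : ℝ) ≤ p := by
          have : 5 ≤ p := by omega
          exact_mod_cast this
        rw [div_le_iff₀ hp0]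
        nlinarith
    · rw [e]
      exact div_le_div_of_nonneg_right hpσ hp0.le
  have h1 : ∏ p ∈ (⌊Z⌋₊ + 1).primesBelow, (1 - (p : ℝ) ^ (σ - 1))⁻¹ ≤
      ∏ p ∈ (⌊Z⌋₊ + 1).primesBelow, Real.exp (3 * ((1 : ℝ) / p) + 27 * (1 / (p : ℝ) ^ 2)) := by
    apply Finset.prod_le_prod
    · intro p hp
      obtain ⟨f1, f2, _⟩ := hfac p hp
      have : 0 < 1 - (p : ℝ) ^ (σ - 1) := by linarith
      positivity
    · intro p hp
      obtain ⟨f1, f2, f3⟩ := hfac p hp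
      refine le_trans (inv_one_sub_le_exp f1 f2) (Real.exp_le_exp.2 ?_)
      have hp' := Nat.prime_of_mem_primesBelow hp
      have hp0 : (0 : ℝ) < p := by exact_mod_cast hp'.pos
      have e1 : 3 * ((1 : ℝ) / p) = 3 / p := by ring
      have h2 : ((p : ℝ) ^ (σ - 1)) ^ 2 ≤ (3 / (p : ℝ)) ^ 2 := by
        apply pow_le_pow_left₀ f1 f3
      have e2 : (3 / (p : ℝ)) ^ 2 = 9 * (1 / (p : ℝ) ^ 2) := by
        field_simp
        norm_num
      rw [e2] at h2
      linarith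
  refine le_trans h1 ?_
  rw [← Real.exp_sum]
  apply Real.exp_le_exp.2
  rw [Finset.sum_add_distrib, ← Finset.mul_sum, ← Finset.mul_sum]
  have h3 : ∑ p ∈ (⌊Z⌋₊ + 1).primesBelow, (1 : ℝ) / (p : ℝ) ^ 2 ≤ 1 := by
    refine le_trans ?_ (sum_inv_sq_le (⌊Z⌋₊ + 1))
    apply Finset.sum_le_sum_of_subset_of_nonneg
    · intro p hp
      have hp' := Nat.prime_of_mem_primesBelow hp
      have hlt := Nat.lt_of_mem_primesBelow hp
      exact Finset.mem_Ico.2 ⟨hp'.two_le, hlt⟩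
    · intro _ _ _
      positivity
  linarith

/-- **Rankin's bound** (Si5): finite sets of `Z`-smooth integers above `Y`. -/
theorem rankin_sum : ∃ C : ℝ, 1 ≤ C ∧ ∀ Y Z : ℝ, 1 ≤ Y → Real.exp 10 ≤ Z → ∀ F : Finset ℕ,
    (∀ d ∈ F, d ≠ 0 ∧ Y < d ∧ ∀ r : ℕ, r.Prime → r ∣ d → (r : ℝ) ≤ Z) →
    ∑ d ∈ F, (1 : ℝ) / d ≤ Real.exp (-(Real.log Y / Real.log Z)) * (C * Real.log Z) ^ 3 := by
  obtain ⟨C0, hC0, hC⟩ := sum_inv_primes_le
  refine ⟨Real.exp (C0 + 9), ?_, ?_⟩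
  · exact Real.one_le_exp (by linarith)
  intro Y Z hY hZ F hF
  have hZpos : 0 < Z := lt_of_lt_of_le (Real.exp_pos _) hZ
  have hlogZ : 10 ≤ Real.log Z := (Real.le_log_iff_exp_le hZpos).2 hZ
  have hlogZ0 : 0 < Real.log Z := by linarith
  set σ : ℝ := 1 / Real.log Z with hσ
  have hσ0 : 0 < σ := by positivity
  have hσ1 : σ ≤ 1 / 10 := by
    rw [hσ]
    exact one_div_le_one_div_of_le (by norm_num) hlogZ
  have hs : σ - 1 < 0 := by linarith
  have hsmooth : ∀ d ∈ F, d ∈ (⌊Z⌋₊ + 1).smoothNumbers := by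
    intro d hd
    obtain ⟨h0, _, h2⟩ := hF d hd
    exact Nat.mem_smoothNumbers_iff_forall_le.2
      ⟨h0, fun r _ hr hrd => Nat.lt_succ_of_le (Nat.le_floor (h2 r hr hrd))⟩
  have h1 := sum_rpow_le_euler hs (⌊Z⌋₊ + 1) F hsmooth
  have h2 := euler_prod_le hZ
  have h3 := hC Z hZ
  -- termwise
  have hterm : ∀ d ∈ F, (1 : ℝ) / d ≤
      Real.exp (-(Real.log Y / Real.log Z)) * (d : ℝ) ^ (σ - 1) := by
    intro d hd
    obtain ⟨h0, hYd, _⟩ := hF d hd
    have hd0 : (0 : ℝ) < d := by exact_mod_cast Nat.pos_of_ne_zero h0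
    rw [Real.rpow_def_of_pos hd0, ← Real.exp_add, one_div, ← Real.exp_log hd0, ← Real.exp_neg,
      Real.exp_log hd0]
    apply Real.exp_le_exp.2
    have hl : Real.log Y ≤ Real.log d := Real.log_le_log (by linarith) hYd.le
    have e : -(Real.log Y / Real.log Z) + Real.log d * (σ - 1) =
        -Real.log d + σ * (Real.log d - Real.log Y) := by
      rw [hσ]
      field_simp
      ring
    rw [e]
    have : 0 ≤ σ * (Real.log d - Real.log Y) := mul_nonneg hσ0.le (by linarith)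
    linarith
  have hexp0 := Real.exp_pos (-(Real.log Y / Real.log Z))
  calc ∑ d ∈ F, (1 : ℝ) / d
      ≤ ∑ d ∈ F, Real.exp (-(Real.log Y / Real.log Z)) * (d : ℝ) ^ (σ - 1) :=
        Finset.sum_le_sum hterm
    _ = Real.exp (-(Real.log Y / Real.log Z)) * ∑ d ∈ F, (d : ℝ) ^ (σ - 1) := by
        rw [Finset.mul_sum]
    _ ≤ Real.exp (-(Real.log Y / Real.log Z)) * (Real.exp (C0 + 9) * Real.log Z) ^ 3 := by
        apply mul_le_mul_of_nonneg_left _ hexp0.le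
        refine le_trans h1 (le_trans h2 ?_)
        have e : (Real.exp (C0 + 9) * Real.log Z) ^ 3 =
            Real.exp (3 * (C0 + 9) + 3 * Real.log (Real.log Z)) := by
          have e1 : Real.exp (C0 + 9 + Real.log (Real.log Z)) = Real.exp (C0 + 9) * Real.log Z := by
            rw [Real.exp_add, Real.exp_log hlogZ0]
          rw [← e1, ← Real.exp_nat_mul]
          congr 1
          push_cast
          ring
        rw [e]
        apply Real.exp_le_exp.2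
        nlinarith

/-- Counting multiples: if every `n ∈ S` (with `1 ≤ n ≤ X`) has a divisor in `F`, then
`#S ≤ X ∑_{d ∈ F} 1/d`. -/
theorem card_le_of_dvd (X : ℕ) (F S : Finset ℕ) (hF : ∀ d ∈ F, 0 < d)
    (hS : ∀ n ∈ S, 1 ≤ n ∧ n ≤ X ∧ ∃ d ∈ F, d ∣ n) :
    (S.card : ℝ) ≤ X * ∑ d ∈ F, (1 : ℝ) / d := by
  classical
  have hsub : S ⊆ F.biUnion (fun d => (Ioc 0 X).filter (fun x => d ∣ x)) := by
    intro n hn
    obtain ⟨h1, h2, d, hd, hdn⟩ := hS n hn
    exact Finset.mem_biUnion.2 ⟨d, hd, Finset.mem_filter.2 ⟨Finset.mem_Ioc.2 ⟨h1, h2⟩, hdn⟩⟩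
  have h1 : S.card ≤ ∑ d ∈ F, X / d := by
    refine le_trans (Finset.card_le_card hsub) (le_trans Finset.card_biUnion_le ?_)
    apply le_of_eq
    apply Finset.sum_congr rfl
    intro d _
    exact Nat.Ioc_filter_dvd_card_eq_div X d
  have h2 : (S.card : ℝ) ≤ ∑ d ∈ F, ((X / d : ℕ) : ℝ) := by
    exact_mod_cast h1
  refine le_trans h2 ?_
  rw [Finset.mul_sum]
  apply Finset.sum_le_sum
  intro d _
  have := Nat.cast_div_le (α := ℝ) (m := X) (n := d)
  rw [mul_one_div]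
  exact this

end

end Vale.Agent.Lib.P031V
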