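import Vale.Agent.Lib.P031V.Rarity
import Vale.Agent.Lib.P031V.NormalP
import Vale.Agent.Lib.P031V.ChainB
import Vale.Agent.Lib.P031V.Rankin

/-! # P031: negligible sets E1, E2, E3, blueprint section 7. -/

namespace Vale.Agent.Lib.P031V
open Real Finset
open scoped Classical
noncomputable section

/-- E1: not clean, or a big `p` with `p (p-1) ∣ v`. -/
def E1 (N : ℕ) (x c : ℝ) : Finset ℕ :=
  (Win x c).filter (fun v => ¬ Clean N v ∨ ∃ p : ℕ, p.Prime ∧ t0 N ≤ lev p ∧ p * (p - 1) ∣ v)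

/-! ### Elementary helpers -/

private lemma nega_lev_gt {r : ℕ} {a : ℝ} (ha : 0 ≤ a) (h : a < lev r) :
    Real.exp (Real.exp a) < r := by
  have hr : 2 ≤ r := by
    by_contra hlt
    have h01 : r = 0 ∨ r = 1 := by omega
    rcases h01 with rfl | rfl <;> simp [lev] at h <;> linarith
  have hr0 : (0 : ℝ) < r := by positivity
  have hl : 0 < Real.log r := Real.log_pos (by exact_mod_cast (by omega : 1 < r))
  have h1 : Real.exp a < Real.log r := (Real.lt_log_iff_exp_lt hl).1 h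
  exact (Real.lt_log_iff_exp_lt hr0).1 h1

private lemma nega_lev_lt {r : ℕ} {b : ℝ} (hr : 2 ≤ r) (h : lev r < b) :
    (r : ℝ) ≤ Real.exp (Real.exp b) := by
  have hr0 : (0 : ℝ) < r := by positivity
  have hl : 0 < Real.log r := Real.log_pos (by exact_mod_cast (by omega : 1 < r))
  have h1 : Real.log r < Real.exp b := (Real.log_lt_iff_lt_exp hl).1 h
  exact ((Real.log_lt_iff_lt_exp hr0).1 h1).le

/-- Counting multiples with an indexed family of divisors. -/
private lemma nega_card_le_index {ι : Type*} (I : Finset ι) (d : ι → ℕ) (hd : ∀ i ∈ I, 0 < d i)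
    (X : ℕ) (S : Finset ℕ) (hS : ∀ n ∈ S, 1 ≤ n ∧ n ≤ X ∧ ∃ i ∈ I, d i ∣ n) :
    (S.card : ℝ) ≤ X * ∑ i ∈ I, (1 : ℝ) / d i := by
  have hsub : S ⊆ I.biUnion (fun i => (Finset.Ioc 0 X).filter (fun x => d i ∣ x)) := by
    intro n hn
    obtain ⟨h1, h2, i, hi, hdvd⟩ := hS n hn
    exact Finset.mem_biUnion.2 ⟨i, hi, Finset.mem_filter.2 ⟨Finset.mem_Ioc.2 ⟨h1, h2⟩, hdvd⟩⟩
  calc (S.card : ℝ)
      ≤ ((I.biUnion (fun i => (Finset.Ioc 0 X).filter (fun x => d i ∣ x))).card : ℝ) := by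
        exact_mod_cast Finset.card_le_card hsub
    _ ≤ ∑ i ∈ I, (((Finset.Ioc 0 X).filter (fun x => d i ∣ x)).card : ℝ) := by
        exact_mod_cast Finset.card_biUnion_le
    _ ≤ ∑ i ∈ I, (X : ℝ) * (1 / d i) := by
        apply Finset.sum_le_sum
        intro i hi
        have h0 : (0 : ℝ) < d i := by exact_mod_cast hd i hi
        have e : (Finset.Ioc 0 X).filter (fun x => d i ∣ x) =
            (Finset.Ioc 0 X).filter (fun x => d i ∣ x) := rfl
        have h1 : (((Finset.Ioc 0 X).filter (fun x => d i ∣ x)).card) = X / d i := by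
          rw [← Nat.Ioc_filter_dvd_card_eq_div]
        rw [h1, mul_one_div]
        exact Nat.cast_div_le
    _ = (X : ℝ) * ∑ i ∈ I, (1 : ℝ) / d i := by rw [Finset.mul_sum]

/-- Reciprocal squares above `R`. -/
private lemma nega_sum_inv_sq {R : ℝ} (hR : 1 ≤ R) (I : Finset ℕ) (hI : ∀ r ∈ I, R < r) :
    ∑ r ∈ I, (1 : ℝ) / (r : ℝ) ^ 2 ≤ 2 / R := by
  set M := ⌊R⌋₊ with hM
  have hM1 : 1 ≤ M := Nat.le_floor (by simpa using hR)
  have hRM : R < (M : ℝ) + 1 := Nat.lt_floor_add_one R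
  have hM0 : (0 : ℝ) < M := by exact_mod_cast hM1
  set T := max M (I.sup id) with hT
  have hsub : I ⊆ Finset.Ioc M T := by
    intro r hr
    have h1 : M < r := (Nat.floor_lt (by linarith)).2 (hI r hr)
    have h2 : r ≤ T := le_trans (Finset.le_sup (f := id) hr) (le_max_right _ _)
    exact Finset.mem_Ioc.2 ⟨h1, h2⟩
  have h1 : ∑ r ∈ I, (1 : ℝ) / (r : ℝ) ^ 2 ≤ ∑ r ∈ Finset.Ioc M T, ((r : ℝ) ^ 2)⁻¹ := by
    calc ∑ r ∈ I, (1 : ℝ) / (r : ℝ) ^ 2 = ∑ r ∈ I, ((r : ℝ) ^ 2)⁻¹ := by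
          apply Finset.sum_congr rfl; intro r _; rw [one_div]
      _ ≤ _ := Finset.sum_le_sum_of_subset_of_nonneg hsub (fun _ _ _ => by positivity)
  have h2 := sum_Ioc_inv_sq_le_sub (α := ℝ) (k := M) (n := T) (by omega) (le_max_left _ _)
  have hT0 : (0 : ℝ) ≤ ((T : ℝ))⁻¹ := by positivity
  have h3 : (M : ℝ)⁻¹ ≤ 2 / R := by
    rw [inv_eq_one_div, div_le_div_iff₀ hM0 (by linarith)]
    have : (1 : ℝ) ≤ M := by exact_mod_cast hM1
    linarith
  linarith

private lemma nega_ts_pos {N : ℕ} (hN : 1 ≤ N) : 0 < ts N := by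
  have h : (0 : ℝ) < N := by exact_mod_cast hN
  unfold ts t0
  positivity

private lemma nega_ts_lt_t0 {N : ℕ} (hN : 1 ≤ N) : ts N < t0 N := by
  have h := nega_ts_pos hN
  have e : ts N = t0 N / 2 := rfl
  linarith

theorem E1_card (c : ℝ) (hc : 1 < c) : ∃ N₀ : ℕ, ∀ N ≥ N₀, ∀ x : ℝ, 1 ≤ x →
    ((E1 N x c).card : ℝ) ≤ 4 * c * x * Real.exp (-(Real.exp (ts N) / 2)) := by
  refine ⟨1, fun N hN x hx => ?_⟩
  have hts := nega_ts_pos hN
  have htt := nega_ts_lt_t0 hN
  have hx0 : (0 : ℝ) < x := by linarith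
  have hcx : (0 : ℝ) ≤ c * x := by positivity
  set X := ⌊c * x⌋₊ with hX
  have hXle : (X : ℝ) ≤ c * x := Nat.floor_le hcx
  set R := Real.exp (Real.exp (ts N)) with hR
  have hR1 : 1 ≤ R := Real.one_le_exp (Real.exp_pos _).le
  have hRpos : 0 < R := by linarith
  have hwin : ∀ v ∈ E1 N x c, 1 ≤ v ∧ v ≤ X := by
    intro v hv
    have := (Finset.mem_filter.1 hv).1
    have h2 := Finset.mem_Ioc.1 this
    exact ⟨by omega, h2.2⟩
  -- the two index sets
  set I : Finset ℕ := (Finset.range (X + 1)).filter (fun r => R < r) with hI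
  have hIR : ∀ r ∈ I, R < r := fun r hr => (Finset.mem_filter.1 hr).2
  have hIpos : ∀ r ∈ I, 0 < r := by
    intro r hr
    have h1 : (0 : ℝ) < r := lt_trans hRpos (hIR r hr)
    exact_mod_cast h1
  set S1 := (E1 N x c).filter (fun v => ¬ Clean N v) with hS1
  set S2 := (E1 N x c).filter (fun v => ¬ ¬ Clean N v) with hS2
  have hsplit : (E1 N x c).card = S1.card + S2.card :=
    (Finset.card_filter_add_card_filter_not (s := E1 N x c) (fun v => ¬ Clean N v)).symm
  have h1 : (S1.card : ℝ) ≤ X * ∑ r ∈ I, (1 : ℝ) / ((r ^ 2 : ℕ) : ℝ) := by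
    apply nega_card_le_index I (fun r => r ^ 2) (fun r hr => pow_pos (hIpos r hr) 2) X S1
    intro v hv
    have hv' := (Finset.mem_filter.1 hv)
    obtain ⟨hv1, hv2⟩ := hwin v hv'.1
    refine ⟨hv1, hv2, ?_⟩
    have hnc := hv'.2
    unfold Clean at hnc
    push Not at hnc
    obtain ⟨r, hrp, hrl, hrd⟩ := hnc
    refine ⟨r, Finset.mem_filter.2 ⟨?_, nega_lev_gt hts.le hrl⟩, hrd⟩
    have hle : r ^ 2 ≤ v := Nat.le_of_dvd (by omega) hrd
    have : r ≤ r ^ 2 := Nat.le_self_pow (by norm_num) r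
    exact Finset.mem_range.2 (by omega)
  have h2 : (S2.card : ℝ) ≤ X * ∑ r ∈ I, (1 : ℝ) / ((r * (r - 1) : ℕ) : ℝ) := by
    apply nega_card_le_index I (fun r => r * (r - 1)) ?_ X S2
    · intro v hv
      have hv' := (Finset.mem_filter.1 hv)
      obtain ⟨hv1, hv2⟩ := hwin v hv'.1
      refine ⟨hv1, hv2, ?_⟩
      have hcl : Clean N v := not_not.1 hv'.2
      have hE := (Finset.mem_filter.1 hv'.1).2
      rcases hE with h | ⟨p, hp, hpl, hpd⟩
      · exact absurd hcl h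
      refine ⟨p, Finset.mem_filter.2 ⟨?_, nega_lev_gt hts.le (lt_of_lt_of_le htt hpl)⟩, hpd⟩
      have hp2 := hp.two_le
      have hle : p * (p - 1) ≤ v := Nat.le_of_dvd (by omega) hpd
      have : p ≤ p * (p - 1) := Nat.le_mul_of_pos_right _ (by omega)
      exact Finset.mem_range.2 (by omega)
    · intro r hr
      have hrR := hIR r hr
      have h3 : (2 : ℝ) ≤ r := by
        have : (1 : ℝ) < r := lt_of_le_of_lt hR1 hrR
        have h4 : 1 < r := by exact_mod_cast this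
        exact_mod_cast h4
      have h4 : 2 ≤ r := by exact_mod_cast h3
      exact Nat.mul_pos (by omega) (by omega)
  have h3 : ∑ r ∈ I, (1 : ℝ) / ((r ^ 2 : ℕ) : ℝ) ≤ 2 / R := by
    have := nega_sum_inv_sq hR1 I hIR
    simpa using this
  have h4 : ∑ r ∈ I, (1 : ℝ) / ((r * (r - 1) : ℕ) : ℝ) ≤ 4 / R := by
    have h5 : ∑ r ∈ I, (1 : ℝ) / ((r * (r - 1) : ℕ) : ℝ) ≤ ∑ r ∈ I, 2 * ((1 : ℝ) / (r : ℝ) ^ 2) := by
      apply Finset.sum_le_sum
      intro r hr
      have hrR := hIR r hr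
      have h6 : (1 : ℝ) < r := lt_of_le_of_lt hR1 hrR
      have h7 : 1 < r := by exact_mod_cast h6
      have h8 : (2 : ℝ) ≤ r := by exact_mod_cast h7
      rw [Nat.cast_mul, Nat.cast_sub (by omega : 1 ≤ r)]
      push_cast
      rw [mul_one_div, div_le_div_iff₀ (by nlinarith) (by positivity)]
      nlinarith
    have h6 := nega_sum_inv_sq hR1 I hIR
    rw [← Finset.mul_sum] at h5
    calc _ ≤ _ := h5
      _ ≤ 2 * (2 / R) := by linarith
      _ = 4 / R := by ring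
  have hX0 : (0 : ℝ) ≤ X := by positivity
  have hcard : ((E1 N x c).card : ℝ) ≤ 6 * (c * x) * Real.exp (-Real.exp (ts N)) := by
    rw [hsplit]
    push_cast
    have hRinv : 1 / R = Real.exp (-Real.exp (ts N)) := by
      rw [hR, Real.exp_neg, one_div]
    have h7 : (S1.card : ℝ) + S2.card ≤ X * (2 / R) + X * (4 / R) :=
      add_le_add (le_trans h1 (mul_le_mul_of_nonneg_left h3 hX0))
        (le_trans h2 (mul_le_mul_of_nonneg_left h4 hX0))
    have h8 : (X : ℝ) * (2 / R) + X * (4 / R) = 6 * X * (1 / R) := by ring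
    rw [h8, hRinv] at h7
    have hE := (Real.exp_pos (-Real.exp (ts N))).le
    nlinarith
  have hexp : 6 * Real.exp (-Real.exp (ts N)) ≤ 4 * Real.exp (-(Real.exp (ts N) / 2)) := by
    set u := Real.exp (ts N) with hu
    have hu1 : 1 ≤ u := Real.one_le_exp hts.le
    have e : -u = -(u / 2) + -(u / 2) := by ring
    rw [e, Real.exp_add]
    have h9 : Real.exp (-(u / 2)) ≤ 1 / (1 + u / 2) := by
      rw [Real.exp_neg, inv_eq_one_div]
      apply one_div_le_one_div_of_le (by linarith)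
      linarith [Real.add_one_le_exp (u / 2)]
    have h10 : 1 / (1 + u / 2) ≤ 2 / 3 := by
      rw [div_le_div_iff₀ (by linarith) (by norm_num)]
      linarith
    have hE := Real.exp_pos (-(u / 2))
    nlinarith
  have hcxpos : 0 ≤ c * x := hcx
  calc ((E1 N x c).card : ℝ) ≤ 6 * (c * x) * Real.exp (-Real.exp (ts N)) := hcard
    _ = (c * x) * (6 * Real.exp (-Real.exp (ts N))) := by ring
    _ ≤ (c * x) * (4 * Real.exp (-(Real.exp (ts N) / 2))) :=
        mul_le_mul_of_nonneg_left hexp hcxpos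
    _ = 4 * c * x * Real.exp (-(Real.exp (ts N) / 2)) := by ring

/-- E2: a divisor above `Ymax` all of whose primes have level below `t0`. -/
def E2 (N : ℕ) (x c : ℝ) : Finset ℕ :=
  (Win x c).filter (fun v => ∃ d : ℕ, d ∣ v ∧ Ymax N < d ∧ ∀ r : ℕ, r.Prime → r ∣ d → lev r < t0 N)

/-- `K N ^ n ≤ exp (a N)` eventually. -/
private lemma nega_ev_pow (a : ℝ) (ha : 0 < a) (K : ℝ) (n : ℕ) :
    ∀ᶠ N : ℕ in Filter.atTop, K * (N : ℝ) ^ n ≤ Real.exp (a * N) := by
  have h1 : Filter.Tendsto (fun N : ℕ => a * (N : ℝ)) Filter.atTop Filter.atTop :=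
    Filter.Tendsto.const_mul_atTop ha tendsto_natCast_atTop_atTop
  have h2 := (Real.tendsto_exp_div_pow_atTop n).comp h1
  have hapow : 0 < a ^ n := by positivity
  filter_upwards [h2.eventually_ge_atTop (K / a ^ n), Filter.eventually_gt_atTop 0] with N h3 h4
  have hN : (0 : ℝ) < N := by exact_mod_cast h4
  have hp : 0 < (a * (N : ℝ)) ^ n := by positivity
  simp only [Function.comp] at h3
  rw [le_div_iff₀ hp] at h3
  have e : K / a ^ n * (a * (N : ℝ)) ^ n = K * (N : ℝ) ^ n := by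
    rw [mul_pow]
    field_simp
  rwa [e] at h3

/-- `t0 N ≤ N / 4` from `N ≥ 1024`. -/
private lemma nega_t0_le {N : ℕ} (hN : 1024 ≤ N) : t0 N ≤ (N : ℝ) / 4 := by
  have hN0 : (0 : ℝ) < N := by
    have : (1024 : ℝ) ≤ N := by exact_mod_cast hN
    linarith
  have h1 : (4 : ℝ) ≤ (N : ℝ) ^ ((1 : ℝ) / 5) := by
    have h2 : ((N : ℝ) ^ ((1 : ℝ) / 5)) ^ (5 : ℕ) = N := by
      rw [← Real.rpow_natCast, ← Real.rpow_mul hN0.le]
      norm_num
    have h3 : (4 : ℝ) ^ (5 : ℕ) ≤ ((N : ℝ) ^ ((1 : ℝ) / 5)) ^ (5 : ℕ) := by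
      rw [h2]
      have : (1024 : ℝ) ≤ N := by exact_mod_cast hN
      norm_num
      linarith
    exact le_of_pow_le_pow_left₀ (by norm_num) (by positivity) h3
  have h4 : (N : ℝ) ^ ((4 : ℝ) / 5) * (N : ℝ) ^ ((1 : ℝ) / 5) = N := by
    rw [← Real.rpow_add hN0]
    norm_num
  have h5 : 0 < (N : ℝ) ^ ((4 : ℝ) / 5) := by positivity
  unfold t0
  nlinarith

theorem E2_card (c : ℝ) (hc : 1 < c) : ∃ N₀ : ℕ, ∀ N ≥ N₀, ∀ x : ℝ, 1 ≤ x →
    ((E2 N x c).card : ℝ) ≤ c * x * Real.exp (-Real.exp ((N : ℝ) / 2)) := by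
  obtain ⟨C, hC1, hrank⟩ := rankin_sum
  set K := 3 * Real.log C with hK
  have hK0 : 0 ≤ K := by
    have := Real.log_nonneg hC1
    positivity
  have hev := nega_ev_pow (1 / 4) (by norm_num) (K + 3) 3
  obtain ⟨N₁, hN₁⟩ := Filter.eventually_atTop.1 hev
  refine ⟨max N₁ 1024, fun N hN x hx => ?_⟩
  have hNa : N₁ ≤ N := le_trans (le_max_left _ _) hN
  have hNb : 1024 ≤ N := le_trans (le_max_right _ _) hN
  have hNR : (1024 : ℝ) ≤ N := by exact_mod_cast hNb
  have hN0 : (0 : ℝ) < N := by linarith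
  have hpow := hN₁ N hNa
  have ht0 := nega_t0_le hNb
  have htpos : 0 < t0 N := by unfold t0; positivity
  have ht0big : 3 ≤ t0 N := by
    have h1 : (4 : ℝ) ^ ((4 : ℝ) / 5) ≤ (N : ℝ) ^ ((4 : ℝ) / 5) :=
      Real.rpow_le_rpow (by norm_num) (by linarith) (by norm_num)
    have h2 : (3 : ℝ) ≤ (4 : ℝ) ^ ((4 : ℝ) / 5) := by
      have h3 : (3 : ℝ) ^ (5 : ℕ) ≤ ((4 : ℝ) ^ ((4 : ℝ) / 5)) ^ (5 : ℕ) := by
        rw [← Real.rpow_natCast ((4 : ℝ) ^ ((4 : ℝ) / 5)), ← Real.rpow_mul (by norm_num)]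
        norm_num
      exact le_of_pow_le_pow_left₀ (by norm_num) (by positivity) h3
    unfold t0
    linarith
  have hx0 : (0 : ℝ) < x := by linarith
  have hcx : (0 : ℝ) ≤ c * x := by positivity
  set X := ⌊c * x⌋₊ with hX
  have hXle : (X : ℝ) ≤ c * x := Nat.floor_le hcx
  set Z := Real.exp (Real.exp (t0 N)) with hZ
  have hZ10 : Real.exp 10 ≤ Z := by
    apply Real.exp_le_exp.2
    have := Real.add_one_le_exp (t0 N)
    have h3 : Real.exp 3 ≤ Real.exp (t0 N) := Real.exp_le_exp.2 ht0big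
    have h4 : (10 : ℝ) ≤ Real.exp 3 := by
      have := Real.add_one_le_exp (1 : ℝ)
      have e : Real.exp 3 = Real.exp 1 * Real.exp 1 * Real.exp 1 := by
        rw [← Real.exp_add, ← Real.exp_add]; norm_num
      rw [e]
      have h5 : (2 : ℝ) ≤ Real.exp 1 := by linarith
      have h6 := Real.exp_one_gt_d9
      nlinarith
    linarith
  have hlogZ : Real.log Z = Real.exp (t0 N) := Real.log_exp _
  have hY1 : 1 ≤ Ymax N := by
    unfold Ymax
    apply Real.one_le_exp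
    positivity
  set F : Finset ℕ := (Finset.range (X + 1)).filter
    (fun d => d ≠ 0 ∧ Ymax N < d ∧ ∀ r : ℕ, r.Prime → r ∣ d → (r : ℝ) ≤ Z) with hF
  have hFmem : ∀ d ∈ F, d ≠ 0 ∧ Ymax N < d ∧ ∀ r : ℕ, r.Prime → r ∣ d → (r : ℝ) ≤ Z :=
    fun d hd => (Finset.mem_filter.1 hd).2
  have hsum := hrank (Ymax N) Z hY1 hZ10 F hFmem
  have hcard : ((E2 N x c).card : ℝ) ≤ X * ∑ d ∈ F, (1 : ℝ) / d := by
    apply card_le_of_dvd X F (E2 N x c)
    · intro d hd
      exact Nat.pos_of_ne_zero (hFmem d hd).1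
    · intro v hv
      have hv' := Finset.mem_filter.1 hv
      have hv2 := Finset.mem_Ioc.1 hv'.1
      have hv1 : 1 ≤ v := by omega
      refine ⟨hv1, hv2.2, ?_⟩
      obtain ⟨d, hdv, hdY, hdr⟩ := hv'.2
      have hd0 : d ≠ 0 := by
        rintro rfl
        have : (1 : ℝ) ≤ ((0 : ℕ) : ℝ) := by
          have := lt_of_le_of_lt hY1 hdY
          exact this.le
        norm_num at this
      have hdle : d ≤ v := Nat.le_of_dvd (by omega) hdv
      refine ⟨d, Finset.mem_filter.2 ⟨Finset.mem_range.2 (by omega), hd0, hdY, ?_⟩, hdv⟩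
      intro r hr hrd
      exact nega_lev_lt hr.two_le (hdr r hr hrd)
  -- numerics
  have hlogY : Real.log (Ymax N) = Real.exp N / (N : ℝ) ^ 3 := by
    unfold Ymax
    exact Real.log_exp _
  have hCpos : 0 < C := by linarith
  have hexpo : (C * Real.log Z) ^ 3 = Real.exp (K + 3 * t0 N) := by
    rw [hlogZ, hK, Real.exp_add, show 3 * Real.log C = (3 : ℕ) * Real.log C by norm_num,
      Real.exp_nat_mul, Real.exp_log hCpos, show 3 * t0 N = (3 : ℕ) * t0 N by norm_num,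
      Real.exp_nat_mul, mul_pow]
  have hA : Real.exp ((N : ℝ) / 2) + 3 * t0 N + K ≤ Real.log (Ymax N) / Real.log Z := by
    rw [hlogY, hlogZ, div_div, le_div_iff₀ (by positivity)]
    set E := Real.exp ((N : ℝ) / 2) with hE
    have hE1 : (N : ℝ) / 2 + 1 ≤ E := Real.add_one_le_exp _
    have h1 : Real.exp ((1 / 4) * (N : ℝ)) * E * Real.exp ((1 / 4) * (N : ℝ)) = Real.exp N := by
      rw [hE, ← Real.exp_add, ← Real.exp_add]
      congr 1
      ring
    have h2 : Real.exp (t0 N) ≤ Real.exp ((1 / 4) * (N : ℝ)) := by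
      apply Real.exp_le_exp.2
      linarith
    have hQ := Real.exp_pos ((1 / 4) * (N : ℝ))
    have hEpos : 0 < E := Real.exp_pos _
    have h3 : E + 3 * t0 N + K ≤ (K + 3) * E := by
      have h4 : 3 * t0 N ≤ 3 * ((N : ℝ) / 4) := by linarith
      nlinarith
    have hN3 : (0 : ℝ) < (N : ℝ) ^ 3 := by positivity
    calc (E + 3 * t0 N + K) * ((N : ℝ) ^ 3 * Real.exp (t0 N))
        ≤ ((K + 3) * E) * ((N : ℝ) ^ 3 * Real.exp ((1 / 4) * (N : ℝ))) := by
          apply mul_le_mul h3 _ (by positivity) (by positivity)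
          exact mul_le_mul_of_nonneg_left h2 hN3.le
      _ = ((K + 3) * (N : ℝ) ^ 3) * E * Real.exp ((1 / 4) * (N : ℝ)) := by ring
      _ ≤ Real.exp ((1 / 4) * (N : ℝ)) * E * Real.exp ((1 / 4) * (N : ℝ)) := by
          apply mul_le_mul_of_nonneg_right _ hQ.le
          exact mul_le_mul_of_nonneg_right hpow hEpos.le
      _ = Real.exp N := h1
  have hbound : Real.exp (-(Real.log (Ymax N) / Real.log Z)) * (C * Real.log Z) ^ 3
      ≤ Real.exp (-Real.exp ((N : ℝ) / 2)) := by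
    rw [hexpo, ← Real.exp_add]
    apply Real.exp_le_exp.2
    linarith
  have hsumnn : 0 ≤ ∑ d ∈ F, (1 : ℝ) / d := Finset.sum_nonneg (fun _ _ => by positivity)
  calc ((E2 N x c).card : ℝ) ≤ X * ∑ d ∈ F, (1 : ℝ) / d := hcard
    _ ≤ (c * x) * ∑ d ∈ F, (1 : ℝ) / d := mul_le_mul_of_nonneg_right hXle hsumnn
    _ ≤ (c * x) * Real.exp (-Real.exp ((N : ℝ) / 2)) :=
        mul_le_mul_of_nonneg_left (le_trans hsum hbound) hcx

/-- E3: `v = φ(n)` clean, `n` has no big repeated prime, all primes of `n` below `x^{1/600}`. -/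
def E3 (N : ℕ) (x c : ℝ) : Finset ℕ :=
  (Win x c).filter (fun v => Clean N v ∧ ∃ n : ℕ, n ≠ 0 ∧ n.totient = v ∧
    (∀ p : ℕ, p.Prime → t0 N ≤ lev p → ¬ p ^ 2 ∣ n) ∧
    ∀ p : ℕ, p.Prime → p ∣ n → Real.log p < Real.log x / 600)

/-- termwise bound for a prime power -/
private lemma nega_term_bound {p j : ℕ} (hp : p.Prime) :
    p ^ (j + 1) ≤ (if p = 2 then 2 else 1) * (p ^ j * (p - 1)) ^ 2 := by
  have h2 := hp.two_le
  by_cases h : p = 2
  · subst h
    simp only [if_true, Nat.add_one_sub_one, mul_one]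
    calc 2 ^ (j + 1) = 2 * 2 ^ j := by ring
      _ ≤ 2 * (2 ^ j * 2 ^ j) := by
          apply Nat.mul_le_mul_left
          exact Nat.le_mul_of_pos_right _ (by positivity)
      _ = 2 * (2 ^ j) ^ 2 := by ring
  · have h3 : 3 ≤ p := by
      have := hp.two_le
      omega
    rw [if_neg h, one_mul]
    obtain ⟨q, rfl⟩ : ∃ q, p = q + 1 := ⟨p - 1, by omega⟩
    have hq : 2 ≤ q := by omega
    simp only [Nat.add_one_sub_one]
    have h4 : q + 1 ≤ q ^ 2 := by nlinarith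
    have h5 : 1 ≤ (q + 1) ^ j := Nat.one_le_pow _ _ (by omega)
    calc (q + 1) ^ (j + 1) = (q + 1) ^ j * (q + 1) := by ring
      _ ≤ ((q + 1) ^ j * (q + 1) ^ j) * q ^ 2 := by
          apply Nat.mul_le_mul _ h4
          exact Nat.le_mul_of_pos_right _ (by positivity)
      _ = ((q + 1) ^ j * q) ^ 2 := by ring

private lemma nega_prod_bound (T : Finset ℕ) (k : ℕ → ℕ) (hT : ∀ p ∈ T, p.Prime ∧ 1 ≤ k p) :
    ∏ p ∈ T, p ^ k p ≤ 2 * (∏ p ∈ T, p ^ (k p - 1) * (p - 1)) ^ 2 := by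
  calc ∏ p ∈ T, p ^ k p
      ≤ ∏ p ∈ T, (if p = 2 then 2 else 1) * (p ^ (k p - 1) * (p - 1)) ^ 2 := by
        apply Finset.prod_le_prod'
        intro p hp
        obtain ⟨h1, h2⟩ := hT p hp
        obtain ⟨j, hj⟩ : ∃ j, k p = j + 1 := ⟨k p - 1, by omega⟩
        rw [hj, Nat.add_one_sub_one]
        exact nega_term_bound h1
    _ = (∏ p ∈ T, if p = 2 then 2 else 1) * (∏ p ∈ T, p ^ (k p - 1) * (p - 1)) ^ 2 := by
        rw [Finset.prod_mul_distrib, Finset.prod_pow]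
    _ ≤ 2 * (∏ p ∈ T, p ^ (k p - 1) * (p - 1)) ^ 2 := by
        apply Nat.mul_le_mul_right
        have e : (∏ p ∈ T, if p = 2 then 2 else 1) = if 2 ∈ T then 2 else 1 := by
          simp
        rw [e]
        split_ifs <;> norm_num

/-- Splitting `n` along a predicate under which primes of `n` are simple. -/
private lemma nega_decomp (n : ℕ) (hn : n ≠ 0) (big : ℕ → Prop)
    (hbig : ∀ p : ℕ, p.Prime → big p → ¬ p ^ 2 ∣ n) :
    ∃ (P : Finset ℕ) (n2 d2 : ℕ), (∀ p ∈ P, p.Prime ∧ p ∣ n ∧ big p) ∧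
      n = (∏ p ∈ P, p) * n2 ∧ n.totient = (∏ p ∈ P, (p - 1)) * d2 ∧
      n2 ≤ 2 * d2 ^ 2 ∧ d2 ≠ 0 ∧
      ∀ r : ℕ, r.Prime → r ∣ d2 → ∃ p : ℕ, p.Prime ∧ ¬ big p ∧ r ≤ p := by
  set k := n.factorization with hk
  set K := n.primeFactors with hK
  set P := K.filter big with hP
  set T := K.filter (fun p => ¬ big p) with hT
  have hKmem : ∀ p ∈ K, p.Prime ∧ p ∣ n ∧ 1 ≤ k p := by
    intro p hp
    have h1 := Nat.prime_of_mem_primeFactors hp
    have h2 := Nat.dvd_of_mem_primeFactors hp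
    exact ⟨h1, h2, by
      have := (h1.pow_dvd_iff_le_factorization hn (k := 1)).1 (by simpa using h2)
      simpa [hk] using this⟩
  have hk1 : ∀ p ∈ P, k p = 1 := by
    intro p hp
    have hp' := Finset.mem_filter.1 hp
    obtain ⟨h1, h2, h3⟩ := hKmem p hp'.1
    have h4 := hbig p h1 hp'.2
    have h5 : ¬ 2 ≤ k p := fun h => h4 ((h1.pow_dvd_iff_le_factorization hn).2 h)
    omega
  have hn1 : n = ∏ p ∈ K, p ^ k p := by
    have := Nat.prod_factorization_pow_eq_self hn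
    rw [Finsupp.prod, Nat.support_factorization] at this
    exact this.symm
  have hn2 : n.totient = ∏ p ∈ K, p ^ (k p - 1) * (p - 1) := by
    have := Nat.totient_eq_prod_factorization hn
    rw [Finsupp.prod, Nat.support_factorization] at this
    exact this
  refine ⟨P, ∏ p ∈ T, p ^ k p, ∏ p ∈ T, p ^ (k p - 1) * (p - 1), ?_, ?_, ?_, ?_, ?_, ?_⟩
  · intro p hp
    have hp' := Finset.mem_filter.1 hp
    obtain ⟨h1, h2, _⟩ := hKmem p hp'.1
    exact ⟨h1, h2, hp'.2⟩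
  · conv_lhs => rw [hn1]
    rw [← Finset.prod_filter_mul_prod_filter_not K big (fun p => p ^ k p)]
    congr 1
    apply Finset.prod_congr rfl
    intro p hp
    rw [hk1 p hp, pow_one]
  · rw [hn2, ← Finset.prod_filter_mul_prod_filter_not K big (fun p => p ^ (k p - 1) * (p - 1))]
    congr 1
    apply Finset.prod_congr rfl
    intro p hp
    rw [hk1 p hp]
    simp
  · apply nega_prod_bound
    intro p hp
    obtain ⟨h1, _, h3⟩ := hKmem p (Finset.mem_filter.1 hp).1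
    exact ⟨h1, h3⟩
  · rw [Finset.prod_ne_zero_iff]
    intro p hp
    obtain ⟨h1, _, _⟩ := hKmem p (Finset.mem_filter.1 hp).1
    have h2 := h1.two_le
    exact Nat.mul_ne_zero (pow_ne_zero _ (by omega)) (by omega)
  · intro r hr hrd
    obtain ⟨p, hp, hrp⟩ := (hr.prime).exists_mem_finset_dvd hrd
    have hp' := Finset.mem_filter.1 hp
    obtain ⟨h1, _, _⟩ := hKmem p hp'.1
    have h2 := h1.two_le
    refine ⟨p, h1, hp'.2, ?_⟩
    rcases (Nat.Prime.dvd_mul hr).1 hrp with h | h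
    · have h3 := hr.dvd_of_dvd_pow h
      exact Nat.le_of_dvd (by omega) h3
    · have h3 := Nat.le_of_dvd (by omega) h
      omega

/-- The three alternatives for an element of `E3`. -/
private lemma nega_trichotomy {N : ℕ} {x c : ℝ} (ht0 : t0 N ≤ 0.9 * (N : ℝ)) (hx : 1 < x)
    (hL10 : 10 ≤ Real.log x) (hlevx : levR x ≤ (N : ℝ) + 2) {v : ℕ} (hv : v ∈ E3 N x c) :
    (∃ d : ℕ, d ∣ v ∧ d ≠ 0 ∧ Real.exp (Real.log x / 5) < d ∧
        ∀ r : ℕ, r.Prime → r ∣ d → lev r < 0.9 * (N : ℝ)) ∨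
    (∃ Q : Finset ℕ, Q.card = 10 ∧
        (∀ p ∈ Q, p.Prime ∧ (W N (p - 1) ((N : ℝ) / 2) : ℝ) < (N : ℝ) / 100 ∧
          0.9 * (N : ℝ) ≤ lev p ∧ lev p ≤ (N : ℝ) + 5) ∧
        ∏ p ∈ Q, (p - 1) ∣ v) ∨
    (2.9 * (N : ℝ) ≤
        ((v.primeFactors.filter (fun r => ts N < lev r ∧ lev r ≤ (N : ℝ) / 2)).card : ℝ)) := by
  have hv' := Finset.mem_filter.1 hv
  obtain ⟨hwin, hclean, n, hn, hφ, hsq, hsmall⟩ := hv'
  have hwin' := Finset.mem_Ioc.1 hwin
  set L := Real.log x with hL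
  have hLpos : 0 < L := by linarith
  have hxpos : 0 < x := by linarith
  have hxL : x = Real.exp L := (Real.exp_log hxpos).symm
  have hxv : x < v := (Nat.floor_lt hxpos.le).1 hwin'.1
  have hv0 : v ≠ 0 := by
    have := hwin'.1
    omega
  obtain ⟨P, n2, d2, hP, hnP, hφP, hn2, hd2, hd2r⟩ := nega_decomp n hn (fun p => 0.9 * (N : ℝ) ≤ lev p)
    (fun p hp hb => hsq p hp (le_trans ht0 hb))
  have hdvd1 : ∏ p ∈ P, (p - 1) ∣ v := by
    rw [← hφ, hφP]
    exact Dvd.intro _ rfl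
  have hdvd2 : d2 ∣ v := by
    rw [← hφ, hφP]
    exact Dvd.intro_left _ rfl
  by_cases hcase : Real.exp (L / 2) ≤ n2
  · -- case A
    left
    refine ⟨d2, hdvd2, hd2, ?_, ?_⟩
    · by_contra hcon
      push Not at hcon
      have h1 : (n2 : ℝ) ≤ 2 * (d2 : ℝ) ^ 2 := by exact_mod_cast hn2
      have h2 : (d2 : ℝ) ^ 2 ≤ Real.exp (L / 5) ^ 2 :=
        pow_le_pow_left₀ (by positivity) hcon 2
      have h3 : Real.exp (L / 5) ^ 2 * Real.exp (L / 10) = Real.exp (L / 2) := by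
        rw [← Real.exp_nat_mul, ← Real.exp_add]
        congr 1
        push_cast
        ring
      have h4 : 2 < Real.exp (L / 10) := by
        have h5 : Real.exp 1 ≤ Real.exp (L / 10) := Real.exp_le_exp.2 (by linarith)
        have := Real.exp_one_gt_d9
        linarith
      have hpos := Real.exp_pos (L / 5)
      have hpos2 : 0 < Real.exp (L / 5) ^ 2 := by positivity
      nlinarith
    · intro r hr hrd
      obtain ⟨p, hp, hpb, hrp⟩ := hd2r r hr hrd
      have := lev_mono hr.two_le hrp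
      push Not at hpb
      linarith
  · -- case B
    right
    push Not at hcase
    have hPprod : (∏ p ∈ P, (p : ℝ)) * (n2 : ℝ) = n := by
      rw [hnP]
      push_cast
      rfl
    have hn1pos : 0 < ∏ p ∈ P, (p : ℝ) := by
      apply Finset.prod_pos
      intro p hp
      have := (hP p hp).1.pos
      exact_mod_cast this
    have hvn : (v : ℝ) ≤ n := by
      rw [← hφ]
      exact_mod_cast Nat.totient_le n
    have h1 : Real.exp (L / 2) < ∏ p ∈ P, (p : ℝ) := by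
      by_contra hcon
      push Not at hcon
      have h2 : (n : ℝ) ≤ Real.exp (L / 2) * Real.exp (L / 2) := by
        rw [← hPprod]
        exact mul_le_mul hcon hcase.le (by positivity) (by positivity)
      have h3 : Real.exp (L / 2) * Real.exp (L / 2) = x := by
        rw [← Real.exp_add, hxL]
        congr 1
        ring
      linarith
    have h2 : L / 2 < ∑ p ∈ P, Real.log p := by
      rw [← Real.log_prod]
      · exact (Real.lt_log_iff_exp_lt hn1pos).2 h1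
      · intro p hp
        have := (hP p hp).1.pos
        have h3 : (0 : ℝ) < p := by exact_mod_cast this
        exact h3.ne'
    have h3 : ∑ p ∈ P, Real.log p ≤ P.card • (L / 600) := by
      apply Finset.sum_le_card_nsmul
      intro p hp
      exact (hsmall p (hP p hp).1 (hP p hp).2.1).le
    have hcard : 300 < P.card := by
      rw [nsmul_eq_mul] at h3
      have h4 : L / 2 < (P.card : ℝ) * (L / 600) := by linarith
      have h5 : (300 : ℝ) < P.card := by
        by_contra hcon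
        push Not at hcon
        nlinarith
      exact_mod_cast h5
    -- the two sorts of primes
    set Pw := P.filter (fun p => (W N (p - 1) ((N : ℝ) / 2) : ℝ) < (N : ℝ) / 100) with hPw
    set Ps := P.filter (fun p => ¬ (W N (p - 1) ((N : ℝ) / 2) : ℝ) < (N : ℝ) / 100) with hPs
    have hsplit : Pw.card + Ps.card = P.card := Finset.card_filter_add_card_filter_not _
    by_cases hw : 10 ≤ Pw.card
    · left
      obtain ⟨Q, hQ, hQc⟩ := Finset.exists_subset_card_eq hw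
      refine ⟨Q, hQc, ?_, ?_⟩
      · intro p hp
        have hp1 := Finset.mem_filter.1 (hQ hp)
        obtain ⟨hpp, hpn, hpb⟩ := hP p hp1.1
        refine ⟨hpp, hp1.2, hpb, ?_⟩
        have hlogp : 0 < Real.log p := Real.log_pos (by exact_mod_cast hpp.one_lt)
        have hlt := hsmall p hpp hpn
        have h4 : lev p ≤ levR x := by
          unfold lev levR
          apply Real.log_le_log hlogp
          have : L / 600 ≤ L := by linarith
          linarith
        linarith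
      · exact dvd_trans (Finset.prod_dvd_prod_of_subset _ _ _
          (fun p hp => (Finset.mem_filter.1 (hQ hp)).1)) hdvd1
    · right
      have hPs : 291 ≤ Ps.card := by omega
      set A : ℕ → Finset ℕ :=
        fun p => (p - 1).primeFactors.filter (fun r => ts N < lev r ∧ lev r ≤ (N : ℝ) / 2) with hA
      have hPsP : ∀ p ∈ Ps, p ∈ P := fun p hp => (Finset.mem_filter.1 hp).1
      have hdisj : ((Ps : Finset ℕ) : Set ℕ).PairwiseDisjoint A := by
        intro p hp q hq hpq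
        have hp' := hPsP p (Finset.mem_coe.1 hp)
        have hq' := hPsP q (Finset.mem_coe.1 hq)
        apply Finset.disjoint_left.2
        intro r hrp hrq
        have hrp' := Finset.mem_filter.1 hrp
        have hrq' := Finset.mem_filter.1 hrq
        have hr1 := Nat.dvd_of_mem_primeFactors hrp'.1
        have hr2 := Nat.dvd_of_mem_primeFactors hrq'.1
        have hr := Nat.prime_of_mem_primeFactors hrp'.1
        have h5 : r ^ 2 ∣ (p - 1) * (q - 1) := by
          rw [sq]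
          exact Nat.mul_dvd_mul hr1 hr2
        have h6 : (p - 1) * (q - 1) ∣ ∏ p ∈ P, (p - 1) := by
          rw [← Finset.prod_pair (f := fun p => p - 1) hpq]
          apply Finset.prod_dvd_prod_of_subset
          intro s hs
          rcases Finset.mem_insert.1 hs with rfl | hs
          · exact hp'
          · rw [Finset.mem_singleton.1 hs]
            exact hq'
        exact hclean r hr hrp'.2.1 (dvd_trans h5 (dvd_trans h6 hdvd1))
      have hcardU := Finset.card_biUnion hdisj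
      have hsub : Ps.biUnion A ⊆
          v.primeFactors.filter (fun r => ts N < lev r ∧ lev r ≤ (N : ℝ) / 2) := by
        intro r hr
        obtain ⟨p, hp, hrp⟩ := Finset.mem_biUnion.1 hr
        have hrp' := Finset.mem_filter.1 hrp
        have hr1 := Nat.dvd_of_mem_primeFactors hrp'.1
        have hr0 := Nat.prime_of_mem_primeFactors hrp'.1
        have h7 : p - 1 ∣ ∏ p ∈ P, (p - 1) := Finset.dvd_prod_of_mem _ (hPsP p hp)
        refine Finset.mem_filter.2 ⟨Nat.mem_primeFactors.2 ⟨hr0, ?_, hv0⟩, hrp'.2⟩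
        exact dvd_trans hr1 (dvd_trans h7 hdvd1)
      have h8 : ((Ps.biUnion A).card : ℝ) ≤
          ((v.primeFactors.filter (fun r => ts N < lev r ∧ lev r ≤ (N : ℝ) / 2)).card : ℝ) := by
        exact_mod_cast Finset.card_le_card hsub
      have h9 : (Ps.card : ℝ) * ((N : ℝ) / 100) ≤ ∑ p ∈ Ps, ((A p).card : ℝ) := by
        rw [← nsmul_eq_mul]
        apply Finset.card_nsmul_le_sum
        intro p hp
        have := (Finset.mem_filter.1 hp).2
        push Not at this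
        exact this
      have h10 : ((Ps.biUnion A).card : ℝ) = ∑ p ∈ Ps, ((A p).card : ℝ) := by
        rw [hcardU]
        push_cast
        rfl
      have h11 : (291 : ℝ) ≤ Ps.card := by exact_mod_cast hPs
      have hN0 : (0 : ℝ) ≤ N := by positivity
      have h12 : (291 : ℝ) * ((N : ℝ) / 100) ≤ (Ps.card : ℝ) * ((N : ℝ) / 100) :=
        mul_le_mul_of_nonneg_right h11 (by positivity)
      linarith

/-- Count for the first alternative. -/
private lemma nega_count_A {C : ℝ}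
    (hrank : ∀ Y Z : ℝ, 1 ≤ Y → Real.exp 10 ≤ Z → ∀ F : Finset ℕ,
      (∀ d ∈ F, d ≠ 0 ∧ Y < d ∧ ∀ r : ℕ, r.Prime → r ∣ d → (r : ℝ) ≤ Z) →
      ∑ d ∈ F, (1 : ℝ) / d ≤ Real.exp (-(Real.log Y / Real.log Z)) * (C * Real.log Z) ^ 3)
    {N X : ℕ} {L : ℝ} (hL : 0 ≤ L) (hN : 12 ≤ N) (S : Finset ℕ)
    (hS : ∀ v ∈ S, 1 ≤ v ∧ v ≤ X ∧ ∃ d : ℕ, d ∣ v ∧ d ≠ 0 ∧ Real.exp (L / 5) < d ∧
      ∀ r : ℕ, r.Prime → r ∣ d → lev r < 0.9 * (N : ℝ)) :
    (S.card : ℝ) ≤ X * (Real.exp (-((L / 5) / Real.exp (0.9 * (N : ℝ)))) *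
      (C * Real.exp (0.9 * (N : ℝ))) ^ 3) := by
  have hNR : (12 : ℝ) ≤ N := by exact_mod_cast hN
  set Y := Real.exp (L / 5) with hY
  set Z := Real.exp (Real.exp (0.9 * (N : ℝ))) with hZ
  have hY1 : 1 ≤ Y := Real.one_le_exp (by positivity)
  have hZ10 : Real.exp 10 ≤ Z := by
    apply Real.exp_le_exp.2
    have := Real.add_one_le_exp (0.9 * (N : ℝ))
    linarith
  have hlogY : Real.log Y = L / 5 := Real.log_exp _
  have hlogZ : Real.log Z = Real.exp (0.9 * (N : ℝ)) := Real.log_exp _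
  set F : Finset ℕ := (Finset.range (X + 1)).filter
    (fun d => d ≠ 0 ∧ Y < d ∧ ∀ r : ℕ, r.Prime → r ∣ d → (r : ℝ) ≤ Z) with hF
  have hFmem : ∀ d ∈ F, d ≠ 0 ∧ Y < d ∧ ∀ r : ℕ, r.Prime → r ∣ d → (r : ℝ) ≤ Z :=
    fun d hd => (Finset.mem_filter.1 hd).2
  have hsum := hrank Y Z hY1 hZ10 F hFmem
  rw [hlogY, hlogZ] at hsum
  have hcard : (S.card : ℝ) ≤ X * ∑ d ∈ F, (1 : ℝ) / d := by
    apply card_le_of_dvd X F S
    · intro d hd
      exact Nat.pos_of_ne_zero (hFmem d hd).1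
    · intro v hv
      obtain ⟨hv1, hv2, d, hdv, hd0, hdY, hdr⟩ := hS v hv
      refine ⟨hv1, hv2, d, ?_, hdv⟩
      have hdle : d ≤ v := Nat.le_of_dvd (by omega) hdv
      refine Finset.mem_filter.2 ⟨Finset.mem_range.2 (by omega), hd0, hdY, ?_⟩
      intro r hr hrd
      exact nega_lev_lt hr.two_le (hdr r hr hrd)
  exact le_trans hcard (mul_le_mul_of_nonneg_left hsum (by positivity))

/-- Count for the second alternative. -/
private lemma nega_count_B1 {N X : ℕ} {M : ℝ}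
    (hM : ∀ U : Finset ℕ, (∀ p ∈ U, p.Prime ∧ (W N (p - 1) ((N : ℝ) / 2) : ℝ) < (N : ℝ) / 100 ∧
      0.9 * (N : ℝ) ≤ lev p ∧ lev p ≤ (N : ℝ) + 5) → ∑ p ∈ U, (1 : ℝ) / ((p : ℝ) - 1) ≤ M)
    (S : Finset ℕ)
    (hS : ∀ v ∈ S, 1 ≤ v ∧ v ≤ X ∧ ∃ Q : Finset ℕ, Q.card = 10 ∧
        (∀ p ∈ Q, p.Prime ∧ (W N (p - 1) ((N : ℝ) / 2) : ℝ) < (N : ℝ) / 100 ∧
          0.9 * (N : ℝ) ≤ lev p ∧ lev p ≤ (N : ℝ) + 5) ∧
        ∏ p ∈ Q, (p - 1) ∣ v) :
    (S.card : ℝ) ≤ X * M ^ 10 := by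
  set U : Finset ℕ := (Finset.range (X + 2)).filter (fun p => p.Prime ∧
    (W N (p - 1) ((N : ℝ) / 2) : ℝ) < (N : ℝ) / 100 ∧
      0.9 * (N : ℝ) ≤ lev p ∧ lev p ≤ (N : ℝ) + 5) with hU
  have hUmem : ∀ p ∈ U, p.Prime ∧ (W N (p - 1) ((N : ℝ) / 2) : ℝ) < (N : ℝ) / 100 ∧
      0.9 * (N : ℝ) ≤ lev p ∧ lev p ≤ (N : ℝ) + 5 := fun p hp => (Finset.mem_filter.1 hp).2
  have hUsum := hM U hUmem
  have hUnn : 0 ≤ ∑ p ∈ U, (1 : ℝ) / ((p : ℝ) - 1) := by
    apply Finset.sum_nonneg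
    intro p hp
    have h2 : (2 : ℝ) ≤ p := by exact_mod_cast (hUmem p hp).1.two_le
    apply div_nonneg <;> linarith
  set I : Finset (Fin 10 → ℕ) := Fintype.piFinset (fun _ => U) with hI
  have hImem : ∀ f ∈ I, ∀ i, f i ∈ U := fun f hf i => Fintype.mem_piFinset.1 hf i
  have hcard : (S.card : ℝ) ≤ X * ∑ f ∈ I, (1 : ℝ) / ((∏ i, (f i - 1) : ℕ) : ℝ) := by
    apply nega_card_le_index I (fun f => ∏ i, (f i - 1))
    · intro f hf
      apply Finset.prod_pos
      intro i _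
      have := (hUmem _ (hImem f hf i)).1.two_le
      omega
    · intro v hv
      obtain ⟨hv1, hv2, Q, hQc, hQ, hQd⟩ := hS v hv
      refine ⟨hv1, hv2, ?_⟩
      set e := Finset.equivFinOfCardEq hQc with he
      refine ⟨fun i => ((e.symm i : Q) : ℕ), ?_, ?_⟩
      · apply Fintype.mem_piFinset.2
        intro i
        have hq : ((e.symm i : Q) : ℕ) ∈ Q := (e.symm i).2
        refine Finset.mem_filter.2 ⟨?_, hQ _ hq⟩
        have h1 : ((e.symm i : Q) : ℕ) - 1 ∣ v :=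
          dvd_trans (Finset.dvd_prod_of_mem (fun p => p - 1) hq) hQd
        have h2 := Nat.le_of_dvd (by omega) h1
        exact Finset.mem_range.2 (by omega)
      · have e1 : ∏ i, (((e.symm i : Q) : ℕ) - 1) = ∏ q : Q, ((q : ℕ) - 1) :=
          Equiv.prod_comp e.symm (fun q : Q => (q : ℕ) - 1)
        have e2 : ∏ q : Q, ((q : ℕ) - 1) = ∏ p ∈ Q, (p - 1) :=
          Finset.prod_coe_sort Q (fun p => p - 1)
        simp only
        rw [e1, e2]
        exact hQd
  have hsum : ∑ f ∈ I, (1 : ℝ) / ((∏ i, (f i - 1) : ℕ) : ℝ) =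
      (∑ p ∈ U, (1 : ℝ) / ((p : ℝ) - 1)) ^ 10 := by
    have h1 := Finset.prod_univ_sum (fun _ : Fin 10 => U) (fun _ p => (1 : ℝ) / ((p : ℝ) - 1))
    rw [Finset.prod_const, Finset.card_univ, Fintype.card_fin] at h1
    rw [h1]
    apply Finset.sum_congr rfl
    intro f hf
    rw [Nat.cast_prod, one_div, ← Finset.prod_inv_distrib]
    apply Finset.prod_congr rfl
    intro i _
    have := (hUmem _ (hImem f hf i)).1.two_le
    rw [Nat.cast_sub (by omega), one_div]
    simp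
  rw [hsum] at hcard
  have hpow : (∑ p ∈ U, (1 : ℝ) / ((p : ℝ) - 1)) ^ 10 ≤ M ^ 10 :=
    pow_le_pow_left₀ hUnn hUsum 10
  exact le_trans hcard (mul_le_mul_of_nonneg_left hpow (by positivity))

/-- Count for the third alternative. -/
private lemma nega_count_B2 {N : ℕ} {y Cm : ℝ} (hy : 1 ≤ y)
    (hmert : ∑ p ∈ (Finset.range (⌈Real.exp (Real.exp ((N : ℝ) / 2 + 1))⌉₊ + 1)).filter
      (fun p => p.Prime ∧ lev p < (N : ℝ) / 2 + 1), (1 : ℝ) / ((p : ℝ) - 1) ≤ (N : ℝ) / 2 + 1 + Cm)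
    (S : Finset ℕ)
    (hS : ∀ v ∈ S, 1 ≤ v ∧ v ≤ ⌊y⌋₊ ∧ 2.9 * (N : ℝ) ≤
        ((v.primeFactors.filter (fun r => ts N < lev r ∧ lev r ≤ (N : ℝ) / 2)).card : ℝ)) :
    (S.card : ℝ) * Real.exp (5.8 * (N : ℝ)) ≤ y * Real.exp (6.39 * ((N : ℝ) / 2 + 1 + Cm)) := by
  set g : ℕ → ℝ := fun r => if ts N < lev r ∧ lev r ≤ (N : ℝ) / 2 then Real.exp 2 else 1 with hg
  have hge : ∀ r, 1 ≤ g r := by
    intro r
    simp only [hg]
    split_ifs
    · exact Real.one_le_exp (by norm_num)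
    · exact le_refl _
  have heuler := euler_count g hge y hy
  have hprod : ∀ v : ℕ, ∏ r ∈ v.primeFactors, g r =
      Real.exp 2 ^ (v.primeFactors.filter (fun r => ts N < lev r ∧ lev r ≤ (N : ℝ) / 2)).card := by
    intro v
    simp only [hg]
    rw [Finset.prod_ite, Finset.prod_const, Finset.prod_const_one, mul_one]
  have hlower : (S.card : ℝ) * Real.exp (5.8 * (N : ℝ)) ≤
      ∑ v ∈ Finset.Icc 1 ⌊y⌋₊, ∏ r ∈ v.primeFactors, g r := by
    calc (S.card : ℝ) * Real.exp (5.8 * (N : ℝ))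
        = S.card • Real.exp (5.8 * (N : ℝ)) := by rw [nsmul_eq_mul]
      _ ≤ ∑ v ∈ S, ∏ r ∈ v.primeFactors, g r := by
          apply Finset.card_nsmul_le_sum
          intro v hv
          obtain ⟨_, _, h3⟩ := hS v hv
          rw [hprod, ← Real.exp_nat_mul]
          apply Real.exp_le_exp.2
          linarith
      _ ≤ ∑ v ∈ Finset.Icc 1 ⌊y⌋₊, ∏ r ∈ v.primeFactors, g r := by
          apply Finset.sum_le_sum_of_subset_of_nonneg
          · intro v hv
            obtain ⟨h1, h2, _⟩ := hS v hv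
            exact Finset.mem_Icc.2 ⟨h1, h2⟩
          · intro v _ _
            rw [hprod]
            positivity
  have hexp2 : Real.exp 2 - 1 ≤ 6.39 := by
    have e : Real.exp 2 = Real.exp 1 * Real.exp 1 := by
      rw [← Real.exp_add]
      norm_num
    have h1 := Real.exp_one_lt_d9
    have h2 := Real.exp_pos 1
    rw [e]
    nlinarith
  have hexp2' : 0 ≤ Real.exp 2 - 1 := by
    have := Real.add_one_le_exp (2 : ℝ)
    linarith
  set R0 := (Finset.range (⌈Real.exp (Real.exp ((N : ℝ) / 2 + 1))⌉₊ + 1)).filter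
      (fun p => p.Prime ∧ lev p < (N : ℝ) / 2 + 1) with hR0
  have hupper : ∑ r ∈ (Finset.range (⌊y⌋₊ + 1)).filter Nat.Prime, (g r - 1) / r ≤
      6.39 * ((N : ℝ) / 2 + 1 + Cm) := by
    calc ∑ r ∈ (Finset.range (⌊y⌋₊ + 1)).filter Nat.Prime, (g r - 1) / r
        ≤ ∑ r ∈ (Finset.range (⌊y⌋₊ + 1)).filter Nat.Prime,
            if r ∈ R0 then 6.39 * ((1 : ℝ) / ((r : ℝ) - 1)) else 0 := by
          apply Finset.sum_le_sum
          intro r hr
          have hrp := (Finset.mem_filter.1 hr).2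
          have h2 : (2 : ℝ) ≤ r := by exact_mod_cast hrp.two_le
          by_cases hc : ts N < lev r ∧ lev r ≤ (N : ℝ) / 2
          · have hmem : r ∈ R0 := by
              have hlt : lev r < (N : ℝ) / 2 + 1 := by linarith [hc.2]
              refine Finset.mem_filter.2 ⟨?_, hrp, hlt⟩
              have h3 := nega_lev_lt hrp.two_le hlt
              have h4 := Nat.le_ceil (Real.exp (Real.exp ((N : ℝ) / 2 + 1)))
              have h5 : (r : ℝ) ≤ (⌈Real.exp (Real.exp ((N : ℝ) / 2 + 1))⌉₊ : ℝ) := le_trans h3 h4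
              have h6 : r ≤ ⌈Real.exp (Real.exp ((N : ℝ) / 2 + 1))⌉₊ := by exact_mod_cast h5
              exact Finset.mem_range.2 (by omega)
            rw [if_pos hmem]
            have hgr : g r = Real.exp 2 := by
              simp only [hg]
              rw [if_pos hc]
            rw [hgr]
            have h7 : (1 : ℝ) / r ≤ (1 : ℝ) / ((r : ℝ) - 1) :=
              one_div_le_one_div_of_le (by linarith) (by linarith)
            have h8 : (0 : ℝ) ≤ (1 : ℝ) / r := by positivity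
            calc (Real.exp 2 - 1) / r = (Real.exp 2 - 1) * ((1 : ℝ) / r) := by ring
              _ ≤ 6.39 * ((1 : ℝ) / r) := mul_le_mul_of_nonneg_right hexp2 h8
              _ ≤ 6.39 * ((1 : ℝ) / ((r : ℝ) - 1)) := by linarith
          · have hgr : g r = 1 := by
              simp only [hg]
              rw [if_neg hc]
            rw [hgr]
            have h9 : (1 - 1 : ℝ) / r = 0 := by simp
            rw [h9]
            split_ifs
            · have : (0 : ℝ) ≤ (1 : ℝ) / ((r : ℝ) - 1) := by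
                apply div_nonneg <;> linarith
              linarith
            · exact le_refl _
      _ ≤ 6.39 * ∑ r ∈ R0, (1 : ℝ) / ((r : ℝ) - 1) := by
          rw [← Finset.sum_filter, Finset.mul_sum]
          apply Finset.sum_le_sum_of_subset_of_nonneg
          · intro r hr
            exact (Finset.mem_filter.1 hr).2
          · intro r hr _
            have hrp := (Finset.mem_filter.1 hr).2.1
            have h2 : (2 : ℝ) ≤ r := by exact_mod_cast hrp.two_le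
            have : (0 : ℝ) ≤ (1 : ℝ) / ((r : ℝ) - 1) := by
              apply div_nonneg <;> linarith
            linarith
      _ ≤ 6.39 * ((N : ℝ) / 2 + 1 + Cm) := by
          apply mul_le_mul_of_nonneg_left hmert
          norm_num
  have hy0 : 0 ≤ y := by linarith
  calc (S.card : ℝ) * Real.exp (5.8 * (N : ℝ)) ≤ _ := hlower
    _ ≤ _ := heuler
    _ ≤ y * Real.exp (6.39 * ((N : ℝ) / 2 + 1 + Cm)) :=
        mul_le_mul_of_nonneg_left (Real.exp_le_exp.2 hupper) hy0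

private lemma nega_num_common {c x E : ℝ} (hc : 0 < c) :
    (c * x) * (E / (3 * c)) = x * E / 3 := by
  field_simp

private lemma nega_num_A {c C KA Q N : ℝ} (hc : 0 < c) (hKA : 3 * c * C ^ 3 = Real.exp KA)
    (hQ : KA + 4.2 * N + 2 ≤ Q) :
    Real.exp (-Q) * (C * Real.exp (0.9 * N)) ^ 3 ≤ Real.exp (-(1.5 * N) - 2) / (3 * c) := by
  have e1 : (C * Real.exp (0.9 * N)) ^ 3 = C ^ 3 * Real.exp (2.7 * N) := by
    rw [mul_pow, ← Real.exp_nat_mul]
    congr 2
    push_cast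
    ring
  rw [e1, le_div_iff₀ (by positivity)]
  calc Real.exp (-Q) * (C ^ 3 * Real.exp (2.7 * N)) * (3 * c)
      = (3 * c * C ^ 3) * (Real.exp (-Q) * Real.exp (2.7 * N)) := by ring
    _ = Real.exp (KA + -Q + 2.7 * N) := by
        rw [hKA, Real.exp_add, Real.exp_add]
        ring
    _ ≤ Real.exp (-(1.5 * N) - 2) := by
        apply Real.exp_le_exp.2
        linarith

private lemma nega_num_Q {KA L : ℝ} {N : ℝ} (hN : 1 ≤ N) (hKA0 : 0 ≤ KA)
    (hL1 : Real.exp (N - 2) ≤ L)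
    (h2 : 5 * Real.exp 2 * (KA + 7) * N ^ 1 ≤ Real.exp ((1 / 10) * N)) :
    KA + 4.2 * N + 2 ≤ (L / 5) / Real.exp (0.9 * N) := by
  have hQ1 : Real.exp (N / 10 - 2) / 5 ≤ (L / 5) / Real.exp (0.9 * N) := by
    rw [le_div_iff₀ (Real.exp_pos _)]
    have e : Real.exp (N / 10 - 2) * Real.exp (0.9 * N) = Real.exp (N - 2) := by
      rw [← Real.exp_add]
      congr 1
      ring
    calc Real.exp (N / 10 - 2) / 5 * Real.exp (0.9 * N)
        = Real.exp (N - 2) / 5 := by rw [← e]; ring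
      _ ≤ L / 5 := by linarith
  refine le_trans ?_ hQ1
  have e : Real.exp ((1 / 10) * N) = Real.exp (N / 10 - 2) * Real.exp 2 := by
    rw [← Real.exp_add]
    congr 1
    ring
  rw [e, pow_one] at h2
  have hE2 := Real.exp_pos (2 : ℝ)
  have h3 : 5 * (KA + 7) * N ≤ Real.exp (N / 10 - 2) := by
    have h4 : Real.exp 2 * (5 * (KA + 7) * N) ≤ Real.exp 2 * Real.exp (N / 10 - 2) := by
      calc _ = 5 * Real.exp 2 * (KA + 7) * N := by ring
        _ ≤ _ := h2
        _ = _ := by ring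
    exact le_of_mul_le_mul_left h4 hE2
  have h5 : 0 ≤ KA * N := by positivity
  nlinarith

private lemma nega_num_B {c N : ℝ} (hc : 0 < c)
    (h2 : 3 * c * Real.exp 2 * N ^ 10 ≤ Real.exp (2.6 * N)) :
    N ^ 10 * Real.exp (-(4.1 * N)) ≤ Real.exp (-(1.5 * N) - 2) / (3 * c) := by
  rw [le_div_iff₀ (by positivity)]
  have e2 : Real.exp (-(1.5 * N) - 2) * Real.exp 2 * Real.exp (4.1 * N) =
      Real.exp (2.6 * N) := by
    rw [← Real.exp_add, ← Real.exp_add]
    congr 1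
    ring
  have e3 : Real.exp (-(4.1 * N)) * Real.exp (4.1 * N) = 1 := by
    rw [← Real.exp_add]
    simp
  have hP1 := Real.exp_pos (4.1 * N)
  have hP2 := Real.exp_pos (2 : ℝ)
  have h4 : (N ^ 10 * Real.exp (-(4.1 * N)) * (3 * c)) *
      (Real.exp 2 * Real.exp (4.1 * N)) ≤
      Real.exp (-(1.5 * N) - 2) * (Real.exp 2 * Real.exp (4.1 * N)) := by
    calc _ = (3 * c * Real.exp 2 * N ^ 10) *
          (Real.exp (-(4.1 * N)) * Real.exp (4.1 * N)) := by ring
      _ = 3 * c * Real.exp 2 * N ^ 10 := by rw [e3, mul_one]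
      _ ≤ Real.exp (2.6 * N) := h2
      _ = _ := by rw [← e2]; ring
  exact le_of_mul_le_mul_right h4 (by positivity)

private lemma nega_num_C {c N Cm : ℝ} (hc : 0 < c) (hN : 0 ≤ N)
    (h2 : 3 * c * Real.exp (6.39 * (1 + Cm) + 2) ≤ Real.exp (1.1 * N)) :
    Real.exp (6.39 * (N / 2 + 1 + Cm)) / Real.exp (5.8 * N) ≤
      Real.exp (-(1.5 * N) - 2) / (3 * c) := by
  rw [← Real.exp_sub, le_div_iff₀ (by positivity)]
  set K := 6.39 * (1 + Cm) + 2 with hK
  have hEK := Real.exp_pos K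
  have h3 : 3 * c ≤ Real.exp (1.1 * N - K) := by
    rw [Real.exp_sub, le_div_iff₀ hEK]
    exact h2
  have h4 : Real.exp (6.39 * (N / 2 + 1 + Cm) - 5.8 * N) * Real.exp (1.1 * N - K) ≤
      Real.exp (-(1.5 * N) - 2) := by
    rw [← Real.exp_add]
    apply Real.exp_le_exp.2
    rw [hK]
    nlinarith
  exact le_trans (mul_le_mul_of_nonneg_left h3 (Real.exp_pos _).le) h4

private lemma nega_num_target {x L N : ℝ} (hx : 0 < x) (hL : 0 < L)
    (hL2 : L ≤ Real.exp (N + 2)) :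
    x * Real.exp (-(1.5 * N) - 2) ≤ (x / L) * Real.exp (-(N / 2)) := by
  have h1 : Real.exp (-(1.5 * N) - 2) = Real.exp (-(N + 2)) * Real.exp (-(N / 2)) := by
    rw [← Real.exp_add]
    congr 1
    ring
  have h2 : Real.exp (-(N + 2)) ≤ 1 / L := by
    rw [Real.exp_neg, inv_eq_one_div]
    exact one_div_le_one_div_of_le hL hL2
  rw [h1, div_eq_mul_one_div x L, mul_assoc]
  apply mul_le_mul_of_nonneg_left _ hx.le
  exact mul_le_mul_of_nonneg_right h2 (Real.exp_pos _).le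

private lemma nega_L_bounds {x : ℝ} {N : ℝ} (hx : 1 < x) (hN : 12 ≤ N)
    (hlev : |levR x - N| ≤ 2) :
    Real.exp (N - 2) ≤ Real.log x ∧ Real.log x ≤ Real.exp (N + 2) ∧ 10 ≤ Real.log x ∧
      levR x ≤ N + 2 := by
  have hlev' := abs_le.1 hlev
  have hLpos : 0 < Real.log x := Real.log_pos hx
  have hlevx : levR x = Real.log (Real.log x) := rfl
  have hL1 : Real.exp (N - 2) ≤ Real.log x := by
    apply (Real.le_log_iff_exp_le hLpos).1
    rw [← hlevx]
    linarith [hlev'.1]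
  refine ⟨hL1, ?_, ?_, by linarith [hlev'.2]⟩
  · apply (Real.log_le_iff_le_exp hLpos).1
    rw [← hlevx]
    linarith [hlev'.2]
  · have := Real.add_one_le_exp (N - 2)
    linarith

/-- One piece of the count. -/
private lemma nega_piece {a b c x : ℝ} {X : ℕ} (hX : (X : ℝ) ≤ c * x) (hcx : 0 ≤ c * x)
    {E : ℝ} (ha : 0 ≤ a) (hab : a ≤ E / (3 * c)) (hc : 0 < c) (hb : b ≤ (X : ℝ) * a) :
    b ≤ x * E / 3 := by
  rw [← nega_num_common hc]
  exact le_trans hb (mul_le_mul hX hab ha hcx)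

theorem E3_card (c : ℝ) (hc : 1 < c) : ∃ N₀ : ℕ, ∀ N ≥ N₀, ∀ x : ℝ, 1 < x → |levR x - N| ≤ 2 →
    ((E3 N x c).card : ℝ) ≤ (x / Real.log x) * Real.exp (-((N : ℝ) / 2)) := by
  obtain ⟨C, hC1, hrank⟩ := rankin_sum
  obtain ⟨Cm, hCm, hmert⟩ := mert_low
  obtain ⟨N₁, hN₁⟩ := weak_mass
  have hc0 : 0 < c := by linarith
  have hCpos : 0 < C := by linarith
  have hKApos : 0 < 3 * c * C ^ 3 := by positivity
  have hKA0 : 0 ≤ Real.log (3 * c * C ^ 3) := by
    apply Real.log_nonneg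
    have : 1 ≤ C ^ 3 := one_le_pow₀ hC1
    nlinarith
  obtain ⟨N₂, hN₂⟩ := Filter.eventually_atTop.1
    (nega_ev_pow (1 / 10) (by norm_num) (5 * Real.exp 2 * (Real.log (3 * c * C ^ 3) + 7)) 1)
  obtain ⟨N₃, hN₃⟩ := Filter.eventually_atTop.1
    (nega_ev_pow (2.6) (by norm_num) (3 * c * Real.exp 2) 10)
  obtain ⟨N₄, hN₄⟩ := Filter.eventually_atTop.1
    (nega_ev_pow (1.1) (by norm_num) (3 * c * Real.exp (6.39 * (1 + Cm) + 2)) 0)
  refine ⟨max (max N₁ N₂) (max (max N₃ N₄) 1024), fun N hN x hx hlev => ?_⟩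
  have hNa : N₁ ≤ N := le_trans (le_trans (le_max_left _ _) (le_max_left _ _)) hN
  have hNb : N₂ ≤ N := le_trans (le_trans (le_max_right _ _) (le_max_left _ _)) hN
  have hNc : N₃ ≤ N := le_trans (le_trans (le_trans (le_max_left _ _) (le_max_left _ _))
    (le_max_right _ _)) hN
  have hNd : N₄ ≤ N := le_trans (le_trans (le_trans (le_max_right _ _) (le_max_left _ _))
    (le_max_right _ _)) hN
  have hNe : 1024 ≤ N := le_trans (le_trans (le_max_right _ _) (le_max_right _ _)) hN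
  have hNR : (1024 : ℝ) ≤ N := by exact_mod_cast hNe
  have hN0 : (0 : ℝ) < N := by linarith
  have ht0 : t0 N ≤ 0.9 * (N : ℝ) := by
    have := nega_t0_le hNe
    linarith
  obtain ⟨hL1, hL2, hL10, hlevx⟩ := nega_L_bounds hx (by linarith : (12 : ℝ) ≤ N) hlev
  have hLpos : 0 < Real.log x := Real.log_pos hx
  have hxpos : 0 < x := by linarith
  have hcx : 0 ≤ c * x := by positivity
  have hcx1 : 1 ≤ c * x := by nlinarith
  have hXle : ((⌊c * x⌋₊ : ℕ) : ℝ) ≤ c * x := Nat.floor_le hcx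
  -- the three pieces
  have hcover : (E3 N x c) ⊆
      (E3 N x c).filter (fun v => ∃ d : ℕ, d ∣ v ∧ d ≠ 0 ∧ Real.exp (Real.log x / 5) < d ∧
        ∀ r : ℕ, r.Prime → r ∣ d → lev r < 0.9 * (N : ℝ)) ∪
      ((E3 N x c).filter (fun v => ∃ Q : Finset ℕ, Q.card = 10 ∧
        (∀ p ∈ Q, p.Prime ∧ (W N (p - 1) ((N : ℝ) / 2) : ℝ) < (N : ℝ) / 100 ∧
          0.9 * (N : ℝ) ≤ lev p ∧ lev p ≤ (N : ℝ) + 5) ∧
        ∏ p ∈ Q, (p - 1) ∣ v) ∪
      (E3 N x c).filter (fun v => 2.9 * (N : ℝ) ≤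
        ((v.primeFactors.filter (fun r => ts N < lev r ∧ lev r ≤ (N : ℝ) / 2)).card : ℝ))) := by
    intro v hv
    rcases nega_trichotomy ht0 hx hL10 hlevx hv with h | h | h
    · exact Finset.mem_union_left _ (Finset.mem_filter.2 ⟨hv, h⟩)
    · exact Finset.mem_union_right _ (Finset.mem_union_left _ (Finset.mem_filter.2 ⟨hv, h⟩))
    · exact Finset.mem_union_right _ (Finset.mem_union_right _ (Finset.mem_filter.2 ⟨hv, h⟩))
  generalize hSA : (E3 N x c).filter (fun v => ∃ d : ℕ, d ∣ v ∧ d ≠ 0 ∧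
    Real.exp (Real.log x / 5) < d ∧ ∀ r : ℕ, r.Prime → r ∣ d → lev r < 0.9 * (N : ℝ)) = SA at hcover
  generalize hSB : (E3 N x c).filter (fun v => ∃ Q : Finset ℕ, Q.card = 10 ∧
        (∀ p ∈ Q, p.Prime ∧ (W N (p - 1) ((N : ℝ) / 2) : ℝ) < (N : ℝ) / 100 ∧
          0.9 * (N : ℝ) ≤ lev p ∧ lev p ≤ (N : ℝ) + 5) ∧
        ∏ p ∈ Q, (p - 1) ∣ v) = SB at hcover
  generalize hSC : (E3 N x c).filter (fun v => 2.9 * (N : ℝ) ≤
        ((v.primeFactors.filter (fun r => ts N < lev r ∧ lev r ≤ (N : ℝ) / 2)).card : ℝ)) = SC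
    at hcover
  have hcard : ((E3 N x c).card : ℝ) ≤ (SA.card : ℝ) + SB.card + SC.card := by
    have h1 := Finset.card_le_card hcover
    have h2 := Finset.card_union_le SA (SB ∪ SC)
    have h3 := Finset.card_union_le SB SC
    have h4 : (E3 N x c).card ≤ SA.card + SB.card + SC.card := by omega
    exact_mod_cast h4
  have hwin : ∀ v ∈ E3 N x c, 1 ≤ v ∧ v ≤ ⌊c * x⌋₊ := by
    intro v hv
    have h1 := (Finset.mem_filter.1 hv).1
    have h2 := Finset.mem_Ioc.1 h1
    exact ⟨by omega, h2.2⟩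
  have htarget := nega_num_target hxpos hLpos hL2
  -- piece A
  have hA : (SA.card : ℝ) ≤ x * Real.exp (-(1.5 * (N : ℝ)) - 2) / 3 := by
    have h1 := nega_count_A hrank hLpos.le (by omega : 12 ≤ N) SA (by
      intro v hv
      rw [← hSA] at hv
      have hv' := Finset.mem_filter.1 hv
      obtain ⟨h1, h2⟩ := hwin v hv'.1
      exact ⟨h1, h2, hv'.2⟩)
    have hQ := nega_num_Q (by linarith : (1 : ℝ) ≤ N) hKA0 hL1 (hN₂ N hNb)
    have h3 := nega_num_A hc0 (Real.exp_log hKApos).symm hQ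
    exact nega_piece hXle hcx (by positivity) h3 hc0 h1
  -- piece B
  have hB : (SB.card : ℝ) ≤ x * Real.exp (-(1.5 * (N : ℝ)) - 2) / 3 := by
    have h1 := nega_count_B1 (X := ⌊c * x⌋₊) (hN₁ N hNa) SB (by
      intro v hv
      rw [← hSB] at hv
      have hv' := Finset.mem_filter.1 hv
      obtain ⟨h1, h2⟩ := hwin v hv'.1
      exact ⟨h1, h2, hv'.2⟩)
    have e1 : ((N : ℝ) * Real.exp (-(0.41 * (N : ℝ)))) ^ 10 =
        (N : ℝ) ^ 10 * Real.exp (-(4.1 * (N : ℝ))) := by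
      rw [mul_pow, ← Real.exp_nat_mul]
      congr 2
      push_cast
      ring
    rw [e1] at h1
    have h3 := nega_num_B hc0 (hN₃ N hNc)
    exact nega_piece hXle hcx (by positivity) h3 hc0 h1
  -- piece C
  have hC : (SC.card : ℝ) ≤ x * Real.exp (-(1.5 * (N : ℝ)) - 2) / 3 := by
    have h1 := nega_count_B2 (N := N) (y := c * x) (Cm := Cm) hcx1
      (hmert ((N : ℝ) / 2 + 1) (by positivity)) SC (by
        intro v hv
        rw [← hSC] at hv
        have hv' := Finset.mem_filter.1 hv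
        obtain ⟨h1, h2⟩ := hwin v hv'.1
        exact ⟨h1, h2, hv'.2⟩)
    have h2 := hN₄ N hNd
    rw [pow_zero, mul_one] at h2
    have hE := Real.exp_pos (5.8 * (N : ℝ))
    have h3 : (SC.card : ℝ) ≤ (c * x) * (Real.exp (6.39 * ((N : ℝ) / 2 + 1 + Cm)) /
        Real.exp (5.8 * (N : ℝ))) := by
      rw [mul_div_assoc', le_div_iff₀ hE]
      exact h1
    have h4 := nega_num_C hc0 hN0.le h2
    have h5 := mul_le_mul_of_nonneg_left h4 hcx
    rw [nega_num_common hc0] at h5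
    exact le_trans h3 h5
  linarith

end
end Vale.Agent.Lib.P031V
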