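import Vale.Agent.Lib.P031V.NegBTop
import Vale.Agent.Lib.P031V.NegA

/-! # P031: helper lemmas for the estimate of `E5` (blueprint section 7). -/

namespace Vale.Agent.Lib.P031V
namespace E5Aux
open Real Finset
open scoped Classical
noncomputable section

/-- Lists with entries in `Q`, of length at most `k`. -/
def listSet (Q : Finset ℕ) : ℕ → Finset (List ℕ)
  | 0 => {[]}
  | k + 1 => insert [] ((Q ×ˢ listSet Q k).image (fun z => z.1 :: z.2))

lemma mem_listSet {Q : Finset ℕ} : ∀ (k : ℕ) (l : List ℕ), l.length ≤ k → (∀ p ∈ l, p ∈ Q) →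
    l ∈ listSet Q k
  | 0, l, h, _ => by
      have hl : l = [] := List.length_eq_zero_iff.1 (by omega)
      simp [listSet, hl]
  | k + 1, [], _, _ => by simp [listSet]
  | k + 1, p :: l, h, hQ => by
      simp only [listSet, mem_insert, mem_image, mem_product]
      right
      refine ⟨(p, l), ⟨hQ p (by simp), mem_listSet k l (by simpa using h)
        (fun q hq => hQ q (by simp [hq]))⟩, rfl⟩

lemma sum_listSet (Q : Finset ℕ) (hQ : ∀ p ∈ Q, p.Prime) (A : ℝ) (hA0 : 0 ≤ A)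
    (hA : ∑ p ∈ Q, (1 : ℝ) / ((p : ℝ) - 1) ≤ A) :
    ∀ k, ∑ l ∈ listSet Q k, (1 : ℝ) / (rowsProd l : ℝ) ≤ (1 + A) ^ k := by
  intro k
  induction k with
  | zero => simp [listSet, rowsProd]
  | succ k ih =>
    have hnot : ([] : List ℕ) ∉ (Q ×ˢ listSet Q k).image (fun z => z.1 :: z.2) := by
      simp
    have hinj : Set.InjOn (fun z : ℕ × List ℕ => z.1 :: z.2) ((Q ×ˢ listSet Q k : Finset _) : Set _) := by
      intro a _ b _ hab
      simp only [List.cons.injEq] at hab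
      exact Prod.ext hab.1 hab.2
    simp only [listSet]
    rw [Finset.sum_insert hnot, Finset.sum_image hinj, Finset.sum_product]
    have h1 : ∀ p ∈ Q, ∑ l ∈ listSet Q k, (1 : ℝ) / (rowsProd (p :: l) : ℝ)
        = (1 / ((p : ℝ) - 1)) * ∑ l ∈ listSet Q k, (1 : ℝ) / (rowsProd l : ℝ) := by
      intro p hp
      rw [Finset.mul_sum]
      refine Finset.sum_congr rfl (fun l _ => ?_)
      have hp1 : ((p - 1 : ℕ) : ℝ) = (p : ℝ) - 1 := by
        rw [Nat.cast_sub (hQ p hp).one_lt.le]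
        simp
      have e : rowsProd (p :: l) = (p - 1) * rowsProd l := by
        simp [rowsProd]
      rw [e]
      push_cast [hp1]
      rw [one_div_mul_one_div]
    rw [Finset.sum_congr rfl h1, ← Finset.sum_mul]
    have hnn : 0 ≤ ∑ l ∈ listSet Q k, (1 : ℝ) / (rowsProd l : ℝ) :=
      Finset.sum_nonneg (fun _ _ => by positivity)
    have hlast : (1 : ℝ) / (rowsProd [] : ℝ) = 1 := by simp [rowsProd]
    rw [hlast, pow_succ]
    have hpow : 1 ≤ (1 + A) ^ k := one_le_pow₀ (by linarith)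
    have h2 : (∑ p ∈ Q, 1 / ((p : ℝ) - 1)) * ∑ l ∈ listSet Q k, (1 : ℝ) / (rowsProd l : ℝ)
        ≤ A * (1 + A) ^ k := by
      apply mul_le_mul hA ih hnn hA0
    nlinarith

/-- Topmost violation of admissibility. -/
lemma not_Adm_decomp (N : ℕ) (hts : 0 ≤ ts N) : ∀ t : List ℕ, BigList N t → ¬ Adm N t →
    ∃ pre q post, t = pre ++ q :: post ∧ lev q - Th N 0 post < - tol N ∧ Adm N pre
  | [], _, h => absurd trivial h
  | p :: t, hb, h => by
      by_cases h1 : -tol N ≤ lev p - Th N 0 t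
      · have h2 : ¬ Adm N t := fun h3 => h ⟨h1, h3⟩
        have hbt : BigList N t := fun r hr => hb r (by simp [hr])
        obtain ⟨pre, q, post, rfl, h4, h5⟩ := not_Adm_decomp N hts t hbt h2
        refine ⟨p :: pre, q, post, rfl, h4, ?_, h5⟩
        have h6 : Th N 0 pre ≤ Th N 0 (pre ++ q :: post) :=
          Th_sublist N 0 (List.sublist_append_left _ _) hbt hts
        linarith
      · exact ⟨[], p, t, rfl, not_le.1 h1, trivial⟩

lemma Th_length_ge (N : ℕ) (hts : 0 ≤ ts N) : ∀ (l : List ℕ) (h : ℕ), BigList N l →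
    (l.length : ℝ) * (aa 1 * ts N) ≤ Th N h l
  | [], _, _ => by simp [Th]
  | p :: l, h, hb => by
      have hp := hb p (by simp)
      have hbl : BigList N l := fun r hr => hb r (by simp [hr])
      have ih := Th_length_ge N hts l (h + 1) hbl
      have h1 : aa 1 ≤ aa (h + 1) := aa_mono (by omega)
      have h0 : 0 ≤ aa 1 := by have := aa_one_gt; linarith
      have h2 : aa 1 * ts N ≤ aa (h + 1) * (lev p - ts N) :=
        mul_le_mul h1 hp hts (by linarith)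
      simp only [Th, List.length_cons]
      push_cast
      linarith

lemma Th_take_big (N : ℕ) (hts : 0 ≤ ts N) (hK : 9 * (N : ℝ) ≤ (K1 N : ℝ) * ts N) (post : List ℕ) (B : ℝ)
    (hb : BigList N post) (h1 : B < Th N 0 post) (h2 : B < 3 * (N : ℝ)) :
    B < Th N 0 (post.take (K1 N)) := by
  by_cases hlen : post.length ≤ K1 N
  · rw [List.take_of_length_le hlen]; exact h1
  · have hlen' : K1 N ≤ post.length := by omega
    have hb' : BigList N (post.take (K1 N)) := fun r hr => hb r (List.mem_of_mem_take hr)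
    have h3 := Th_length_ge N hts (post.take (K1 N)) 0 hb'
    rw [List.length_take_of_le hlen'] at h3
    have h4 := aa_one_gt
    have h5 : 0.38 * (9 * (N : ℝ)) ≤ (K1 N : ℝ) * (aa 1 * ts N) := by
      have h6 : (0 : ℝ) ≤ (K1 N : ℝ) * ts N := by positivity
      nlinarith
    linarith

lemma rowsProd_dvd_of_mem {l : List ℕ} {q : ℕ} (h : q ∈ l) : q - 1 ∣ rowsProd l := by
  unfold rowsProd
  exact List.dvd_prod (List.mem_map.2 ⟨q, h, rfl⟩)

lemma rowsProd_pos {l : List ℕ} (h : ∀ p ∈ l, p.Prime) : 0 < rowsProd l := by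
  unfold rowsProd
  apply List.prod_pos
  intro a ha
  obtain ⟨p, hp, rfl⟩ := List.mem_map.1 ha
  have := (h p hp).one_lt
  omega

lemma clean_of_dvd {N a b : ℕ} (h : Clean N b) (hd : a ∣ b) : Clean N a :=
  fun r hr hl hq => h r hr hl (hq.trans hd)

lemma rowsProd_take_dvd (post : List ℕ) (k : ℕ) : rowsProd (post.take k) ∣ rowsProd post := by
  conv_rhs => rw [← List.take_append_drop k post]
  rw [rowsProd_append]
  exact Dvd.intro _ rfl

lemma prime_dvd_rowsProd {r : ℕ} (hr : r.Prime) {l : List ℕ} (h : r ∣ rowsProd l) :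
    ∃ q ∈ l, r ∣ q - 1 := by
  unfold rowsProd at h
  obtain ⟨a, ha, hd⟩ := (hr.prime.dvd_prod_iff).1 h
  obtain ⟨p, hp, rfl⟩ := List.mem_map.1 ha
  exact ⟨p, hp, hd⟩

/-- The primes of a tail have level at most the level of its top entry. -/
lemma lev_le_of_dvd_rows {r q : ℕ} {post : List ℕ} (hr : r.Prime)
    (hs : (q :: post).Pairwise (· > ·)) (hp : ∀ s ∈ q :: post, s.Prime) (hd : r ∣ rowsProd (q :: post)) :
    lev r ≤ lev q := by
  obtain ⟨s, hs1, hs2⟩ := prime_dvd_rowsProd hr hd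
  have hspos : 0 < s - 1 := by
    have := (hp s hs1).one_lt
    omega
  have hrs : r ≤ s - 1 := Nat.le_of_dvd hspos hs2
  have hsq : s ≤ q := by
    rcases List.mem_cons.1 hs1 with rfl | h
    · exact le_rfl
    · exact le_of_lt ((List.pairwise_cons.1 hs).1 s h)
  exact lev_mono hr.two_le (by omega)


/-! Parameter estimates, written with `u = N^{1/100}`. -/

def uu (N : ℕ) : ℝ := (N : ℝ) ^ ((1 : ℝ) / 100)

lemma uu_rpow (N : ℕ) (k : ℕ) : (uu N) ^ k = (N : ℝ) ^ ((k : ℝ) / 100) := by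
  unfold uu
  rw [← Real.rpow_natCast, ← Real.rpow_mul (Nat.cast_nonneg N)]
  congr 1
  ring

lemma tendsto_uu : Filter.Tendsto uu Filter.atTop Filter.atTop :=
  (tendsto_rpow_atTop (by norm_num : (0 : ℝ) < 1 / 100)).comp tendsto_natCast_atTop_atTop

lemma log_le_uu (N : ℕ) (hN : 1 ≤ N) : Real.log N ≤ 100 * uu N := by
  have hN0 : (0 : ℝ) < N := by exact_mod_cast hN
  have h0 : 0 < uu N := Real.rpow_pos_of_pos hN0 _
  have h1 : Real.log (uu N) = (1 / 100) * Real.log N := by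
    unfold uu
    rw [Real.log_rpow hN0]
  have h2 := Real.log_le_sub_one_of_pos h0
  linarith

lemma t0_eq (N : ℕ) : t0 N = (uu N) ^ 80 := by
  rw [uu_rpow]; unfold t0; norm_num

lemma tol_eq (N : ℕ) : tol N = (uu N) ^ 75 := by
  rw [uu_rpow]; unfold tol; norm_num

lemma N_eq_uu (N : ℕ) : (N : ℝ) = (uu N) ^ 100 := by
  rw [uu_rpow]; norm_num

lemma ts_rpow_le (N : ℕ) (hN : 1 ≤ N) :
    (ts N) ^ (-(7 : ℝ) / 20) * (uu N) ^ 28 ≤ 2 := by
  have hN0 : (0 : ℝ) < N := by exact_mod_cast hN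
  have e1 : ts N = (N : ℝ) ^ ((4 : ℝ) / 5) / 2 := rfl
  have h2 : (0 : ℝ) < (N : ℝ) ^ ((4 : ℝ) / 5) := Real.rpow_pos_of_pos hN0 _
  rw [e1, Real.div_rpow h2.le (by norm_num), ← Real.rpow_mul hN0.le, uu_rpow]
  rw [div_mul_eq_mul_div, ← Real.rpow_add hN0]
  have e2 : (4 : ℝ) / 5 * (-(7 : ℝ) / 20) + (((28 : ℕ) : ℝ) / 100) = 0 := by norm_num
  rw [e2, Real.rpow_zero, div_le_iff₀ (Real.rpow_pos_of_pos (by norm_num) _)]
  have h3 : (1 / 2 : ℝ) ≤ (2 : ℝ) ^ (-(7 : ℝ) / 20) := by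
    have h4 : (2 : ℝ) ^ (-(1 : ℝ)) ≤ (2 : ℝ) ^ (-(7 : ℝ) / 20) :=
      Real.rpow_le_rpow_of_exponent_le (by norm_num) (by norm_num)
    have h5 : (2 : ℝ) ^ (-(1 : ℝ)) = 1 / 2 := by
      rw [Real.rpow_neg_one]; norm_num
    linarith
  linarith

lemma K1_le_uu (N : ℕ) (hN : 1 ≤ N) : (K1 N : ℝ) ≤ 18 * (uu N) ^ 20 + 1 := by
  have hN0 : (0 : ℝ) < N := by exact_mod_cast hN
  have hu : 0 < uu N := Real.rpow_pos_of_pos hN0 _
  have e : 9 * (N : ℝ) / ts N = 18 * (uu N) ^ 20 := by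
    have : ts N = (uu N) ^ 80 / 2 := by unfold ts; rw [t0_eq]
    rw [this, N_eq_uu N]
    have hu80 : (uu N) ^ 80 ≠ 0 := by positivity
    field_simp
    ring_nf
  have h1 := Nat.ceil_lt_add_one (a := 9 * (N : ℝ) / ts N) (by rw [e]; positivity)
  unfold K1
  rw [e] at h1 ⊢
  exact h1.le

lemma K1_mul_ts (N : ℕ) (hN : 1 ≤ N) : 9 * (N : ℝ) ≤ (K1 N : ℝ) * ts N := by
  have hN0 : (0 : ℝ) < N := by exact_mod_cast hN
  have hts : 0 < ts N := by
    unfold ts t0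
    have := Real.rpow_pos_of_pos hN0 ((4 : ℝ) / 5)
    linarith
  have h1 := Nat.le_ceil (9 * (N : ℝ) / ts N)
  rw [div_le_iff₀ hts] at h1
  exact h1

lemma U0_le_uu (N : ℕ) (hN : 1 ≤ N) : (U0 N : ℝ) ≤ 2000 * uu N + 1 := by
  have hN0 : (0 : ℝ) < N := by exact_mod_cast hN
  have h0 : 0 ≤ Real.log N := Real.log_nonneg (by exact_mod_cast hN)
  have h1 := Nat.ceil_lt_add_one (a := 20 * Real.log N) (by positivity)
  have h2 := log_le_uu N hN
  unfold U0
  linarith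

/-- All polynomial comparisons needed for `E5`. -/
lemma E5_poly (a b : ℝ) : ∀ᶠ u : ℝ in Filter.atTop, 1 ≤ u ∧
    (a + (2000 * u + 1) * (100 * u + 1) + (18 * u ^ 20 + 3)
        + (18 * u ^ 20 + 2) * (100 * u + 1) + u ^ 70 ≤ u ^ 75 / 2) ∧
    ((18 * u ^ 20 + 1) * (18 * u ^ 20 + 2) + b + 20 * u ^ 72 + 3 * (18 * u ^ 20 + 2) ≤ u ^ 75 / 2) := by
  have hk : ∀ᶠ u : ℝ in Filter.atTop, 1 ≤ u ∧ 2 * (|a| + 300000) ≤ u ∧ 2 * (|b| + 500) ≤ u := by
    filter_upwards [Filter.eventually_ge_atTop 1,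
      Filter.eventually_ge_atTop (2 * (|a| + 300000)),
      Filter.eventually_ge_atTop (2 * (|b| + 500))] with u h1 h2 h3
    exact ⟨h1, h2, h3⟩
  filter_upwards [hk] with u ⟨h1, h2, h3⟩
  have hp : ∀ k : ℕ, k ≤ 74 → u ^ k ≤ u ^ 74 := fun k hk => pow_le_pow_right₀ h1 hk
  have hp1 : u ≤ u ^ 74 := by simpa using hp 1 (by norm_num)
  have hp2 := hp 2 (by norm_num)
  have hp20 := hp 20 (by norm_num)
  have hp21 := hp 21 (by norm_num)
  have hp40 := hp 40 (by norm_num)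
  have hp70 := hp 70 (by norm_num)
  have hp72 := hp 72 (by norm_num)
  have hone : 1 ≤ u ^ 74 := one_le_pow₀ h1
  have hu0 : 0 < u ^ 74 := by positivity
  have e75 : u ^ 75 = u * u ^ 74 := by ring
  refine ⟨h1, ?_, ?_⟩
  · have h4 : (2 * (|a| + 300000)) * u ^ 74 ≤ u * u ^ 74 := mul_le_mul_of_nonneg_right h2 hu0.le
    have ha : a ≤ |a| := le_abs_self a
    have ha0 : 0 ≤ |a| := abs_nonneg a
    have ha1 : |a| ≤ |a| * u ^ 74 := le_mul_of_one_le_right ha0 hone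
    have e1 : (2000 * u + 1) * (100 * u + 1) = 200000 * u ^ 2 + 2100 * u + 1 := by ring
    have e2 : (18 * u ^ 20 + 2) * (100 * u + 1) = 1800 * u ^ 21 + 18 * u ^ 20 + 200 * u + 2 := by ring
    rw [e1, e2, e75]
    nlinarith
  · have h4 : (2 * (|b| + 500)) * u ^ 74 ≤ u * u ^ 74 := mul_le_mul_of_nonneg_right h3 hu0.le
    have ha : b ≤ |b| := le_abs_self b
    have ha0 : 0 ≤ |b| := abs_nonneg b
    have ha1 : |b| ≤ |b| * u ^ 74 := le_mul_of_one_le_right ha0 hone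
    have e1 : (18 * u ^ 20 + 1) * (18 * u ^ 20 + 2) = 324 * u ^ 40 + 54 * u ^ 20 + 2 := by ring
    rw [e1, e75]
    nlinarith


lemma aa_le_self : ∀ l : ℕ, 1 ≤ l → aa l ≤ (l : ℝ) := by
  intro l hl
  induction l, hl using Nat.le_induction with
  | base =>
    have h1 := aa_one
    have h2 := Real.log_two_lt_d9
    push_cast
    rw [h1]
    linarith
  | succ l hl ih =>
    have := aa_succ_le hl
    push_cast
    linarith

/-- All requirements on `N` in the `E5` estimate. -/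
lemma E5_params (c Cr Ct Cm a₀ : ℝ) (hCt : 0 < Ct) : ∀ᶠ N : ℕ in Filter.atTop,
    7 ≤ N ∧ Real.log (c + 1) + 1 ≤ (N : ℝ) ∧
    0 ≤ 1 - 5 * (ts N) ^ (-(7 : ℝ) / 20) ∧
    (N : ℝ) + 6 + tol N ≤ 2 * (N : ℝ) ∧
    (K1 N : ℝ) * aa (K1 N + 1) + Cr + 2 * (N : ℝ) * (5 * (ts N) ^ (-(7 : ℝ) / 20))
        + 3 * ((K1 N : ℝ) + 1) ≤ tol N / 2 ∧
    a₀ ≤ t0 N ∧ t0 N ≤ (N : ℝ) + 4 ∧ Cm * Real.exp (-t0 N) ≤ 1 ∧
    Ct * (((N : ℝ) + 6) ^ U0 N * (((K1 N : ℝ) + 2) * ((N : ℝ) + 7) ^ (K1 N + 1)))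
        * Real.exp (-(tol N / 2)) ≤ Real.exp (-(N : ℝ) ^ ((7 : ℝ) / 10)) := by
  have h1 := tendsto_uu.eventually (E5_poly (Real.log Ct) Cr)
  have h2 := tendsto_uu.eventually (Filter.eventually_ge_atTop (max 10 (max a₀ Cm)))
  filter_upwards [h1, h2, Filter.eventually_ge_atTop 7,
    Filter.eventually_ge_atTop (⌈Real.log (c + 1) + 1⌉₊)] with N hN1 hN2 hN7 hN8
  obtain ⟨hu1, hP1, hP2⟩ := hN1
  have hu10 : 10 ≤ uu N := le_trans (le_max_left _ _) hN2
  have hua : a₀ ≤ uu N := le_trans (le_trans (le_max_left _ _) (le_max_right _ _)) hN2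
  have huC : Cm ≤ uu N := le_trans (le_trans (le_max_right _ _) (le_max_right _ _)) hN2
  have hN1' : 1 ≤ N := by omega
  have hN0 : (0 : ℝ) < N := by exact_mod_cast hN1'
  set u := uu N with hu
  have hNu : (N : ℝ) = u ^ 100 := N_eq_uu N
  have htol : tol N = u ^ 75 := tol_eq N
  have ht0 : t0 N = u ^ 80 := t0_eq N
  have hts := ts_rpow_le N hN1'
  rw [← hu] at hts
  have hdp : 0 ≤ (ts N) ^ (-(7 : ℝ) / 20) := by
    apply Real.rpow_nonneg
    unfold ts
    rw [ht0]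
    positivity
  have hu28 : (10 : ℝ) ≤ u ^ 28 := by
    calc (10 : ℝ) ≤ u := hu10
      _ = u ^ 1 := (pow_one u).symm
      _ ≤ u ^ 28 := pow_le_pow_right₀ hu1 (by norm_num)
  have hdelta : (ts N) ^ (-(7 : ℝ) / 20) ≤ 1 / 5 := by
    have : (ts N) ^ (-(7 : ℝ) / 20) * 10 ≤ (ts N) ^ (-(7 : ℝ) / 20) * u ^ 28 :=
      mul_le_mul_of_nonneg_left hu28 hdp
    linarith
  have hK0 : (0 : ℝ) ≤ K1 N := Nat.cast_nonneg _
  have hKu := K1_le_uu N hN1'
  rw [← hu] at hKu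
  have hUu := U0_le_uu N hN1'
  rw [← hu] at hUu
  have haa : aa (K1 N + 1) ≤ (K1 N : ℝ) + 1 := by
    have := aa_le_self (K1 N + 1) (by omega)
    push_cast at this
    exact this
  refine ⟨hN7, ?_, by linarith, ?_, ?_, ?_, ?_, ?_, ?_⟩
  · have := Nat.le_ceil (Real.log (c + 1) + 1)
    have h3 : ((⌈Real.log (c + 1) + 1⌉₊ : ℕ) : ℝ) ≤ (N : ℝ) := by exact_mod_cast hN8
    linarith
  · rw [htol, hNu]
    have h1 : u ^ 75 * 2 ≤ u ^ 75 * u ^ 25 := by
      apply mul_le_mul_of_nonneg_left _ (by positivity)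
      calc (2 : ℝ) ≤ u := by linarith
        _ = u ^ 1 := (pow_one u).symm
        _ ≤ u ^ 25 := pow_le_pow_right₀ hu1 (by norm_num)
    have h2 : u ^ 100 = u ^ 75 * u ^ 25 := by ring
    have h3 : u ≤ u ^ 75 := by
      calc u = u ^ 1 := (pow_one u).symm
        _ ≤ u ^ 75 := pow_le_pow_right₀ hu1 (by norm_num)
    nlinarith
  · have h5 : (K1 N : ℝ) * aa (K1 N + 1) ≤ (18 * u ^ 20 + 1) * (18 * u ^ 20 + 2) := by
      apply mul_le_mul hKu (by linarith) _ (by positivity)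
      have := aa_nonneg_of_pos (l := K1 N + 1) (by omega)
      linarith
    have h6 : 2 * (N : ℝ) * (5 * (ts N) ^ (-(7 : ℝ) / 20)) ≤ 20 * u ^ 72 := by
      have : 2 * (N : ℝ) * (5 * (ts N) ^ (-(7 : ℝ) / 20))
          = 10 * u ^ 72 * ((ts N) ^ (-(7 : ℝ) / 20) * u ^ 28) := by
        rw [hNu]; ring
      rw [this]
      have h7 : (0 : ℝ) ≤ 10 * u ^ 72 := by positivity
      nlinarith
    rw [htol]
    linarith
  · rw [ht0]
    calc a₀ ≤ u := hua
      _ = u ^ 1 := (pow_one u).symm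
      _ ≤ u ^ 80 := pow_le_pow_right₀ hu1 (by norm_num)
  · rw [ht0, hNu]
    have : u ^ 80 ≤ u ^ 100 := pow_le_pow_right₀ hu1 (by norm_num)
    linarith
  · rw [ht0]
    have h80 : u ≤ u ^ 80 := by
      calc u = u ^ 1 := (pow_one u).symm
        _ ≤ u ^ 80 := pow_le_pow_right₀ hu1 (by norm_num)
    have h9 : u ^ 80 + 1 ≤ Real.exp (u ^ 80) := Real.add_one_le_exp _
    have hexp : 0 < Real.exp (u ^ 80) := Real.exp_pos _
    rw [Real.exp_neg, ← div_eq_mul_inv, div_le_one hexp]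
    linarith
  · -- the logarithmic comparison
    have hN7' : (7 : ℝ) ≤ N := by exact_mod_cast hN7
    have hL : Real.log ((N : ℝ) + 7) ≤ 100 * u + 1 := by
      have h1 : Real.log ((N : ℝ) + 7) ≤ Real.log (2 * (N : ℝ)) :=
        Real.log_le_log (by linarith) (by linarith)
      rw [Real.log_mul (by norm_num) hN0.ne'] at h1
      have h2 := log_le_uu N hN1'
      rw [← hu] at h2
      have h3 := Real.log_two_lt_d9
      linarith
    have hL0 : 0 ≤ Real.log ((N : ℝ) + 7) := Real.log_nonneg (by linarith)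
    have e1 : ((N : ℝ) + 6) ^ U0 N ≤ Real.exp ((U0 N : ℝ) * Real.log ((N : ℝ) + 7)) := by
      rw [mul_comm, Real.exp_mul, Real.exp_log (by linarith), Real.rpow_natCast]
      apply pow_le_pow_left₀ (by linarith) (by linarith)
    have e2 : (K1 N : ℝ) + 2 ≤ Real.exp ((K1 N : ℝ) + 2) := by
      have := Real.add_one_le_exp ((K1 N : ℝ) + 2)
      linarith
    have e3 : ((N : ℝ) + 7) ^ (K1 N + 1) = Real.exp (((K1 N : ℝ) + 1) * Real.log ((N : ℝ) + 7)) := by
      rw [mul_comm, Real.exp_mul, Real.exp_log (by linarith)]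
      rw [← Real.rpow_natCast]
      push_cast
      rfl
    have e4 : Ct = Real.exp (Real.log Ct) := (Real.exp_log hCt).symm
    have e5 : ((N : ℝ) + 6) ^ U0 N * (((K1 N : ℝ) + 2) * ((N : ℝ) + 7) ^ (K1 N + 1))
        ≤ Real.exp ((U0 N : ℝ) * Real.log ((N : ℝ) + 7)) *
          (Real.exp ((K1 N : ℝ) + 2) * Real.exp (((K1 N : ℝ) + 1) * Real.log ((N : ℝ) + 7))) := by
      rw [e3]
      apply mul_le_mul e1 _ (by positivity) (by positivity)
      apply mul_le_mul_of_nonneg_right e2 (by positivity)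
    calc Ct * (((N : ℝ) + 6) ^ U0 N * (((K1 N : ℝ) + 2) * ((N : ℝ) + 7) ^ (K1 N + 1)))
          * Real.exp (-(tol N / 2))
        ≤ Ct * (Real.exp ((U0 N : ℝ) * Real.log ((N : ℝ) + 7)) *
          (Real.exp ((K1 N : ℝ) + 2) * Real.exp (((K1 N : ℝ) + 1) * Real.log ((N : ℝ) + 7))))
          * Real.exp (-(tol N / 2)) := by
          apply mul_le_mul_of_nonneg_right _ (Real.exp_pos _).le
          exact mul_le_mul_of_nonneg_left e5 hCt.le
      _ = Real.exp (Real.log Ct + ((U0 N : ℝ) * Real.log ((N : ℝ) + 7) + (((K1 N : ℝ) + 2)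
            + ((K1 N : ℝ) + 1) * Real.log ((N : ℝ) + 7))) + (-(tol N / 2))) := by
          simp only [Real.exp_add, Real.exp_log hCt]
      _ ≤ Real.exp (-(N : ℝ) ^ ((7 : ℝ) / 10)) := by
          apply Real.exp_le_exp.2
          have h7 : (N : ℝ) ^ ((7 : ℝ) / 10) = u ^ 70 := by
            rw [hu, uu_rpow]; norm_num
          rw [h7, htol]
          have h8 : (U0 N : ℝ) * Real.log ((N : ℝ) + 7) ≤ (2000 * u + 1) * (100 * u + 1) :=
            mul_le_mul hUu hL hL0 (by positivity)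
          have h9 : ((K1 N : ℝ) + 1) * Real.log ((N : ℝ) + 7) ≤ (18 * u ^ 20 + 2) * (100 * u + 1) :=
            mul_le_mul (by linarith) hL hL0 (by positivity)
          linarith

/-- Good cell vectors. -/
def goodCell (N : ℕ) (b : List ℕ) : Prop :=
  b ≠ [] ∧ ((b.headD 0 : ℕ) : ℝ) ≤ (N : ℝ) + 6 ∧
    ((b.headD 0 : ℕ) : ℝ) + tol N - (K1 N : ℝ) * aa (K1 N + 1) ≤ ThB N 0 b.tail ∧ b.length ≤ K1 N + 1

def goodCells (N : ℕ) : Finset (List ℕ) :=
  (Finset.range (K1 N + 2)).biUnion (fun k => (cellSet N k).filter (goodCell N))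

lemma goodCells_card (N : ℕ) :
    ((goodCells N).card : ℝ) ≤ ((K1 N : ℝ) + 2) * ((N : ℝ) + 7) ^ (K1 N + 1) := by
  have h1 : ((goodCells N).card : ℝ) ≤
      ∑ k ∈ Finset.range (K1 N + 2), (((cellSet N k).filter (goodCell N)).card : ℝ) := by
    unfold goodCells
    exact_mod_cast Finset.card_biUnion_le
  have h2 : ∀ k ∈ Finset.range (K1 N + 2), (((cellSet N k).filter (goodCell N)).card : ℝ)
      ≤ ((N : ℝ) + 7) ^ (K1 N + 1) := by
    intro k hk
    have h3 : (((cellSet N k).filter (goodCell N)).card : ℝ) ≤ ((cellSet N k).card : ℝ) := by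
      exact_mod_cast Finset.card_filter_le _ _
    have h4 := cellSet_card N k
    have h5 : ((N : ℝ) + 7) ^ k ≤ ((N : ℝ) + 7) ^ (K1 N + 1) := by
      apply pow_le_pow_right₀
      · have : (0 : ℝ) ≤ N := Nat.cast_nonneg N
        linarith
      · have := Finset.mem_range.1 hk
        omega
    linarith
  have h3 := Finset.sum_le_sum h2
  rw [Finset.sum_const, Finset.card_range, nsmul_eq_mul] at h3
  push_cast at h3
  linarith

lemma mem_goodCells {N : ℕ} {b : List ℕ} (h : goodCell N b) (hb : ∀ c ∈ b, c ≤ N + 6) :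
    b ∈ goodCells N := by
  unfold goodCells
  refine Finset.mem_biUnion.2 ⟨b.length, Finset.mem_range.2 (by have := h.2.2.2; omega), ?_⟩
  exact Finset.mem_filter.2 ⟨mem_cellSet hb, h⟩

/-- Mass of tails attached to a good cell vector. -/
lemma exponent_good {N : ℕ} {b : List ℕ} {Cr : ℝ} (hb : goodCell N b)
    (hts : 0 ≤ ts N)
    (h1 : 0 ≤ 1 - 5 * (ts N) ^ (-(7 : ℝ) / 20))
    (h2 : (N : ℝ) + 6 + tol N ≤ 2 * (N : ℝ))
    (h3 : (K1 N : ℝ) * aa (K1 N + 1) + Cr + 2 * (N : ℝ) * (5 * (ts N) ^ (-(7 : ℝ) / 20))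
        + 3 * ((K1 N : ℝ) + 1) ≤ tol N / 2)
    (hK : 0 ≤ (K1 N : ℝ) * aa (K1 N + 1)) :
    ((b.headD 0 : ℕ) : ℝ) + Cr - (1 - 5 * (ts N) ^ (-(7 : ℝ) / 20)) * ThB N 0 b.tail
        + 3 * (b.length : ℝ) ≤ - (tol N / 2) := by
  obtain ⟨_, hb1, hb2, hb3⟩ := hb
  have hd0 : 0 ≤ 5 * (ts N) ^ (-(7 : ℝ) / 20) :=
    mul_nonneg (by norm_num) (Real.rpow_nonneg hts _)
  set d := 5 * (ts N) ^ (-(7 : ℝ) / 20) with hd
  set T0 := ((b.headD 0 : ℕ) : ℝ) + tol N - (K1 N : ℝ) * aa (K1 N + 1) with hT0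
  have h4 : (1 - d) * T0 ≤ (1 - d) * ThB N 0 b.tail := mul_le_mul_of_nonneg_left hb2 h1
  have h5 : d * T0 ≤ d * (2 * (N : ℝ)) := by
    apply mul_le_mul_of_nonneg_left _ hd0
    rw [hT0]
    linarith
  have e : (1 - d) * T0 = T0 - d * T0 := by ring
  have e2 : d * (2 * (N : ℝ)) = 2 * (N : ℝ) * d := by ring
  have h6 : (b.length : ℝ) ≤ (K1 N : ℝ) + 1 := by exact_mod_cast hb3
  rw [e] at h4
  rw [e2] at h5
  rw [hT0] at h4
  linarith

/-- Initial segments of rows. -/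
def E5Pre (N : ℕ) : Finset (List ℕ) :=
  (listSet (primesLev (t0 N) ((N : ℝ) + 4)) (U0 N)).filter (fun l => rowsProd l ≠ 0)

/-- Tails attached to a cell vector. -/
def E5Tail (N : ℕ) (x c : ℝ) (b : List ℕ) : Finset ℕ :=
  (Finset.Icc 1 ⌊c * x⌋₊).filter (fun m => Clean N m ∧ (∃ l, RowsIn N b l ∧ rowsProd l ∣ m) ∧
    ∀ r : ℕ, r.Prime → r ∣ m → lev r ≤ (b.headD 0 : ℕ) + 1)

/-- Low parts. -/
def E5Low (N : ℕ) : Finset ℕ :=
  (Finset.range (Bnd N)).filter (fun m => LowVal N m ∧ Clean N m)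

/-- Top primes. -/
def E5Top (x c : ℝ) (m : ℕ) : Finset ℕ :=
  (Finset.range (⌊c * x⌋₊ + 2)).filter (fun p : ℕ => p.Prime ∧ Real.log x / 600 ≤ Real.log p ∧
        (p - 1) * m ∈ Win x c)

lemma low_lt_Bnd {N low : ℕ} (h : LowVal N low) : low < Bnd N := by
  obtain ⟨_, _, _, _, h4⟩ := h
  have h1 : (1 : ℝ) ≤ Ymax N := by
    unfold Ymax
    apply Real.one_le_exp
    positivity
  have h2 : (low : ℝ) ≤ (Ymax N) ^ 2 := by nlinarith
  have h3 : (low : ℝ) ≤ (⌈(Ymax N) ^ 2⌉₊ : ℝ) := le_trans h2 (Nat.le_ceil _)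
  have h5 : low ≤ ⌈(Ymax N) ^ 2⌉₊ := by exact_mod_cast h3
  unfold Bnd
  omega

/-- Rows have bounded level. -/
lemma lev_le_of_win {c x : ℝ} {N q : ℕ} (hc : 1 < c) (hx : 1 < x) (hxN : |levR x - N| ≤ 2)
    (hN : Real.log (c + 1) + 1 ≤ (N : ℝ)) (hq : 2 ≤ q) (hq2 : q - 1 ≤ ⌊c * x⌋₊) :
    lev q ≤ (N : ℝ) + 3 := by
  have hlx : 0 < Real.log x := Real.log_pos hx
  have hlev : Real.exp (levR x) = Real.log x := Real.exp_log hlx
  have hab := abs_le.1 hxN
  have hcx : (0 : ℝ) ≤ c * x := by positivity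
  have h1 : (q : ℝ) ≤ c * x + 1 := by
    have h2 : ((q - 1 : ℕ) : ℝ) ≤ c * x := le_trans (by exact_mod_cast hq2) (Nat.floor_le hcx)
    rw [Nat.cast_sub (by omega)] at h2
    simp only [Nat.cast_one] at h2
    linarith
  have h3 : c * x + 1 ≤ (c + 1) * x := by nlinarith
  have hq0 : (0 : ℝ) < q := by
    have : (2 : ℝ) ≤ q := by exact_mod_cast hq
    linarith
  have h4 : Real.log q ≤ Real.log (c + 1) + Real.log x := by
    rw [← Real.log_mul (by linarith) (by linarith)]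
    exact Real.log_le_log hq0 (by linarith)
  have h5 : (N : ℝ) - 2 + 1 ≤ Real.exp (levR x) := by
    have h6 := Real.add_one_le_exp (levR x)
    have h7 : (N : ℝ) - 2 ≤ levR x := by linarith [hab.1]
    have h8 := Real.exp_le_exp.2 h7
    have h9 := Real.add_one_le_exp ((N : ℝ) - 2)
    linarith
  have h6 : Real.log (c + 1) ≤ Real.log x := by
    rw [← hlev]
    linarith
  have hq1 : 0 < Real.log q := Real.log_pos (by
    have : (2 : ℝ) ≤ q := by exact_mod_cast hq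
    linarith)
  unfold lev
  have h7 : Real.log (Real.log q) ≤ Real.log (2 * Real.log x) :=
    Real.log_le_log hq1 (by linarith)
  rw [Real.log_mul (by norm_num) hlx.ne'] at h7
  have h8 := Real.log_two_lt_d9
  have h9 : levR x = Real.log (Real.log x) := rfl
  linarith [hab.2]

lemma card_biUnion_real_le {α : Type} (s : Finset α) (f : α → Finset ℕ) (B : α → ℝ)
    (h : ∀ a ∈ s, ((f a).card : ℝ) ≤ B a) : ((s.biUnion f).card : ℝ) ≤ ∑ a ∈ s, B a := by
  have h1 : ((s.biUnion f).card : ℝ) ≤ ∑ a ∈ s, ((f a).card : ℝ) := by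
    exact_mod_cast Finset.card_biUnion_le
  exact le_trans h1 (Finset.sum_le_sum h)


end
end E5Aux
end Vale.Agent.Lib.P031V
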