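import Vale.Agent.Lib.P031V.NormalP

/-! # P031: first moment over the top prime (Chebyshev form), blueprint section 7. -/

namespace Vale.Agent.Lib.P031V
open Real Finset
open scoped Classical
noncomputable section

/-- Chebyshev upper bound in a global form. -/
theorem pi_le_five (y : ℝ) (hy : 1 < y) :
    (Nat.primeCounting ⌊y⌋₊ : ℝ) ≤ 5 * (y / Real.log y) := by
  have h := Chebyshev.pi_le_log4_mul_div hy
  have hy0 : 0 < y := by linarith
  have hl : 0 < Real.log y := Real.log_pos hy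
  have hs : Real.log (Real.sqrt y) = Real.log y / 2 := Real.log_sqrt hy0.le
  have hss : 0 < Real.sqrt y := Real.sqrt_pos.mpr hy0
  have h1 : Real.log (Real.sqrt y) ≤ Real.sqrt y - 1 := Real.log_le_sub_one_of_pos hss
  have hsq : Real.sqrt y * Real.sqrt y = y := Real.mul_self_sqrt hy0.le
  have h2 : Real.sqrt y ≤ 2 * (y / Real.log y) := by
    have e : 2 * (y / Real.log y) = 2 * y / Real.log y := by ring
    rw [e, le_div_iff₀ hl]
    rw [hs] at h1
    nlinarith
  have h4 : Real.log 4 ≤ 1.4 := by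
    have : Real.log 4 = 2 * Real.log 2 := by
      rw [show (4 : ℝ) = 2 ^ 2 by norm_num, Real.log_pow]; norm_num
    have h5 := Real.log_two_lt_d9
    rw [this]; linarith
  rw [hs] at h
  have e3 : Real.log 4 * y / (Real.log y / 2) = 2 * Real.log 4 * (y / Real.log y) := by
    field_simp
  rw [e3] at h
  have hq : 0 ≤ y / Real.log y := by positivity
  nlinarith

/-- The number of primes up to `n` by a filter. -/
lemma primeCounting_eq_card (n : ℕ) :
    Nat.primeCounting n = ((Finset.range (n + 1)).filter Nat.Prime).card := by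
  simp [Nat.primeCounting, Nat.primeCounting', Nat.count_eq_card_filter_range]

/-- Basic facts on a member of the window family. -/
lemma top_member {c x : ℝ} (hc : 1 < c) (hx : 1 < x) {m p : ℕ} (hm : m ≠ 0)
    (hp : p.Prime) (hw : (p - 1) * m ∈ Win x c) :
    (p : ℝ) ≤ c * x / m + 1 ∧ 1 ≤ c * x / m := by
  have hc0 : 0 < c := by linarith
  have hx0 : 0 < x := by linarith
  have hm0 : (0 : ℝ) < m := by exact_mod_cast Nat.pos_of_ne_zero hm
  have hle : ((p - 1) * m : ℕ) ≤ ⌊c * x⌋₊ := (Finset.mem_Ioc.1 hw).2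
  have hle2 : (((p - 1) * m : ℕ) : ℝ) ≤ c * x :=
    (Nat.cast_le.2 hle).trans (Nat.floor_le (by positivity))
  have h2 := hp.two_le
  have hcast : ((p - 1 : ℕ) : ℝ) = (p : ℝ) - 1 := by
    rw [Nat.cast_sub (by omega)]; simp
  have h3 : ((p : ℝ) - 1) * m ≤ c * x := by
    rw [← hcast]; exact_mod_cast hle2
  have hp2 : (2 : ℝ) ≤ p := by exact_mod_cast h2
  constructor
  · have : (p : ℝ) - 1 ≤ c * x / m := by
      rw [le_div_iff₀ hm0]; exact h3
    linarith
  · rw [le_div_iff₀ hm0]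
    nlinarith

/-- First moment. -/
theorem top_prime_count (c : ℝ) (hc : 1 < c) : ∃ (C : ℝ) (N₀ : ℕ), 0 < C ∧ ∀ N ≥ N₀, ∀ x : ℝ, 1 < x → |levR x - N| ≤ 2 →
    ∀ m : ℕ, m ≠ 0 →
    (((Finset.range (⌊c * x⌋₊ + 2)).filter (fun p : ℕ => p.Prime ∧ Real.log x / 600 ≤ Real.log p ∧
        (p - 1) * m ∈ Win x c)).card : ℝ) ≤ C * (x / m) / Real.log x := by
  refine ⟨6000 * c, 0, by positivity, ?_⟩
  intro N _ x hx _ m hm
  have hc0 : 0 < c := by linarith
  have hx0 : 0 < x := by linarith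
  have hlx : 0 < Real.log x := Real.log_pos hx
  have hm0 : (0 : ℝ) < m := by exact_mod_cast Nat.pos_of_ne_zero hm
  set A := (Finset.range (⌊c * x⌋₊ + 2)).filter (fun p : ℕ => p.Prime ∧ Real.log x / 600 ≤ Real.log p ∧
        (p - 1) * m ∈ Win x c) with hA
  rcases A.eq_empty_or_nonempty with he | ⟨p0, hp0⟩
  · rw [he]; simp only [Finset.card_empty, Nat.cast_zero]; positivity
  obtain ⟨-, hp0p, hp0l, hp0w⟩ := Finset.mem_filter.1 hp0
  obtain ⟨hY, hY1⟩ := top_member hc hx hm hp0p hp0w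
  set Y : ℝ := c * x / m + 1 with hYdef
  have hp02 : (2 : ℝ) ≤ p0 := by exact_mod_cast hp0p.two_le
  have hY1' : 1 < Y := by linarith
  have hlogY : Real.log x / 600 ≤ Real.log Y :=
    hp0l.trans (Real.log_le_log (by linarith) hY)
  have hlY : 0 < Real.log Y := Real.log_pos hY1'
  have hsub : A ⊆ (Finset.range (⌊Y⌋₊ + 1)).filter Nat.Prime := by
    intro p hp
    obtain ⟨-, hpp, _, hpw⟩ := Finset.mem_filter.1 hp
    obtain ⟨h1, _⟩ := top_member hc hx hm hpp hpw
    refine Finset.mem_filter.2 ⟨Finset.mem_range.2 ?_, hpp⟩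
    have : p ≤ ⌊Y⌋₊ := Nat.le_floor h1
    omega
  have hcard : (A.card : ℝ) ≤ 5 * (Y / Real.log Y) := by
    have h1 : A.card ≤ Nat.primeCounting ⌊Y⌋₊ := by
      rw [primeCounting_eq_card]; exact Finset.card_le_card hsub
    exact (Nat.cast_le.2 h1).trans (pi_le_five Y hY1')
  refine hcard.trans ?_
  have hY2 : Y ≤ 2 * c * (x / m) := by
    have : c * x / m = c * (x / m) := by ring
    rw [hYdef]; rw [this] at hY1 ⊢; linarith
  have hYpos : 0 < Y := by linarith
  have h5 : Y / Real.log Y ≤ (2 * c * (x / m)) / (Real.log x / 600) :=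
    div_le_div₀ (by positivity) hY2 (by positivity) hlogY
  have e : (2 * c * (x / m)) / (Real.log x / 600) = 1200 * c * (x / m) / Real.log x := by
    field_simp
    ring
  rw [e] at h5
  have e2 : 6000 * c * (x / m) / Real.log x = 5 * (1200 * c * (x / m) / Real.log x) := by ring
  rw [e2]
  linarith

/-- The same for abnormal `p`. -/
theorem top_prime_abn (c : ℝ) (hc : 1 < c) : ∃ (C : ℝ) (N₀ : ℕ), 0 < C ∧ ∀ N ≥ N₀, ∀ x : ℝ, 1 < x → |levR x - N| ≤ 2 →
    ∀ m : ℕ, m ≠ 0 →
    (((Finset.range (⌊c * x⌋₊ + 2)).filter (fun p : ℕ => p.Prime ∧ ¬ Normal N p ∧ Real.log x / 600 ≤ Real.log p ∧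
        (p - 1) * m ∈ Win x c)).card : ℝ) ≤ C * eps0 N * (x / m) / Real.log x := by
  obtain ⟨N₁, hN₁⟩ := abn_count_le
  have hc0 : 0 < c := by linarith
  -- `N₀` such that `log (c + 1) ≤ exp (N₀ - 2)`
  obtain ⟨N₂, hN₂⟩ : ∃ N₂ : ℕ, Real.log (c + 1) + 2 ≤ (N₂ : ℝ) := exists_nat_ge _
  refine ⟨3600 * c, max N₁ (N₂ + 3), by positivity, ?_⟩
  intro N hN x hx hlev m hm
  have hNa : N₁ ≤ N := le_trans (le_max_left _ _) hN
  have hNb : N₂ + 3 ≤ N := le_trans (le_max_right _ _) hN
  have hNb' : (N₂ : ℝ) + 3 ≤ N := by exact_mod_cast hNb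
  have hx0 : 0 < x := by linarith
  have hlx : 0 < Real.log x := Real.log_pos hx
  have hm0 : (0 : ℝ) < m := by exact_mod_cast Nat.pos_of_ne_zero hm
  have heps : 0 < eps0 N := Real.exp_pos _
  set A := (Finset.range (⌊c * x⌋₊ + 2)).filter (fun p : ℕ => p.Prime ∧ ¬ Normal N p ∧ Real.log x / 600 ≤ Real.log p ∧
        (p - 1) * m ∈ Win x c) with hA
  rcases A.eq_empty_or_nonempty with he | ⟨p0, hp0⟩
  · rw [he]; simp only [Finset.card_empty, Nat.cast_zero]; positivity
  obtain ⟨-, hp0p, _, hp0l, hp0w⟩ := Finset.mem_filter.1 hp0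
  obtain ⟨hY, hY1⟩ := top_member hc hx hm hp0p hp0w
  set Y : ℝ := c * x / m + 1 with hYdef
  have hp02 : (2 : ℝ) ≤ p0 := by exact_mod_cast hp0p.two_le
  have hY1' : 1 < Y := by linarith
  have hlogY : Real.log x / 600 ≤ Real.log Y :=
    hp0l.trans (Real.log_le_log (by linarith) hY)
  have hlY : 0 < Real.log Y := Real.log_pos hY1'
  -- level facts
  have hlev' := abs_le.1 hlev
  have hlevx : Real.log (Real.log x) = levR x := rfl
  have hexp : Real.exp (levR x) = Real.log x := by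
    rw [← hlevx]; exact Real.exp_log hlx
  have h600 : Real.log 600 ≤ 7 := by
    rw [Real.log_le_iff_le_exp (by norm_num)]
    have h := Real.add_one_le_exp (1 : ℝ)
    have h7 : Real.exp 7 = Real.exp 1 ^ 7 := by
      rw [← Real.exp_nat_mul]; norm_num
    rw [h7]
    have h2 : (2.7 : ℝ) ≤ Real.exp 1 := by
      have := Real.exp_one_gt_d9; linarith
    calc (600 : ℝ) ≤ 2.7 ^ 7 := by norm_num
      _ ≤ Real.exp 1 ^ 7 := pow_le_pow_left₀ (by norm_num) h2 7
  -- lower level of `Y`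
  have hlowlog : Real.exp ((N : ℝ) - 9) ≤ Real.log x / 600 := by
    rw [le_div_iff₀ (by norm_num), ← hexp]
    have h1 : (600 : ℝ) = Real.exp (Real.log 600) := (Real.exp_log (by norm_num)).symm
    rw [h1, ← Real.exp_add]
    apply Real.exp_le_exp.2
    linarith [hlev'.1]
  have hYlow : (N : ℝ) - 9 ≤ levR Y := by
    show (N : ℝ) - 9 ≤ Real.log (Real.log Y)
    rw [Real.le_log_iff_exp_le hlY]
    linarith
  have hYup : levR Y ≤ (N : ℝ) + 4 := by
    show Real.log (Real.log Y) ≤ (N : ℝ) + 4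
    rw [Real.log_le_iff_le_exp hlY]
    -- `Y ≤ (c + 1) x`
    have hm1 : (1 : ℝ) ≤ m := by exact_mod_cast Nat.pos_of_ne_zero hm
    have hY3 : Y ≤ (c + 1) * x := by
      have : c * x / m ≤ c * x := div_le_self (by positivity) hm1
      rw [hYdef]; nlinarith
    have h3 : Real.log Y ≤ Real.log (c + 1) + Real.log x := by
      rw [← Real.log_mul (by positivity) hx0.ne']
      exact Real.log_le_log (by linarith) hY3
    have h4 : Real.log (c + 1) ≤ Real.log x := by
      rw [← hexp]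
      have h5 : Real.log (c + 1) ≤ (N : ℝ) - 2 - 1 := by linarith
      have h6 := Real.add_one_le_exp (levR x)
      linarith [hlev'.1]
    have h7 : Real.log x ≤ Real.exp ((N : ℝ) + 2) := by
      rw [← hexp]; apply Real.exp_le_exp.2; linarith [hlev'.2]
    have h8 : Real.exp ((N : ℝ) + 4) = Real.exp ((N : ℝ) + 2) * Real.exp 2 := by
      rw [← Real.exp_add]; ring_nf
    have h9 : (2 : ℝ) ≤ Real.exp 2 := by
      have := Real.add_one_le_exp (2 : ℝ); linarith
    have h10 : 0 < Real.exp ((N : ℝ) + 2) := Real.exp_pos _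
    rw [h8]
    nlinarith
  have hsub : A ⊆ (Finset.Icc (⌈Real.exp (Real.exp ((N : ℝ) - 9))⌉₊) ⌊Y⌋₊).filter
      (fun p => p.Prime ∧ ¬ Normal N p) := by
    intro p hp
    obtain ⟨-, hpp, hpn, hpl, hpw⟩ := Finset.mem_filter.1 hp
    obtain ⟨h1, _⟩ := top_member hc hx hm hpp hpw
    have hppos : (0 : ℝ) < p := by exact_mod_cast hpp.pos
    refine Finset.mem_filter.2 ⟨Finset.mem_Icc.2 ⟨?_, Nat.le_floor h1⟩, hpp, hpn⟩
    apply Nat.ceil_le.2
    have : Real.exp ((N : ℝ) - 9) ≤ Real.log p := hlowlog.trans hpl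
    calc Real.exp (Real.exp ((N : ℝ) - 9)) ≤ Real.exp (Real.log p) := Real.exp_le_exp.2 this
      _ = p := Real.exp_log hppos
  have hcard : (A.card : ℝ) ≤ 3 * eps0 N * (Y / Real.log Y) :=
    (Nat.cast_le.2 (Finset.card_le_card hsub)).trans (hN₁ N hNa Y hY1' hYlow hYup)
  refine hcard.trans ?_
  have hY2 : Y ≤ 2 * c * (x / m) := by
    have : c * x / m = c * (x / m) := by ring
    rw [hYdef]; rw [this] at hY1 ⊢; linarith
  have hYpos : 0 < Y := by linarith
  have h5 : Y / Real.log Y ≤ (2 * c * (x / m)) / (Real.log x / 600) :=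
    div_le_div₀ (by positivity) hY2 (by positivity) hlogY
  have e : (2 * c * (x / m)) / (Real.log x / 600) = 1200 * c * (x / m) / Real.log x := by
    field_simp
    ring
  rw [e] at h5
  have e2 : 3600 * c * eps0 N * (x / m) / Real.log x
      = 3 * eps0 N * (1200 * c * (x / m) / Real.log x) := by ring
  rw [e2]
  exact mul_le_mul_of_nonneg_left h5 (by positivity)

end
end Vale.Agent.Lib.P031V
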