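import Vale.Agent.Lib.P031V.NegBE4
import Vale.Agent.Lib.P031V.NegBTop
import Vale.Agent.Lib.P031V.NegBE5
import Vale.Agent.Lib.P031V.E67Aux

/-! # P031: negligible sets E4..E7 and the first moment, blueprint section 7. -/

namespace Vale.Agent.Lib.P031V
open Real Finset
open scoped Classical
noncomputable section

/-- Structure of a totient outside E1,E2,E3: rows `p :: t` and low part. -/
structure Struct (N : ℕ) (x : ℝ) (p : ℕ) (t : List ℕ) (low v : ℕ) : Prop where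
  sorted : (p :: t).Pairwise (· > ·)
  prime : ∀ q ∈ p :: t, q.Prime ∧ t0 N ≤ lev q
  top : Real.log x / 600 ≤ Real.log p
  lowv : LowVal N low
  eq : v = rowsProd (p :: t) * low
  clean : Clean N v

/-- E4: some row abnormal. -/
def E4 (N : ℕ) (x c : ℝ) : Finset ℕ :=
  (Win x c).filter (fun v => ∃ p t low, Struct N x p t low v ∧ ∃ q ∈ p :: t, ¬ Normal N q)

theorem E4_card (c : ℝ) (hc : 1 < c) : ∃ N₀ : ℕ, ∀ N ≥ N₀, ∀ x : ℝ, 1 < x → |levR x - N| ≤ 2 →
    ((E4 N x c).card : ℝ) ≤ (x / Real.log x) * Real.exp (-(N : ℝ) ^ ((22 : ℝ) / 100)) * (Mlow N + 1) := by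
  obtain ⟨N₀, h⟩ := E4_core c hc (top_prime_count c hc) (top_prime_abn c hc)
  refine ⟨N₀, fun N hN x hx hlev => h N hN x hx hlev _ ?_⟩
  intro v hv
  obtain ⟨hw, p, t, low, hS, q, hq, hqn⟩ := Finset.mem_filter.1 hv
  exact ⟨hw, p, t, low, hS.sorted, hS.prime, hS.top, hS.lowv, hS.eq, hS.clean, q, hq, hqn⟩

/-- E5: all rows normal, some tail row with slack `< -tol`. -/
def E5 (N : ℕ) (x c : ℝ) : Finset ℕ :=
  (Win x c).filter (fun v => ∃ p t low, Struct N x p t low v ∧ (∀ q ∈ p :: t, Normal N q) ∧ ¬ Adm N t)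

open E5Aux in
/-- Decomposition of a member of `E5`. -/
lemma E5_decomp {c x : ℝ} {N v : ℕ} (hc : 1 < c) (hx : 1 < x) (hxN : |levR x - N| ≤ 2)
    (hN1 : 1 ≤ N)
    (hlog : Real.log (c + 1) + 1 ≤ (N : ℝ))
    (hNtol : (N : ℝ) + 6 + tol N ≤ 2 * (N : ℝ))
    (hlen : ∀ l : List ℕ, l.Pairwise (· > ·) → (∀ p ∈ l, p.Prime) →
      (∀ p ∈ l, t0 N ≤ lev p ∧ lev p ≤ (N : ℝ) + 6) → Adm N l → l.length ≤ U0 N)
    (hv : v ∈ E5 N x c) :
    ∃ (pre b : List ℕ) (m low p : ℕ), pre ∈ E5Pre N ∧ b ∈ goodCells N ∧ m ∈ E5Tail N x c b ∧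
      low ∈ E5Low N ∧ p ∈ E5Top x c (rowsProd pre * m * low) ∧
      v = (p - 1) * (rowsProd pre * m * low) := by
  obtain ⟨hwin, p, t, low, hS, hNorm, hA⟩ := Finset.mem_filter.1 hv
  have hNreal : (0 : ℝ) < N := by exact_mod_cast hN1
  have ht0pos : 0 < t0 N := Real.rpow_pos_of_pos hNreal _
  have hts : 0 ≤ ts N := by unfold ts; linarith
  have hwin' := Finset.mem_Ioc.1 hwin
  have hv0 : 0 < v := by omega
  have hprime : ∀ r ∈ p :: t, r.Prime ∧ t0 N ≤ lev r := hS.prime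
  have hdvd : rowsProd (p :: t) ∣ v := ⟨low, hS.eq⟩
  have hlevel : ∀ r ∈ p :: t, lev r ≤ (N : ℝ) + 3 := by
    intro r hr
    have h1 : r - 1 ∣ v := (rowsProd_dvd_of_mem hr).trans hdvd
    have h2 : r - 1 ≤ v := Nat.le_of_dvd hv0 h1
    exact lev_le_of_win hc hx hxN hlog (hprime r hr).1.two_le (by omega)
  have hbig : ∀ r ∈ p :: t, BigList N [r] := by
    intro r hr s hs
    have hs' : s = r := by simpa using hs
    rw [hs']
    have := (hprime r hr).2
    unfold ts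
    linarith
  have hbt : BigList N t := fun r hr =>
    hbig r (by simp [hr]) r (by simp)
  obtain ⟨pre, q, post, rfl, hviol, hpre⟩ := not_Adm_decomp N hts t hbt hA
  have hsort : (pre ++ q :: post).Pairwise (· > ·) := (List.pairwise_cons.1 hS.sorted).2
  have hsort1 : pre.Pairwise (· > ·) := List.Pairwise.sublist (List.sublist_append_left _ _) hsort
  have hsort2 : (q :: post).Pairwise (· > ·) := List.Pairwise.sublist (List.sublist_append_right _ _) hsort
  have hmem1 : ∀ r ∈ pre, r ∈ p :: (pre ++ q :: post) := fun r hr => by simp [hr]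
  have hmem2 : ∀ r ∈ q :: post, r ∈ p :: (pre ++ q :: post) := fun r hr => by
    simp only [List.mem_cons, List.mem_append] at hr ⊢
    tauto
  have hlenpre : pre.length ≤ U0 N := hlen pre hsort1 (fun r hr => (hprime r (hmem1 r hr)).1)
    (fun r hr => ⟨(hprime r (hmem1 r hr)).2, by
      have := hlevel r (hmem1 r hr)
      linarith⟩) hpre
  -- the objects
  set m := rowsProd (q :: post) with hm
  have hpreP : 0 < rowsProd pre := rowsProd_pos (fun r hr => (hprime r (hmem1 r hr)).1)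
  have hmP : 0 < m := rowsProd_pos (fun r hr => (hprime r (hmem2 r hr)).1)
  have hveq : v = (p - 1) * (rowsProd pre * m * low) := by
    rw [hS.eq]
    have : rowsProd (p :: (pre ++ q :: post)) = (p - 1) * rowsProd (pre ++ q :: post) := by
      simp [rowsProd]
    rw [this, rowsProd_append]
    ring
  have hlowval := hS.lowv
  have hlowP : 0 < low := by
    obtain ⟨n, hn, _, h3, _⟩ := hlowval
    rw [h3]
    exact Nat.totient_pos.2 (Nat.pos_of_ne_zero hn)
  have hclean := hS.clean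
  have hmdvd : m ∣ v := by
    rw [hveq]
    exact ⟨(p - 1) * rowsProd pre * low, by ring⟩
  have hlowdvd : low ∣ v := ⟨rowsProd (p :: (pre ++ q :: post)), by rw [hS.eq]; ring⟩
  set first := post.take (K1 N) with hfirst
  have hfsub : first.Sublist post := List.take_sublist _ _
  have hqpost : ∀ r ∈ q :: first, r ∈ q :: post := fun r hr => by
    rcases List.mem_cons.1 hr with rfl | h
    · simp
    · exact List.mem_cons_of_mem _ (hfsub.subset h)
  refine ⟨pre, (q :: first).map (fun p => ⌊lev p⌋₊), m, low, p, ?_, ?_, ?_, ?_, ?_, hveq⟩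
  · -- the first rows
    refine Finset.mem_filter.2 ⟨mem_listSet _ _ hlenpre (fun r hr => ?_), hpreP.ne'⟩
    have h1 := hprime r (hmem1 r hr)
    have h2 := hlevel r (hmem1 r hr)
    unfold primesLev
    refine Finset.mem_filter.2 ⟨Finset.mem_range.2 ?_, h1.1, h1.2, by linarith⟩
    have h3 : (r : ℝ) < Real.exp (Real.exp ((N : ℝ) + 4)) :=
      lt_exp_exp_of_level h1.1 (lt_of_le_of_lt h2 (by linarith))
    have := Nat.lt_ceil.2 h3
    omega
  · -- the cell vector
    have hqprime := hprime q (hmem2 q (by simp))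
    have hq0 : 0 ≤ lev q := by linarith
    have hqlev := hlevel q (hmem2 q (by simp))
    have hfloor : ((⌊lev q⌋₊ : ℕ) : ℝ) ≤ lev q := Nat.floor_le hq0
    have hbpost : BigList N post := fun r hr =>
      hbt r (by simp [hr])
    have hfl : first.length ≤ K1 N := by
      rw [hfirst]
      exact List.length_take_le _ _
    apply mem_goodCells
    · refine ⟨by simp, ?_, ?_, ?_⟩
      · simp only [List.map_cons, List.headD_cons]
        linarith
      · simp only [List.map_cons, List.headD_cons, List.tail_cons]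
        have h1 : lev q + tol N < Th N 0 post := by linarith
        have hK := K1_mul_ts N hN1
        have h2 := Th_take_big N hts hK post (lev q + tol N) hbpost h1 (by linarith)
        have hfirst0 : ∀ r ∈ first, 0 ≤ lev r := fun r hr => by
          have := (hprime r (hmem2 r (hqpost r (List.mem_cons_of_mem _ hr)))).2
          linarith
        have h3 := (Th_vs_ThB N 0 first hfirst0).2
        have h4 : (first.length : ℝ) * aa (0 + first.length + 1) ≤ (K1 N : ℝ) * aa (K1 N + 1) := by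
          apply mul_le_mul (by exact_mod_cast hfl) _ _ (by positivity)
          · apply aa_mono
            omega
          · have := aa_nonneg_of_pos (l := 0 + first.length + 1) (by omega)
            linarith
        rw [← hfirst] at h2
        linarith
      · simp only [List.length_map, List.length_cons]
        omega
    · intro e he
      obtain ⟨r, hr, rfl⟩ := List.mem_map.1 he
      have hr2 := hmem2 r (hqpost r hr)
      have h1 := hlevel r hr2
      have h2 := (hprime r hr2).2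
      have h3 : ((⌊lev r⌋₊ : ℕ) : ℝ) ≤ lev r := Nat.floor_le (by linarith)
      have h4 : ((⌊lev r⌋₊ : ℕ) : ℝ) ≤ ((N + 6 : ℕ) : ℝ) := by
        push_cast
        linarith
      exact_mod_cast h4
  · -- the tail
    refine Finset.mem_filter.2 ⟨Finset.mem_Icc.2 ⟨hmP, ?_⟩, clean_of_dvd hclean hmdvd, ?_, ?_⟩
    · have := Nat.le_of_dvd hv0 hmdvd
      omega
    · refine ⟨q :: first, ⟨?_, ?_, rfl⟩, ?_⟩
      · exact List.Pairwise.sublist (List.Sublist.cons_cons _ hfsub) hsort2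
      · intro r hr
        exact hNorm r (hmem2 r (hqpost r hr))
      · simp only [hm, rowsProd, List.map_cons, List.prod_cons]
        apply mul_dvd_mul_left
        have := rowsProd_take_dvd post (K1 N)
        simpa [rowsProd, hfirst] using this
    · intro r hr hrd
      have h1 := lev_le_of_dvd_rows hr hsort2 (fun s hs => (hprime s (hmem2 s hs)).1) hrd
      simp only [List.map_cons, List.headD_cons]
      have hq2 := (hprime q (hmem2 q (by simp))).2
      have h2 := Nat.lt_floor_add_one (lev q)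
      linarith
  · exact Finset.mem_filter.2 ⟨Finset.mem_range.2 (low_lt_Bnd hlowval), hlowval, clean_of_dvd hclean hlowdvd⟩
  · refine Finset.mem_filter.2 ⟨Finset.mem_range.2 ?_, (hprime p (by simp)).1, hS.top, ?_⟩
    · have h1 : p - 1 ∣ v := (rowsProd_dvd_of_mem (by simp)).trans hdvd
      have h2 := Nat.le_of_dvd hv0 h1
      omega
    · rw [← hveq]
      exact hwin



open E5Aux in
theorem E5_card (c : ℝ) (hc : 1 < c) : ∃ N₀ : ℕ, ∀ N ≥ N₀, ∀ x : ℝ, 1 < x → |levR x - N| ≤ 2 →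
    ((E5 N x c).card : ℝ) ≤ (x / Real.log x) * Real.exp (-(N : ℝ) ^ ((7 : ℝ) / 10)) * (Mlow N + 1) := by
  obtain ⟨Cr, Nr, hCr, hR⟩ := rarity_mass
  obtain ⟨Ct, Nt, hCt, hT⟩ := top_prime_count c hc
  obtain ⟨Nl, hL⟩ := length_le_U0
  obtain ⟨Cm, a₀, hCm, hM⟩ := mert_interval
  obtain ⟨N1, hN1⟩ := Filter.eventually_atTop.1 (E5_params c Cr Ct Cm a₀ hCt)
  refine ⟨max N1 (max Nr (max Nt Nl)), ?_⟩
  intro N hN x hx hxN
  have hNN1 : N1 ≤ N := le_trans (le_max_left _ _) hN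
  have hNNr : Nr ≤ N := le_trans (le_trans (le_max_left _ _) (le_max_right _ _)) hN
  have hNNt : Nt ≤ N := le_trans (le_trans (le_trans (le_max_left _ _) (le_max_right _ _)) (le_max_right _ _)) hN
  have hNNl : Nl ≤ N := le_trans (le_trans (le_trans (le_max_right _ _) (le_max_right _ _)) (le_max_right _ _)) hN
  obtain ⟨h7, hlog, hdelta, hNtol, hexpo, ha0, ht04, hCexp, hfinal⟩ := hN1 N hNN1
  have hN1' : 1 ≤ N := by omega
  have hNreal : (0 : ℝ) < N := by exact_mod_cast hN1'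
  have ht0pos : 0 < t0 N := Real.rpow_pos_of_pos hNreal _
  have hts : 0 ≤ ts N := by unfold ts; linarith
  have hlx : 0 < Real.log x := Real.log_pos hx
  have hx0 : 0 < x := by linarith
  -- covering
  set K : ℝ := Ct * x / Real.log x with hK
  have hK0 : 0 ≤ K := by positivity
  set E : ℝ := Real.exp (-(tol N / 2)) with hE
  have hE0 : 0 ≤ E := (Real.exp_pos _).le
  have hMlow0 : 0 ≤ Mlow N := by
    unfold Mlow
    exact Finset.sum_nonneg (fun _ _ => by positivity)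
  have hcover : E5 N x c ⊆ (E5Pre N).biUnion (fun pre => (goodCells N).biUnion (fun b =>
      (E5Tail N x c b).biUnion (fun m => (E5Low N).biUnion (fun low =>
        (E5Top x c (rowsProd pre * m * low)).image (fun p => (p - 1) * (rowsProd pre * m * low)))))) := by
    intro v hv
    obtain ⟨pre, b, m, low, p, h1, h2, h3, h4, h5, h6⟩ :=
      E5_decomp hc hx hxN hN1' hlog hNtol (hL N hNNl) hv
    refine Finset.mem_biUnion.2 ⟨pre, h1, Finset.mem_biUnion.2 ⟨b, h2, Finset.mem_biUnion.2 ⟨m, h3,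
      Finset.mem_biUnion.2 ⟨low, h4, Finset.mem_image.2 ⟨p, h5, h6.symm⟩⟩⟩⟩⟩
  -- inner sum over low
  have hlow : ∀ pre ∈ E5Pre N, ∀ b, ∀ m ∈ E5Tail N x c b,
      (((E5Low N).biUnion (fun low =>
        (E5Top x c (rowsProd pre * m * low)).image (fun p => (p - 1) * (rowsProd pre * m * low)))).card : ℝ)
      ≤ (K * (1 / (rowsProd pre : ℝ)) * Mlow N) * (1 / (m : ℝ)) := by
    intro pre hpre b m hm
    have hpre0 : rowsProd pre ≠ 0 := (Finset.mem_filter.1 hpre).2
    have hm0 : m ≠ 0 := by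
      have := (Finset.mem_Icc.1 (Finset.mem_filter.1 hm).1).1
      omega
    have hpre0' : (rowsProd pre : ℝ) ≠ 0 := by exact_mod_cast hpre0
    have hm0' : (m : ℝ) ≠ 0 := by exact_mod_cast hm0
    refine le_trans (card_biUnion_real_le (E5Low N) _ (fun low => K * (1 / (rowsProd pre : ℝ)) * (1 / (m : ℝ)) * (1 / (low : ℝ))) ?_) ?_
    · intro low hlow
      have hlow0 : low ≠ 0 := by
        obtain ⟨n, hn, _, h3, _⟩ := (Finset.mem_filter.1 hlow).2.1
        rw [h3]
        exact (Nat.totient_pos.2 (Nat.pos_of_ne_zero hn)).ne'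
      have hlow0' : (low : ℝ) ≠ 0 := by exact_mod_cast hlow0
      have h1 : (((E5Top x c (rowsProd pre * m * low)).image
          (fun p => (p - 1) * (rowsProd pre * m * low))).card : ℝ)
          ≤ ((E5Top x c (rowsProd pre * m * low)).card : ℝ) := by
        exact_mod_cast Finset.card_image_le
      have h2 := hT N hNNt x hx hxN (rowsProd pre * m * low) (mul_ne_zero (mul_ne_zero hpre0 hm0) hlow0)
      refine le_trans h1 (le_trans h2 (le_of_eq ?_))
      rw [hK]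
      push_cast
      field_simp
    · rw [← Finset.mul_sum]
      have e : ∑ low ∈ E5Low N, (1 : ℝ) / (low : ℝ) = Mlow N := rfl
      rw [e]
      apply le_of_eq
      ring
  -- rarity
  have hmass : ∀ b ∈ goodCells N, ∑ m ∈ E5Tail N x c b, (1 : ℝ) / (m : ℝ) ≤ E := by
    intro b hb
    obtain ⟨k, _, hk⟩ := Finset.mem_biUnion.1 hb
    have hgood : goodCell N b := (Finset.mem_filter.1 hk).2
    have h1 := hR N hNNr b (E5Tail N x c b) hgood.1 hgood.2.1 (by
      intro m hm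
      obtain ⟨h1, h2, h3, h4⟩ := Finset.mem_filter.1 hm
      have := (Finset.mem_Icc.1 h1).1
      exact ⟨by omega, h2, h3, h4⟩)
    refine le_trans h1 ?_
    rw [hE]
    apply Real.exp_le_exp.2
    have hKa : 0 ≤ (K1 N : ℝ) * aa (K1 N + 1) := by
      have := aa_nonneg_of_pos (l := K1 N + 1) (by omega)
      have h0 : (0 : ℝ) ≤ K1 N := Nat.cast_nonneg _
      exact mul_nonneg h0 (by linarith)
    exact exponent_good hgood hts hdelta hNtol hexpo hKa
  -- the sum over the first rows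
  have hQprime : ∀ p ∈ primesLev (t0 N) ((N : ℝ) + 4), p.Prime := fun p hp =>
    (Finset.mem_filter.1 hp).2.1
  have hA : ∑ p ∈ primesLev (t0 N) ((N : ℝ) + 4), (1 : ℝ) / ((p : ℝ) - 1) ≤ (N : ℝ) + 5 := by
    have h1 := abs_le.1 (hM (t0 N) ((N : ℝ) + 4) ha0 ht04)
    have h2 : ∑ p ∈ primesLev (t0 N) ((N : ℝ) + 4), (1 : ℝ) / ((p : ℝ) - 1) = massI (t0 N) ((N : ℝ) + 4) := rfl
    rw [h2]
    linarith [h1.2]
  have hpresum : ∑ pre ∈ E5Pre N, (1 : ℝ) / (rowsProd pre : ℝ) ≤ ((N : ℝ) + 6) ^ U0 N := by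
    have h1 := sum_listSet _ hQprime ((N : ℝ) + 5) (by positivity) hA (U0 N)
    have h2 : ∑ pre ∈ E5Pre N, (1 : ℝ) / (rowsProd pre : ℝ)
        ≤ ∑ l ∈ listSet (primesLev (t0 N) ((N : ℝ) + 4)) (U0 N), (1 : ℝ) / (rowsProd l : ℝ) := by
      apply Finset.sum_le_sum_of_subset_of_nonneg (Finset.filter_subset _ _)
      intro _ _ _
      positivity
    have e : (1 + ((N : ℝ) + 5)) = (N : ℝ) + 6 := by ring
    rw [e] at h1
    linarith
  set G : ℝ := ((K1 N : ℝ) + 2) * ((N : ℝ) + 7) ^ (K1 N + 1) with hG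
  have hG0 : 0 ≤ G := by positivity
  have hcardG := goodCells_card N
  -- assembling
  have hmain : (((E5Pre N).biUnion (fun pre => (goodCells N).biUnion (fun b =>
      (E5Tail N x c b).biUnion (fun m => (E5Low N).biUnion (fun low =>
        (E5Top x c (rowsProd pre * m * low)).image (fun p => (p - 1) * (rowsProd pre * m * low))))))).card : ℝ)
      ≤ ∑ pre ∈ E5Pre N, (K * Mlow N * E * G) * (1 / (rowsProd pre : ℝ)) := by
    apply card_biUnion_real_le
    intro pre hpre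
    have hp0 : (0 : ℝ) ≤ 1 / (rowsProd pre : ℝ) := by positivity
    refine le_trans (card_biUnion_real_le (goodCells N) _ (fun _ => (K * (1 / (rowsProd pre : ℝ)) * Mlow N) * E) ?_) ?_
    · intro b hb
      refine le_trans (card_biUnion_real_le (E5Tail N x c b) _ (fun m => (K * (1 / (rowsProd pre : ℝ)) * Mlow N) * (1 / (m : ℝ))) ?_) ?_
      · intro m hm
        exact hlow pre hpre b m hm
      · rw [← Finset.mul_sum]
        exact mul_le_mul_of_nonneg_left (hmass b hb) (by positivity)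
    · rw [Finset.sum_const, nsmul_eq_mul]
      have h3 : ((goodCells N).card : ℝ) * (K * (1 / (rowsProd pre : ℝ)) * Mlow N * E)
          ≤ G * (K * (1 / (rowsProd pre : ℝ)) * Mlow N * E) :=
        mul_le_mul_of_nonneg_right hcardG (by positivity)
      refine le_trans h3 (le_of_eq ?_)
      ring
  have hcard1 : ((E5 N x c).card : ℝ) ≤ ∑ pre ∈ E5Pre N, (K * Mlow N * E * G) * (1 / (rowsProd pre : ℝ)) :=
    le_trans (by exact_mod_cast Finset.card_le_card hcover) hmain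
  rw [← Finset.mul_sum] at hcard1
  have hP := mul_le_mul_of_nonneg_left hpresum (show 0 ≤ K * Mlow N * E * G by positivity)
  refine le_trans hcard1 (le_trans hP ?_)
  have hfinal' : Ct * (((N : ℝ) + 6) ^ U0 N * G) * E ≤ Real.exp (-(N : ℝ) ^ ((7 : ℝ) / 10)) := hfinal
  have e1 : K * Mlow N * E * G * ((N : ℝ) + 6) ^ U0 N
      = (x / Real.log x) * (Ct * (((N : ℝ) + 6) ^ U0 N * G) * E) * Mlow N := by
    rw [hK]
    ring
  rw [e1]
  have hxl : 0 ≤ x / Real.log x := by positivity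
  calc (x / Real.log x) * (Ct * (((N : ℝ) + 6) ^ U0 N * G) * E) * Mlow N
      ≤ (x / Real.log x) * Real.exp (-(N : ℝ) ^ ((7 : ℝ) / 10)) * Mlow N := by
        apply mul_le_mul_of_nonneg_right _ hMlow0
        exact mul_le_mul_of_nonneg_left hfinal' hxl
    _ ≤ (x / Real.log x) * Real.exp (-(N : ℝ) ^ ((7 : ℝ) / 10)) * (Mlow N + 1) := by
        apply mul_le_mul_of_nonneg_left (by linarith) (by positivity)

/-- E6: all rows normal, `Φ(tail) > L + w`. -/
def E6 (N : ℕ) (x c : ℝ) : Finset ℕ :=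
  (Win x c).filter (fun v => ∃ p t low, Struct N x p t low v ∧ (∀ q ∈ p :: t, Normal N q) ∧
    levR x + wd N < Th N 0 t)

/-- The rows of a structure have bounded level. -/
lemma Struct.lev_le {N : ℕ} {x c : ℝ} {p : ℕ} {t : List ℕ} {low v : ℕ} (S : Struct N x p t low v)
    (hc : 1 < c) (hcN : c ≤ N) (hx : 1 < x) (hLu : levR x ≤ (N : ℝ) + 2) (hv1 : 1 ≤ v)
    (hvc : v ≤ ⌊c * x⌋₊) : ∀ q ∈ p :: t, lev q ≤ (N : ℝ) + 3 := by
  have hcx0 : 0 < c * x := by nlinarith
  have hpp : p.Prime := (S.prime p List.mem_cons_self).1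
  have hp2 := hpp.two_le
  have hdvd_all : rowsProd (p :: t) ∣ v := ⟨low, S.eq⟩
  have hp1dvd : p - 1 ∣ v := by
    refine dvd_trans ?_ hdvd_all
    rw [rowsProd_cons_vv]
    exact dvd_mul_right _ _
  have hple : (p : ℝ) ≤ c * x + 1 := by
    have h1 : p - 1 ≤ v := Nat.le_of_dvd (by omega) hp1dvd
    have h2 : (v : ℝ) ≤ c * x := by
      have : (v : ℝ) ≤ (⌊c * x⌋₊ : ℝ) := by exact_mod_cast hvc
      exact this.trans (Nat.floor_le hcx0.le)
    have h3 : p ≤ v + 1 := by omega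
    have h4 : (p : ℝ) ≤ (v : ℝ) + 1 := by exact_mod_cast h3
    linarith
  have hlevp : lev p ≤ (N : ℝ) + 3 := lev_le_of_le_vv hc hcN hx hLu hp2 hple
  intro q hq
  have hq2 := (S.prime q hq).1.two_le
  rcases List.mem_cons.1 hq with rfl | hq'
  · exact hlevp
  · have hlt : q < p := (List.pairwise_cons.1 S.sorted).1 q hq'
    exact (lev_mono hq2 hlt.le).trans hlevp

/-- The list used in the cell bound for E6. -/
lemma e6_mem_aux {N : ℕ} {x c : ℝ} {p : ℕ} {t : List ℕ} {low v k : ℕ} {Θ : ℝ}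
    (S : Struct N x p t low v) (hnorm : ∀ q ∈ p :: t, Normal N q)
    (hc : 1 < c) (hcN : c ≤ N) (hx : 1 < x) (hLu : levR x ≤ (N : ℝ) + 2) (hv1 : 1 ≤ v)
    (hvc : v ≤ ⌊c * x⌋₊) (hk : k = K1 N + 2)
    (hts : 10 ≤ ts N) (hΘ3 : Θ ≤ 3 * (N : ℝ))
    (hlong : 3 * (N : ℝ) ≤ 0.38 * ((K1 N : ℝ) + 1) * (ts N - 1))
    (hshort : ∀ t' : List ℕ, t' = t → Θ ≤ Th N 0 t - (k : ℝ) * aa k) :
    ∃ l : List ℕ, l ≠ [] ∧ l.length ≤ k ∧
      RowsIn N (l.map (fun p => ⌊lev p⌋₊)) l ∧ rowsProd l ∣ v ∧ (∀ q ∈ l, ⌊lev q⌋₊ ≤ N + 6) ∧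
      Θ ≤ ThB N 0 (l.map (fun p => ⌊lev p⌋₊)).tail := by
  have hlevq := S.lev_le hc hcN hx hLu hv1 hvc
  have hdvd_all : rowsProd (p :: t) ∣ v := ⟨low, S.eq⟩
  have hfloor : ∀ q ∈ p :: t, ⌊lev q⌋₊ ≤ N + 6 := by
    intro q hq
    apply Nat.floor_le_of_le
    push_cast
    linarith [hlevq q hq]
  have hlev0 : ∀ q ∈ p :: t, 0 ≤ lev q := by
    intro q hq
    have h1 := (S.prime q hq).2
    have h2 : 0 ≤ t0 N := by rw [t0_eq_vv]; positivity
    linarith
  have hsub : ∀ q ∈ p :: t.take (K1 N + 1), q ∈ p :: t := by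
    intro q hq
    rcases List.mem_cons.1 hq with rfl | hq'
    · exact List.mem_cons_self
    · exact List.mem_cons_of_mem _ (List.mem_of_mem_take hq')
  refine ⟨p :: t.take (K1 N + 1), by simp, ?_, ⟨?_, fun q hq => hnorm q (hsub q hq), rfl⟩, ?_,
    fun q hq => hfloor q (hsub q hq), ?_⟩
  · simp only [List.length_cons, List.length_take]
    omega
  · exact S.sorted.sublist (List.Sublist.cons_cons _ (List.take_sublist _ _))
  · refine dvd_trans ?_ hdvd_all
    rw [rowsProd_cons_vv, rowsProd_cons_vv]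
    exact mul_dvd_mul_left _ (rowsProd_take_dvd_vv _ _)
  · simp only [List.map_cons, List.tail_cons]
    by_cases hlen : t.length ≤ K1 N + 1
    · rw [List.take_of_length_le hlen]
      have h1 := (Th_vs_ThB N 0 t (fun q hq => hlev0 q (List.mem_cons_of_mem _ hq))).2
      have h2 : (t.length : ℝ) * aa (0 + t.length + 1) ≤ (k : ℝ) * aa k := by
        have hmono : aa (0 + t.length + 1) ≤ aa k := aa_mono (by omega)
        have h3 : (t.length : ℝ) ≤ k := by
          have : t.length ≤ k := by omega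
          exact_mod_cast this
        exact mul_le_mul h3 hmono (by
          have := aa_nonneg_of_pos (l := 0 + t.length + 1) (by omega)
          linarith) (Nat.cast_nonneg _)
      have h3 := hshort t rfl
      linarith
    · push Not at hlen
      have hlenT : (t.take (K1 N + 1)).length = K1 N + 1 := by
        rw [List.length_take]; omega
      have hge := ThB_ge_vv N 0 ((t.take (K1 N + 1)).map (fun p => ⌊lev p⌋₊)) (by linarith) (by
        intro b hb
        obtain ⟨q, hq, rfl⟩ := List.mem_map.1 hb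
        have hq' : q ∈ p :: t := List.mem_cons_of_mem _ (List.mem_of_mem_take hq)
        have h1 := (S.prime q hq').2
        have h2 := Nat.lt_floor_add_one (lev q)
        linarith)
      rw [List.length_map, hlenT] at hge
      push_cast at hge
      linarith

theorem E6_card (c : ℝ) (hc : 1 < c) : ∃ N₀ : ℕ, ∀ N ≥ N₀, ∀ x : ℝ, 1 < x → |levR x - N| ≤ 2 →
    ((E6 N x c).card : ℝ) ≤ (x / Real.log x) * Real.exp (-(wd N / 2)) := by
  obtain ⟨N₁, hN₁⟩ := rarity_count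
  obtain ⟨N₂, hN₂⟩ := e6_num c hc
  obtain ⟨N₃, hN₃⟩ := params_large_vv
  refine ⟨max (max N₁ N₂) (max N₃ ⌈c⌉₊), fun N hN x hx hL => ?_⟩
  have hN1 : N₁ ≤ N := le_trans (le_trans (le_max_left _ _) (le_max_left _ _)) hN
  have hN2 : N₂ ≤ N := le_trans (le_trans (le_max_right _ _) (le_max_left _ _)) hN
  have hN3 : N₃ ≤ N := le_trans (le_trans (le_max_left _ _) (le_max_right _ _)) hN
  have hN4 : ⌈c⌉₊ ≤ N := le_trans (le_trans (le_max_right _ _) (le_max_right _ _)) hN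
  obtain ⟨hNpos, hv100, hts10, hwdN, hN100, hε1, hlong⟩ := hN₃ N hN3
  have hcN : c ≤ N := (Nat.le_ceil c).trans (by exact_mod_cast hN4)
  have hL' := abs_le.1 hL
  have hLu : levR x ≤ (N : ℝ) + 2 := by linarith [hL'.2]
  obtain ⟨k, hk⟩ : ∃ k, k = K1 N + 2 := ⟨_, rfl⟩
  have haak : 0 ≤ aa k := by
    have := aa_nonneg_of_pos (l := k) (by omega)
    linarith
  obtain ⟨Θ, hΘ⟩ : ∃ Θ, Θ = levR x + wd N - (k : ℝ) * aa k := ⟨_, rfl⟩
  have hΘ3 : Θ ≤ 3 * (N : ℝ) := by
    have : 0 ≤ (k : ℝ) * aa k := mul_nonneg (Nat.cast_nonneg _) haak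
    rw [hΘ]; linarith
  obtain ⟨ε, hεdef⟩ : ∃ ε, ε = 5 * (ts N) ^ (-(7 : ℝ) / 20) := ⟨_, rfl⟩
  have hε0 : 0 ≤ ε := by
    have : 0 ≤ (ts N) ^ (-(7 : ℝ) / 20) := Real.rpow_nonneg (by linarith) _
    rw [hεdef]; positivity
  have hX : 1 ≤ c * x := by nlinarith
  have hmem : ∀ v ∈ E6 N x c, v ∈ Finset.Icc 1 ⌊c * x⌋₊ ∧ Clean N v ∧ ∃ l : List ℕ, l ≠ [] ∧ l.length ≤ k ∧
      RowsIn N (l.map (fun p => ⌊lev p⌋₊)) l ∧ rowsProd l ∣ v ∧ (∀ q ∈ l, ⌊lev q⌋₊ ≤ N + 6) ∧
      Θ ≤ ThB N 0 (l.map (fun p => ⌊lev p⌋₊)).tail := by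
    intro v hv
    unfold E6 at hv
    rw [Finset.mem_filter] at hv
    obtain ⟨hvW, p, t, low, S, hnorm, hTh⟩ := hv
    have hvW' := Finset.mem_Ioc.1 hvW
    have hv1' : 1 ≤ v := by omega
    have hvc : v ≤ ⌊c * x⌋₊ := hvW'.2
    refine ⟨Finset.mem_Icc.2 ⟨hv1', hvc⟩, S.clean, ?_⟩
    exact e6_mem_aux S hnorm hc hcN hx hLu hv1' hvc hk hts10 hΘ3 hlong (fun _ _ => by rw [hΘ]; linarith)
  have hrar := fun b hb hh => hN₁ N (le_trans hN1 le_rfl) b (c * x) hb hh hX
  have hU := cell_union_bound N k (c * x) Θ hX (E6 N x c) hrar hε1 hmem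
  rw [← hεdef] at hU
  refine le_trans hU ?_
  have hlogL : x / Real.log x * Real.exp (-(wd N / 2)) = x * Real.exp (-levR x - wd N / 2) := by
    have hlog0 : 0 < Real.log x := Real.log_pos hx
    rw [Real.exp_sub, Real.exp_neg (levR x), exp_levR_vv hx, Real.exp_neg (wd N / 2)]
    field_simp
  rw [hlogL]
  have hNp7 : (0 : ℝ) < (N : ℝ) + 7 := by linarith
  have hk1 : (0 : ℝ) < (k : ℝ) + 1 := by positivity
  have hc0 : 0 < c := by linarith
  have hfac := fac_exp_vv (A := (k : ℝ) + 1) (B := (N : ℝ) + 7) (C := c) (x := x)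
    (W := -(1 - ε) * Θ + 3 * (k : ℝ) + 1) k hk1 hNp7 hc0
  rw [hfac]
  apply mul_le_mul_of_nonneg_left _ (by linarith)
  apply Real.exp_le_exp.2
  rw [hΘ]
  exact e6_exp N k (levR x) c ε hk hLu hwdN hε0 hεdef (hN₂ N hN2)

/-- `IsRep` without the cut. -/
def IsRepNoCut (N : ℕ) (l : List ℕ) (low m : ℕ) : Prop :=
  l.Pairwise (· > ·) ∧ (∀ p ∈ l, Normal N p) ∧ Adm N l ∧ LowVal N low ∧ m = rowsProd l * low ∧ Clean N m

/-- The tails below a row above the cut. -/
def N2set (N : ℕ) : Finset ℕ :=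
  (Finset.range (Bnd N)).filter (fun m => ∃ l low q, IsRepNoCut N l low m ∧ (q :: l).Pairwise (· > ·) ∧ Normal N q ∧
    Adm N (q :: l) ∧ (N : ℝ) - Dc N < lev q ∧ lev q ≤ (N : ℝ) + 3 ∧ Th N 0 (q :: l) ≤ (N : ℝ) + 2 * wd N)

/-- E7: rows normal, `Adm` tail, `Φ ≤ L + w`, the first tail row above the cut. -/
def E7 (N : ℕ) (x c : ℝ) : Finset ℕ :=
  (Win x c).filter (fun v => ∃ p q t low, Struct N x p (q :: t) low v ∧ (∀ r ∈ p :: q :: t, Normal N r) ∧
    Adm N (q :: t) ∧ Th N 0 (q :: t) ≤ levR x + wd N ∧ (N : ℝ) - Dc N < lev q)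

/-- The tail of a chain in `E7` has rows below the cut. -/
lemma e7_cut {N : ℕ} {q : ℕ} {t : List ℕ} {T : ℝ}
    (hsorted : (q :: t).Pairwise (· > ·))
    (hprime : ∀ r ∈ q :: t, r.Prime ∧ t0 N ≤ lev r)
    (hTh : Th N 0 (q :: t) ≤ T) (hT : T ≤ (N : ℝ) + 2 + wd N) (hq : (N : ℝ) - Dc N < lev q)
    (hsmall : wd N + ts N + Dc N + 3 ≤ (N : ℝ) / 10) (hts0 : 0 ≤ ts N) :
    ∀ r ∈ t, lev r ≤ (N : ℝ) - Dc N := by
  have e : t0 N = 2 * ts N := by unfold ts; ring
  have hbig : BigList N (q :: t) := by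
    intro r hr
    have := (hprime r hr).2
    linarith
  cases t with
  | nil => intro r hr; simp at hr
  | cons r₀ t' =>
    have hTh' : aa 1 * (lev q - ts N) + (aa 2 * (lev r₀ - ts N) + Th N 2 t') ≤ T := by
      simpa [Th] using hTh
    have h2 : 0 ≤ Th N 2 t' := Th_nonneg N 2 t' (fun r hr => hbig r (by simp [hr]))
    have hq0 : 0 ≤ lev q - ts N := by
      have := (hprime q List.mem_cons_self).2
      linarith
    have hr0 : 0 ≤ lev r₀ - ts N := by
      have := (hprime r₀ (by simp)).2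
      linarith
    have h3 : 0.38 * (lev q - ts N) ≤ aa 1 * (lev q - ts N) :=
      mul_le_mul_of_nonneg_right aa_one_gt.le hq0
    have h4 : 0.9 * (lev r₀ - ts N) ≤ aa 2 * (lev r₀ - ts N) :=
      mul_le_mul_of_nonneg_right aa_two_gt.le hr0
    have hr₀ : lev r₀ ≤ (N : ℝ) - Dc N := by
      have hD0 : (0 : ℝ) ≤ N := Nat.cast_nonneg _
      have hw0 : 0 ≤ wd N := by rw [wd_eq_vv]; exact pow_nonneg (vv_nonneg N) _
      by_contra hcon
      push Not at hcon
      have h5 : 0.9 * ((N : ℝ) - Dc N - ts N) ≤ 0.9 * (lev r₀ - ts N) := by linarith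
      have h6 : 0.38 * ((N : ℝ) - Dc N - ts N) ≤ 0.38 * (lev q - ts N) := by linarith
      linarith
    intro r hr
    rcases List.mem_cons.1 hr with rfl | hr'
    · exact hr₀
    · have hlt : r < r₀ := (List.pairwise_cons.1 (List.pairwise_cons.1 hsorted).2).1 r hr'
      exact (lev_mono (hprime r (by simp [hr'])).1.two_le hlt.le).trans hr₀

/-- Structure of an element of `E7`. -/
lemma e7_mem {N : ℕ} {x c : ℝ} {v : ℕ} (hv : v ∈ E7 N x c) (hc : 1 < c) (hcN : c ≤ N) (hx : 1 < x)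
    (hLu : levR x ≤ (N : ℝ) + 2)
    (hrep : ∀ l low m, IsRep N l low m → m < Bnd N)
    (hsmall : wd N + ts N + Dc N + 3 ≤ (N : ℝ) / 10) (hts0 : 0 ≤ ts N) (hw2 : 2 ≤ wd N) :
    ∃ m q p : ℕ, m ∈ N2set N ∧ m ≠ 0 ∧ q.Prime ∧ (N : ℝ) - Dc N ≤ lev q ∧ lev q < (N : ℝ) + 4 ∧
      p ∈ (Finset.range (⌊c * x⌋₊ + 2)).filter (fun p : ℕ => p.Prime ∧ Real.log x / 600 ≤ Real.log p ∧
        (p - 1) * ((q - 1) * m) ∈ Win x c) ∧ v = (p - 1) * ((q - 1) * m) := by
  unfold E7 at hv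
  rw [Finset.mem_filter] at hv
  obtain ⟨hvW, p, q, t, low, S, hnorm, hadm, hTh, hq⟩ := hv
  have hvW' := Finset.mem_Ioc.1 hvW
  have hv1 : 1 ≤ v := by omega
  have hvc : v ≤ ⌊c * x⌋₊ := hvW'.2
  have hlev := S.lev_le hc hcN hx hLu hv1 hvc
  have hvfac : v = (p - 1) * ((q - 1) * (rowsProd t * low)) := by
    rw [S.eq, rowsProd_cons_vv, rowsProd_cons_vv]; ring
  have hpP := (S.prime p List.mem_cons_self).1
  have hqP := (S.prime q (by simp)).1
  have hm0 : rowsProd t * low ≠ 0 := by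
    intro h0
    rw [h0] at hvfac
    simp at hvfac
    omega
  have hTu : levR x + wd N ≤ (N : ℝ) + 2 + wd N := by linarith
  have hprime' : ∀ r ∈ q :: t, r.Prime ∧ t0 N ≤ lev r := fun r hr => S.prime r (List.mem_cons_of_mem _ hr)
  have hsorted' : (q :: t).Pairwise (· > ·) := (List.pairwise_cons.1 S.sorted).2
  have hcut := e7_cut hsorted' hprime' hTh hTu hq hsmall hts0
  have hcleanm : Clean N (rowsProd t * low) := Clean.of_dvd_vv S.clean (by
    rw [hvfac]; exact ⟨(p - 1) * (q - 1), by ring⟩)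
  have hIsRep : IsRep N t low (rowsProd t * low) :=
    { sorted := (List.pairwise_cons.1 hsorted').2
      normal := fun r hr => hnorm r (by simp [hr])
      cut := hcut
      adm := hadm.2
      lowv := S.lowv
      eq := rfl
      clean := hcleanm }
  refine ⟨rowsProd t * low, q, p, ?_, hm0, hqP, by linarith, by linarith [hlev q (by simp)], ?_, hvfac⟩
  · unfold N2set
    rw [Finset.mem_filter, Finset.mem_range]
    refine ⟨hrep _ _ _ hIsRep, t, low, q, ?_, hsorted', hnorm q (by simp), hadm, hq, hlev q (by simp), by linarith⟩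
    exact ⟨hIsRep.sorted, hIsRep.normal, hIsRep.adm, hIsRep.lowv, rfl, hcleanm⟩
  · rw [Finset.mem_filter, Finset.mem_range]
    refine ⟨?_, hpP, S.top, ?_⟩
    · have h1 : p - 1 ∣ v := by rw [hvfac]; exact dvd_mul_right _ _
      have h2 := Nat.le_of_dvd (by omega) h1
      have := hpP.two_le
      omega
    · rw [← hvfac]; exact hvW

theorem E7_card (c : ℝ) (hc : 1 < c) : ∃ (C : ℝ) (N₀ : ℕ), 0 < C ∧ ∀ N ≥ N₀, ∀ x : ℝ, 1 < x → |levR x - N| ≤ 2 →
    ((E7 N x c).card : ℝ) ≤ C * (x / Real.log x) * (Dc N + 6) * ∑ m ∈ N2set N, (1 : ℝ) / m := by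
  obtain ⟨C₀, N₁, hC₀, hN₁⟩ := top_prime_count c hc
  obtain ⟨N₂, hN₂⟩ := rep_lt_Bnd
  obtain ⟨CM, a₀, hCM, hmert⟩ := mert_interval
  obtain ⟨N₃, hN₃⟩ := params_large_vv
  obtain ⟨N₄, hN₄⟩ := vv_ge0 (|a₀| + CM + 100)
  refine ⟨C₀, max (max N₁ N₂) (max (max N₃ N₄) ⌈c⌉₊), hC₀, fun N hN x hx hL => ?_⟩
  have hN1 : N₁ ≤ N := le_trans (le_trans (le_max_left _ _) (le_max_left _ _)) hN
  have hN2 : N₂ ≤ N := le_trans (le_trans (le_max_right _ _) (le_max_left _ _)) hN
  have hN3 : N₃ ≤ N := le_trans (le_trans (le_trans (le_max_left _ _) (le_max_left _ _)) (le_max_right _ _)) hN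
  have hN4 : N₄ ≤ N := le_trans (le_trans (le_trans (le_max_right _ _) (le_max_left _ _)) (le_max_right _ _)) hN
  have hN5 : ⌈c⌉₊ ≤ N := le_trans (le_trans (le_max_right _ _) (le_max_right _ _)) hN
  obtain ⟨hNpos, hv100, hts10, hwdN, hN100, hε1, hlong⟩ := hN₃ N hN3
  obtain ⟨_, hvA⟩ := hN₄ N hN4
  have hcN : c ≤ N := (Nat.le_ceil c).trans (by exact_mod_cast hN5)
  have hL' := abs_le.1 hL
  have hLu : levR x ≤ (N : ℝ) + 2 := by linarith [hL'.2]
  have hlog0 : 0 < Real.log x := Real.log_pos hx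
  have hx0 : 0 < x := by linarith
  have hsp := e7_params hv100
  obtain ⟨hsmall, hw2, hND⟩ := hsp
  have hts0 : 0 ≤ ts N := by linarith
  -- the sets
  set Q := primesLev ((N : ℝ) - Dc N) ((N : ℝ) + 4) with hQ
  set M := (N2set N).filter (fun m => m ≠ 0) with hM
  set P : ℕ × ℕ → Finset ℕ := fun mq => (Finset.range (⌊c * x⌋₊ + 2)).filter (fun p : ℕ => p.Prime ∧
      Real.log x / 600 ≤ Real.log p ∧ (p - 1) * ((mq.2 - 1) * mq.1) ∈ Win x c) with hP
  have hsub : E7 N x c ⊆ (M ×ˢ Q).biUnion (fun mq => (P mq).image (fun p => (p - 1) * ((mq.2 - 1) * mq.1))) := by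
    intro v hv
    obtain ⟨m, q, p, hm, hm0, hqP, hq1, hq2, hp, hvf⟩ :=
      e7_mem hv hc hcN hx hLu (hN₂ N hN2) hsmall hts0 hw2
    rw [Finset.mem_biUnion]
    refine ⟨(m, q), ?_, ?_⟩
    · rw [Finset.mem_product]
      refine ⟨Finset.mem_filter.2 ⟨hm, hm0⟩, ?_⟩
      rw [hQ, primesLev, Finset.mem_filter, Finset.mem_range]
      refine ⟨?_, hqP, hq1, hq2⟩
      exact Nat.lt_succ_of_lt (Nat.lt_ceil.2 (lt_exp_exp_of_level hqP hq2))
    · rw [Finset.mem_image]
      exact ⟨p, hp, hvf.symm⟩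
  have hcard : ((E7 N x c).card : ℝ) ≤ ∑ mq ∈ M ×ˢ Q, ((P mq).card : ℝ) := by
    have h1 := Finset.card_le_card hsub
    have h2 := Finset.card_biUnion_le (s := M ×ˢ Q)
      (t := fun mq => (P mq).image (fun p => (p - 1) * ((mq.2 - 1) * mq.1)))
    have h3 : ∑ mq ∈ M ×ˢ Q, ((P mq).image (fun p => (p - 1) * ((mq.2 - 1) * mq.1))).card
        ≤ ∑ mq ∈ M ×ˢ Q, (P mq).card := Finset.sum_le_sum (fun _ _ => Finset.card_image_le)
    exact_mod_cast h1.trans (h2.trans h3)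
  have hterm : ∀ mq ∈ M ×ˢ Q, ((P mq).card : ℝ)
      ≤ C₀ * (x / Real.log x) * ((1 : ℝ) / ((mq.2 : ℝ) - 1) * ((1 : ℝ) / mq.1)) := by
    rintro ⟨m, q⟩ hmq
    rw [Finset.mem_product] at hmq
    have hm0 : m ≠ 0 := (Finset.mem_filter.1 hmq.1).2
    have hqP : q.Prime := by
      have := hmq.2
      rw [hQ, primesLev, Finset.mem_filter] at this
      exact this.2.1
    have hq2 := hqP.two_le
    have hne : (q - 1) * m ≠ 0 := Nat.mul_ne_zero (by omega) hm0
    have h := hN₁ N hN1 x hx hL ((q - 1) * m) hne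
    refine le_trans h (le_of_eq ?_)
    have hq1 : ((q - 1 : ℕ) : ℝ) = (q : ℝ) - 1 := by
      rw [Nat.cast_sub (by omega)]; simp
    have hq2' : (2 : ℝ) ≤ q := by exact_mod_cast hq2
    have hq3 : (q : ℝ) - 1 ≠ 0 := by linarith
    have hmR : (m : ℝ) ≠ 0 := by exact_mod_cast hm0
    push_cast [hq1]
    field_simp
  have hmass : ∑ q ∈ Q, (1 : ℝ) / ((q : ℝ) - 1) ≤ Dc N + 6 := by
    have := hmert ((N : ℝ) - Dc N) ((N : ℝ) + 4) (by
      have := le_abs_self a₀
      linarith) (by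
      have : 0 ≤ Dc N := by rw [Dc_eq_vv]; exact pow_nonneg (vv_nonneg N) _
      linarith)
    have h1 := (abs_le.1 this).2
    have hexp : CM * Real.exp (-((N : ℝ) - Dc N)) ≤ 1 := by
      have h2 : CM ≤ (N : ℝ) - Dc N + 1 := by linarith [abs_nonneg a₀]
      have h3 := Real.add_one_le_exp ((N : ℝ) - Dc N)
      have h4 : CM ≤ Real.exp ((N : ℝ) - Dc N) := by linarith
      rw [Real.exp_neg]
      rw [← div_eq_mul_inv]
      exact (div_le_one (Real.exp_pos _)).2 h4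
    have e : massI ((N : ℝ) - Dc N) ((N : ℝ) + 4) = ∑ q ∈ Q, (1 : ℝ) / ((q : ℝ) - 1) := rfl
    rw [← e]
    linarith
  have hQnn : ∀ q ∈ Q, 0 ≤ (1 : ℝ) / ((q : ℝ) - 1) := by
    intro q hq
    rw [hQ, primesLev, Finset.mem_filter] at hq
    have hq2 := hq.2.1.two_le
    have hq2' : (2 : ℝ) ≤ q := by exact_mod_cast hq2
    have : 0 < (q : ℝ) - 1 := by linarith
    positivity
  have hMsum : ∑ m ∈ M, (1 : ℝ) / m ≤ ∑ m ∈ N2set N, (1 : ℝ) / m := by
    apply Finset.sum_le_sum_of_subset_of_nonneg (Finset.filter_subset _ _)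
    intro i _ _
    positivity
  have hK : 0 ≤ C₀ * (x / Real.log x) := by positivity
  calc ((E7 N x c).card : ℝ) ≤ ∑ mq ∈ M ×ˢ Q, ((P mq).card : ℝ) := hcard
    _ ≤ ∑ mq ∈ M ×ˢ Q, C₀ * (x / Real.log x) * ((1 : ℝ) / ((mq.2 : ℝ) - 1) * ((1 : ℝ) / mq.1)) :=
        Finset.sum_le_sum hterm
    _ = C₀ * (x / Real.log x) * ((∑ q ∈ Q, (1 : ℝ) / ((q : ℝ) - 1)) * ∑ m ∈ M, (1 : ℝ) / m) := by
        rw [← Finset.mul_sum, Finset.sum_product]
        congr 1
        rw [Finset.sum_mul_sum, Finset.sum_comm]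
    _ ≤ C₀ * (x / Real.log x) * ((Dc N + 6) * ∑ m ∈ N2set N, (1 : ℝ) / m) := by
        apply mul_le_mul_of_nonneg_left _ hK
        apply mul_le_mul hmass hMsum (Finset.sum_nonneg (fun m _ => by positivity))
        have : 0 ≤ Dc N := by rw [Dc_eq_vv]; exact pow_nonneg (vv_nonneg N) _
        linarith
    _ = C₀ * (x / Real.log x) * (Dc N + 6) * ∑ m ∈ N2set N, (1 : ℝ) / m := by ring

end
end Vale.Agent.Lib.P031V
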