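import Vale.Agent.Lib.P031V.NegA

/-! # P031: the first moment behind `E4_card` (helper39), blueprint section 7.
The statement `E4_core` is stated without `Struct`; `NegB.lean` derives `E4_card` from it. -/

namespace Vale.Agent.Lib.P031V
open Real Finset
open scoped Classical
noncomputable section

/-- Rankin-type bound for the truncated sum over subsets. -/
lemma sum_subsets_le (Q : Finset ℕ) (a : ℕ → ℝ) (ha : ∀ q ∈ Q, 0 ≤ a q) (lam : ℝ) (hlam : 1 ≤ lam)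
    (k : ℕ) :
    ∑ G ∈ Q.powerset.filter (fun G => G.card ≤ k), ∏ q ∈ G, a q
      ≤ lam ^ k * Real.exp ((∑ q ∈ Q, a q) / lam) := by
  have hlam0 : 0 < lam := by linarith
  have h1 : ∑ G ∈ Q.powerset.filter (fun G => G.card ≤ k), ∏ q ∈ G, a q
      ≤ ∑ G ∈ Q.powerset, lam ^ k * ∏ q ∈ G, (a q / lam) := by
    rw [Finset.sum_filter]
    apply Finset.sum_le_sum
    intro G hG
    have hG' := Finset.mem_powerset.1 hG
    have hnn : 0 ≤ ∏ q ∈ G, (a q / lam) :=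
      Finset.prod_nonneg (fun q hq => div_nonneg (ha q (hG' hq)) hlam0.le)
    split_ifs with hc
    · have : ∏ q ∈ G, a q = lam ^ G.card * ∏ q ∈ G, (a q / lam) := by
        rw [← Finset.prod_const, ← Finset.prod_mul_distrib]
        apply Finset.prod_congr rfl
        intro q _
        field_simp
      rw [this]
      exact mul_le_mul_of_nonneg_right (pow_le_pow_right₀ hlam hc) hnn
    · exact mul_nonneg (by positivity) hnn
  refine h1.trans ?_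
  rw [← Finset.mul_sum, ← Finset.prod_one_add]
  apply mul_le_mul_of_nonneg_left _ (by positivity)
  rw [Finset.sum_div, Real.exp_sum]
  apply Finset.prod_le_prod
  · intro q hq
    have := div_nonneg (ha q hq) hlam0.le
    linarith
  · intro q _
    have := Real.add_one_le_exp (a q / lam)
    linarith

/-- Weighted sum over all subsets, with a special weight for the empty set. -/
lemma sum_subsets_weighted (Q : Finset ℕ) (a : ℕ → ℝ) (ha : ∀ q ∈ Q, 0 ≤ a q) (w0 w1 : ℝ)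
    (hw1 : 0 ≤ w1) (hs : ∑ q ∈ Q, a q ≤ 1 / 2) :
    ∑ B ∈ Q.powerset, (if B = ∅ then w0 else w1) * ∏ q ∈ B, a q
      ≤ w0 + w1 * (2 * ∑ q ∈ Q, a q) := by
  have hs0 : 0 ≤ ∑ q ∈ Q, a q := Finset.sum_nonneg ha
  rw [← Finset.add_sum_erase _ _ (Finset.empty_mem_powerset Q)]
  have h1 : ∑ B ∈ Q.powerset.erase ∅, (if B = ∅ then w0 else w1) * ∏ q ∈ B, a q
      = w1 * (∏ q ∈ Q, (1 + a q) - 1) := by
    rw [Finset.prod_one_add, ← Finset.add_sum_erase _ _ (Finset.empty_mem_powerset Q)]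
    simp only [Finset.prod_empty, add_sub_cancel_left]
    rw [Finset.mul_sum]
    apply Finset.sum_congr rfl
    intro B hB
    rw [if_neg (Finset.ne_of_mem_erase hB)]
  rw [h1]
  simp only [if_true, Finset.prod_empty, mul_one]
  apply add_le_add_right
  apply mul_le_mul_of_nonneg_left _ hw1
  have h2 : ∏ q ∈ Q, (1 + a q) ≤ Real.exp (∑ q ∈ Q, a q) := by
    rw [Real.exp_sum]
    apply Finset.prod_le_prod
    · intro q hq
      have := ha q hq
      linarith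
    · intro q _
      have := Real.add_one_le_exp (a q)
      linarith
  have h3 : Real.exp (∑ q ∈ Q, a q) ≤ 1 / (1 - ∑ q ∈ Q, a q) :=
    Real.exp_bound_div_one_sub_of_interval hs0 (by linarith)
  have h4 : 1 / (1 - ∑ q ∈ Q, a q) ≤ 1 + 2 * ∑ q ∈ Q, a q := by
    rw [div_le_iff₀ (by linarith)]
    nlinarith
  linarith

/-- Lower bound for `ThB` on cells of big primes. -/
lemma ThB_ge (N h : ℕ) (bs : List ℕ) (hb : ∀ b ∈ bs, t0 N - 1 ≤ (b : ℝ)) (hts : 0 ≤ ts N - 1) :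
    0.38 * (ts N - 1) * (bs.length : ℝ) ≤ ThB N h bs := by
  induction bs generalizing h with
  | nil => simp [ThB]
  | cons b bs ih =>
    simp only [ThB, List.length_cons, Nat.cast_add, Nat.cast_one]
    have h1 := ih (h + 1) (fun c hc => hb c (List.mem_cons_of_mem _ hc))
    have h2 : 0.38 ≤ aa (h + 1) := aa_nonneg_of_pos (by omega)
    have h3 := hb b List.mem_cons_self
    have h4 : t0 N = 2 * ts N := by unfold ts; ring
    have h5 : ts N - 1 ≤ (b : ℝ) - ts N := by linarith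
    have h6 : 0.38 * (ts N - 1) ≤ aa (h + 1) * ((b : ℝ) - ts N) := by
      apply mul_le_mul h2 h5 hts (by linarith)
    nlinarith

/-- The set of integers up to `X` carrying many normal rows. -/
def R1Set (N : ℕ) (X : ℝ) : Finset ℕ :=
  ((cellSet N (K1 N + 1)).filter (fun b => b.length = K1 N + 1 ∧ 3 * (N : ℝ) ≤ ThB N 0 b.tail ∧ b ≠ [] ∧
      ((b.headD 0 : ℕ) : ℝ) ≤ (N : ℝ) + 6)).biUnion
    (fun b => (Finset.Icc 1 ⌊X⌋₊).filter (fun v => Clean N v ∧ ∃ l, RowsIn N b l ∧ rowsProd l ∣ v))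


lemma R1Set_card (N : ℕ) (hR : ∀ (b : List ℕ) (x : ℝ), b ≠ [] →
      ((b.headD 0 : ℕ) : ℝ) ≤ (N : ℝ) + 6 → 1 ≤ x →
      (((Finset.Icc 1 ⌊x⌋₊).filter (fun v => Clean N v ∧ ∃ l, RowsIn N b l ∧ rowsProd l ∣ v)).card : ℝ)
        ≤ x * Real.exp (-(1 - 5 * (ts N) ^ (-(7 : ℝ) / 20)) * ThB N 0 b.tail + 3 * (b.length : ℝ) + 1))
    (hk : 5 / 6 ≤ 1 - 5 * (ts N) ^ (-(7 : ℝ) / 20)) (X : ℝ) (hX : 1 ≤ X) :
    ((R1Set N X).card : ℝ) ≤ ((N : ℝ) + 7) ^ (K1 N + 1) *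
      (X * Real.exp (-(5 / 2) * (N : ℝ) + 3 * ((K1 N : ℝ) + 1) + 1)) := by
  have hX0 : 0 < X := by linarith
  have hn0 : (0 : ℝ) ≤ N := Nat.cast_nonneg N
  have hbd : ∀ b ∈ (cellSet N (K1 N + 1)).filter (fun b => b.length = K1 N + 1 ∧
      3 * (N : ℝ) ≤ ThB N 0 b.tail ∧ b ≠ [] ∧ ((b.headD 0 : ℕ) : ℝ) ≤ (N : ℝ) + 6),
      (((Finset.Icc 1 ⌊X⌋₊).filter (fun v => Clean N v ∧ ∃ l, RowsIn N b l ∧ rowsProd l ∣ v)).card : ℝ)
        ≤ X * Real.exp (-(5 / 2) * (N : ℝ) + 3 * ((K1 N : ℝ) + 1) + 1) := by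
    intro b hb
    obtain ⟨-, hlen, hth, hne, hhd⟩ := Finset.mem_filter.1 hb
    refine (hR b X hne hhd hX).trans ?_
    apply mul_le_mul_of_nonneg_left _ hX0.le
    apply Real.exp_le_exp.2
    rw [hlen]
    push_cast
    have : (5 / 6) * (3 * (N : ℝ)) ≤ (1 - 5 * (ts N) ^ (-(7 : ℝ) / 20)) * ThB N 0 b.tail := by
      apply mul_le_mul hk hth (by positivity) (by linarith)
    nlinarith
  unfold R1Set
  have h1 : (((cellSet N (K1 N + 1)).filter (fun b => b.length = K1 N + 1 ∧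
      3 * (N : ℝ) ≤ ThB N 0 b.tail ∧ b ≠ [] ∧ ((b.headD 0 : ℕ) : ℝ) ≤ (N : ℝ) + 6)).biUnion
      (fun b => (Finset.Icc 1 ⌊X⌋₊).filter (fun v => Clean N v ∧ ∃ l, RowsIn N b l ∧ rowsProd l ∣ v))).card
      ≤ ∑ b ∈ (cellSet N (K1 N + 1)).filter (fun b => b.length = K1 N + 1 ∧
      3 * (N : ℝ) ≤ ThB N 0 b.tail ∧ b ≠ [] ∧ ((b.headD 0 : ℕ) : ℝ) ≤ (N : ℝ) + 6),
      ((Finset.Icc 1 ⌊X⌋₊).filter (fun v => Clean N v ∧ ∃ l, RowsIn N b l ∧ rowsProd l ∣ v)).card :=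
    Finset.card_biUnion_le
  have h2 := (Nat.cast_le (α := ℝ)).2 h1
  refine h2.trans ?_
  rw [Nat.cast_sum]
  refine (Finset.sum_le_card_nsmul _ _ _ hbd).trans ?_
  rw [nsmul_eq_mul]
  apply mul_le_mul_of_nonneg_right _ (by positivity)
  have h3 : (((cellSet N (K1 N + 1)).filter (fun b => b.length = K1 N + 1 ∧
      3 * (N : ℝ) ≤ ThB N 0 b.tail ∧ b ≠ [] ∧ ((b.headD 0 : ℕ) : ℝ) ≤ (N : ℝ) + 6)).card : ℝ)
      ≤ ((cellSet N (K1 N + 1)).card : ℝ) := by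
    exact_mod_cast Finset.card_filter_le _ _
  exact h3.trans (cellSet_card N _)

lemma mem_R1Set (N : ℕ) (X : ℝ) (v : ℕ) (l : List ℕ) (hv : v ∈ Finset.Icc 1 ⌊X⌋₊) (hcl : Clean N v)
    (hs : l.Pairwise (· > ·)) (hn : ∀ q ∈ l, Normal N q) (hlev : ∀ q ∈ l, lev q ≤ (N : ℝ) + 5)
    (hlen : l.length = K1 N + 1) (hd : rowsProd l ∣ v) (ht0 : 0 ≤ t0 N) (hts : 10 ≤ ts N)
    (hK : 9 * (N : ℝ) ≤ (K1 N : ℝ) * ts N) : v ∈ R1Set N X := by
  have hfl : ∀ q ∈ l, t0 N - 1 ≤ ((⌊lev q⌋₊ : ℕ) : ℝ) := by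
    intro q hq
    have h1 := (hn q hq).2.1
    have h2 := Nat.lt_floor_add_one (lev q)
    linarith
  set b := l.map (fun p => ⌊lev p⌋₊) with hb
  have hblen : b.length = K1 N + 1 := by simp [hb, hlen]
  have hcell : b ∈ cellSet N (K1 N + 1) := by
    rw [← hblen]
    apply mem_cellSet
    intro c hc
    obtain ⟨q, hq, rfl⟩ := List.mem_map.1 hc
    apply Nat.floor_le_of_le
    have := hlev q hq
    push_cast
    linarith
  have hne : b ≠ [] := by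
    intro h
    rw [h] at hblen
    simp at hblen
  have hhd : ((b.headD 0 : ℕ) : ℝ) ≤ (N : ℝ) + 6 := by
    cases l with
    | nil => simp at hlen
    | cons q l' =>
      simp only [hb, List.map_cons, List.headD_cons]
      have h1 := hlev q List.mem_cons_self
      have h2 := (hn q List.mem_cons_self).2.1
      have h3 := Nat.floor_le (a := lev q) (by linarith)
      linarith
  have hth : 3 * (N : ℝ) ≤ ThB N 0 b.tail := by
    have h1 : ∀ c ∈ b.tail, t0 N - 1 ≤ (c : ℝ) := by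
      intro c hc
      obtain ⟨q, hq, rfl⟩ := List.mem_map.1 (List.mem_of_mem_tail hc)
      exact hfl q hq
    have h2 := ThB_ge N 0 b.tail h1 (by linarith)
    have h3 : (b.tail.length : ℝ) = K1 N := by
      rw [List.length_tail, hblen]
      simp
    rw [h3] at h2
    have hK0 : (0 : ℝ) ≤ K1 N := Nat.cast_nonneg _
    have h4 : 0.9 * ts N ≤ ts N - 1 := by linarith
    have h5 : 0.38 * (0.9 * ts N) * (K1 N : ℝ) ≤ 0.38 * (ts N - 1) * (K1 N : ℝ) := by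
      apply mul_le_mul_of_nonneg_right _ hK0
      linarith
    have h6 : (0 : ℝ) ≤ N := Nat.cast_nonneg _
    nlinarith
  unfold R1Set
  refine Finset.mem_biUnion.2 ⟨b, Finset.mem_filter.2 ⟨hcell, hblen, hth, hne, hhd⟩, ?_⟩
  refine Finset.mem_filter.2 ⟨hv, hcl, l, ⟨hs, hn, rfl⟩, hd⟩

/-- Sum over a triple product. -/
lemma sum_triple (Gs Bs : Finset (Finset ℕ)) (Lw : Finset ℕ) (f g : Finset ℕ → ℝ) (h : ℕ → ℝ) :
    ∑ i ∈ Gs ×ˢ (Bs ×ˢ Lw), f i.1 * g i.2.1 * h i.2.2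
      = (∑ G ∈ Gs, f G) * (∑ B ∈ Bs, g B) * ∑ l ∈ Lw, h l := by
  rw [Finset.sum_product, Finset.sum_mul_sum, Finset.sum_mul]
  apply Finset.sum_congr rfl
  intro G _
  rw [Finset.sum_product, Finset.sum_mul_sum]


/-! ### Asymptotics -/

lemma tendsto_natCast_rpow {e : ℝ} (he : 0 < e) :
    Filter.Tendsto (fun N : ℕ => (N : ℝ) ^ e) Filter.atTop Filter.atTop :=
  (tendsto_rpow_atTop he).comp tendsto_natCast_atTop_atTop

lemma K1_ge (N : ℕ) (hN : 1 ≤ N) : 9 * (N : ℝ) ≤ (K1 N : ℝ) * ts N := by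
  have hn : (0 : ℝ) < N := by exact_mod_cast hN
  have hts : 0 < ts N := by unfold ts t0; positivity
  have := Nat.le_ceil (9 * (N : ℝ) / ts N)
  unfold K1
  calc 9 * (N : ℝ) = 9 * (N : ℝ) / ts N * ts N := by field_simp
    _ ≤ _ := mul_le_mul_of_nonneg_right this hts.le

lemma K1_le (N : ℕ) (hN : 1 ≤ N) : (K1 N : ℝ) ≤ 18 * (N : ℝ) ^ ((1 : ℝ) / 5) + 1 := by
  have hn : (0 : ℝ) < N := by exact_mod_cast hN
  have h1 : 9 * (N : ℝ) / ts N = 18 * (N : ℝ) ^ ((1 : ℝ) / 5) := by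
    unfold ts t0
    have h2 : (N : ℝ) = (N : ℝ) ^ ((4 : ℝ) / 5) * (N : ℝ) ^ ((1 : ℝ) / 5) := by
      rw [← Real.rpow_add hn]
      norm_num
    have h3 : 0 < (N : ℝ) ^ ((4 : ℝ) / 5) := by positivity
    have h4 : 9 * (N : ℝ) = 9 * ((N : ℝ) ^ ((4 : ℝ) / 5) * (N : ℝ) ^ ((1 : ℝ) / 5)) := by
      rw [← h2]
    rw [h4]
    field_simp
    norm_num
  have h5 : 0 ≤ 9 * (N : ℝ) / ts N := by rw [h1]; positivity
  have h6 := Nat.ceil_lt_add_one h5
  unfold K1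
  rw [h1] at h6 ⊢
  exact h6.le

/-- Main asymptotic inequality. -/
lemma asym (A B : ℝ) (hA : 0 ≤ A) (hB : 0 < B) : ∀ᶠ N : ℕ in Filter.atTop,
    ((K1 N : ℝ) + 1) * Real.log ((N : ℝ) + A) + Real.log (B * ((N : ℝ) + 1)) + 1 + (N : ℝ) ^ ((22 : ℝ) / 100)
      ≤ (N : ℝ) ^ ((23 : ℝ) / 100) := by
  set K : ℝ := 2020 + |Real.log B| + 101 + 2 with hK
  have hK1 : 1 ≤ K := by
    have := abs_nonneg (Real.log B)
    rw [hK]; linarith
  have h1 := (tendsto_natCast_rpow (e := (1 : ℝ) / 100) (by norm_num)).eventually_ge_atTop (K + 1)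
  have h2 := (tendsto_natCast_atTop_atTop (R := ℝ)).eventually_ge_atTop (max A 1)
  filter_upwards [h1, h2, Filter.eventually_ge_atTop 1] with N hu hn hN
  have hn1 : (1 : ℝ) ≤ N := le_trans (le_max_right _ _) hn
  have hnA : A ≤ N := le_trans (le_max_left _ _) hn
  have hn0 : (0 : ℝ) < N := by linarith
  set u := (N : ℝ) ^ ((1 : ℝ) / 100) with hu_def
  have hu1 : 1 ≤ u := by linarith
  -- log bounds
  have hlogn : Real.log N ≤ 100 * u := by
    have := Real.log_le_rpow_div hn0.le (ε := (1 : ℝ) / 100) (by norm_num)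
    rw [div_eq_mul_inv] at this
    norm_num at this
    rw [hu_def]
    norm_num
    linarith
  have hlog2 : Real.log 2 ≤ 1 := by
    have := Real.log_two_lt_d9
    linarith
  have hl2n : Real.log (2 * (N : ℝ)) ≤ 101 * u := by
    rw [Real.log_mul (by norm_num) hn0.ne']
    linarith
  have hlA : Real.log ((N : ℝ) + A) ≤ 101 * u := by
    have : Real.log ((N : ℝ) + A) ≤ Real.log (2 * (N : ℝ)) :=
      Real.log_le_log (by linarith) (by linarith)
    linarith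
  have hlB : Real.log (B * ((N : ℝ) + 1)) ≤ |Real.log B| + 101 * u := by
    rw [Real.log_mul hB.ne' (by linarith)]
    have : Real.log ((N : ℝ) + 1) ≤ Real.log (2 * (N : ℝ)) :=
      Real.log_le_log (by linarith) (by linarith)
    have := le_abs_self (Real.log B)
    linarith
  set w := (N : ℝ) ^ ((1 : ℝ) / 5) with hw_def
  have hw1 : 1 ≤ w := Real.one_le_rpow hn1 (by norm_num)
  have hK1' := K1_le N hN
  have hK0 : (0 : ℝ) ≤ K1 N := Nat.cast_nonneg _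
  have hv : (N : ℝ) ^ ((21 : ℝ) / 100) = w * u := by
    rw [hw_def, hu_def, ← Real.rpow_add hn0]
    norm_num
  have h22 : (N : ℝ) ^ ((22 : ℝ) / 100) = w * u * u := by
    rw [hw_def, hu_def, ← Real.rpow_add hn0, ← Real.rpow_add hn0]
    norm_num
  have h23 : (N : ℝ) ^ ((23 : ℝ) / 100) = w * u * u * u := by
    rw [hw_def, hu_def, ← Real.rpow_add hn0, ← Real.rpow_add hn0, ← Real.rpow_add hn0]
    norm_num
  rw [h22, h23]
  have hlogA0 : 0 ≤ Real.log ((N : ℝ) + A) := Real.log_nonneg (by linarith)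
  have h3 : ((K1 N : ℝ) + 1) * Real.log ((N : ℝ) + A) ≤ (20 * w) * (101 * u) := by
    apply mul_le_mul _ hlA hlogA0 (by positivity)
    linarith
  have hwu : 1 ≤ w * u := by nlinarith
  have huu : u ≤ w * u := by nlinarith
  have hB' := abs_nonneg (Real.log B)
  have h4 : 2020 * (w * u) + (|Real.log B| + 101 * u) + 1 ≤ (K - 0) * (w * u) := by
    rw [hK]
    nlinarith
  have h5 : (K + 1) * (w * u) ≤ u * (w * u) := mul_le_mul_of_nonneg_right hu (by positivity)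
  have h6 : u * (w * u) * u = w * u * u * u := by ring
  have h7 : w * u * u ≤ u * (w * u) * u - K * (w * u) * u + w * u * u := by
    nlinarith
  have h8 : (K + 1) * (w * u) * u ≤ u * (w * u) * u :=
    mul_le_mul_of_nonneg_right h5 (by linarith)
  nlinarith


lemma tendsto_ts : Filter.Tendsto ts Filter.atTop Filter.atTop := by
  unfold ts t0
  exact (tendsto_natCast_rpow (e := (4 : ℝ) / 5) (by norm_num)).atTop_div_const (by norm_num)

/-- All the large-`N` facts used below. -/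
lemma E4_eventually (c : ℝ) (hc : 1 < c) (C₀ C₁ C₂ : ℝ) (hC₀ : 0 < C₀) (hC₁ : 0 < C₁) (hC₂ : 0 < C₂) :
    ∀ᶠ N : ℕ in Filter.atTop,
      10 ≤ ts N ∧ 5 / 6 ≤ 1 - 5 * (ts N) ^ (-(7 : ℝ) / 20) ∧
      Real.exp 1 * ((N : ℝ) + 6 + C₀) ^ (K1 N + 1) * ((C₂ + 20 * C₁ * (N : ℝ)) * eps0 N)
        ≤ Real.exp (-(N : ℝ) ^ ((22 : ℝ) / 100)) ∧
      c * ((N : ℝ) + 7) ^ (K1 N + 1) * Real.exp (-(5 / 2) * (N : ℝ) + 3 * ((K1 N : ℝ) + 1) + 1)
        * Real.exp ((N : ℝ) + 2) ≤ Real.exp (-(N : ℝ) ^ ((22 : ℝ) / 100)) ∧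
      Real.log (c + 1) ≤ Real.exp ((N : ℝ) - 2) ∧
      10 * (N : ℝ) * eps0 N ≤ 1 / 2 := by
  have hB1 : 0 < C₂ + 20 * C₁ + 1 := by positivity
  have e1 := tendsto_ts.eventually_ge_atTop 10
  have e2 : ∀ᶠ N : ℕ in Filter.atTop, (ts N) ^ (-(7 : ℝ) / 20) ≤ 1 / 30 := by
    have h := (tendsto_rpow_neg_atTop (y := (7 : ℝ) / 20) (by norm_num)).comp tendsto_ts
    have h2 := h.eventually_le_const (u := 1 / 30) (by norm_num)
    filter_upwards [h2] with N hN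
    have : -(7 : ℝ) / 20 = -((7 : ℝ) / 20) := by ring
    rw [this]
    exact hN
  have e3 := asym (6 + C₀) (C₂ + 20 * C₁ + 1) (by positivity) hB1
  have e4 := asym 7 1 (by norm_num) (by norm_num)
  have e5 := asym 0 20 (by norm_num) (by norm_num)
  have e6 := (tendsto_natCast_atTop_atTop (R := ℝ)).eventually_ge_atTop (max (10 * |Real.log c| + 100) (Real.log (c + 1) + 2))
  have e7 : ∀ᶠ N : ℕ in Filter.atTop, 100 ≤ (N : ℝ) ^ ((77 : ℝ) / 100) :=
    (tendsto_natCast_rpow (by norm_num)).eventually_ge_atTop 100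
  filter_upwards [e1, e2, e3, e4, e5, e6, e7, Filter.eventually_ge_atTop 1] with N h1 h2 h3 h4 h5 h6 h7 hN
  have hn1 : (1 : ℝ) ≤ N := by exact_mod_cast hN
  have hn0 : (0 : ℝ) < N := by linarith
  have hK0 : (0 : ℝ) ≤ K1 N := Nat.cast_nonneg _
  refine ⟨h1, by linarith, ?_, ?_, ?_, ?_⟩
  · -- case B
    have hlam : 0 < (N : ℝ) + 6 + C₀ := by positivity
    have hBn : C₂ + 20 * C₁ * (N : ℝ) ≤ (C₂ + 20 * C₁ + 1) * ((N : ℝ) + 1) := by nlinarith
    have hBn0 : 0 < (C₂ + 20 * C₁ + 1) * ((N : ℝ) + 1) := by positivity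
    have hpow : ((N : ℝ) + 6 + C₀) ^ (K1 N + 1)
        = Real.exp (((K1 N : ℝ) + 1) * Real.log ((N : ℝ) + (6 + C₀))) := by
      rw [show (N : ℝ) + 6 + C₀ = (N : ℝ) + (6 + C₀) by ring] at *
      rw [← Real.rpow_natCast, Real.rpow_def_of_pos hlam]
      push_cast
      ring_nf
    have hB2 : (C₂ + 20 * C₁ + 1) * ((N : ℝ) + 1)
        = Real.exp (Real.log ((C₂ + 20 * C₁ + 1) * ((N : ℝ) + 1))) := (Real.exp_log hBn0).symm
    calc Real.exp 1 * ((N : ℝ) + 6 + C₀) ^ (K1 N + 1) * ((C₂ + 20 * C₁ * (N : ℝ)) * eps0 N)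
        ≤ Real.exp 1 * ((N : ℝ) + 6 + C₀) ^ (K1 N + 1) * (((C₂ + 20 * C₁ + 1) * ((N : ℝ) + 1)) * eps0 N) := by
          apply mul_le_mul_of_nonneg_left _ (by positivity)
          apply mul_le_mul_of_nonneg_right hBn (by unfold eps0; positivity)
      _ = Real.exp (1 + ((K1 N : ℝ) + 1) * Real.log ((N : ℝ) + (6 + C₀))
            + Real.log ((C₂ + 20 * C₁ + 1) * ((N : ℝ) + 1)) - (N : ℝ) ^ ((23 : ℝ) / 100)) := by
          rw [hpow, hB2, Real.exp_log hBn0]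
          unfold eps0
          rw [sub_eq_add_neg, Real.exp_add, Real.exp_add, Real.exp_add, Real.exp_log hBn0]
          ring
      _ ≤ _ := Real.exp_le_exp.2 (by linarith)
  · -- case A
    have hlam : 0 < (N : ℝ) + 7 := by positivity
    have hc0 : 0 < c := by linarith
    have hpow : ((N : ℝ) + 7) ^ (K1 N + 1) = Real.exp (((K1 N : ℝ) + 1) * Real.log ((N : ℝ) + 7)) := by
      rw [← Real.rpow_natCast, Real.rpow_def_of_pos hlam]
      push_cast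
      ring_nf
    have hlogc : Real.log c ≤ |Real.log c| := le_abs_self _
    have hn100 : 10 * |Real.log c| + 100 ≤ (N : ℝ) := le_trans (le_max_left _ _) h6
    have h23 : (N : ℝ) ^ ((23 : ℝ) / 100) * (N : ℝ) ^ ((77 : ℝ) / 100) = N := by
      rw [← Real.rpow_add hn0]
      norm_num
    have h230 : 0 ≤ (N : ℝ) ^ ((23 : ℝ) / 100) := by positivity
    have h23' : (N : ℝ) ^ ((23 : ℝ) / 100) * 100 ≤ N := by
      calc (N : ℝ) ^ ((23 : ℝ) / 100) * 100 ≤ (N : ℝ) ^ ((23 : ℝ) / 100) * (N : ℝ) ^ ((77 : ℝ) / 100) :=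
            mul_le_mul_of_nonneg_left h7 h230
        _ = N := h23
    have hlog1 : 0 ≤ Real.log (1 * ((N : ℝ) + 1)) := Real.log_nonneg (by linarith)
    -- K1 ≤ (K1+1) log(N+7) since log (N+7) ≥ 1
    have hl7 : 1 ≤ Real.log ((N : ℝ) + 7) := by
      rw [Real.le_log_iff_exp_le hlam]
      have := Real.exp_one_lt_d9
      linarith
    have hK2 : (K1 N : ℝ) + 1 ≤ ((K1 N : ℝ) + 1) * Real.log ((N : ℝ) + 7) := by nlinarith
    have h22 : 0 ≤ (N : ℝ) ^ ((22 : ℝ) / 100) := by positivity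
    calc c * ((N : ℝ) + 7) ^ (K1 N + 1) * Real.exp (-(5 / 2) * (N : ℝ) + 3 * ((K1 N : ℝ) + 1) + 1)
        * Real.exp ((N : ℝ) + 2)
        = Real.exp (Real.log c + ((K1 N : ℝ) + 1) * Real.log ((N : ℝ) + 7)
            + (-(5 / 2) * (N : ℝ) + 3 * ((K1 N : ℝ) + 1) + 1) + ((N : ℝ) + 2)) := by
          rw [hpow]
          simp only [Real.exp_add, Real.exp_log hc0]
      _ ≤ _ := Real.exp_le_exp.2 (by nlinarith)
  · -- log (c+1)
    have h8 : Real.log (c + 1) + 2 ≤ (N : ℝ) := le_trans (le_max_right _ _) h6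
    have := Real.add_one_le_exp ((N : ℝ) - 2)
    linarith
  · -- 10 n eps0
    have hpos : 0 < (20 : ℝ) * ((N : ℝ) + 0 + 1) := by positivity
    have h22 : 0 ≤ (N : ℝ) ^ ((22 : ℝ) / 100) := by positivity
    have hlogN : 0 ≤ Real.log ((N : ℝ) + 0) := Real.log_nonneg (by linarith)
    have hK3 : 0 ≤ ((K1 N : ℝ) + 1) * Real.log ((N : ℝ) + 0) := by positivity
    have h9 : Real.log (20 * ((N : ℝ) + 1)) ≤ (N : ℝ) ^ ((23 : ℝ) / 100) := by linarith
    have h10 : 20 * ((N : ℝ) + 1) ≤ Real.exp ((N : ℝ) ^ ((23 : ℝ) / 100)) := by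
      rw [← Real.log_le_iff_le_exp (by positivity)]
      exact h9
    unfold eps0
    rw [Real.exp_neg, ← div_eq_mul_inv, div_le_iff₀ (Real.exp_pos _)]
    linarith


/-- Big primes of bounded level. -/
def QsE4 (N : ℕ) : Finset ℕ :=
  (Finset.range (⌈Real.exp (Real.exp ((N : ℝ) + 6))⌉₊ + 1)).filter
    (fun p => p.Prime ∧ lev p < (N : ℝ) + 6 ∧ t0 N ≤ lev p ∧ lev p ≤ (N : ℝ) + 5)

lemma mem_QsE4 {N q : ℕ} (hq : q.Prime) (h1 : t0 N ≤ lev q) (h2 : lev q ≤ (N : ℝ) + 5) : q ∈ QsE4 N := by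
  unfold QsE4
  have h3 : lev q < (N : ℝ) + 6 := by linarith
  refine Finset.mem_filter.2 ⟨?_, hq, h3, h1, h2⟩
  have := Nat.lt_ceil.2 (lt_exp_exp_of_level hq h3)
  exact Finset.mem_range.2 (by omega)

/-- The product of `q - 1`. -/
def mS (S : Finset ℕ) : ℕ := ∏ q ∈ S, (q - 1)

lemma mS_ne_zero {S : Finset ℕ} (h : ∀ q ∈ S, q.Prime) : mS S ≠ 0 := by
  unfold mS
  rw [Finset.prod_ne_zero_iff]
  intro q hq
  have := (h q hq).two_le
  omega

lemma one_div_mS {S : Finset ℕ} (h : ∀ q ∈ S, q.Prime) :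
    (1 : ℝ) / (mS S : ℝ) = ∏ q ∈ S, (1 : ℝ) / ((q : ℝ) - 1) := by
  unfold mS
  rw [Nat.cast_prod, Finset.prod_div_distrib]
  simp only [Finset.prod_const_one]
  congr 1
  apply Finset.prod_congr rfl
  intro q hq
  have := (h q hq).two_le
  rw [Nat.cast_sub (by omega)]
  simp

lemma rowsProd_eq_mS {t : List ℕ} (h : t.Pairwise (· > ·)) : rowsProd t = mS t.toFinset := by
  unfold rowsProd mS
  have hnd : t.Nodup := h.imp (fun h => ne_of_gt h)
  rw [List.prod_toFinset _ hnd]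

lemma dvd_rowsProd_of_sublist {l l' : List ℕ} (h : l.Sublist l') : rowsProd l ∣ rowsProd l' := by
  unfold rowsProd
  exact (h.map _).prod_dvd_prod


lemma sub_one_dvd_rowsProd {l : List ℕ} {q : ℕ} (h : q ∈ l) : q - 1 ∣ rowsProd l := by
  unfold rowsProd
  exact List.dvd_prod (List.mem_map_of_mem h)

/-! ### Index sets -/

/-- The weight function `1/(q-1)`. -/
def aE4 (q : ℕ) : ℝ := (1 : ℝ) / ((q : ℝ) - 1)

def NrmE4 (N : ℕ) : Finset ℕ := (QsE4 N).filter (fun q => Normal N q)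
def AbnE4 (N : ℕ) : Finset ℕ := (QsE4 N).filter (fun q => ¬ Normal N q)
def GsE4 (N : ℕ) : Finset (Finset ℕ) := (NrmE4 N).powerset.filter (fun G => G.card ≤ K1 N + 1)
def BsE4 (N : ℕ) : Finset (Finset ℕ) := (AbnE4 N).powerset
def LwE4 (N : ℕ) : Finset ℕ := (Finset.range (Bnd N)).filter (fun m => LowVal N m ∧ Clean N m)
def IxE4 (N : ℕ) : Finset (Finset ℕ × Finset ℕ × ℕ) := GsE4 N ×ˢ (BsE4 N ×ˢ LwE4 N)
def ME4 (i : Finset ℕ × Finset ℕ × ℕ) : ℕ := mS i.1 * mS i.2.1 * i.2.2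
def FallE4 (x c : ℝ) (m : ℕ) : Finset ℕ := (Finset.range (⌊c * x⌋₊ + 2)).filter
    (fun p : ℕ => p.Prime ∧ Real.log x / 600 ≤ Real.log p ∧ (p - 1) * m ∈ Win x c)
def FabnE4 (N : ℕ) (x c : ℝ) (m : ℕ) : Finset ℕ := (Finset.range (⌊c * x⌋₊ + 2)).filter
    (fun p : ℕ => p.Prime ∧ ¬ Normal N p ∧ Real.log x / 600 ≤ Real.log p ∧ (p - 1) * m ∈ Win x c)
def FE4 (N : ℕ) (x c : ℝ) (i : Finset ℕ × Finset ℕ × ℕ) : Finset ℕ :=
  if i.2.1 = ∅ then FabnE4 N x c (ME4 i) else FallE4 x c (ME4 i)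

lemma prime_of_QsE4 {N q : ℕ} (h : q ∈ QsE4 N) : q.Prime := (Finset.mem_filter.1 h).2.1
lemma prime_of_NrmE4 {N q : ℕ} (h : q ∈ NrmE4 N) : q.Prime := prime_of_QsE4 (Finset.mem_filter.1 h).1
lemma prime_of_AbnE4 {N q : ℕ} (h : q ∈ AbnE4 N) : q.Prime := prime_of_QsE4 (Finset.mem_filter.1 h).1

lemma aE4_nonneg {q : ℕ} (hq : q.Prime) : 0 ≤ aE4 q := by
  have h2 : (2 : ℝ) ≤ q := by exact_mod_cast hq.two_le
  have : 0 < (q : ℝ) - 1 := by linarith
  unfold aE4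
  positivity

lemma LwE4_ne {N l : ℕ} (hl : l ∈ LwE4 N) : l ≠ 0 := by
  obtain ⟨n, hn, -, hl2, -⟩ := (Finset.mem_filter.1 hl).2.1
  rw [hl2]
  exact (Nat.totient_pos.2 (Nat.pos_of_ne_zero hn)).ne'

lemma ME4_ne {N : ℕ} {i : Finset ℕ × Finset ℕ × ℕ} (hi : i ∈ IxE4 N) : ME4 i ≠ 0 := by
  obtain ⟨h1, h2⟩ := Finset.mem_product.1 hi
  obtain ⟨h2, h3⟩ := Finset.mem_product.1 h2
  have h1' := Finset.mem_powerset.1 (Finset.mem_filter.1 h1).1
  have h2' := Finset.mem_powerset.1 h2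
  exact mul_ne_zero (mul_ne_zero (mS_ne_zero (fun q hq => prime_of_NrmE4 (h1' hq)))
    (mS_ne_zero (fun q hq => prime_of_AbnE4 (h2' hq)))) (LwE4_ne h3)

/-- The low part of a structured integer is in the index set. -/
lemma low_mem_LwE4 {N low v : ℕ} (hlow : LowVal N low) (hd : low ∣ v) (hcl : Clean N v) : low ∈ LwE4 N := by
  refine Finset.mem_filter.2 ⟨Finset.mem_range.2 ?_, hlow, ?_⟩
  · have h1 : (low : ℝ) ≤ Ymax N := hlow.choose_spec.2.2.2
    have hY : 1 ≤ Ymax N := by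
      unfold Ymax
      apply Real.one_le_exp
      positivity
    have h2 : (Ymax N) ^ 2 ≤ (⌈(Ymax N) ^ 2⌉₊ : ℝ) := Nat.le_ceil _
    have h3 : (low : ℝ) ≤ (⌈(Ymax N) ^ 2⌉₊ : ℝ) := by nlinarith
    have h4 : low ≤ ⌈(Ymax N) ^ 2⌉₊ := by exact_mod_cast h3
    unfold Bnd
    omega
  · intro r hr hrl hsq
    exact hcl r hr hrl (hsq.trans hd)

/-- Level bound in the window. -/
lemma lev_le_of_window {N : ℕ} {x c : ℝ} (hc : 1 < c) (hx : 1 < x)
    (hLu : Real.log x ≤ Real.exp ((N : ℝ) + 2)) (hlc : Real.log (c + 1) ≤ Real.log x)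
    {v q : ℕ} (hv : v ∈ Win x c) (hq : q.Prime) (hd : q - 1 ∣ v) : lev q ≤ (N : ℝ) + 5 := by
  have hx0 : 0 < x := by linarith
  have hc0 : 0 < c := by linarith
  have hv' := Finset.mem_Ioc.1 hv
  have hv1 : 1 ≤ v := by omega
  have hle : q - 1 ≤ v := Nat.le_of_dvd (by omega) hd
  have hvx : (v : ℝ) ≤ c * x :=
    (Nat.cast_le.2 hv'.2).trans (Nat.floor_le (by positivity))
  have hq2 := hq.two_le
  have hq1 : (q : ℝ) - 1 ≤ v := by
    have : ((q - 1 : ℕ) : ℝ) ≤ v := Nat.cast_le.2 hle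
    rwa [Nat.cast_sub (by omega), Nat.cast_one] at this
  have hqx : (q : ℝ) ≤ (c + 1) * x := by nlinarith
  have hq0 : (0 : ℝ) < q := by positivity
  have hq1' : (1 : ℝ) < q := by exact_mod_cast (by omega : 1 < q)
  have hlogq : Real.log q ≤ Real.log (c + 1) + Real.log x := by
    rw [← Real.log_mul (by positivity) hx0.ne']
    exact Real.log_le_log hq0 hqx
  have hlogq0 : 0 < Real.log q := Real.log_pos hq1'
  unfold lev
  calc Real.log (Real.log q) ≤ Real.log (2 * Real.exp ((N : ℝ) + 2)) :=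
        Real.log_le_log hlogq0 (by linarith)
    _ = Real.log 2 + ((N : ℝ) + 2) := by
        rw [Real.log_mul (by norm_num) (Real.exp_pos _).ne', Real.log_exp]
    _ ≤ (N : ℝ) + 5 := by
        have := Real.log_two_lt_d9
        linarith

/-- The case of few normal rows. -/
lemma few_rows_mem {N : ℕ} {x c : ℝ} {v p low : ℕ} {t : List ℕ} (hw : v ∈ Win x c)
    (hs : (p :: t).Pairwise (· > ·)) (hq : ∀ q ∈ p :: t, q.Prime ∧ t0 N ≤ lev q)
    (htop : Real.log x / 600 ≤ Real.log p) (hlow : LowVal N low) (hvq : v = rowsProd (p :: t) * low)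
    (hcl : Clean N v) (hq₀ : ∃ q ∈ p :: t, ¬ Normal N q)
    (hlevl : ∀ q ∈ p :: t, lev q ≤ (N : ℝ) + 5)
    (hbig : ¬ K1 N + 1 ≤ ((p :: t).filter (fun q => Normal N q)).length) :
    v ∈ (IxE4 N).biUnion (fun i => (FE4 N x c i).image (fun p => (p - 1) * ME4 i)) := by
  obtain ⟨q₀, hq₀, hq₀n⟩ := hq₀
  have hw' := Finset.mem_Ioc.1 hw
  apply Finset.mem_biUnion.2
  have hst : t.Pairwise (· > ·) := (List.pairwise_cons.1 hs).2
  have hSQ : ∀ q ∈ t.toFinset, q ∈ QsE4 N := by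
    intro q hqS
    have hqt : q ∈ t := List.mem_toFinset.1 hqS
    have hqm : q ∈ p :: t := List.mem_cons_of_mem _ hqt
    exact mem_QsE4 (hq q hqm).1 (hq q hqm).2 (hlevl q hqm)
  have hGN : t.toFinset.filter (fun q => Normal N q) ∈ GsE4 N := by
    refine Finset.mem_filter.2 ⟨Finset.mem_powerset.2 ?_, ?_⟩
    · intro q hqG
      have h := Finset.mem_filter.1 hqG
      exact Finset.mem_filter.2 ⟨hSQ q h.1, h.2⟩
    · have h1 : t.toFinset.filter (fun q => Normal N q) = (t.filter (fun q => Normal N q)).toFinset := by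
        ext q
        simp
      have h2 : (t.toFinset.filter (fun q => Normal N q)).card ≤ (t.filter (fun q => Normal N q)).length := by
        rw [h1]
        exact List.toFinset_card_le _
      have h3 : (t.filter (fun q => Normal N q)).length ≤
          ((p :: t).filter (fun q => Normal N q)).length :=
        ((List.sublist_cons_self p t).filter _).length_le
      omega
  have hBA : t.toFinset.filter (fun q => ¬ Normal N q) ∈ BsE4 N := by
    refine Finset.mem_powerset.2 ?_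
    intro q hqB
    have h := Finset.mem_filter.1 hqB
    exact Finset.mem_filter.2 ⟨hSQ q h.1, h.2⟩
  have hlowm : low ∈ LwE4 N := low_mem_LwE4 hlow (hvq ▸ Dvd.intro_left _ rfl) hcl
  have hix : (t.toFinset.filter (fun q => Normal N q), (t.toFinset.filter (fun q => ¬ Normal N q), low)) ∈ IxE4 N :=
    Finset.mem_product.2 ⟨hGN, Finset.mem_product.2 ⟨hBA, hlowm⟩⟩
  have hv_eq : v = (p - 1) * ME4 (t.toFinset.filter (fun q => Normal N q), (t.toFinset.filter (fun q => ¬ Normal N q), low)) := by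
    have h1 : mS t.toFinset = mS (t.toFinset.filter (fun q => Normal N q)) * mS (t.toFinset.filter (fun q => ¬ Normal N q)) := by
      unfold mS
      rw [Finset.prod_filter_mul_prod_filter_not]
    have h2 : rowsProd (p :: t) = (p - 1) * rowsProd t := by
      simp [rowsProd]
    simp only [ME4]
    rw [hvq, h2, rowsProd_eq_mS hst, h1]
    ring
  refine ⟨_, hix, ?_⟩
  refine Finset.mem_image.2 ⟨p, ?_, hv_eq.symm⟩
  have hMpos : 1 ≤ ME4 (t.toFinset.filter (fun q => Normal N q), (t.toFinset.filter (fun q => ¬ Normal N q), low)) := by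
    have := ME4_ne hix
    omega
  have hp0 := hq p List.mem_cons_self
  have hrange : p ∈ Finset.range (⌊c * x⌋₊ + 2) := by
    have h1 : p - 1 ≤ v := by
      rw [hv_eq]
      exact Nat.le_mul_of_pos_right _ hMpos
    have h2 := hw'.2
    exact Finset.mem_range.2 (by omega)
  have hwin : (p - 1) * ME4 (t.toFinset.filter (fun q => Normal N q), (t.toFinset.filter (fun q => ¬ Normal N q), low)) ∈ Win x c := hv_eq ▸ hw
  unfold FE4
  by_cases hBe : t.toFinset.filter (fun q => ¬ Normal N q) = ∅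
  · rw [if_pos hBe]
    refine Finset.mem_filter.2 ⟨hrange, hp0.1, ?_, htop, hwin⟩
    rcases List.mem_cons.1 hq₀ with rfl | hq₀t
    · exact hq₀n
    · exfalso
      have : q₀ ∈ t.toFinset.filter (fun q => ¬ Normal N q) :=
        Finset.mem_filter.2 ⟨List.mem_toFinset.2 hq₀t, hq₀n⟩
      rw [hBe] at this
      simp at this
  · rw [if_neg hBe]
    exact Finset.mem_filter.2 ⟨hrange, hp0.1, htop, hwin⟩

/-- The case of many normal rows. -/
lemma many_rows_mem {N : ℕ} {x c : ℝ} {v p low : ℕ} {t : List ℕ} (hw : v ∈ Win x c)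
    (hs : (p :: t).Pairwise (· > ·)) (hvq : v = rowsProd (p :: t) * low)
    (hcl : Clean N v) (hlevl : ∀ q ∈ p :: t, lev q ≤ (N : ℝ) + 5)
    (hbig : K1 N + 1 ≤ ((p :: t).filter (fun q => Normal N q)).length)
    (ht0 : 0 ≤ t0 N) (hts : 10 ≤ ts N) (hN6 : 1 ≤ N) : v ∈ R1Set N (c * x) := by
  have hw' := Finset.mem_Ioc.1 hw
  have hdvd : rowsProd (p :: t) ∣ v := ⟨low, hvq⟩
  have hsub : (((p :: t).filter (fun q => Normal N q)).take (K1 N + 1)).Sublist (p :: t) :=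
    (List.take_sublist _ _).trans List.filter_sublist
  apply mem_R1Set N (c * x) v (((p :: t).filter (fun q => Normal N q)).take (K1 N + 1))
    (Finset.mem_Icc.2 ⟨by omega, hw'.2⟩) hcl (hs.sublist hsub)
  · intro q hqm
    have := List.mem_of_mem_take hqm
    simpa using (List.mem_filter.1 this).2
  · intro q hqm
    exact hlevl q (hsub.subset hqm)
  · rw [List.length_take]
    omega
  · exact (dvd_rowsProd_of_sublist hsub).trans hdvd
  · exact ht0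
  · exact hts
  · exact K1_ge N hN6

/-- The conversion of a term. -/
lemma term_form {N : ℕ} {i : Finset ℕ × Finset ℕ × ℕ} (hi : i ∈ IxE4 N) (x W L : ℝ) :
    W * (x / (ME4 i : ℝ)) / L = (x / L) *
        ((∏ q ∈ i.1, aE4 q) * (W * ∏ q ∈ i.2.1, aE4 q) * ((1 : ℝ) / (i.2.2 : ℝ))) := by
  obtain ⟨h1, h2⟩ := Finset.mem_product.1 hi
  obtain ⟨h2, h3⟩ := Finset.mem_product.1 h2
  have h1' := Finset.mem_powerset.1 (Finset.mem_filter.1 h1).1
  have h2' := Finset.mem_powerset.1 h2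
  have hG1 := one_div_mS (S := i.1) (fun q hq => prime_of_NrmE4 (h1' hq))
  have hB1 := one_div_mS (S := i.2.1) (fun q hq => prime_of_AbnE4 (h2' hq))
  have hGa : ∏ q ∈ i.1, aE4 q = 1 / (mS i.1 : ℝ) := hG1.symm
  have hBa : ∏ q ∈ i.2.1, aE4 q = 1 / (mS i.2.1 : ℝ) := hB1.symm
  rw [hGa, hBa]
  simp only [ME4]
  push_cast
  rw [one_div, one_div, one_div, div_eq_mul_inv x, div_eq_mul_inv x, mul_inv, mul_inv]
  ring

/-- The first moment sum. -/
lemma E4_sum_bound {N : ℕ} {x c C₀ C₁ C₂ : ℝ} (hx : 1 < x) (hC₁ : 0 < C₁) (hC₂ : 0 < C₂)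
    (hlam1 : 1 ≤ (N : ℝ) + 6 + C₀)
    (hT : ∀ m : ℕ, m ≠ 0 → ((FallE4 x c m).card : ℝ) ≤ C₁ * (x / m) / Real.log x)
    (hA : ∀ m : ℕ, m ≠ 0 → ((FabnE4 N x c m).card : ℝ) ≤ C₂ * eps0 N * (x / m) / Real.log x)
    (hmassN : ∑ q ∈ NrmE4 N, aE4 q ≤ (N : ℝ) + 6 + C₀)
    (hmassA : ∑ q ∈ AbnE4 N, aE4 q ≤ 10 * (N : ℝ) * eps0 N)
    (e6 : 10 * (N : ℝ) * eps0 N ≤ 1 / 2)
    (e3 : Real.exp 1 * ((N : ℝ) + 6 + C₀) ^ (K1 N + 1) * ((C₂ + 20 * C₁ * (N : ℝ)) * eps0 N)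
        ≤ Real.exp (-(N : ℝ) ^ ((22 : ℝ) / 100))) :
    ∑ i ∈ IxE4 N, ((FE4 N x c i).card : ℝ)
      ≤ (x / Real.log x) * Real.exp (-(N : ℝ) ^ ((22 : ℝ) / 100)) * Mlow N := by
  have heps : 0 < eps0 N := by unfold eps0; positivity
  have hx0 : 0 < x := by linarith
  have hL0 : 0 < Real.log x := Real.log_pos hx
  let w : Finset ℕ → ℝ := fun B => if B = ∅ then C₂ * eps0 N else C₁
  have hw0 : ∀ B, 0 ≤ w B := by
    intro B
    simp only [w]
    split_ifs <;> positivity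
  have hFi : ∀ i ∈ IxE4 N, ((FE4 N x c i).card : ℝ) ≤ (x / Real.log x) *
      ((∏ q ∈ i.1, aE4 q) * (w i.2.1 * ∏ q ∈ i.2.1, aE4 q) * ((1 : ℝ) / (i.2.2 : ℝ))) := by
    intro i hi
    have hne := ME4_ne hi
    by_cases hB : i.2.1 = ∅
    · have hFe : FE4 N x c i = FabnE4 N x c (ME4 i) := by unfold FE4; rw [if_pos hB]
      rw [hFe]
      have hwe : w i.2.1 = C₂ * eps0 N := by simp only [w]; rw [if_pos hB]
      rw [hwe, ← term_form hi]
      exact hA _ hne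
    · have hFe : FE4 N x c i = FallE4 x c (ME4 i) := by unfold FE4; rw [if_neg hB]
      rw [hFe]
      have hwe : w i.2.1 = C₁ := by simp only [w]; rw [if_neg hB]
      rw [hwe, ← term_form hi]
      exact hT _ hne
  have hsum : ∑ i ∈ IxE4 N, ((FE4 N x c i).card : ℝ) ≤ (x / Real.log x) *
      ((∑ G ∈ GsE4 N, ∏ q ∈ G, aE4 q) * (∑ B ∈ BsE4 N, w B * ∏ q ∈ B, aE4 q)
        * ∑ l ∈ LwE4 N, (1 : ℝ) / (l : ℝ)) := by
    rw [← sum_triple (GsE4 N) (BsE4 N) (LwE4 N) (fun G => ∏ q ∈ G, aE4 q)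
      (fun B => w B * ∏ q ∈ B, aE4 q) (fun l => (1 : ℝ) / (l : ℝ)), Finset.mul_sum]
    exact Finset.sum_le_sum hFi
  have hsumG : ∑ G ∈ GsE4 N, ∏ q ∈ G, aE4 q ≤ ((N : ℝ) + 6 + C₀) ^ (K1 N + 1) * Real.exp 1 := by
    refine (sum_subsets_le (NrmE4 N) aE4 (fun q hq => aE4_nonneg (prime_of_NrmE4 hq)) _ hlam1 (K1 N + 1)).trans ?_
    apply mul_le_mul_of_nonneg_left _ (by positivity)
    apply Real.exp_le_exp.2
    rw [div_le_one (by linarith)]
    exact hmassN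
  have hsumB : ∑ B ∈ BsE4 N, w B * ∏ q ∈ B, aE4 q ≤ (C₂ + 20 * C₁ * (N : ℝ)) * eps0 N := by
    have h1 := sum_subsets_weighted (AbnE4 N) aE4 (fun q hq => aE4_nonneg (prime_of_AbnE4 hq))
      (C₂ * eps0 N) C₁ hC₁.le (hmassA.trans e6)
    have h2 : ∑ B ∈ BsE4 N, w B * ∏ q ∈ B, aE4 q ≤ C₂ * eps0 N + C₁ * (2 * ∑ q ∈ AbnE4 N, aE4 q) := h1
    have h3 : C₁ * (2 * ∑ q ∈ AbnE4 N, aE4 q) ≤ C₁ * (2 * (10 * (N : ℝ) * eps0 N)) :=
      mul_le_mul_of_nonneg_left (by linarith) hC₁.le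
    nlinarith
  have hsumB0 : 0 ≤ ∑ B ∈ BsE4 N, w B * ∏ q ∈ B, aE4 q := by
    apply Finset.sum_nonneg
    intro B hB
    have hB' := Finset.mem_powerset.1 hB
    exact mul_nonneg (hw0 B) (Finset.prod_nonneg (fun q hq => aE4_nonneg (prime_of_AbnE4 (hB' hq))))
  have hMlow : Mlow N = ∑ m ∈ LwE4 N, (1 : ℝ) / m := rfl
  have hMlow0 : 0 ≤ Mlow N := by
    rw [hMlow]
    exact Finset.sum_nonneg (fun l _ => by positivity)
  have hZ0 : 0 < x / Real.log x := by positivity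
  refine hsum.trans ?_
  rw [← hMlow, mul_assoc (x / Real.log x)]
  apply mul_le_mul_of_nonneg_left _ hZ0.le
  apply mul_le_mul_of_nonneg_right _ hMlow0
  calc (∑ G ∈ GsE4 N, ∏ q ∈ G, aE4 q) * (∑ B ∈ BsE4 N, w B * ∏ q ∈ B, aE4 q)
      ≤ (((N : ℝ) + 6 + C₀) ^ (K1 N + 1) * Real.exp 1) * ((C₂ + 20 * C₁ * (N : ℝ)) * eps0 N) :=
        mul_le_mul hsumG hsumB hsumB0 (by positivity)
    _ = Real.exp 1 * ((N : ℝ) + 6 + C₀) ^ (K1 N + 1) * ((C₂ + 20 * C₁ * (N : ℝ)) * eps0 N) := by ring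
    _ ≤ _ := e3

/-- Many rows: the arithmetic. -/
lemma E4_R1_bound {N : ℕ} {x c : ℝ} (hx : 1 < x) (hLu : Real.log x ≤ Real.exp ((N : ℝ) + 2)) (hc : 1 < c)
    (h0 : ((R1Set N (c * x)).card : ℝ) ≤ ((N : ℝ) + 7) ^ (K1 N + 1) *
      (c * x * Real.exp (-(5 / 2) * (N : ℝ) + 3 * ((K1 N : ℝ) + 1) + 1)))
    (e4 : c * ((N : ℝ) + 7) ^ (K1 N + 1) * Real.exp (-(5 / 2) * (N : ℝ) + 3 * ((K1 N : ℝ) + 1) + 1)
        * Real.exp ((N : ℝ) + 2) ≤ Real.exp (-(N : ℝ) ^ ((22 : ℝ) / 100))) :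
    ((R1Set N (c * x)).card : ℝ) ≤ (x / Real.log x) * Real.exp (-(N : ℝ) ^ ((22 : ℝ) / 100)) := by
  have hx0 : 0 < x := by linarith
  have hL0 : 0 < Real.log x := Real.log_pos hx
  have hc0 : 0 < c := by linarith
  refine h0.trans ?_
  rw [div_mul_eq_mul_div, le_div_iff₀ hL0]
  have hY0 : 0 ≤ c * ((N : ℝ) + 7) ^ (K1 N + 1) * Real.exp (-(5 / 2) * (N : ℝ) + 3 * ((K1 N : ℝ) + 1) + 1) := by
    positivity
  have h1 : c * ((N : ℝ) + 7) ^ (K1 N + 1) * Real.exp (-(5 / 2) * (N : ℝ) + 3 * ((K1 N : ℝ) + 1) + 1)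
      * Real.log x ≤ c * ((N : ℝ) + 7) ^ (K1 N + 1) * Real.exp (-(5 / 2) * (N : ℝ) + 3 * ((K1 N : ℝ) + 1) + 1)
      * Real.exp ((N : ℝ) + 2) := mul_le_mul_of_nonneg_left hLu hY0
  have h2 := h1.trans e4
  calc ((N : ℝ) + 7) ^ (K1 N + 1) * (c * x * Real.exp (-(5 / 2) * (N : ℝ) + 3 * ((K1 N : ℝ) + 1) + 1)) * Real.log x
      = x * (c * ((N : ℝ) + 7) ^ (K1 N + 1) * Real.exp (-(5 / 2) * (N : ℝ) + 3 * ((K1 N : ℝ) + 1) + 1)
        * Real.log x) := by ring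
    _ ≤ _ := mul_le_mul_of_nonneg_left h2 hx0.le

theorem E4_core (c : ℝ) (hc : 1 < c)
    (hTop : ∃ (C : ℝ) (N₀ : ℕ), 0 < C ∧ ∀ N ≥ N₀, ∀ x : ℝ, 1 < x → |levR x - N| ≤ 2 →
      ∀ m : ℕ, m ≠ 0 →
      (((Finset.range (⌊c * x⌋₊ + 2)).filter (fun p : ℕ => p.Prime ∧ Real.log x / 600 ≤ Real.log p ∧
          (p - 1) * m ∈ Win x c)).card : ℝ) ≤ C * (x / m) / Real.log x)
    (hAbn : ∃ (C : ℝ) (N₀ : ℕ), 0 < C ∧ ∀ N ≥ N₀, ∀ x : ℝ, 1 < x → |levR x - N| ≤ 2 →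
      ∀ m : ℕ, m ≠ 0 →
      (((Finset.range (⌊c * x⌋₊ + 2)).filter (fun p : ℕ => p.Prime ∧ ¬ Normal N p ∧
          Real.log x / 600 ≤ Real.log p ∧
          (p - 1) * m ∈ Win x c)).card : ℝ) ≤ C * eps0 N * (x / m) / Real.log x) :
    ∃ N₀ : ℕ, ∀ N ≥ N₀, ∀ x : ℝ, 1 < x → |levR x - N| ≤ 2 → ∀ A : Finset ℕ,
      (∀ v ∈ A, v ∈ Win x c ∧ ∃ (p : ℕ) (t : List ℕ) (low : ℕ),
        (p :: t).Pairwise (· > ·) ∧ (∀ q ∈ p :: t, q.Prime ∧ t0 N ≤ lev q) ∧
        Real.log x / 600 ≤ Real.log p ∧ LowVal N low ∧ v = rowsProd (p :: t) * low ∧ Clean N v ∧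
        ∃ q ∈ p :: t, ¬ Normal N q) →
      (A.card : ℝ) ≤ (x / Real.log x) * Real.exp (-(N : ℝ) ^ ((22 : ℝ) / 100)) * (Mlow N + 1) := by
  obtain ⟨C₁, N₁, hC₁, hT⟩ := hTop
  obtain ⟨C₂, N₂, hC₂, hA⟩ := hAbn
  obtain ⟨N₃, hR⟩ := rarity_count
  obtain ⟨N₄, hM⟩ := abn_mass
  obtain ⟨C₀, hC₀, hM0⟩ := mert_low
  obtain ⟨N₅, hev⟩ := Filter.eventually_atTop.1 (E4_eventually c hc C₀ C₁ C₂ hC₀ hC₁ hC₂)
  refine ⟨max (max N₁ N₂) (max (max N₃ N₄) (max N₅ 1)), ?_⟩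
  intro N hN x hx hlev A hAc
  have hN1 : N₁ ≤ N := le_trans (le_trans (le_max_left _ _) (le_max_left _ _)) hN
  have hN2 : N₂ ≤ N := le_trans (le_trans (le_max_right _ _) (le_max_left _ _)) hN
  have hN3 : N₃ ≤ N := le_trans (le_trans (le_trans (le_max_left _ _) (le_max_left _ _)) (le_max_right _ _)) hN
  have hN4 : N₄ ≤ N := le_trans (le_trans (le_trans (le_max_right _ _) (le_max_left _ _)) (le_max_right _ _)) hN
  have hN5 : N₅ ≤ N := le_trans (le_trans (le_trans (le_max_left _ _) (le_max_right _ _)) (le_max_right _ _)) hN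
  have hN6 : 1 ≤ N := le_trans (le_trans (le_trans (le_max_right _ _) (le_max_right _ _)) (le_max_right _ _)) hN
  obtain ⟨e1, e2, e3, e4, e5, e6⟩ := hev N hN5
  have hn1 : (1 : ℝ) ≤ N := by exact_mod_cast hN6
  have ht0 : 0 ≤ t0 N := by unfold t0; positivity
  have hx0 : 0 < x := by linarith
  have hL0 : 0 < Real.log x := Real.log_pos hx
  have hcx : 1 ≤ c * x := by nlinarith
  have hlev' := abs_le.1 hlev
  have hLu : Real.log x ≤ Real.exp ((N : ℝ) + 2) := by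
    have h := Real.exp_le_exp.2 (show levR x ≤ (N : ℝ) + 2 by linarith [hlev'.2])
    unfold levR at h
    rwa [Real.exp_log hL0] at h
  have hLd : Real.exp ((N : ℝ) - 2) ≤ Real.log x := by
    have h := Real.exp_le_exp.2 (show (N : ℝ) - 2 ≤ levR x by linarith [hlev'.1])
    unfold levR at h
    rwa [Real.exp_log hL0] at h
  have hmassN : ∑ q ∈ NrmE4 N, aE4 q ≤ (N : ℝ) + 6 + C₀ := by
    have h1 := hM0 ((N : ℝ) + 6) (by positivity)
    have h2 : ∑ q ∈ NrmE4 N, aE4 q ≤ ∑ p ∈ (Finset.range (⌈Real.exp (Real.exp ((N : ℝ) + 6))⌉₊ + 1)).filter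
        (fun p => p.Prime ∧ lev p < (N : ℝ) + 6), (1 : ℝ) / ((p : ℝ) - 1) := by
      apply Finset.sum_le_sum_of_subset_of_nonneg
      · intro q hq
        have hq1 := Finset.mem_filter.1 (Finset.mem_filter.1 hq).1
        exact Finset.mem_filter.2 ⟨hq1.1, hq1.2.1, hq1.2.2.1⟩
      · intro q hq _
        exact aE4_nonneg (Finset.mem_filter.1 hq).2.1
    linarith
  have hmassA : ∑ q ∈ AbnE4 N, aE4 q ≤ 10 * (N : ℝ) * eps0 N := by
    apply hM N hN4 (AbnE4 N)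
    intro q hq
    have hq1 := Finset.mem_filter.1 hq
    have hq2 := Finset.mem_filter.1 hq1.1
    exact ⟨hq2.2.1, hq1.2, hq2.2.2.2.1, hq2.2.2.2.2⟩
  have hcover : A ⊆ R1Set N (c * x) ∪ (IxE4 N).biUnion
      (fun i => (FE4 N x c i).image (fun p => (p - 1) * ME4 i)) := by
    intro v hv
    obtain ⟨hw, p, t, low, hs, hq, htop, hlow, hvq, hcl, hq₀⟩ := hAc v hv
    have hdvd : rowsProd (p :: t) ∣ v := ⟨low, hvq⟩
    have hlevl : ∀ q ∈ p :: t, lev q ≤ (N : ℝ) + 5 := fun q hqm =>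
      lev_le_of_window hc hx hLu (e5.trans hLd) hw (hq q hqm).1 ((sub_one_dvd_rowsProd hqm).trans hdvd)
    by_cases hbig : K1 N + 1 ≤ ((p :: t).filter (fun q => Normal N q)).length
    · exact Finset.mem_union_left _ (many_rows_mem hw hs hvq hcl hlevl hbig ht0 e1 hN6)
    · exact Finset.mem_union_right _ (few_rows_mem hw hs hq htop hlow hvq hcl hq₀ hlevl hbig)
  have hcard : (A.card : ℝ) ≤ ((R1Set N (c * x)).card : ℝ) +
      ∑ i ∈ IxE4 N, ((FE4 N x c i).card : ℝ) := by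
    have h1 := Finset.card_le_card hcover
    have h2 := Finset.card_union_le (R1Set N (c * x)) ((IxE4 N).biUnion
      (fun i => (FE4 N x c i).image (fun p => (p - 1) * ME4 i)))
    have h3 : ((IxE4 N).biUnion (fun i => (FE4 N x c i).image (fun p => (p - 1) * ME4 i))).card
        ≤ ∑ i ∈ IxE4 N, (FE4 N x c i).card :=
      Finset.card_biUnion_le.trans (Finset.sum_le_sum (fun i _ => Finset.card_image_le))
    have h4 : A.card ≤ (R1Set N (c * x)).card + ∑ i ∈ IxE4 N, (FE4 N x c i).card := by omega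
    exact_mod_cast h4
  have hfinalB := E4_sum_bound (N := N) (x := x) (c := c) (C₀ := C₀) hx hC₁ hC₂ (by linarith)
    (hT N hN1 x hx hlev) (hA N hN2 x hx hlev) hmassN hmassA e6 e3
  have hfinalA := E4_R1_bound hx hLu hc (R1Set_card N (hR N hN3) e2 (c * x) hcx) e4
  calc (A.card : ℝ) ≤ _ := hcard
    _ ≤ (x / Real.log x) * Real.exp (-(N : ℝ) ^ ((22 : ℝ) / 100)) +
        (x / Real.log x) * Real.exp (-(N : ℝ) ^ ((22 : ℝ) / 100)) * Mlow N := add_le_add hfinalA hfinalB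
    _ = _ := by ring

end
end Vale.Agent.Lib.P031V
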