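import Mathlib

/-! Elementary real inequalities for the Chernoff bounds of section 4 of the P031 blueprint. -/

namespace Vale.Agent.Lib.P031V.NormalAna

lemma log_one_add_ineq {u : ℝ} (h0 : 0 ≤ u) (h1 : u ≤ 1) :
    u - (1 + u) * Real.log (1 + u) ≤ -(u ^ 2 / 3) := by
  have h := Real.le_log_one_add_of_nonneg h0
  have h2 : (1 + u) * (2 * u / (u + 2)) ≤ (1 + u) * Real.log (1 + u) :=
    mul_le_mul_of_nonneg_left h (by linarith)
  have h3 : u + u ^ 2 / 3 ≤ (1 + u) * (2 * u / (u + 2)) := by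
    have hpos : 0 < u + 2 := by linarith
    rw [mul_div_assoc', le_div_iff₀ hpos]
    nlinarith [mul_nonneg h0 h0, mul_nonneg (mul_nonneg h0 h0) (sub_nonneg.2 h1)]
  linarith

lemma log_one_sub_ineq {u : ℝ} (h0 : 0 ≤ u) (h1 : u < 1) :
    -u - (1 - u) * Real.log (1 - u) ≤ -(u ^ 2 / 2) := by
  have hpos : 0 < 1 - u := by linarith
  set s := -Real.log (1 - u) with hs
  have hs0 : 0 ≤ s := by
    have : Real.log (1 - u) ≤ 0 := Real.log_nonpos hpos.le (by linarith)
    simp only [hs]; linarith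
  have hsinh := Real.self_le_sinh_iff.2 hs0
  rw [Real.sinh_eq] at hsinh
  have e1 : Real.exp s = (1 - u)⁻¹ := by
    simp only [hs]
    rw [Real.exp_neg, Real.exp_log hpos]
  have e2 : Real.exp (-s) = 1 - u := by
    simp only [hs, neg_neg]
    rw [Real.exp_log hpos]
  rw [e1, e2] at hsinh
  have h2 : (1 - u) * s ≤ u - u ^ 2 / 2 := by
    have h3 := mul_le_mul_of_nonneg_left hsinh hpos.le
    refine h3.trans (le_of_eq ?_)
    field_simp
    ring
  have : (1 - u) * Real.log (1 - u) = -((1 - u) * s) := by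
    simp only [hs]; ring
  rw [this]
  linarith

/-- Upper Chernoff exponent. -/
lemma chern_upper {h H u : ℝ} (hh : h ≤ H) (hH : 0 ≤ H) (h0 : 0 ≤ u) (h1 : u ≤ 1) :
    u * (h + 1) - (h + u * H) * Real.log (1 + u) ≤ -(H * (u ^ 2 / 3)) + 1 := by
  have h2 := log_one_add_ineq h0 h1
  have h3 : Real.log (1 + u) ≤ u := by
    have := Real.log_le_sub_one_of_pos (x := 1 + u) (by linarith)
    linarith
  have h4 : h * (u - Real.log (1 + u)) ≤ H * (u - Real.log (1 + u)) :=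
    mul_le_mul_of_nonneg_right hh (by linarith)
  have h5 : H * (u - (1 + u) * Real.log (1 + u)) ≤ H * (-(u ^ 2 / 3)) :=
    mul_le_mul_of_nonneg_left h2 hH
  nlinarith

/-- Lower Chernoff exponent. -/
lemma chern_lower {h H u : ℝ} (hh : h ≤ H) (hH : 0 ≤ H) (h0 : 0 ≤ u) (h1 : u < 1) :
    -h + (1 - u) * (h + 1) - (h - u * H) * Real.log (1 - u) ≤ -(H * (u ^ 2 / 2)) + 1 := by
  have h2 := log_one_sub_ineq h0 h1
  have h3 : Real.log (1 - u) ≤ -u := by
    have := Real.log_le_sub_one_of_pos (x := 1 - u) (by linarith)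
    linarith
  have h4 : h * (-u - Real.log (1 - u)) ≤ H * (-u - Real.log (1 - u)) :=
    mul_le_mul_of_nonneg_right hh (by linarith)
  have h5 : H * (-u - (1 - u) * Real.log (1 - u)) ≤ H * (-(u ^ 2 / 2)) :=
    mul_le_mul_of_nonneg_left h2 hH
  nlinarith

/-- With `tol' = H^(13/20)/2`, `u = tol'/H`, one has `u ≤ 1/2`, and `H u^2 = H^(3/10)/4`. -/
lemma tol_facts {H : ℝ} (hH : 1 ≤ H) :
    (H ^ ((13 : ℝ) / 20) / 2) / H ≤ 1 / 2 ∧
      H * (((H ^ ((13 : ℝ) / 20) / 2) / H) ^ 2) = H ^ ((3 : ℝ) / 10) / 4 := by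
  have hpos : 0 < H := by linarith
  constructor
  · have h1 : H ^ ((13 : ℝ) / 20) ≤ H ^ (1 : ℝ) :=
      Real.rpow_le_rpow_of_exponent_le hH (by norm_num)
    rw [Real.rpow_one] at h1
    rw [div_le_iff₀ hpos]
    linarith
  · have h1 : (H ^ ((13 : ℝ) / 20)) ^ 2 = H * H ^ ((3 : ℝ) / 10) := by
      rw [← Real.rpow_natCast, ← Real.rpow_mul hpos.le]
      conv_rhs => rw [← Real.rpow_one H, Real.rpow_one]
      have : H * H ^ ((3 : ℝ) / 10) = H ^ ((1 : ℝ) + 3 / 10) := by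
        rw [Real.rpow_add hpos, Real.rpow_one]
      rw [this]
      norm_num
    field_simp
    nlinarith [h1]

end Vale.Agent.Lib.P031V.NormalAna
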