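import Mathlib
import Vale.Agent.Lib.P031V.Rankin

/-!
Combinatorial core of the count of abnormal primes (section 4 of the P031 blueprint):
first-moment bounds for the number of primes `p` in terms of the set of prime factors of `p - 1`
lying in a finite set `I` of primes.  Nothing here depends on the sizes of the parameters.
-/

namespace Vale.Agent.Lib.P031V.NormalCore

open Finset

/-- prime factors of `n` inside `I`. -/
def sI (I : Finset ℕ) (n : ℕ) : Finset ℕ := n.primeFactors ∩ I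

/-- The `I`-part of `n`. -/
def Ipart (I : Finset ℕ) (n : ℕ) : ℕ := ∏ r ∈ sI I n, r ^ n.factorization r

/-- The complement of the `I`-part of `n`. -/
def Icomp (I : Finset ℕ) (n : ℕ) : ℕ := ∏ r ∈ n.primeFactors \ I, r ^ n.factorization r

lemma Ipart_mul_Icomp (I : Finset ℕ) {n : ℕ} (hn : n ≠ 0) : Ipart I n * Icomp I n = n := by
  unfold Ipart Icomp sI
  rw [Finset.prod_inter_mul_prod_sdiff]
  conv_rhs => rw [← Nat.prod_factorization_pow_eq_self hn]
  rfl

lemma prime_dvd_prod_pow {s : Finset ℕ} (hs : ∀ r ∈ s, r.Prime) (e : ℕ → ℕ) {q : ℕ} (hq : q.Prime)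
    (h : q ∣ ∏ r ∈ s, r ^ e r) : q ∈ s := by
  obtain ⟨r, hr, hqr⟩ := (Prime.dvd_finsetProd_iff hq.prime _).1 h
  have := hq.dvd_of_dvd_pow hqr
  rw [(Nat.prime_dvd_prime_iff_eq hq (hs r hr)).1 this]
  exact hr

lemma mem_sI {I : Finset ℕ} {n r : ℕ} :
    r ∈ sI I n ↔ r.Prime ∧ r ∣ n ∧ n ≠ 0 ∧ r ∈ I := by
  unfold sI
  rw [Finset.mem_inter, Nat.mem_primeFactors]
  tauto

lemma prime_dvd_Ipart {I : Finset ℕ} {n q : ℕ} (hq : q.Prime) (h : q ∣ Ipart I n) : q ∈ sI I n :=
  prime_dvd_prod_pow (fun _ hr => (mem_sI.1 hr).1) _ hq h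

lemma prime_dvd_Icomp {I : Finset ℕ} {n q : ℕ} (hq : q.Prime) (h : q ∣ Icomp I n) : q ∉ I := by
  have := prime_dvd_prod_pow (fun r hr => Nat.prime_of_mem_primeFactors (Finset.mem_sdiff.1 hr).1)
    _ hq h
  exact (Finset.mem_sdiff.1 this).2

lemma mem_sI_dvd_Ipart {I : Finset ℕ} {n r : ℕ} (hr : r ∈ sI I n) : r ∣ Ipart I n := by
  obtain ⟨hp, hd, h0, -⟩ := mem_sI.1 hr
  have h1 : 1 ≤ n.factorization r := (hp.dvd_iff_one_le_factorization h0).1 hd
  exact (dvd_pow_self r (by omega)).trans (Finset.dvd_prod_of_mem (fun r => r ^ n.factorization r) hr)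

lemma Ipart_pos {I : Finset ℕ} {n : ℕ} : 0 < Ipart I n :=
  Finset.prod_pos fun r hr => pow_pos (mem_sI.1 hr).1.pos _

lemma primeFactors_Ipart (I : Finset ℕ) (n : ℕ) : (Ipart I n).primeFactors = sI I n := by
  ext q
  rw [Nat.mem_primeFactors]
  constructor
  · rintro ⟨hq, hd, -⟩
    exact prime_dvd_Ipart hq hd
  · intro h
    exact ⟨(mem_sI.1 h).1, mem_sI_dvd_Ipart h, Ipart_pos.ne'⟩

/-- The `T`-product divides the `I`-part if `T` is a subset of the prime factors in `I`. -/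
lemma prod_dvd_Ipart {I T : Finset ℕ} {n : ℕ} (hT : T ⊆ sI I n) : ∏ r ∈ T, r ∣ Ipart I n :=
  Finset.prod_primes_dvd _ (fun r hr => (mem_sI.1 (hT hr)).1.prime)
    (fun _ hr => mem_sI_dvd_Ipart (hT hr))

/-- The Euler-product sum (R0') with a nonnegative weight. -/
theorem euler_sum (g : ℝ) (hg : 0 ≤ g) (s F : Finset ℕ) (hs : ∀ p ∈ s, p.Prime)
    (hF : ∀ m ∈ F, m ≠ 0 ∧ ∀ r ∈ m.primeFactors, r ∈ s) :
    ∑ m ∈ F, g ^ m.primeFactors.card / m ≤ Real.exp (g * ∑ p ∈ s, 1 / ((p : ℝ) - 1)) := by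
  classical
  set w : ℕ → ℝ := fun m => g ^ m.primeFactors.card / m with hw
  have w1 : w 1 = 1 := by simp [hw]
  have wmul : ∀ {m n : ℕ}, Nat.Coprime m n → w (m * n) = w m * w n := by
    intro m n h
    simp only [hw]
    rcases Nat.eq_zero_or_pos m with rfl | hm
    · simp
    rcases Nat.eq_zero_or_pos n with rfl | hn
    · simp
    rw [h.primeFactors_mul, Finset.card_union_of_disjoint h.disjoint_primeFactors, pow_add]
    push_cast
    field_simp
  have wnn : ∀ m, 0 ≤ w m := fun m => by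
    simp only [hw]; positivity
  have wpow : ∀ {p : ℕ}, p.Prime → ∀ n : ℕ, w (p ^ (n + 1)) = g / (p : ℝ) ^ (n + 1) := by
    intro p hp n
    simp only [hw]
    rw [Nat.primeFactors_prime_pow (Nat.succ_ne_zero n) hp]
    simp
  have hasS : ∀ {p : ℕ}, p.Prime → HasSum (fun n : ℕ => w (p ^ n)) (1 + g / ((p : ℝ) - 1)) := by
    intro p hp
    have hp1 : (1 : ℝ) < p := by exact_mod_cast hp.one_lt
    have hinv : (p : ℝ)⁻¹ < 1 := inv_lt_one_of_one_lt₀ hp1
    have hgeom := hasSum_geometric_of_lt_one (r := (p : ℝ)⁻¹) (by positivity) hinv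
    have h2 := hgeom.mul_left (g / (p : ℝ))
    have hne : (p : ℝ) - 1 ≠ 0 := by linarith
    have hp0 : (p : ℝ) ≠ 0 := by linarith
    have hfun : (fun n : ℕ => w (p ^ (n + 1))) = fun n : ℕ => g / (p : ℝ) * (p : ℝ)⁻¹ ^ n := by
      funext n
      rw [wpow hp, pow_succ, inv_pow]
      field_simp
    have hval : g / (p : ℝ) * (1 - (p : ℝ)⁻¹)⁻¹ = g / ((p : ℝ) - 1) := by
      have : (1 - (p : ℝ)⁻¹) = ((p : ℝ) - 1) / p := by field_simp
      rw [this]
      field_simp
    have h1 : HasSum (fun n : ℕ => w (p ^ (n + 1))) (g / ((p : ℝ) - 1)) := by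
      rw [hfun, ← hval]; exact h2
    have h4 : HasSum (fun n : ℕ => w (p ^ n)) (g / ((p : ℝ) - 1) + w (p ^ 0)) := by
      have := (hasSum_nat_add_iff (f := fun n : ℕ => w (p ^ n)) 1).mp h1
      simpa using this
    have h5 : w (p ^ 0) = 1 := by simp [w1]
    rw [h5, add_comm] at h4
    exact h4
  have hmain := EulerProduct.summable_and_hasSum_factoredNumbers_prod_filter_prime_tsum
    (f := w) w1 (fun h => wmul h)
    (fun {p} hp => by
      have := (hasS hp).summable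
      simpa [Real.norm_of_nonneg (wnn _)] using this) s
  have hsum := hmain.2
  have hmem : ∀ m ∈ F, m ∈ Nat.factoredNumbers s := by
    intro m hm
    obtain ⟨h0, h1⟩ := hF m hm
    refine (Nat.mem_factoredNumbers').mpr ?_ |> fun h => h
    intro p hp hpm
    exact h1 p (Nat.mem_primeFactors.mpr ⟨hp, hpm, h0⟩)
  let F' : Finset (Nat.factoredNumbers s) := F.subtype (· ∈ Nat.factoredNumbers s)
  have h1 : ∑ m ∈ F, w m = ∑ m ∈ F', w m := by
    rw [Finset.sum_subtype_eq_sum_filter]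
    rw [Finset.filter_true_of_mem hmem]
  have h2 : ∑ m ∈ F', w m ≤ ∏ p ∈ s with p.Prime, ∑' n : ℕ, w (p ^ n) :=
    sum_le_hasSum F' (fun m _ => wnn m) hsum
  have h3 : ∏ p ∈ s with p.Prime, ∑' n : ℕ, w (p ^ n)
      = ∏ p ∈ s, (1 + g / ((p : ℝ) - 1)) := by
    rw [Finset.filter_true_of_mem hs]
    apply prod_congr rfl
    intro p hp
    exact (hasS (hs p hp)).tsum_eq
  have h4 : ∏ p ∈ s, (1 + g / ((p : ℝ) - 1))
      ≤ Real.exp (g * ∑ p ∈ s, 1 / ((p : ℝ) - 1)) := by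
    rw [Finset.mul_sum, Real.exp_sum]
    apply prod_le_prod
    · intro p hp
      have hp1 : (1 : ℝ) < p := by exact_mod_cast (hs p hp).one_lt
      have : 0 ≤ g / ((p : ℝ) - 1) := div_nonneg hg (by linarith)
      linarith
    · intro p _
      have := Real.add_one_le_exp (g * (1 / ((p : ℝ) - 1)))
      rw [show g / ((p : ℝ) - 1) = g * (1 / ((p : ℝ) - 1)) by ring]
      linarith
  calc _ = ∑ m ∈ F, w m := rfl
    _ ≤ _ := by rw [h1]; exact h2.trans (h3 ▸ h4)

/-- Weighted sum over subsets of a finite set of primes. -/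
theorem powerset_sum_le (s : ℝ) (hs : 0 ≤ s) (I : Finset ℕ) (hI : ∀ r ∈ I, r.Prime) :
    ∑ T ∈ I.powerset, s ^ T.card / ((∏ r ∈ T, r : ℕ) : ℝ)
      ≤ Real.exp (s * ∑ r ∈ I, 1 / (r : ℝ)) := by
  have h1 : ∑ T ∈ I.powerset, s ^ T.card / ((∏ r ∈ T, r : ℕ) : ℝ)
      = ∏ r ∈ I, (1 + s / (r : ℝ)) := by
    rw [Finset.prod_one_add]
    apply Finset.sum_congr rfl
    intro T _
    rw [Finset.prod_div_distrib, Finset.prod_const]
    push_cast
    rfl
  rw [h1, Finset.mul_sum, Real.exp_sum]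
  apply prod_le_prod
  · intro r hr
    have : 0 ≤ s / (r : ℝ) := by positivity
    linarith
  · intro r _
    have := Real.add_one_le_exp (s * (1 / (r : ℝ)))
    rw [show s / (r : ℝ) = s * (1 / (r : ℝ)) by ring]
    linarith

/-- The number of primes `p ≤ 2X` with `T` among the prime factors of `p - 1`. -/
lemma count_T {M : ℕ} {I T : Finset ℕ} {P : Finset ℕ} {B : ℝ} (hB : 0 ≤ B)
    (hP : ∀ p ∈ P, p.Prime ∧ p ≤ M)
    (hBT : ∀ d : ℕ, 1 ≤ d → d ^ 2 ≤ M →
      (((Finset.Icc 1 (M / d)).filter (fun n => (1 + n * d).Prime)).card : ℝ) ≤ B / d)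
    (hd : ∀ p ∈ P, T ⊆ sI I (p - 1) → (∏ r ∈ T, r) ^ 2 ≤ M) :
    (((P.filter (fun p => T ⊆ sI I (p - 1))).card : ℝ)) ≤ B / ((∏ r ∈ T, r : ℕ) : ℝ) := by
  classical
  rcases (P.filter (fun p => T ⊆ sI I (p - 1))).eq_empty_or_nonempty with h | ⟨p0, hp0⟩
  · rw [h]; simp only [card_empty, Nat.cast_zero]; positivity
  obtain ⟨hp0P, hp0T⟩ := Finset.mem_filter.1 hp0
  set d := ∏ r ∈ T, r with hdd
  have hprimes : ∀ r ∈ T, r.Prime := fun r hr => (mem_sI.1 (hp0T hr)).1
  have hdpos : 1 ≤ d := Finset.prod_pos fun r hr => (hprimes r hr).pos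
  have hle := hBT d hdpos (hd p0 hp0P hp0T)
  refine le_trans ?_ hle
  have hcard : (P.filter (fun p => T ⊆ sI I (p - 1))).card
      ≤ ((Finset.Icc 1 (M / d)).filter (fun n => (1 + n * d).Prime)).card := by
    refine Finset.card_le_card_of_injOn (fun p => (p - 1) / d) ?_ ?_
    · intro p hp
      have hp' := Finset.mem_filter.1 hp
      obtain ⟨hpp, hpX⟩ := hP p hp'.1
      have hdvd : d ∣ p - 1 := by
        have h1 := prod_dvd_Ipart hp'.2
        have h2 := (Dvd.intro _ (Ipart_mul_Icomp I (n := p - 1)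
          (by have := hpp.two_le; omega)))
        exact h1.trans h2
      obtain ⟨n, hn⟩ := hdvd
      have hp2 := hpp.two_le
      have hn0 : 1 ≤ n := by
        rcases Nat.eq_zero_or_pos n with rfl | h
        · simp at hn; omega
        · exact h
      have hdiv : (p - 1) / d = n := by
        rw [hn]; exact Nat.mul_div_cancel_left n hdpos
      simp only [Finset.coe_filter, Set.mem_ofPred_eq, Finset.mem_Icc]
      rw [hdiv]
      refine ⟨⟨hn0, ?_⟩, ?_⟩
      · rw [Nat.le_div_iff_mul_le hdpos]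
        have : n * d = p - 1 := by rw [hn]; ring
        omega
      · have : 1 + n * d = p := by
          have : n * d = p - 1 := by rw [hn]; ring
          omega
        rw [this]; exact hpp
    · intro p hp q hq h
      have hp' := Finset.mem_filter.1 (Finset.mem_coe.1 hp)
      have hq' := Finset.mem_filter.1 (Finset.mem_coe.1 hq)
      obtain ⟨hpp, _⟩ := hP p hp'.1
      obtain ⟨hqp, _⟩ := hP q hq'.1
      have dvdof : ∀ u, u.Prime → T ⊆ sI I (u - 1) → d ∣ u - 1 := by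
        intro u hu hT
        have h1 := prod_dvd_Ipart hT
        have h2 := (Dvd.intro _ (Ipart_mul_Icomp I (n := u - 1)
          (by have := hu.two_le; omega)))
        exact h1.trans h2
      have h1 := dvdof p hpp hp'.2
      have h2 := dvdof q hqp hq'.2
      have : p - 1 = q - 1 := by
        have hh : (p - 1) / d = (q - 1) / d := h
        rw [← Nat.div_mul_cancel h1, ← Nat.div_mul_cancel h2, hh]
      have := hpp.two_le
      have := hqp.two_le
      omega
  exact_mod_cast hcard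

/-- Upper-tail core. -/
theorem upper_core {M : ℕ} {I P : Finset ℕ} {B : ℝ} (hB : 0 ≤ B) (hI : ∀ r ∈ I, r.Prime)
    (hP : ∀ p ∈ P, p.Prime ∧ p ≤ M)
    (hd : ∀ p ∈ P, (Ipart I (p - 1)) ^ 2 ≤ M)
    (hBT : ∀ d : ℕ, 1 ≤ d → d ^ 2 ≤ M →
      (((Finset.Icc 1 (M / d)).filter (fun n => (1 + n * d).Prime)).card : ℝ) ≤ B / d)
    {K s : ℝ} (hs : 0 ≤ s) (hW : ∀ p ∈ P, K ≤ ((sI I (p - 1)).card : ℝ)) :
    (P.card : ℝ) * Real.exp (K * Real.log (1 + s))
      ≤ B * Real.exp (s * ∑ r ∈ I, 1 / (r : ℝ)) := by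
  classical
  have h1 : ∀ p ∈ P, Real.exp (K * Real.log (1 + s))
      ≤ ∑ T ∈ I.powerset, if T ⊆ sI I (p - 1) then s ^ T.card else 0 := by
    intro p hp
    have hlog : 0 ≤ Real.log (1 + s) := Real.log_nonneg (by linarith)
    have h2 : Real.exp (K * Real.log (1 + s))
        ≤ (1 + s) ^ (sI I (p - 1)).card := by
      have hpos : (0 : ℝ) < 1 + s := by linarith
      rw [← Real.rpow_natCast, Real.rpow_def_of_pos hpos]
      apply Real.exp_le_exp.2
      rw [mul_comm (Real.log (1 + s))]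
      exact mul_le_mul_of_nonneg_right (hW p hp) hlog
    refine h2.trans (le_of_eq ?_)
    have h3 : (1 + s) ^ (sI I (p - 1)).card = ∏ _r ∈ sI I (p - 1), (1 + s) := by
      rw [Finset.prod_const]
    rw [h3, Finset.prod_one_add, ← Finset.sum_filter]
    apply Finset.sum_congr
    · ext T
      simp only [mem_powerset, mem_filter]
      constructor
      · intro h
        exact ⟨h.trans Finset.inter_subset_right, h⟩
      · intro h; exact h.2
    · intro T _
      simp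
  have h2 : (P.card : ℝ) * Real.exp (K * Real.log (1 + s))
      ≤ ∑ p ∈ P, ∑ T ∈ I.powerset, if T ⊆ sI I (p - 1) then s ^ T.card else 0 := by
    have := Finset.card_nsmul_le_sum P _ _ h1
    simpa [nsmul_eq_mul] using this
  refine h2.trans ?_
  rw [Finset.sum_comm]
  have h3 : ∀ T ∈ I.powerset, (∑ p ∈ P, if T ⊆ sI I (p - 1) then s ^ T.card else 0)
      ≤ B * (s ^ T.card / ((∏ r ∈ T, r : ℕ) : ℝ)) := by
    intro T _
    rw [← Finset.sum_filter, Finset.sum_const, nsmul_eq_mul]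
    have h4 := count_T (M := M) (I := I) (T := T) (P := P) hB hP hBT (by
      intro p hp hT
      have hdv := prod_dvd_Ipart hT
      have hle := Nat.le_of_dvd Ipart_pos hdv
      exact (Nat.pow_le_pow_left hle 2).trans (hd p hp))
    have hsT : 0 ≤ s ^ T.card := by positivity
    calc _ ≤ B / ((∏ r ∈ T, r : ℕ) : ℝ) * s ^ T.card := mul_le_mul_of_nonneg_right h4 hsT
      _ = _ := by ring
  refine (Finset.sum_le_sum h3).trans ?_
  rw [← Finset.mul_sum]
  exact mul_le_mul_of_nonneg_left (powerset_sum_le s hs I hI) hB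

/-- Window core: many prime factors in a set `J` force a divisor of size at most `sqrt(2X)`. -/
theorem window_core {M : ℕ} {J P : Finset ℕ} {B : ℝ} (hB : 0 ≤ B) (hJ : ∀ r ∈ J, r.Prime)
    (hP : ∀ p ∈ P, p.Prime ∧ p ≤ M)
    (hBT : ∀ d : ℕ, 1 ≤ d → d ^ 2 ≤ M →
      (((Finset.Icc 1 (M / d)).filter (fun n => (1 + n * d).Prime)).card : ℝ) ≤ B / d)
    {k : ℕ} {t : ℝ} (ht : 0 < t) (hW : ∀ p ∈ P, 2 * k ≤ (sI J (p - 1)).card) :
    (P.card : ℝ) ≤ B * (Real.exp (-((k : ℝ) * Real.log t)) *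
        Real.exp (t * ∑ r ∈ J, 1 / (r : ℝ))) := by
  classical
  -- good subsets
  set G := (J.powerset.filter (fun T => T.card = k ∧ (∏ r ∈ T, r) ^ 2 ≤ M)) with hG
  have hchoose : ∀ p ∈ P, ∃ T ∈ G, T ⊆ sI J (p - 1) := by
    intro p hp
    obtain ⟨hpp, hpX⟩ := hP p hp
    have hp2 := hpp.two_le
    have hS := hW p hp
    obtain ⟨T1, hT1, hT1c⟩ := Finset.exists_subset_card_eq (s := sI J (p - 1)) (n := k) (by omega)
    obtain ⟨T2, hT2, hT2c⟩ := Finset.exists_subset_card_eq (s := sI J (p - 1) \ T1) (n := k) (by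
      rw [Finset.card_sdiff_of_subset hT1, hT1c]; omega)
    have hT2S : T2 ⊆ sI J (p - 1) := hT2.trans Finset.sdiff_subset
    have hdisj : Disjoint T1 T2 := by
      rw [Finset.disjoint_left]
      intro a ha ha2
      exact (Finset.mem_sdiff.1 (hT2 ha2)).2 ha
    have hU : T1 ∪ T2 ⊆ sI J (p - 1) := Finset.union_subset hT1 hT2S
    have hdvd : ∏ r ∈ T1 ∪ T2, r ∣ p - 1 := by
      have h1 := prod_dvd_Ipart hU
      have h2 := (Dvd.intro _ (Ipart_mul_Icomp J (n := p - 1) (by omega)))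
      exact h1.trans h2
    have hle : (∏ r ∈ T1, r) * (∏ r ∈ T2, r) ≤ M := by
      rw [← Finset.prod_union hdisj]
      have := Nat.le_of_dvd (by omega) hdvd
      omega
    have hT1J : T1 ⊆ J := hT1.trans Finset.inter_subset_right
    have hT2J : T2 ⊆ J := hT2S.trans Finset.inter_subset_right
    rcases le_total (∏ r ∈ T1, r) (∏ r ∈ T2, r) with h | h
    · refine ⟨T1, ?_, hT1⟩
      rw [hG, Finset.mem_filter, Finset.mem_powerset]
      refine ⟨hT1J, hT1c, ?_⟩
      calc (∏ r ∈ T1, r) ^ 2 = (∏ r ∈ T1, r) * (∏ r ∈ T1, r) := by ring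
        _ ≤ (∏ r ∈ T1, r) * (∏ r ∈ T2, r) := Nat.mul_le_mul_left _ h
        _ ≤ _ := hle
    · refine ⟨T2, ?_, hT2S⟩
      rw [hG, Finset.mem_filter, Finset.mem_powerset]
      refine ⟨hT2J, hT2c, ?_⟩
      calc (∏ r ∈ T2, r) ^ 2 = (∏ r ∈ T2, r) * (∏ r ∈ T2, r) := by ring
        _ ≤ (∏ r ∈ T1, r) * (∏ r ∈ T2, r) := Nat.mul_le_mul_right _ h
        _ ≤ _ := hle
  have hsub : P ⊆ G.biUnion (fun T => P.filter (fun p => T ⊆ sI J (p - 1))) := by
    intro p hp
    obtain ⟨T, hT, hTS⟩ := hchoose p hp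
    exact Finset.mem_biUnion.2 ⟨T, hT, Finset.mem_filter.2 ⟨hp, hTS⟩⟩
  have h1 : (P.card : ℝ) ≤ ∑ T ∈ G, ((P.filter (fun p => T ⊆ sI J (p - 1))).card : ℝ) := by
    have := (Finset.card_le_card hsub).trans Finset.card_biUnion_le
    exact_mod_cast this
  refine h1.trans ?_
  have htk : 0 < Real.exp (-((k : ℝ) * Real.log t)) := Real.exp_pos _
  have h2 : ∀ T ∈ G, ((P.filter (fun p => T ⊆ sI J (p - 1))).card : ℝ)
      ≤ B * (Real.exp (-((k : ℝ) * Real.log t)) * (t ^ T.card / ((∏ r ∈ T, r : ℕ) : ℝ))) := by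
    intro T hT
    obtain ⟨-, hTc, hTs⟩ := Finset.mem_filter.1 hT
    have h3 := count_T (M := M) (I := J) (T := T) (P := P) hB hP hBT (fun _ _ _ => hTs)
    refine h3.trans (le_of_eq ?_)
    have : Real.exp (-((k : ℝ) * Real.log t)) * t ^ T.card = 1 := by
      rw [hTc, ← Real.exp_log ht, ← Real.exp_nat_mul, Real.log_exp, ← Real.exp_add]
      simp
    calc B / ((∏ r ∈ T, r : ℕ) : ℝ)
        = B * ((Real.exp (-((k : ℝ) * Real.log t)) * t ^ T.card) / ((∏ r ∈ T, r : ℕ) : ℝ)) := by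
            rw [this]; ring
      _ = _ := by ring
  refine (Finset.sum_le_sum h2).trans ?_
  rw [← Finset.mul_sum, ← Finset.mul_sum]
  apply mul_le_mul_of_nonneg_left _ hB
  apply mul_le_mul_of_nonneg_left _ htk.le
  refine le_trans ?_ (powerset_sum_le t ht.le J hJ)
  apply Finset.sum_le_sum_of_subset_of_nonneg
  · exact Finset.filter_subset _ _
  · intro T _ _
    positivity

/-- Lower-tail core. -/
theorem lower_core {M : ℕ} {I P : Finset ℕ} {B : ℝ} (hB : 0 ≤ B) (hI : ∀ r ∈ I, r.Prime)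
    (hP : ∀ p ∈ P, p.Prime ∧ p ≤ M)
    (hd : ∀ p ∈ P, (Ipart I (p - 1)) ^ 2 ≤ M)
    (hBT : ∀ d : ℕ, 1 ≤ d → d ^ 2 ≤ M →
      (((Finset.Icc 1 (M / d)).filter
        (fun n => (1 + n * d).Prime ∧ ∀ r ∈ I, ¬ r ∣ n)).card : ℝ) ≤ B / d)
    {K t : ℝ} (ht : 0 < t) (ht1 : t ≤ 1) (hW : ∀ p ∈ P, ((sI I (p - 1)).card : ℝ) < K) :
    (P.card : ℝ) ≤ B * (Real.exp (-(K * Real.log t)) *
        Real.exp (t * ∑ r ∈ I, 1 / ((r : ℝ) - 1))) := by
  classical
  set D := P.image (fun p => Ipart I (p - 1)) with hD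
  have hfib : ∀ d ∈ D, ((P.filter (fun p => Ipart I (p - 1) = d)).card : ℝ) ≤ B / d := by
    intro d hd'
    obtain ⟨p0, hp0, rfl⟩ := Finset.mem_image.1 hd'
    set d := Ipart I (p0 - 1) with hdd
    have hdpos : 1 ≤ d := Ipart_pos
    refine le_trans ?_ (hBT d hdpos (hd p0 hp0))
    have hcard : (P.filter (fun p => Ipart I (p - 1) = d)).card
        ≤ ((Finset.Icc 1 (M / d)).filter
          (fun n => (1 + n * d).Prime ∧ ∀ r ∈ I, ¬ r ∣ n)).card := by
      refine Finset.card_le_card_of_injOn (fun p => Icomp I (p - 1)) ?_ ?_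
      · intro p hp
        have hp' := Finset.mem_filter.1 (Finset.mem_coe.1 hp)
        obtain ⟨hpp, hpX⟩ := hP p hp'.1
        have hp2 := hpp.two_le
        have hmul := Ipart_mul_Icomp I (n := p - 1) (by omega)
        rw [hp'.2] at hmul
        have hn0 : 1 ≤ Icomp I (p - 1) := by
          rcases Nat.eq_zero_or_pos (Icomp I (p - 1)) with h | h
          · rw [h] at hmul; omega
          · exact h
        simp only [Finset.coe_filter, Set.mem_ofPred_eq, Finset.mem_Icc]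
        refine ⟨⟨hn0, ?_⟩, ?_, ?_⟩
        · rw [Nat.le_div_iff_mul_le hdpos, mul_comm]; omega
        · have : 1 + Icomp I (p - 1) * d = p := by
            rw [mul_comm]; omega
          rw [this]; exact hpp
        · intro r hr hdr
          exact prime_dvd_Icomp (hI r hr) hdr hr
      · intro p hp q hq h
        have hp' := Finset.mem_filter.1 (Finset.mem_coe.1 hp)
        have hq' := Finset.mem_filter.1 (Finset.mem_coe.1 hq)
        obtain ⟨hpp, _⟩ := hP p hp'.1
        obtain ⟨hqp, _⟩ := hP q hq'.1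
        have hp2 := hpp.two_le
        have hq2 := hqp.two_le
        have h1 := Ipart_mul_Icomp I (n := p - 1) (by omega)
        have h2 := Ipart_mul_Icomp I (n := q - 1) (by omega)
        rw [hp'.2] at h1
        rw [hq'.2] at h2
        have h3 : Icomp I (p - 1) = Icomp I (q - 1) := h
        rw [h3, h2] at h1
        omega
    exact_mod_cast hcard
  have h1 : (P.card : ℝ) ≤ ∑ d ∈ D, B / d := by
    have h2 : P.card = ∑ d ∈ D, (P.filter (fun p => Ipart I (p - 1) = d)).card :=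
      Finset.card_eq_sum_card_image _ _
    calc (P.card : ℝ) = ∑ d ∈ D, ((P.filter (fun p => Ipart I (p - 1) = d)).card : ℝ) := by
          rw [h2]; push_cast; rfl
      _ ≤ _ := Finset.sum_le_sum hfib
  refine h1.trans ?_
  have hlog : Real.log t ≤ 0 := Real.log_nonpos ht.le ht1
  have h2 : ∀ d ∈ D, B / d ≤ B * (Real.exp (-(K * Real.log t)) * (t ^ d.primeFactors.card / d)) := by
    intro d hd'
    obtain ⟨p0, hp0, rfl⟩ := Finset.mem_image.1 hd'
    have hw := hW p0 hp0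
    rw [primeFactors_Ipart]
    set w := (sI I (p0 - 1)).card with hwdef
    have hdp : (0 : ℝ) < (Ipart I (p0 - 1) : ℝ) := by exact_mod_cast Ipart_pos
    have hge : 1 ≤ Real.exp (-(K * Real.log t)) * t ^ w := by
      have : Real.exp (-(K * Real.log t)) * t ^ w = Real.exp ((w - K) * Real.log t) := by
        conv_lhs => rw [← Real.rpow_natCast t w, Real.rpow_def_of_pos ht]
        rw [← Real.exp_add]
        congr 1
        ring
      rw [this]
      apply Real.one_le_exp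
      exact mul_nonneg_of_nonpos_of_nonpos (by linarith) hlog
    calc B / (Ipart I (p0 - 1) : ℝ) = B * (1 / (Ipart I (p0 - 1) : ℝ)) := by ring
      _ ≤ B * ((Real.exp (-(K * Real.log t)) * t ^ w) * (1 / (Ipart I (p0 - 1) : ℝ))) := by
          apply mul_le_mul_of_nonneg_left _ hB
          have : 0 ≤ 1 / (Ipart I (p0 - 1) : ℝ) := by positivity
          nlinarith
      _ = _ := by ring
  refine (Finset.sum_le_sum h2).trans ?_
  rw [← Finset.mul_sum, ← Finset.mul_sum]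
  apply mul_le_mul_of_nonneg_left _ hB
  apply mul_le_mul_of_nonneg_left _ (Real.exp_pos _).le
  apply euler_sum t ht.le I D hI
  intro m hm
  obtain ⟨p0, hp0, rfl⟩ := Finset.mem_image.1 hm
  refine ⟨Ipart_pos.ne', ?_⟩
  intro r hr
  rw [primeFactors_Ipart] at hr
  exact (mem_sI.1 hr).2.2.2

/-- Exceptional core: primes with a large `I`-part. -/
theorem exc_core {C : ℝ}
    (hC : ∀ Y Z : ℝ, 1 ≤ Y → Real.exp 10 ≤ Z → ∀ F : Finset ℕ,
      (∀ d ∈ F, d ≠ 0 ∧ Y < d ∧ ∀ r : ℕ, r.Prime → r ∣ d → (r : ℝ) ≤ Z) →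
      ∑ d ∈ F, (1 : ℝ) / d ≤ Real.exp (-(Real.log Y / Real.log Z)) * (C * Real.log Z) ^ 3)
    {M : ℕ} {I P : Finset ℕ} {Y Z : ℝ} (hY : 1 ≤ Y) (hZ : Real.exp 10 ≤ Z)
    (hIZ : ∀ r ∈ I, r.Prime ∧ (r : ℝ) ≤ Z)
    (hP : ∀ p ∈ P, p.Prime ∧ p ≤ M ∧ Y < (Ipart I (p - 1) : ℝ)) :
    (P.card : ℝ) ≤ (M : ℕ) * (Real.exp (-(Real.log Y / Real.log Z)) * (C * Real.log Z) ^ 3) := by
  classical
  set F := P.image (fun p => Ipart I (p - 1)) with hF
  have hF1 : ∀ d ∈ F, d ≠ 0 ∧ Y < d ∧ ∀ r : ℕ, r.Prime → r ∣ d → (r : ℝ) ≤ Z := by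
    intro d hd
    obtain ⟨p, hp, rfl⟩ := Finset.mem_image.1 hd
    refine ⟨Ipart_pos.ne', (hP p hp).2.2, ?_⟩
    intro r hr hdr
    exact (hIZ r (mem_sI.1 (prime_dvd_Ipart hr hdr)).2.2.2).2
  have h1 := hC Y Z hY hZ F hF1
  have hcardS : P.card = (P.image (fun p => p - 1)).card := by
    rw [Finset.card_image_of_injOn]
    intro p hp q hq h
    have hp2 := (hP p hp).1.two_le
    have hq2 := (hP q hq).1.two_le
    have h' : p - 1 = q - 1 := h
    omega
  have h2 := card_le_of_dvd (M) F (P.image (fun p => p - 1))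
    (fun d hd => Nat.pos_of_ne_zero (hF1 d hd).1) (by
      intro n hn
      obtain ⟨p, hp, rfl⟩ := Finset.mem_image.1 hn
      obtain ⟨hpp, hpX, _⟩ := hP p hp
      have hp2 := hpp.two_le
      refine ⟨by omega, by omega, Ipart I (p - 1), Finset.mem_image_of_mem _ hp, ?_⟩
      exact Dvd.intro _ (Ipart_mul_Icomp I (by omega)))
  rw [← hcardS] at h2
  refine h2.trans ?_
  exact mul_le_mul_of_nonneg_left h1 (by positivity)

end Vale.Agent.Lib.P031V.NormalCore
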