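import Mathlib

/-! Eventual inequalities between powers, logs and exponentials of a large real variable. -/

namespace Vale.Agent.Lib.P031V.NormalEv

open Filter

/-- `K + D n^b ≤ c n^a` eventually, for `b < a`. -/
lemma ev_pow (K D c : ℝ) {a b : ℝ} (hb : 0 ≤ b) (hab : b < a) (hc : 0 < c) :
    ∀ᶠ n : ℝ in atTop, K + D * n ^ b ≤ c * n ^ a := by
  have h1 : Tendsto (fun n : ℝ => n ^ (a - b)) atTop atTop := tendsto_rpow_atTop (by linarith)
  have h2 := h1.eventually_ge_atTop ((|K| + |D|) / c)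
  filter_upwards [h2, eventually_ge_atTop (1 : ℝ)] with n hn hn1
  have hnb : 1 ≤ n ^ b := Real.one_le_rpow hn1 hb
  have e : n ^ a = n ^ b * n ^ (a - b) := by
    rw [← Real.rpow_add (by linarith)]
    congr 1
    ring
  rw [e]
  have h3 : |K| + |D| ≤ c * n ^ (a - b) := by
    rwa [div_le_iff₀' hc] at hn
  have h4 : K ≤ |K| * n ^ b := by
    have := le_abs_self K
    have h5 : |K| ≤ |K| * n ^ b := le_mul_of_one_le_right (abs_nonneg K) hnb
    linarith
  have h5 : D * n ^ b ≤ |D| * n ^ b :=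
    mul_le_mul_of_nonneg_right (le_abs_self D) (by linarith)
  calc K + D * n ^ b ≤ (|K| + |D|) * n ^ b := by linarith
    _ ≤ (c * n ^ (a - b)) * n ^ b := mul_le_mul_of_nonneg_right h3 (by linarith)
    _ = _ := by ring

/-- `K + D log n ≤ c n^a` eventually, for `a > 0`. -/
lemma ev_log (K D c : ℝ) {a : ℝ} (ha : 0 < a) (hc : 0 < c) :
    ∀ᶠ n : ℝ in atTop, K + D * Real.log n ≤ c * n ^ a := by
  have h1 := ev_pow K (|D| * (2 / a)) c (a := a) (b := a / 2) (by positivity) (by linarith) hc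
  filter_upwards [h1, eventually_ge_atTop (1 : ℝ)] with n hn hn1
  have h2 : Real.log n ≤ n ^ (a / 2) / (a / 2) :=
    Real.log_le_rpow_div (by linarith) (by positivity)
  have h3 : D * Real.log n ≤ |D| * (2 / a) * n ^ (a / 2) := by
    have h4 : 0 ≤ Real.log n := Real.log_nonneg hn1
    have h5 : D * Real.log n ≤ |D| * Real.log n :=
      mul_le_mul_of_nonneg_right (le_abs_self D) h4
    have h6 : |D| * Real.log n ≤ |D| * (n ^ (a / 2) / (a / 2)) :=
      mul_le_mul_of_nonneg_left h2 (abs_nonneg D)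
    have e : |D| * (n ^ (a / 2) / (a / 2)) = |D| * (2 / a) * n ^ (a / 2) := by
      field_simp
    linarith
  linarith

/-- `K n^D exp(-c n^a) ≤ exp(-n^b)` eventually, for `0 < b < a`, `c > 0`, `K > 0`, natural `D`. -/
lemma ev_exp {K c a b : ℝ} (hK : 0 < K) (D : ℕ) (hc : 0 < c) (hb : 0 < b) (hab : b < a) :
    ∀ᶠ n : ℝ in atTop, K * n ^ D * Real.exp (-(c * n ^ a)) ≤ Real.exp (-(n ^ b)) := by
  have h1 := ev_pow 0 1 (c / 2) (a := a) (b := b) hb.le hab (by positivity)
  have h2 := ev_log (Real.log K) D (c / 2) (a := a) (by linarith) (by positivity)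
  filter_upwards [h1, h2, eventually_ge_atTop (1 : ℝ)] with n h1 h2 hn
  have hnpos : 0 < n := by linarith
  have e : K * n ^ D = Real.exp (Real.log K + D * Real.log n) := by
    rw [Real.exp_add, Real.exp_log hK, ← Real.rpow_natCast, Real.rpow_def_of_pos hnpos]
    congr 2
    ring
  rw [e, ← Real.exp_add]
  apply Real.exp_le_exp.2
  linarith

/-- Transfer to natural numbers. -/
lemma ev_nat {P : ℝ → Prop} (h : ∀ᶠ n : ℝ in atTop, P n) : ∀ᶠ N : ℕ in atTop, P (N : ℝ) :=
  tendsto_natCast_atTop_atTop.eventually h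

end Vale.Agent.Lib.P031V.NormalEv
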