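import Vale.Agent.Lib.P031V.NormalTails

/-! The count of abnormal primes at a dyadic scale, with explicit error terms (P031, section 4). -/

namespace Vale.Agent.Lib.P031V.NormalInt

open Finset NormalCore
open scoped Classical

noncomputable section

lemma W_mono (N k : ℕ) {y y' : ℝ} (h : y ≤ y') : W N k y ≤ W N k y' := by
  unfold W
  apply Finset.card_le_card
  intro r hr
  obtain ⟨h1, h2, h3⟩ := Finset.mem_filter.1 hr
  exact Finset.mem_filter.2 ⟨h1, h2, h3.trans h⟩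

lemma tau_base_nonneg {N : ℕ} (y : ℝ) (hts : 0 ≤ ts N) : 0 ≤ max (y - ts N) (ts N) :=
  le_max_of_le_right hts

lemma tau_mono {N : ℕ} (hts : 0 ≤ ts N) {y y' : ℝ} (h : y ≤ y') : tau N y ≤ tau N y' := by
  unfold tau
  apply Real.rpow_le_rpow (tau_base_nonneg y hts) _ (by norm_num)
  apply max_le_max _ le_rfl
  linarith

lemma tau_ge {N : ℕ} (hts : 0 ≤ ts N) (y : ℝ) : ts N ^ ((13 : ℝ) / 20) ≤ tau N y := by
  unfold tau
  exact Real.rpow_le_rpow hts (le_max_right _ _) (by norm_num)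

lemma tau_succ {N : ℕ} (hts : 0 ≤ ts N) (y : ℝ) : tau N (y + 1) ≤ tau N y + 1 := by
  unfold tau
  set a := max (y - ts N) (ts N) with ha
  have ha0 : 0 ≤ a := tau_base_nonneg y hts
  have h1 : max (y + 1 - ts N) (ts N) ≤ a + 1 := by
    apply max_le
    · have := le_max_left (y - ts N) (ts N)
      linarith
    · have := le_max_right (y - ts N) (ts N)
      linarith
  have h2 : (max (y + 1 - ts N) (ts N)) ^ ((13 : ℝ) / 20) ≤ (a + 1) ^ ((13 : ℝ) / 20) :=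
    Real.rpow_le_rpow (tau_base_nonneg _ hts) h1 (by norm_num)
  refine h2.trans ?_
  have h3 := Real.rpow_add_le_add_rpow ha0 zero_le_one (p := (13 : ℝ) / 20) (by norm_num) (by norm_num)
  simpa using h3

namespace Good

variable {N : ℕ} {X CB CR CM C1 Y1 : ℝ} (G : Good N X CB CR CM C1 Y1)
include G

lemma ts_nonneg : 0 ≤ ts N := by linarith [G.hts]

/-- Level count: the primes whose `W` at height `y` is far from its mean. -/
theorem level_bad (hbt : BTH CB Y1)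
    (hR : ∀ Y Z : ℝ, 1 ≤ Y → Real.exp 10 ≤ Z → ∀ F : Finset ℕ,
      (∀ d ∈ F, d ≠ 0 ∧ Y < d ∧ ∀ r : ℕ, r.Prime → r ∣ d → (r : ℝ) ≤ Z) →
      ∑ d ∈ F, (1 : ℝ) / d ≤ Real.exp (-(Real.log Y / Real.log Z)) * (CR * Real.log Z) ^ 3)
    (hC : ∀ a b : ℝ, 1 ≤ a → a ≤ b →
      ∑ r ∈ primesIn a b, (1 : ℝ) / ((r : ℝ) - 1) ≤ b - a + 1 / 2 + CM * Real.exp (-a))
    {y : ℝ} (hy0 : ts N ≤ y) (hy : y ≤ levR X - Real.log (C1 * N)) (P : Finset ℕ)
    (hP : ∀ p ∈ P, p.Prime ∧ p ≤ ⌊2 * X⌋₊ ∧ (((W N (p - 1) y : ℝ) < (y - ts N) - tau N y / 2) ∨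
      ((y - ts N) + tau N y / 2 ≤ (W N (p - 1) y : ℝ)))) :
    (P.card : ℝ) ≤ (X / Real.log X) * Real.exp (-(2 * (N : ℝ)))
      + 2 * (BB N X CB * Real.exp (1 - ts N ^ ((3 : ℝ) / 10) / 12)) := by
  have htsnn := G.ts_nonneg
  have hts3 := G.hts
  set I := primesIn (ts N) y with hI
  set h := y - ts N with hh
  set H := max h (ts N) with hH
  have hH1 : 1 ≤ H := le_trans (by linarith) (le_max_right _ _)
  have hhH : h ≤ H := le_max_left _ _
  have htau : tau N y = H ^ ((13 : ℝ) / 20) := rfl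
  set u := (H ^ ((13 : ℝ) / 20) / 2) / H with hu
  obtain ⟨hu12, hHu⟩ := NormalAna.tol_facts hH1
  have hHpos : 0 < H := by linarith
  have hu0 : 0 ≤ u := by positivity
  have huH : u * H = tau N y / 2 := by
    rw [hu, htau]
    field_simp
  have hpw : ts N ^ ((3 : ℝ) / 10) ≤ H ^ ((3 : ℝ) / 10) :=
    Real.rpow_le_rpow htsnn (le_max_right _ _) (by norm_num)
  have hS : ∑ r ∈ I, (1 : ℝ) / ((r : ℝ) - 1) ≤ h + 1 := G.sum_primesIn_le hC le_rfl hy0
  have hB := G.BB_nonneg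
  -- split
  set Pe := P.filter (fun p => ⌊2 * X⌋₊ < (Ipart I (p - 1)) ^ 2) with hPe
  set Pl := P.filter (fun p => (Ipart I (p - 1)) ^ 2 ≤ ⌊2 * X⌋₊ ∧ (W N (p - 1) y : ℝ) < h - u * H) with hPl
  set Pu := P.filter (fun p => (Ipart I (p - 1)) ^ 2 ≤ ⌊2 * X⌋₊ ∧ h + u * H ≤ (W N (p - 1) y : ℝ)) with hPu
  have hsub : P ⊆ Pe ∪ (Pl ∪ Pu) := by
    intro p hp
    obtain ⟨_, _, h3⟩ := hP p hp
    by_cases h4 : ⌊2 * X⌋₊ < (Ipart I (p - 1)) ^ 2
    · exact Finset.mem_union_left _ (Finset.mem_filter.2 ⟨hp, h4⟩)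
    · apply Finset.mem_union_right
      rcases h3 with h3 | h3
      · exact Finset.mem_union_left _ (Finset.mem_filter.2 ⟨hp, not_lt.1 h4, by rw [huH]; exact h3⟩)
      · exact Finset.mem_union_right _ (Finset.mem_filter.2 ⟨hp, not_lt.1 h4, by rw [huH]; exact h3⟩)
  have hcard : (P.card : ℝ) ≤ (Pe.card : ℝ) + ((Pl.card : ℝ) + (Pu.card : ℝ)) := by
    have h1 := Finset.card_le_card hsub
    have h2 := Finset.card_union_le Pe (Pl ∪ Pu)
    have h3 := Finset.card_union_le Pl Pu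
    have : P.card ≤ Pe.card + (Pl.card + Pu.card) := by omega
    exact_mod_cast this
  have he : (Pe.card : ℝ) ≤ (X / Real.log X) * Real.exp (-(2 * (N : ℝ))) := by
    apply G.tail_exc hR (α := ts N) (y := y) (by linarith) hy Pe
    intro p hp
    obtain ⟨h1, h2⟩ := Finset.mem_filter.1 hp
    exact ⟨(hP p h1).1, (hP p h1).2.1, h2⟩
  have hl : (Pl.card : ℝ) ≤ BB N X CB * Real.exp (1 - ts N ^ ((3 : ℝ) / 10) / 12) := by
    have ht : 0 < 1 - u := by linarith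
    have ht1 : 1 - u ≤ 1 := by linarith
    have h1 := G.tail_lower hbt (α := ts N) (y := y) (K := h - u * H) (t := 1 - u) htsnn hy0 hy ht ht1
      (h + 1) hS Pl (by
        intro p hp
        obtain ⟨h1, h2, h3⟩ := Finset.mem_filter.1 hp
        refine ⟨(hP p h1).1, (hP p h1).2.1, h2, ?_⟩
        rw [← W_eq_card]
        exact h3)
    refine h1.trans (mul_le_mul_of_nonneg_left (Real.exp_le_exp.2 ?_) hB)
    have h2 := NormalAna.chern_lower hhH hHpos.le hu0 (by linarith : u < 1)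
    have h3 : H * (u ^ 2 / 2) = H ^ ((3 : ℝ) / 10) / 8 := by
      have : H * (u ^ 2 / 2) = (H * u ^ 2) / 2 := by ring
      rw [this, hHu]
      ring
    rw [h3] at h2
    have h4 : 0 ≤ H ^ ((3 : ℝ) / 10) := by positivity
    have e : -(y - ts N) - (h - u * H) * Real.log (1 - u) + (1 - u) * (h + 1)
        = -h + (1 - u) * (h + 1) - (h - u * H) * Real.log (1 - u) := by
      rw [hh]; ring
    rw [e]
    linarith
  have hup : (Pu.card : ℝ) ≤ BB N X CB * Real.exp (1 - ts N ^ ((3 : ℝ) / 10) / 12) := by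
    have h1 := G.tail_upper hbt (α := ts N) (y := y) (K := h + u * H) (s := u) htsnn hy0 hy hu0
      (h + 1) hS Pu (by
        intro p hp
        obtain ⟨h1, h2, h3⟩ := Finset.mem_filter.1 hp
        refine ⟨(hP p h1).1, (hP p h1).2.1, h2, ?_⟩
        rw [← W_eq_card]
        exact h3)
    refine h1.trans (mul_le_mul_of_nonneg_left (Real.exp_le_exp.2 ?_) hB)
    have h2 := NormalAna.chern_upper hhH hHpos.le hu0 (by linarith : u ≤ 1)
    have h3 : H * (u ^ 2 / 3) = H ^ ((3 : ℝ) / 10) / 12 := by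
      have : H * (u ^ 2 / 3) = (H * u ^ 2) / 3 := by ring
      rw [this, hHu]
      ring
    rw [h3] at h2
    linarith
  linarith

/-- The window at the top of the range of levels. -/
theorem window_bad (hbt : BTH CB Y1)
    (hC : ∀ a b : ℝ, 1 ≤ a → a ≤ b →
      ∑ r ∈ primesIn a b, (1 : ℝ) / ((r : ℝ) - 1) ≤ b - a + 1 / 2 + CM * Real.exp (-a))
    {A : ℝ} (hA0 : 0 ≤ A) (hA : ts N ≤ levR X - A - 1)
    (hA1 : 0 ≤ levR X - Real.log (C1 * N))
    {k : ℕ} (hk : Real.exp 2 * (A + 3) ≤ k) (P : Finset ℕ)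
    (hP : ∀ p ∈ P, p.Prime ∧ p ≤ ⌊2 * X⌋₊ ∧
      2 * k ≤ (sI (primesIn (levR X - A - 1) (levR X + 1)) (p - 1)).card) :
    (P.card : ℝ) ≤ BB N X CB * Real.exp (-(k : ℝ)) := by
  set J := primesIn (levR X - A - 1) (levR X + 1) with hJ
  have hS0 : ∑ r ∈ J, (1 : ℝ) / ((r : ℝ) - 1) ≤ A + 3 := by
    have := G.sum_primesIn_le hC (α := levR X - A - 1) (y := levR X + 1) hA (by linarith)
    linarith
  have hS : ∑ r ∈ J, (1 : ℝ) / (r : ℝ) ≤ A + 3 :=
    (sum_inv_le_sum_inv_sub _ primesIn_prime).trans hS0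
  have hApos : 0 < A + 3 := by linarith
  set t : ℝ := (k : ℝ) / (A + 3) with ht
  have ht2 : Real.exp 2 ≤ t := by
    rw [ht, le_div_iff₀ hApos]
    exact hk
  have htpos : 0 < t := lt_of_lt_of_le (Real.exp_pos 2) ht2
  have hlogt : 2 ≤ Real.log t := (Real.le_log_iff_exp_le htpos).2 ht2
  have h1 := window_core (M := ⌊2 * X⌋₊) (J := J) (P := P) G.BB_nonneg primesIn_prime
    (fun p hp => ⟨(hP p hp).1, (hP p hp).2.1⟩) (G.hyp_free hbt (a := 0) le_rfl hA1) htpos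
    (fun p hp => (hP p hp).2.2)
  refine h1.trans (mul_le_mul_of_nonneg_left ?_ G.BB_nonneg)
  rw [← Real.exp_add]
  apply Real.exp_le_exp.2
  have h2 : t * ∑ r ∈ J, 1 / (r : ℝ) ≤ t * (A + 3) := mul_le_mul_of_nonneg_left hS htpos.le
  have h3 : t * (A + 3) = k := by
    rw [ht]; field_simp
  have h4 : (k : ℝ) * 2 ≤ (k : ℝ) * Real.log t :=
    mul_le_mul_of_nonneg_left hlogt (Nat.cast_nonneg k)
  linarith

/-- Interpolation: a prime which is not bad at any integer height and has few primes in the top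
window satisfies the normal inequalities. -/
theorem interp {A : ℝ} {k : ℕ} (hA : ts N + 1 ≤ levR X - A)
    (hτ3 : 3 ≤ ts N ^ ((13 : ℝ) / 20)) (hτA : A + 2 ≤ ts N ^ ((13 : ℝ) / 20) / 2)
    (hτk : 2 * (k : ℝ) ≤ ts N ^ ((13 : ℝ) / 20) / 2)
    {p : ℕ} (hp : p.Prime) (hpM : p ≤ ⌊2 * X⌋₊)
    (hgood : ∀ g ∈ Finset.Icc ⌈ts N⌉₊ ⌊levR X - A⌋₊,
      ¬ (((W N (p - 1) (g : ℝ) : ℝ) < ((g : ℝ) - ts N) - tau N (g : ℝ) / 2) ∨
        (((g : ℝ) - ts N) + tau N (g : ℝ) / 2 ≤ (W N (p - 1) (g : ℝ) : ℝ))))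
    (hw : (sI (primesIn (levR X - A - 1) (levR X + 1)) (p - 1)).card < 2 * k)
    (y : ℝ) (hy : ts N ≤ y) (hyp : y ≤ lev p) :
    |(W N (p - 1) y : ℝ) - (y - ts N)| ≤ tau N y := by
  have htsnn := G.ts_nonneg
  have hτ : ts N ^ ((13 : ℝ) / 20) ≤ tau N y := tau_ge htsnn y
  have hp2 := hp.two_le
  have hpX : (p : ℝ) ≤ 2 * X := by
    have h1 : (p : ℝ) ≤ (⌊2 * X⌋₊ : ℝ) := by exact_mod_cast hpM
    linarith [G.M_le]
  have hlevp : lev p ≤ levR X + 1 :=
    G.levR_le_of_le (by exact_mod_cast hp.one_lt.le) hpX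
  set x := levR X with hx
  have hy1nn : 0 ≤ x - A := by linarith
  set y1 := ⌊x - A⌋₊ with hy1
  have hy1le : (y1 : ℝ) ≤ x - A := Nat.floor_le hy1nn
  have hy1gt : x - A < (y1 : ℝ) + 1 := Nat.lt_floor_add_one _
  have hW0 : (0 : ℝ) ≤ (W N (p - 1) y : ℝ) := Nat.cast_nonneg _
  rw [abs_le]
  by_cases hcase : y ≤ (y1 : ℝ)
  · -- interior
    constructor
    · -- lower bound
      by_cases hlow : ⌈ts N⌉₊ ≤ ⌊y⌋₊
      · have hyy : 0 ≤ y := by linarith
        have hgm : ⌊y⌋₊ ∈ Finset.Icc ⌈ts N⌉₊ y1 := by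
          refine Finset.mem_Icc.2 ⟨hlow, ?_⟩
          exact Nat.floor_le_of_le hcase
        have h1 := hgood _ hgm
        push Not at h1
        have h2 := h1.1
        have hfl : ((⌊y⌋₊ : ℕ) : ℝ) ≤ y := Nat.floor_le hyy
        have hfl2 : y < ((⌊y⌋₊ : ℕ) : ℝ) + 1 := Nat.lt_floor_add_one y
        have h3 : tau N ((⌊y⌋₊ : ℕ) : ℝ) ≤ tau N y := tau_mono htsnn hfl
        have h4 : (W N (p - 1) ((⌊y⌋₊ : ℕ) : ℝ) : ℝ) ≤ (W N (p - 1) y : ℝ) := by
          exact_mod_cast W_mono N (p - 1) hfl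
        linarith
      · have h1 : ⌊y⌋₊ + 1 ≤ ⌈ts N⌉₊ := by omega
        have h2 : ((⌊y⌋₊ : ℝ)) + 1 ≤ (⌈ts N⌉₊ : ℝ) := by exact_mod_cast h1
        have h3 := Nat.ceil_lt_add_one htsnn
        have h4 : y < ((⌊y⌋₊ : ℕ) : ℝ) + 1 := Nat.lt_floor_add_one y
        linarith
    · -- upper bound
      have hceil : y ≤ ((⌈y⌉₊ : ℕ) : ℝ) := Nat.le_ceil y
      have hyy : 0 ≤ y := by linarith
      have hceil2 : ((⌈y⌉₊ : ℕ) : ℝ) < y + 1 := Nat.ceil_lt_add_one hyy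
      have hgm : ⌈y⌉₊ ∈ Finset.Icc ⌈ts N⌉₊ y1 := by
        refine Finset.mem_Icc.2 ⟨Nat.ceil_mono hy, ?_⟩
        exact Nat.ceil_le.2 hcase
      have h1 := hgood _ hgm
      push Not at h1
      have h2 := h1.2
      have h3 : tau N ((⌈y⌉₊ : ℕ) : ℝ) ≤ tau N (y + 1) := tau_mono htsnn hceil2.le
      have h4 := tau_succ htsnn y
      have h5 : (W N (p - 1) y : ℝ) ≤ (W N (p - 1) ((⌈y⌉₊ : ℕ) : ℝ) : ℝ) := by
        exact_mod_cast W_mono N (p - 1) hceil
      linarith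
  · -- top window
    push Not at hcase
    have hmem : y1 ∈ Finset.Icc ⌈ts N⌉₊ y1 := by
      refine Finset.mem_Icc.2 ⟨?_, le_rfl⟩
      apply Nat.le_floor
      have := Nat.ceil_lt_add_one htsnn
      linarith
    have h1 := hgood _ hmem
    push Not at h1
    obtain ⟨h2, h3⟩ := h1
    have h4 : tau N (y1 : ℝ) ≤ tau N y := tau_mono htsnn hcase.le
    have h5 : (W N (p - 1) (y1 : ℝ) : ℝ) ≤ (W N (p - 1) y : ℝ) := by
      exact_mod_cast W_mono N (p - 1) hcase.le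
    -- the split of W
    have hsplit : W N (p - 1) y ≤ W N (p - 1) (y1 : ℝ)
        + (sI (primesIn (x - A - 1) (x + 1)) (p - 1)).card := by
      unfold W
      refine le_trans (Finset.card_le_card ?_) (Finset.card_union_le _ _)
      intro r hr
      obtain ⟨h6, h7, h8⟩ := Finset.mem_filter.1 hr
      by_cases h9 : lev r ≤ (y1 : ℝ)
      · exact Finset.mem_union_left _ (Finset.mem_filter.2 ⟨h6, h7, h9⟩)
      · push Not at h9
        apply Finset.mem_union_right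
        have hrp := Nat.prime_of_mem_primeFactors h6
        have hrd := Nat.dvd_of_mem_primeFactors h6
        have hrle : r ≤ p - 1 := Nat.le_of_dvd (by omega) hrd
        have hrX : (r : ℝ) ≤ 2 * X := by
          have : (r : ℝ) ≤ (p : ℝ) := by exact_mod_cast (by omega : r ≤ p)
          linarith
        have hlevr : lev r ≤ x + 1 :=
          G.levR_le_of_le (by exact_mod_cast hrp.one_lt.le) hrX
        rw [mem_sI]
        refine ⟨hrp, hrd, by omega, mem_primesIn.2 ⟨hrp, ?_, hlevr⟩⟩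
        linarith
    have hsplitR : (W N (p - 1) y : ℝ) ≤ (W N (p - 1) (y1 : ℝ) : ℝ)
        + ((sI (primesIn (x - A - 1) (x + 1)) (p - 1)).card : ℝ) := by
      exact_mod_cast hsplit
    have hwR : ((sI (primesIn (x - A - 1) (x + 1)) (p - 1)).card : ℝ) ≤ 2 * (k : ℝ) := by
      exact_mod_cast hw.le
    constructor
    · linarith
    · linarith

end Good

end

end Vale.Agent.Lib.P031V.NormalInt
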