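import Vale.Agent.Lib.P031V.NormalLevel
import Vale.Agent.Lib.P031V.NormalEv

/-! Almost all primes are normal (P031, section 4): count at a dyadic scale. -/

namespace Vale.Agent.Lib.P031V.NormalInt

open Finset NormalCore Filter
open scoped Classical

noncomputable section

/-- The negation of the inequalities in `Normal`. -/
def BadNormal (N p : ℕ) : Prop :=
  ¬ ∀ y : ℝ, ts N ≤ y → y ≤ lev p → |(W N (p - 1) y : ℝ) - (y - ts N)| ≤ tau N y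

namespace Good

variable {N : ℕ} {X CB CR CM C1 Y1 : ℝ} (G : Good N X CB CR CM C1 Y1)
include G

theorem normal_core (hbt : BTH CB Y1)
    (hR : ∀ Y Z : ℝ, 1 ≤ Y → Real.exp 10 ≤ Z → ∀ F : Finset ℕ,
      (∀ d ∈ F, d ≠ 0 ∧ Y < d ∧ ∀ r : ℕ, r.Prime → r ∣ d → (r : ℝ) ≤ Z) →
      ∑ d ∈ F, (1 : ℝ) / d ≤ Real.exp (-(Real.log Y / Real.log Z)) * (CR * Real.log Z) ^ 3)
    (hC : ∀ a b : ℝ, 1 ≤ a → a ≤ b →
      ∑ r ∈ primesIn a b, (1 : ℝ) / ((r : ℝ) - 1) ≤ b - a + 1 / 2 + CM * Real.exp (-a))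
    {A : ℝ} {k : ℕ} (hAdef : A = Real.log (C1 * N)) (hA2 : ts N + 2 ≤ levR X - A)
    (hτ3 : 3 ≤ ts N ^ ((13 : ℝ) / 20)) (hτA : A + 2 ≤ ts N ^ ((13 : ℝ) / 20) / 2)
    (hτk : 2 * (k : ℝ) ≤ ts N ^ ((13 : ℝ) / 20) / 2) (hk : Real.exp 2 * (A + 3) ≤ k) :
    (((Finset.Ioc ⌊X⌋₊ ⌊2 * X⌋₊).filter (fun p => p.Prime ∧ BadNormal N p)).card : ℝ)
      ≤ ((N : ℝ) + 7) * ((X / Real.log X) * Real.exp (-(2 * (N : ℝ)))
          + 2 * (BB N X CB * Real.exp (1 - ts N ^ ((3 : ℝ) / 10) / 12)))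
        + BB N X CB * Real.exp (-(k : ℝ)) := by
  have hNpos : (1 : ℝ) ≤ N := by exact_mod_cast G.hN
  have hC1 := G.hC1
  have hA0 : 0 ≤ A := by
    rw [hAdef]
    apply Real.log_nonneg
    nlinarith
  have hts3 := G.hts
  set base := Finset.Ioc ⌊X⌋₊ ⌊2 * X⌋₊ with hbase
  set Gr := Finset.Icc ⌈ts N⌉₊ ⌊levR X - A⌋₊ with hGr
  set J := primesIn (levR X - A - 1) (levR X + 1) with hJ
  set bad : ℕ → Finset ℕ := fun g => base.filter (fun p => p.Prime ∧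
      (((W N (p - 1) (g : ℝ) : ℝ) < ((g : ℝ) - ts N) - tau N (g : ℝ) / 2) ∨
        (((g : ℝ) - ts N) + tau N (g : ℝ) / 2 ≤ (W N (p - 1) (g : ℝ) : ℝ)))) with hbad
  set Pw := base.filter (fun p => p.Prime ∧ 2 * k ≤ (sI J (p - 1)).card) with hPw
  have hsub : base.filter (fun p => p.Prime ∧ BadNormal N p) ⊆ Gr.biUnion bad ∪ Pw := by
    intro p hp
    obtain ⟨hpb, hpp, hpB⟩ := Finset.mem_filter.1 hp
    by_contra hcon
    apply hpB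
    rw [Finset.mem_union, not_or] at hcon
    obtain ⟨h1, h2⟩ := hcon
    have hw : (sI J (p - 1)).card < 2 * k := by
      by_contra h3
      exact h2 (Finset.mem_filter.2 ⟨hpb, hpp, not_lt.1 h3⟩)
    have hgood : ∀ g ∈ Gr, ¬ (((W N (p - 1) (g : ℝ) : ℝ) < ((g : ℝ) - ts N) - tau N (g : ℝ) / 2) ∨
        (((g : ℝ) - ts N) + tau N (g : ℝ) / 2 ≤ (W N (p - 1) (g : ℝ) : ℝ))) := by
      intro g hg h3
      exact h1 (Finset.mem_biUnion.2 ⟨g, hg, Finset.mem_filter.2 ⟨hpb, hpp, h3⟩⟩)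
    exact G.interp (by linarith) hτ3 hτA hτk hpp (Finset.mem_Ioc.1 hpb).2 hgood hw
  have hGrcard : (Gr.card : ℝ) ≤ (N : ℝ) + 7 := by
    rw [hGr, Nat.card_Icc]
    have h1 : (⌊levR X - A⌋₊ : ℝ) ≤ levR X - A := Nat.floor_le (by linarith)
    have h2 : ((⌊levR X - A⌋₊ + 1 - ⌈ts N⌉₊ : ℕ) : ℝ) ≤ ((⌊levR X - A⌋₊ + 1 : ℕ) : ℝ) := by
      exact_mod_cast Nat.sub_le _ _
    push_cast at h2
    linarith [G.hx1]
  set E := (X / Real.log X) * Real.exp (-(2 * (N : ℝ)))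
          + 2 * (BB N X CB * Real.exp (1 - ts N ^ ((3 : ℝ) / 10) / 12)) with hE
  have hE0 : 0 ≤ E := by
    have h1 := G.BB_nonneg
    have h2 := G.logX_pos
    have h3 := G.X_pos
    positivity
  have hlev : ∀ g ∈ Gr, ((bad g).card : ℝ) ≤ E := by
    intro g hg
    obtain ⟨h1, h2⟩ := Finset.mem_Icc.1 hg
    have hg1 : ts N ≤ (g : ℝ) := (Nat.le_ceil _).trans (by exact_mod_cast h1)
    have hg2 : (g : ℝ) ≤ levR X - A := by
      have h3 : (⌊levR X - A⌋₊ : ℝ) ≤ levR X - A := Nat.floor_le (by linarith)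
      have h4 : (g : ℝ) ≤ (⌊levR X - A⌋₊ : ℝ) := by exact_mod_cast h2
      linarith
    apply G.level_bad hbt hR hC hg1 (by rw [← hAdef]; exact hg2) (bad g)
    intro p hp
    obtain ⟨h3, h4, h5⟩ := Finset.mem_filter.1 hp
    exact ⟨h4, (Finset.mem_Ioc.1 h3).2, h5⟩
  have hwin : (Pw.card : ℝ) ≤ BB N X CB * Real.exp (-(k : ℝ)) := by
    apply G.window_bad hbt hC (A := A) hA0 (by linarith) (by
      rw [← hAdef]; linarith) hk Pw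
    intro p hp
    obtain ⟨h3, h4, h5⟩ := Finset.mem_filter.1 hp
    exact ⟨h4, (Finset.mem_Ioc.1 h3).2, h5⟩
  have h1 : ((base.filter (fun p => p.Prime ∧ BadNormal N p)).card : ℝ)
      ≤ ((Gr.biUnion bad).card : ℝ) + (Pw.card : ℝ) := by
    have := (Finset.card_le_card hsub).trans (Finset.card_union_le _ _)
    exact_mod_cast this
  have h2 : ((Gr.biUnion bad).card : ℝ) ≤ ((N : ℝ) + 7) * E := by
    have h3 : ((Gr.biUnion bad).card : ℝ) ≤ ∑ g ∈ Gr, ((bad g).card : ℝ) := by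
      exact_mod_cast Finset.card_biUnion_le
    have h4 : ∑ g ∈ Gr, ((bad g).card : ℝ) ≤ ∑ _g ∈ Gr, E := Finset.sum_le_sum hlev
    rw [Finset.sum_const, nsmul_eq_mul] at h4
    have h5 : (Gr.card : ℝ) * E ≤ ((N : ℝ) + 7) * E := mul_le_mul_of_nonneg_right hGrcard hE0
    linarith
  linarith

end Good

lemma ts_eq (N : ℕ) : ts N = (1 / 2 : ℝ) * (N : ℝ) ^ ((4 : ℝ) / 5) := by
  unfold ts t0
  ring

lemma ts_rpow_one (N : ℕ) :
    ts N ^ ((13 : ℝ) / 20) = (1 / 2 : ℝ) ^ ((13 : ℝ) / 20) * (N : ℝ) ^ ((13 : ℝ) / 25) := by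
  rw [ts_eq, Real.mul_rpow (by norm_num) (by positivity), ← Real.rpow_mul (Nat.cast_nonneg N)]
  norm_num

lemma ts_rpow_two (N : ℕ) :
    ts N ^ ((3 : ℝ) / 10) = (1 / 2 : ℝ) ^ ((3 : ℝ) / 10) * (N : ℝ) ^ ((6 : ℝ) / 25) := by
  rw [ts_eq, Real.mul_rpow (by norm_num) (by positivity), ← Real.rpow_mul (Nat.cast_nonneg N)]
  norm_num

/-- All the eventual inequalities. -/
structure Large (N : ℕ) (CB CR CM C1 Y1 : ℝ) : Prop where
  p1 : 8 ≤ N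
  p2 : 3 ≤ ts N
  p3 : 2 * CR ^ 3 * Real.exp (24 - 4 * (N : ℝ)) ≤ 1
  p4 : CM * Real.exp (-ts N) ≤ 1 / 2
  p5 : Y1 ^ 2 + 5 ≤ t0 N
  p7 : Real.log (C1 * N) + 3 ≤ ts N
  p8 : 3 ≤ ts N ^ ((13 : ℝ) / 20)
  p9 : Real.log (C1 * N) + 2 ≤ ts N ^ ((13 : ℝ) / 20) / 2
  p10 : 2 * ((⌈(N : ℝ) ^ ((9 : ℝ) / 20)⌉₊ : ℕ) : ℝ) ≤ ts N ^ ((13 : ℝ) / 20) / 2
  p11 : Real.exp 2 * (Real.log (C1 * N) + 3) ≤ ((⌈(N : ℝ) ^ ((9 : ℝ) / 20)⌉₊ : ℕ) : ℝ)
  p12 : ((N : ℝ) + 7) * Real.exp (-(2 * (N : ℝ)))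
      + ((N : ℝ) + 7) * (2 * (4 * CB * ((N : ℝ) + 8) ^ 3 * Real.exp (1 - ts N ^ ((3 : ℝ) / 10) / 12)))
      + 4 * CB * ((N : ℝ) + 8) ^ 3 * Real.exp (-((⌈(N : ℝ) ^ ((9 : ℝ) / 20)⌉₊ : ℕ) : ℝ)) ≤ eps0 N

lemma p12_t1 {n E Z : ℝ} (hn : 8 ≤ n) (hE : 0 ≤ E) (h : 6 * n * E ≤ Z) : (n + 7) * E ≤ Z / 3 := by
  have : (n + 7) * E ≤ (2 * n) * E := mul_le_mul_of_nonneg_right (by linarith) hE
  linarith

lemma p12_t2 {n CB e W Z : ℝ} (hn : 8 ≤ n) (hCB : 0 ≤ CB) (he : 0 ≤ e) (hW : 0 ≤ W)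
    (h : (384 * CB * e) * n ^ 4 * W ≤ Z) :
    (n + 7) * (2 * (4 * CB * (n + 8) ^ 3 * (e * W))) ≤ Z / 3 := by
  have h83 : (n + 8) ^ 3 ≤ 8 * n ^ 3 := by
    calc (n + 8) ^ 3 ≤ (2 * n) ^ 3 := pow_le_pow_left₀ (by linarith) (by linarith) 3
      _ = _ := by ring
  have h15 : (n + 7) * (2 * (4 * CB * (n + 8) ^ 3 * (e * W)))
      ≤ (2 * n) * (2 * (4 * CB * (8 * n ^ 3) * (e * W))) := by
    have hn0 : 0 ≤ n := by linarith
    apply mul_le_mul (by linarith) _ (by positivity) (by positivity)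
    apply mul_le_mul_of_nonneg_left _ (by norm_num)
    apply mul_le_mul_of_nonneg_right _ (by positivity)
    apply mul_le_mul_of_nonneg_left h83 (by positivity)
  have h16 : (2 * n) * (2 * (4 * CB * (8 * n ^ 3) * (e * W))) = ((384 * CB * e) * n ^ 4 * W) / 3 := by
    ring
  rw [h16] at h15
  linarith

lemma p12_t3 {n CB W W1 Z : ℝ} (hn : 8 ≤ n) (hCB : 0 ≤ CB) (hW : 0 ≤ W) (hW1 : 0 ≤ W1) (hle : W ≤ W1)
    (h : (96 * CB) * n ^ 3 * W1 ≤ Z) : 4 * CB * (n + 8) ^ 3 * W ≤ Z / 3 := by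
  have h83 : (n + 8) ^ 3 ≤ 8 * n ^ 3 := by
    calc (n + 8) ^ 3 ≤ (2 * n) ^ 3 := pow_le_pow_left₀ (by linarith) (by linarith) 3
      _ = _ := by ring
  have hn0 : 0 ≤ n := by linarith
  have h16 : 4 * CB * (n + 8) ^ 3 * W ≤ 4 * CB * (8 * n ^ 3) * W1 := by
    apply mul_le_mul _ hle hW (by positivity)
    apply mul_le_mul_of_nonneg_left h83 (by positivity)
  have h17 : 4 * CB * (8 * n ^ 3) * W1 = ((96 * CB) * n ^ 3 * W1) / 3 := by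
    ring
  rw [h17] at h16
  linarith

lemma eventually_large {CB CR CM C1 Y1 : ℝ} (hCB : 0 < CB) (hCR : 1 ≤ CR) (hCM : 0 ≤ CM)
    (hC1 : 0 < C1) :
    ∀ᶠ N : ℕ in atTop, Large N CB CR CM C1 Y1 := by
  have hc1 : (0 : ℝ) < (1 / 2 : ℝ) ^ ((13 : ℝ) / 20) := by positivity
  have hc2 : (0 : ℝ) < (1 / 2 : ℝ) ^ ((3 : ℝ) / 10) := by positivity
  set c1 : ℝ := (1 / 2 : ℝ) ^ ((13 : ℝ) / 20) with hc1def
  set c2 : ℝ := (1 / 2 : ℝ) ^ ((3 : ℝ) / 10) with hc2def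
  have e1 : ∀ᶠ N : ℕ in atTop, (3 : ℝ) + 0 * (N : ℝ) ^ (0 : ℝ) ≤ (1 / 2) * (N : ℝ) ^ ((4 : ℝ) / 5) :=
    NormalEv.ev_nat (NormalEv.ev_pow 3 0 (1 / 2) le_rfl (by norm_num) (by norm_num))
  have e2 : ∀ᶠ N : ℕ in atTop, (2 * CM) + 0 * (N : ℝ) ^ (0 : ℝ) ≤ (1 / 2) * (N : ℝ) ^ ((4 : ℝ) / 5) :=
    NormalEv.ev_nat (NormalEv.ev_pow _ 0 (1 / 2) le_rfl (by norm_num) (by norm_num))
  have e3 : ∀ᶠ N : ℕ in atTop, (Y1 ^ 2 + 5) + 0 * (N : ℝ) ^ (0 : ℝ) ≤ 1 * (N : ℝ) ^ ((4 : ℝ) / 5) :=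
    NormalEv.ev_nat (NormalEv.ev_pow _ 0 1 le_rfl (by norm_num) (by norm_num))
  have e4 : ∀ᶠ N : ℕ in atTop, (Real.log C1 + 3) + 1 * Real.log (N : ℝ)
      ≤ (1 / 2) * (N : ℝ) ^ ((4 : ℝ) / 5) :=
    NormalEv.ev_nat (NormalEv.ev_log _ 1 (1 / 2) (by norm_num) (by norm_num))
  have e5 : ∀ᶠ N : ℕ in atTop, (3 : ℝ) + 0 * (N : ℝ) ^ (0 : ℝ) ≤ c1 * (N : ℝ) ^ ((13 : ℝ) / 25) :=
    NormalEv.ev_nat (NormalEv.ev_pow 3 0 c1 le_rfl (by norm_num) hc1)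
  have e6 : ∀ᶠ N : ℕ in atTop, (Real.log C1 + 2) + 1 * Real.log (N : ℝ)
      ≤ (c1 / 2) * (N : ℝ) ^ ((13 : ℝ) / 25) :=
    NormalEv.ev_nat (NormalEv.ev_log _ 1 (c1 / 2) (by norm_num) (by positivity))
  have e7 : ∀ᶠ N : ℕ in atTop, (2 : ℝ) + 2 * (N : ℝ) ^ ((9 : ℝ) / 20)
      ≤ (c1 / 2) * (N : ℝ) ^ ((13 : ℝ) / 25) :=
    NormalEv.ev_nat (NormalEv.ev_pow 2 2 (c1 / 2) (by norm_num) (by norm_num) (by positivity))
  have e8 : ∀ᶠ N : ℕ in atTop, (Real.exp 2 * (Real.log C1 + 3)) + Real.exp 2 * Real.log (N : ℝ)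
      ≤ 1 * (N : ℝ) ^ ((9 : ℝ) / 20) :=
    NormalEv.ev_nat (NormalEv.ev_log _ _ 1 (by norm_num) (by norm_num))
  have e9 : ∀ᶠ N : ℕ in atTop, (6 : ℝ) * (N : ℝ) ^ 1 * Real.exp (-(2 * (N : ℝ) ^ (1 : ℝ)))
      ≤ Real.exp (-((N : ℝ) ^ ((23 : ℝ) / 100))) :=
    NormalEv.ev_nat (NormalEv.ev_exp (by norm_num) 1 (by norm_num) (by norm_num) (by norm_num))
  have e10 : ∀ᶠ N : ℕ in atTop, (384 * CB * Real.exp 1) * (N : ℝ) ^ 4 *
        Real.exp (-((c2 / 12) * (N : ℝ) ^ ((6 : ℝ) / 25)))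
      ≤ Real.exp (-((N : ℝ) ^ ((23 : ℝ) / 100))) :=
    NormalEv.ev_nat (NormalEv.ev_exp (by positivity) 4 (by positivity) (by norm_num) (by norm_num))
  have e11 : ∀ᶠ N : ℕ in atTop, (96 * CB) * (N : ℝ) ^ 3 *
        Real.exp (-(1 * (N : ℝ) ^ ((9 : ℝ) / 20)))
      ≤ Real.exp (-((N : ℝ) ^ ((23 : ℝ) / 100))) :=
    NormalEv.ev_nat (NormalEv.ev_exp (by positivity) 3 (by norm_num) (by norm_num) (by norm_num))
  have e12 : ∀ᶠ N : ℕ in atTop, (2 * CR ^ 3 + 24) ≤ 4 * (N : ℝ) :=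
    NormalEv.ev_nat (P := fun n => (2 * CR ^ 3 + 24) ≤ 4 * n) (by
      filter_upwards [eventually_ge_atTop (2 * CR ^ 3 + 24), eventually_ge_atTop (0 : ℝ)] with n hn hn0
      have : 0 ≤ CR ^ 3 := by positivity
      linarith)
  filter_upwards [e1, e2, e3, e4, e5, e6, e7, e8, e9, e10, e11, e12, eventually_ge_atTop 8]
    with N h1 h2 h3 h4 h5 h6 h7 h8 h9 h10 h11 h12 h13
  have hN8 : (8 : ℝ) ≤ N := by exact_mod_cast h13
  have hNpos : (0 : ℝ) < N := by linarith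
  have hlog : Real.log (C1 * N) = Real.log C1 + Real.log N :=
    Real.log_mul hC1.ne' hNpos.ne'
  simp only [zero_mul, add_zero, one_mul] at h1 h2 h3 h4 h5 h6 h8
  have hts : ts N = (1 / 2 : ℝ) * (N : ℝ) ^ ((4 : ℝ) / 5) := ts_eq N
  have ht0 : t0 N = (N : ℝ) ^ ((4 : ℝ) / 5) := rfl
  have hr1 := ts_rpow_one N
  have hr2 := ts_rpow_two N
  have hceil1 : (N : ℝ) ^ ((9 : ℝ) / 20) ≤ ((⌈(N : ℝ) ^ ((9 : ℝ) / 20)⌉₊ : ℕ) : ℝ) := Nat.le_ceil _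
  have hceil2 : ((⌈(N : ℝ) ^ ((9 : ℝ) / 20)⌉₊ : ℕ) : ℝ) < (N : ℝ) ^ ((9 : ℝ) / 20) + 1 :=
    Nat.ceil_lt_add_one (by positivity)
  refine ⟨h13, by rw [hts]; linarith, ?_, ?_, by rw [ht0]; linarith, by rw [hlog, hts]; linarith,
    by rw [hr1]; exact h5, by rw [hr1, hlog]; linarith, by rw [hr1]; linarith,
    by rw [hlog]; nlinarith, ?_⟩
  · -- p3
    have h0 : 0 < 2 * CR ^ 3 := by positivity
    have h14 : 2 * CR ^ 3 ≤ Real.exp (4 * (N : ℝ) - 24) := by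
      have := Real.add_one_le_exp (4 * (N : ℝ) - 24)
      linarith
    have e : Real.exp (24 - 4 * (N : ℝ)) = (Real.exp (4 * (N : ℝ) - 24))⁻¹ := by
      rw [← Real.exp_neg]
      congr 1
      ring
    rw [e, ← div_eq_mul_inv, div_le_one (Real.exp_pos _)]
    exact h14
  · -- p4
    have h14 : 2 * CM ≤ Real.exp (ts N) := by
      have := Real.add_one_le_exp (ts N)
      rw [hts] at this ⊢
      linarith
    rw [Real.exp_neg, ← div_eq_mul_inv, div_le_iff₀ (Real.exp_pos _)]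
    linarith
  · -- p12
    unfold eps0
    have t1 := p12_t1 (Z := Real.exp (-((N : ℝ) ^ ((23 : ℝ) / 100)))) hN8 (Real.exp_pos (-(2 * (N : ℝ)))).le (by
      rw [Real.rpow_one, pow_one] at h9
      exact h9)
    have e : Real.exp (1 - ts N ^ ((3 : ℝ) / 10) / 12)
        = Real.exp 1 * Real.exp (-((c2 / 12) * (N : ℝ) ^ ((6 : ℝ) / 25))) := by
      rw [← Real.exp_add, hr2]
      congr 1
      ring
    have t2 := p12_t2 hN8 hCB.le (Real.exp_pos 1).le (Real.exp_pos _).le h10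
    rw [← e] at t2
    have h15 : Real.exp (-((⌈(N : ℝ) ^ ((9 : ℝ) / 20)⌉₊ : ℕ) : ℝ))
        ≤ Real.exp (-(1 * (N : ℝ) ^ ((9 : ℝ) / 20))) := by
      apply Real.exp_le_exp.2
      linarith
    have t3 := p12_t3 hN8 hCB.le (Real.exp_pos _).le (Real.exp_pos _).le h15 h11
    linarith

/-- **Counting of abnormal primes at a dyadic scale.**  The lower bound on the level of `X` has
slack one, for the dyadic decompositions that follow. -/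
theorem abn_internal : ∃ N₀ : ℕ, ∀ N ≥ N₀, ∀ X : ℝ, 1 < X → t0 N - 1 ≤ levR X → levR X ≤ (N : ℝ) + 6 →
    (((Finset.Ioc ⌊X⌋₊ ⌊2 * X⌋₊).filter (fun p => p.Prime ∧ BadNormal N p)).card : ℝ)
      ≤ eps0 N * (X / Real.log X) := by
  obtain ⟨CB, Y0, hCB, hbt0⟩ := bt_hole
  obtain ⟨CR, hCR, hR⟩ := rankin_sum
  obtain ⟨CM, hCM, hC⟩ := mass_primesIn
  set Y1 := max Y0 0 with hY1
  have hbt : BTH CB Y1 := by
    intro Y Q α β d h1 h2 h3 h4 h5 h6 h7 h8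
    exact hbt0 Y Q α β d ((le_max_left _ _).trans h1) h2 h3 h4 h5 h6 h7 h8
  set C1 := max 20 (4 * CB) with hC1
  have hC1a : 20 ≤ C1 := le_max_left _ _
  have hC1b : 4 * CB ≤ C1 := le_max_right _ _
  obtain ⟨N₀, hN₀⟩ := Filter.eventually_atTop.1
    (eventually_large (CM := CM) (Y1 := Y1) hCB hCR hCM (by linarith : 0 < C1) (CR := CR))
  refine ⟨N₀, ?_⟩
  intro N hN X hX hx0 hx1
  obtain ⟨p1, p2, p3, p4, p5, p7, p8, p9, p10, p11, p12⟩ := hN₀ N hN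
  have hN8 : (8 : ℝ) ≤ N := by exact_mod_cast p1
  have hLpos : 0 < Real.log X := Real.log_pos hX
  have hXeq : X = Real.exp (Real.exp (levR X)) := by
    unfold levR
    rw [Real.exp_log hLpos, Real.exp_log (by linarith)]
  have ht0 : t0 N = 2 * ts N := by
    unfold ts; ring
  have hXge : t0 N ≤ X := by
    have h1 := Real.add_one_le_exp (levR X)
    have h2 := Real.add_one_le_exp (Real.exp (levR X))
    rw [← hXeq] at h2
    linarith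
  have hY1nn : 0 ≤ Y1 := le_max_right _ _
  have hy2 : 0 ≤ Y1 ^ 2 := by positivity
  have G : Good N X CB CR CM C1 Y1 :=
    { hN := by omega
      hX := hX
      hx0 := hx0
      hx1 := hx1
      hY1 := hY1nn
      hY := by linarith
      h4 := by linarith
      hts := p2
      hCB := hCB
      hCR := hCR
      hCM := hCM
      hC1 := hC1a
      hC1' := by nlinarith
      hE := p3
      hM := p4
      hx2 := by linarith }
  set k := ⌈(N : ℝ) ^ ((9 : ℝ) / 20)⌉₊ with hk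
  have hcore := G.normal_core hbt hR hC (A := Real.log (C1 * N)) (k := k) rfl
    (by linarith) p8 p9 p10 p11
  refine hcore.trans ?_
  have hXL : 0 ≤ X / Real.log X := div_nonneg (by linarith) hLpos.le
  have e : ((N : ℝ) + 7) * ((X / Real.log X) * Real.exp (-(2 * (N : ℝ)))
          + 2 * (BB N X CB * Real.exp (1 - ts N ^ ((3 : ℝ) / 10) / 12)))
        + BB N X CB * Real.exp (-(k : ℝ))
      = (((N : ℝ) + 7) * Real.exp (-(2 * (N : ℝ)))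
      + ((N : ℝ) + 7) * (2 * (4 * CB * ((N : ℝ) + 8) ^ 3 * Real.exp (1 - ts N ^ ((3 : ℝ) / 10) / 12)))
      + 4 * CB * ((N : ℝ) + 8) ^ 3 * Real.exp (-(k : ℝ))) * (X / Real.log X) := by
    unfold BB
    ring
  rw [e]
  exact mul_le_mul_of_nonneg_right p12 hXL

end

end Vale.Agent.Lib.P031V.NormalInt
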