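import Vale.Agent.Lib.P031V.NormalMassGen

/-! # P031: mass of abnormal primes, conditional on the dyadic counts (blueprint section 4, end). -/

namespace Vale.Agent.Lib.P031V
namespace NormalMass
open Real Finset Filter
open scoped Classical
noncomputable section

open NormalMassGen

/-- The dyadic count of abnormal primes. -/
def NormalCount (N : ℕ) : Prop := ∀ X : ℝ, 1 < X → t0 N ≤ levR X → levR X ≤ (N : ℝ) + 5 →
  (((Finset.Ioc ⌊X⌋₊ ⌊2 * X⌋₊).filter (fun p => p.Prime ∧ ¬ Normal N p)).card : ℝ)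
    ≤ eps0 N * (X / Real.log X)

/-- The dyadic count of weakly abnormal primes. -/
def WeakCount (N : ℕ) : Prop := ∀ X : ℝ, 1 < X → 0.9 * (N : ℝ) - 1 ≤ levR X → levR X ≤ (N : ℝ) + 5 →
  (((Finset.Ioc ⌊X⌋₊ ⌊2 * X⌋₊).filter
      (fun p => p.Prime ∧ (W N (p - 1) ((N : ℝ) / 2) : ℝ) < (N : ℝ) / 100)).card : ℝ)
    ≤ Real.exp (-(0.42 * (N : ℝ))) * (X / Real.log X)

/-- The count of a filter does not depend on the decidability instance. -/
lemma le_of_filter_irrel {s : Finset ℕ} {q : ℕ → Prop} (d1 d2 : DecidablePred q) {r : ℝ}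
    (h : (((@Finset.filter ℕ q d1 s).card : ℕ) : ℝ) ≤ r) : (((@Finset.filter ℕ q d2 s).card : ℕ) : ℝ) ≤ r := by
  have e : d1 = d2 := Subsingleton.elim _ _
  subst e
  exact h

lemma t0_eventually_ge (L : ℝ) : ∀ᶠ N : ℕ in atTop, L ≤ t0 N := by
  unfold t0
  exact ((tendsto_rpow_atTop (by norm_num : (0 : ℝ) < 4 / 5)).comp
      tendsto_natCast_atTop_atTop).eventually_ge_atTop L

lemma eps0_pos (N : ℕ) : 0 < eps0 N := Real.exp_pos _

/-- Small boundary term compared with `eps0`. -/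
lemma exp_exp_t0_le : ∀ᶠ N : ℕ in atTop, Real.exp (-Real.exp (t0 N)) ≤ eps0 N := by
  filter_upwards [eventually_ge_atTop 1] with N hN
  unfold eps0
  apply Real.exp_le_exp.2
  rw [neg_le_neg_iff]
  have hN1 : (1 : ℝ) ≤ N := by exact_mod_cast hN
  have h1 : (N : ℝ) ^ ((23 : ℝ) / 100) ≤ (N : ℝ) ^ ((4 : ℝ) / 5) :=
    Real.rpow_le_rpow_of_exponent_le hN1 (by norm_num)
  have h2 := Real.add_one_le_exp (t0 N)
  unfold t0 at h2 ⊢
  linarith

theorem abn_mass_of : ∃ N₀ : ℕ, ∀ N ≥ N₀, NormalCount N → ∀ P : Finset ℕ,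
    (∀ p ∈ P, p.Prime ∧ ¬ Normal N p ∧ t0 N ≤ lev p ∧ lev p ≤ (N : ℝ) + 5) →
    ∑ p ∈ P, (1 : ℝ) / ((p : ℝ) - 1) ≤ 10 * (N : ℝ) * eps0 N := by
  obtain ⟨N₁, h1⟩ := eventually_atTop.1 exp_exp_t0_le
  obtain ⟨N₂, h2⟩ := eventually_atTop.1 (t0_eventually_ge 1)
  obtain ⟨N₃, h3⟩ := eventually_atTop.1
    (((ev_rpow_le (4 / 5) 1 1 (by norm_num)).and (eventually_ge_atTop 5)))
  refine ⟨max (max N₁ N₂) N₃, ?_⟩
  intro N hN hc P hP
  have hN1 : N₁ ≤ N := le_trans (le_trans (le_max_left _ _) (le_max_left _ _)) hN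
  have hN2 : N₂ ≤ N := le_trans (le_trans (le_max_right _ _) (le_max_left _ _)) hN
  have hN3 : N₃ ≤ N := le_trans (le_max_right _ _) hN
  have ht1 := h2 N hN2
  obtain ⟨hle, hN5⟩ := h3 N hN3
  have hN5' : (5 : ℝ) ≤ N := by exact_mod_cast hN5
  have htB : t0 N ≤ (N : ℝ) + 5 := by
    rw [Real.rpow_one] at hle
    unfold t0
    linarith
  have hm := dyadic_mass (fun p => ¬ Normal N p) (t0 N) ((N : ℝ) + 5) (eps0 N) ht1 htB (eps0_pos N).le
    (fun X h1 h2 h3 => le_of_filter_irrel _ _ (hc X h1 h2 h3)) P hP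
  refine le_trans hm ?_
  have hb := h1 N hN1
  have hL := log_two_pos'
  have e1 : Real.exp (-t0 N) ≤ 1 := by
    rw [Real.exp_le_one_iff]
    linarith
  have e2 : ((N : ℝ) + 5 - t0 N) / Real.log 2 ≤ 1.5 * ((N : ℝ) + 5) := by
    rw [div_le_iff₀ (by linarith)]
    nlinarith
  have he := eps0_pos N
  have e3 : 2 * eps0 N * (Real.exp (-t0 N) + ((N : ℝ) + 5 - t0 N) / Real.log 2) ≤
      2 * eps0 N * (1 + 1.5 * ((N : ℝ) + 5)) :=
    mul_le_mul_of_nonneg_left (by linarith) (by positivity)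
  nlinarith

theorem weak_mass_of : ∃ N₀ : ℕ, ∀ N ≥ N₀, WeakCount N → ∀ P : Finset ℕ,
    (∀ p ∈ P, p.Prime ∧ (W N (p - 1) ((N : ℝ) / 2) : ℝ) < (N : ℝ) / 100 ∧
      0.9 * (N : ℝ) ≤ lev p ∧ lev p ≤ (N : ℝ) + 5) →
    ∑ p ∈ P, (1 : ℝ) / ((p : ℝ) - 1) ≤ (N : ℝ) * Real.exp (-(0.41 * (N : ℝ))) := by
  refine ⟨1000, ?_⟩
  intro N hN hc P hP
  have hNr : (1000 : ℝ) ≤ N := by exact_mod_cast hN
  have hcount : ∀ X : ℝ, 1 < X → 0.9 * (N : ℝ) ≤ levR X → levR X ≤ (N : ℝ) + 5 →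
      (((Finset.Ioc ⌊X⌋₊ ⌊2 * X⌋₊).filter
        (fun p => p.Prime ∧ (W N (p - 1) ((N : ℝ) / 2) : ℝ) < (N : ℝ) / 100)).card : ℝ)
      ≤ Real.exp (-(0.42 * (N : ℝ))) * (X / Real.log X) :=
    fun X h1 h2 h3 => hc X h1 (by linarith) h3
  have hm := dyadic_mass (fun p => (W N (p - 1) ((N : ℝ) / 2) : ℝ) < (N : ℝ) / 100)
    (0.9 * (N : ℝ)) ((N : ℝ) + 5) (Real.exp (-(0.42 * (N : ℝ)))) (by linarith) (by linarith)
    (Real.exp_pos _).le hcount P (fun p hp => by
      obtain ⟨h1, h2, h3, h4⟩ := hP p hp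
      exact ⟨h1, h2, h3, h4⟩)
  refine le_trans hm ?_
  have hL := log_two_pos'
  have e1 : Real.exp (-(0.9 * (N : ℝ))) ≤ 1 := by
    rw [Real.exp_le_one_iff]
    linarith
  have e2 : ((N : ℝ) + 5 - 0.9 * (N : ℝ)) / Real.log 2 ≤ (N : ℝ) := by
    rw [div_le_iff₀ (by linarith)]
    nlinarith
  -- `exp (-.42 N)` is much smaller than `exp (-.41 N)`
  set E : ℝ := Real.exp (-(0.41 * (N : ℝ))) with hE
  have hE0 : 0 < E := Real.exp_pos _
  have hsplit : Real.exp (-(0.42 * (N : ℝ))) = E * Real.exp (-(0.01 * (N : ℝ))) := by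
    rw [hE, ← Real.exp_add]
    congr 1
    ring
  have hsmall : Real.exp (-(0.01 * (N : ℝ))) ≤ 1 / 8 := by
    have h1 : Real.exp (0.01 * (N : ℝ)) ≥ 8 := by
      have h2 : Real.exp 10 ≤ Real.exp (0.01 * (N : ℝ)) := Real.exp_le_exp.2 (by linarith)
      have h3 := Real.add_one_le_exp (10 : ℝ)
      linarith
    rw [Real.exp_neg, one_div]
    exact inv_anti₀ (by norm_num) h1
  have hbd2 : Real.exp (-Real.exp (0.9 * (N : ℝ))) ≤ E * (1 / 8) := by
    rw [hE]
    have h5 : Real.exp (-Real.exp (0.9 * (N : ℝ))) ≤ Real.exp (-(0.41 * (N : ℝ))) * Real.exp (-(0.01 * (N : ℝ))) := by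
      rw [← Real.exp_add]
      apply Real.exp_le_exp.2
      have h6 := Real.add_one_le_exp (0.9 * (N : ℝ))
      linarith
    have h7 : Real.exp (-(0.41 * (N : ℝ))) * Real.exp (-(0.01 * (N : ℝ))) ≤
        Real.exp (-(0.41 * (N : ℝ))) * (1 / 8) :=
      mul_le_mul_of_nonneg_left hsmall (Real.exp_pos _).le
    linarith
  rw [hsplit]
  have h8 : 2 * (E * Real.exp (-(0.01 * (N : ℝ)))) *
      (Real.exp (-(0.9 * (N : ℝ))) + ((N : ℝ) + 5 - 0.9 * (N : ℝ)) / Real.log 2) ≤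
      2 * (E * (1 / 8)) * (1 + (N : ℝ)) := by
    have h9 : 0 ≤ Real.exp (-(0.9 * (N : ℝ))) + ((N : ℝ) + 5 - 0.9 * (N : ℝ)) / Real.log 2 := by
      have := Real.exp_pos (-(0.9 * (N : ℝ)))
      have : 0 ≤ ((N : ℝ) + 5 - 0.9 * (N : ℝ)) / Real.log 2 :=
        div_nonneg (by linarith) (by linarith)
      linarith
    apply mul_le_mul _ (by linarith) h9 (by positivity)
    have := mul_le_mul_of_nonneg_left hsmall hE0.le
    linarith
  nlinarith

/-- The count up to `Y`. -/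
theorem abn_count_le_of : ∃ N₀ : ℕ, ∀ N ≥ N₀, NormalCount N → ∀ Y : ℝ, 1 < Y →
    (N : ℝ) - 9 ≤ levR Y → levR Y ≤ (N : ℝ) + 4 →
    (((Finset.Icc (⌈Real.exp (Real.exp ((N : ℝ) - 9))⌉₊) ⌊Y⌋₊).filter (fun p => p.Prime ∧ ¬ Normal N p)).card : ℝ)
      ≤ 3 * eps0 N * (Y / Real.log Y) := by
  obtain ⟨N₁, h1⟩ := eventually_atTop.1 (ev_rpow_le (4 / 5) 1 2 (by norm_num))
  obtain ⟨N₂, h2⟩ := eventually_atTop.1 (ev_rpow_le (23 / 100) 1 8 (by norm_num))
  refine ⟨max (max N₁ N₂) 100, ?_⟩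
  intro N hN hc Y hY1 hYl hYu
  have hN1 : N₁ ≤ N := le_trans (le_trans (le_max_left _ _) (le_max_left _ _)) hN
  have hN2 : N₂ ≤ N := le_trans (le_trans (le_max_right _ _) (le_max_left _ _)) hN
  have hN3 : 100 ≤ N := le_trans (le_max_right _ _) hN
  have hN3r : (100 : ℝ) ≤ N := by exact_mod_cast hN3
  have ht := h1 N hN1
  have he := h2 N hN2
  rw [Real.rpow_one] at ht he
  have hLpos : 0 < Real.log Y := Real.log_pos hY1
  have hYpos : 0 < Y := by linarith
  -- `log Y` is huge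
  have hLge : Real.exp ((N : ℝ) - 9) ≤ Real.log Y := by
    unfold levR at hYl
    exact (Real.le_log_iff_exp_le hLpos).1 hYl
  have hLge2 : (N : ℝ) - 8 ≤ Real.log Y := by
    have := Real.add_one_le_exp ((N : ℝ) - 9)
    linarith
  have hL16 : 16 ≤ Real.log Y := by linarith
  have hlog2 := Real.log_two_lt_d9
  have hlog2' : Real.log 2 ≤ 0.7 := by linarith
  have hcount : ∀ X : ℝ, Real.sqrt Y / 2 ≤ X → X ≤ Y →
      (((Finset.Ioc ⌊X⌋₊ ⌊2 * X⌋₊).filter (fun p : ℕ => p.Prime ∧ ¬ Normal N p)).card : ℝ) ≤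
        eps0 N * (X / Real.log X) := by
    intro X hX1 hX2
    have hsq : 0 < Real.sqrt Y := Real.sqrt_pos.2 hYpos
    have hXpos : 0 < X := by linarith
    have hlogsq : Real.log (Real.sqrt Y / 2) = Real.log Y / 2 - Real.log 2 := by
      rw [Real.log_div hsq.ne' (by norm_num), Real.log_sqrt hYpos.le]
    have hlogX : (5 / 11) * Real.log Y ≤ Real.log X := by
      have h3 : Real.log (Real.sqrt Y / 2) ≤ Real.log X :=
        Real.log_le_log (by positivity) hX1
      rw [hlogsq] at h3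
      linarith
    have hlogXpos : 0 < Real.log X := by
      have : 0 < (5 / 11) * Real.log Y := by positivity
      linarith
    have hX1' : 1 < X := by
      by_contra hcon
      have : Real.log X ≤ 0 := Real.log_nonpos hXpos.le (not_lt.1 hcon)
      linarith
    refine hc X hX1' ?_ ?_
    · -- lower level bound
      unfold levR at hYl ⊢
      have h4 : Real.log ((5 / 11) * Real.log Y) ≤ Real.log (Real.log X) :=
        Real.log_le_log (by positivity) hlogX
      rw [Real.log_mul (by norm_num) hLpos.ne'] at h4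
      have h5 : -(6 / 5) ≤ Real.log (5 / 11) := by
        have := Real.one_sub_inv_le_log_of_pos (by norm_num : (0 : ℝ) < 5 / 11)
        norm_num at this ⊢
        linarith
      have h6 : t0 N ≤ (N : ℝ) - 11 := by
        unfold t0
        linarith
      linarith
    · unfold levR at hYu ⊢
      have h4 : Real.log (Real.log X) ≤ Real.log (Real.log Y) :=
        Real.log_le_log hlogXpos (Real.log_le_log hXpos hX2)
      linarith
  have hd := le_of_filter_irrel _ (fun p => instDecidableAnd)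
    (dyadic_count (fun p => ¬ Normal N p) (eps0 N) Y (eps0_pos N).le hY1 hL16
      (fun X h1 h2 => le_of_filter_irrel _ _ (hcount X h1 h2)))
  -- the small term
  have hsqrt : Real.sqrt Y ≤ 0.8 * eps0 N * (Y / Real.log Y) := by
    have hYexp : Y = Real.exp (Real.log Y) := (Real.exp_log hYpos).symm
    set L := Real.log Y with hL
    have hs : Real.sqrt Y = Real.exp (L / 2) := by
      rw [Real.sqrt_eq_iff_mul_self_eq hYpos.le (Real.exp_pos _).le, ← Real.exp_add]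
      rw [hYexp]
      congr 1
      ring
    have hsm : L * Real.exp (-(L / 2)) ≤ 0.8 * eps0 N := by
      have hx : L / 4 + 1 ≤ Real.exp (L / 4) := Real.add_one_le_exp _
      have hL4 : L ≤ 4 * Real.exp (L / 4) := by linarith
      have e1 : L * Real.exp (-(L / 2)) ≤ 4 * Real.exp (L / 4) * Real.exp (-(L / 2)) :=
        mul_le_mul_of_nonneg_right hL4 (Real.exp_pos _).le
      have e2 : 4 * Real.exp (L / 4) * Real.exp (-(L / 2)) = 4 * Real.exp (-(L / 4)) := by
        rw [mul_assoc, ← Real.exp_add]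
        congr 2
        ring
      have e3 : 5 * Real.exp (-(L / 4)) ≤ eps0 N := by
        unfold eps0
        have h5 : (5 : ℝ) ≤ Real.exp 4 := by
          have := Real.add_one_le_exp (4 : ℝ)
          linarith
        have h6 : Real.exp 4 * Real.exp (-(L / 4)) ≤ Real.exp (-(N : ℝ) ^ ((23 : ℝ) / 100)) := by
          rw [← Real.exp_add]
          apply Real.exp_le_exp.2
          linarith
        have h7 : 5 * Real.exp (-(L / 4)) ≤ Real.exp 4 * Real.exp (-(L / 4)) :=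
          mul_le_mul_of_nonneg_right h5 (Real.exp_pos _).le
        linarith
      linarith
    have hY2 : Real.exp (L / 2) * Real.exp (L / 2) = Y := by
      rw [← Real.exp_add, hYexp]
      congr 1
      ring
    rw [hs]
    have hexp0 : 0 < Real.exp (L / 2) := Real.exp_pos _
    have h9 : Y / L = Real.exp (L / 2) * (Real.exp (L / 2) / L) := by
      rw [← hY2]
      ring
    rw [h9]
    have h10 : Real.exp (L / 2) * (L * Real.exp (-(L / 2))) = L := by
      rw [Real.exp_neg]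
      field_simp
    have h11 : Real.exp (L / 2) / L * (L * Real.exp (-(L / 2))) = 1 := by
      rw [Real.exp_neg]
      field_simp
    have h12 : 1 ≤ Real.exp (L / 2) / L * (0.8 * eps0 N) := by
      rw [← h11]
      exact mul_le_mul_of_nonneg_left hsm (by positivity)
    calc Real.exp (L / 2) = Real.exp (L / 2) * 1 := by ring
      _ ≤ Real.exp (L / 2) * (Real.exp (L / 2) / L * (0.8 * eps0 N)) :=
        mul_le_mul_of_nonneg_left h12 hexp0.le
      _ = _ := by ring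
  have hsub : (Finset.Icc (⌈Real.exp (Real.exp ((N : ℝ) - 9))⌉₊) ⌊Y⌋₊).filter
        (fun p => p.Prime ∧ ¬ Normal N p) ⊆
      (Finset.Icc 1 ⌊Y⌋₊).filter (fun p => p.Prime ∧ ¬ Normal N p) := by
    apply Finset.filter_subset_filter
    apply Finset.Icc_subset_Icc_left
    exact Nat.one_le_ceil_iff.2 (Real.exp_pos _)
  have hcard : (((Finset.Icc (⌈Real.exp (Real.exp ((N : ℝ) - 9))⌉₊) ⌊Y⌋₊).filter
        (fun p => p.Prime ∧ ¬ Normal N p)).card : ℝ) ≤
      (((Finset.Icc 1 ⌊Y⌋₊).filter (fun p => p.Prime ∧ ¬ Normal N p)).card : ℝ) := by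
    exact_mod_cast Finset.card_le_card hsub
  have hpos : 0 ≤ eps0 N * (Y / Real.log Y) :=
    mul_nonneg (eps0_pos N).le (div_nonneg hYpos.le hLpos.le)
  nlinarith

/-- The numerical bound for the non-clean mass. -/
lemma nonclean_small {N : ℕ} {b : ℝ} {c : ℝ} (hN5r : (100 : ℝ) ≤ N) (hNpos : (0 : ℝ) < N)
    (h5 : 32 * (N : ℝ) ≤ (N : ℝ) ^ ((8 : ℝ) / 5)) (hb : b ≤ (N : ℝ) + 5)
    (hcard : c ≤ Real.exp ((N : ℝ) + 7)) (hc0 : 0 ≤ c) :
    (Real.log ((⌈Real.exp (Real.exp b)⌉₊ : ℝ) + 1) + 1) *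
      ((c + 2) * (2 * Real.exp (-Real.exp (ts N)))) ≤ 1 / 3 := by
  set E1 := Real.exp ((N : ℝ) + 5) with hE1
  set E2 := Real.exp ((N : ℝ) + 7) with hE2
  have hE1pos : 1 ≤ E1 := by
    rw [hE1]
    exact Real.one_le_exp (by linarith)
  have hE2pos : 1 ≤ E2 := by
    rw [hE2]
    exact Real.one_le_exp (by linarith)
  -- the logarithm
  have hlogX : Real.log ((⌈Real.exp (Real.exp b)⌉₊ : ℝ) + 1) + 1 ≤ 4 * E1 := by
    have h5 : (⌈Real.exp (Real.exp b)⌉₊ : ℝ) ≤ Real.exp (Real.exp b) + 1 :=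
      (Nat.ceil_lt_add_one (Real.exp_pos _).le).le
    have h6 : Real.exp (Real.exp b) ≤ Real.exp E1 :=
      Real.exp_le_exp.2 (Real.exp_le_exp.2 hb)
    have h7 : 1 ≤ Real.exp E1 := Real.one_le_exp (by linarith)
    have h8 : (⌈Real.exp (Real.exp b)⌉₊ : ℝ) + 1 ≤ Real.exp E1 * Real.exp 2 := by
      have h9 : (3 : ℝ) ≤ Real.exp 2 := by
        have := Real.add_one_le_exp (2 : ℝ)
        linarith
      nlinarith
    have h10 : Real.log ((⌈Real.exp (Real.exp b)⌉₊ : ℝ) + 1) ≤ E1 + 2 := by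
      have h11 : (0 : ℝ) < (⌈Real.exp (Real.exp b)⌉₊ : ℝ) + 1 := by positivity
      have h12 := Real.log_le_log h11 h8
      rw [← Real.exp_add, Real.log_exp] at h12
      exact h12
    linarith
  have hlognn : 0 ≤ Real.log ((⌈Real.exp (Real.exp b)⌉₊ : ℝ) + 1) + 1 := by
    have : 0 ≤ Real.log ((⌈Real.exp (Real.exp b)⌉₊ : ℝ) + 1) :=
      Real.log_nonneg (by
        have : (0 : ℝ) ≤ (⌈Real.exp (Real.exp b)⌉₊ : ℝ) := by positivity
        linarith)
    linarith
  have hcardbd : c + 2 ≤ 3 * E2 := by linarith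
  have hcardnn : 0 ≤ c + 2 := by linarith
  set E3 := Real.exp (-Real.exp (ts N)) with hE3
  have hE3pos : 0 < E3 := Real.exp_pos _
  have hprod : (Real.log ((⌈Real.exp (Real.exp b)⌉₊ : ℝ) + 1) + 1) *
      ((c + 2) * (2 * E3)) ≤
      (4 * E1) * ((3 * E2) * (2 * E3)) := by
    apply mul_le_mul hlogX _ (by positivity) (by positivity)
    exact mul_le_mul_of_nonneg_right hcardbd (by positivity)
  refine le_trans hprod ?_
  -- exponent
  have hts : 2 * (N : ℝ) + 84 ≤ Real.exp (ts N) := by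
    have hq := Real.quadratic_le_exp_of_nonneg (ts_nonneg N)
    have h6 : ts N ^ 2 = (N : ℝ) ^ ((8 : ℝ) / 5) / 4 := by
      unfold ts t0
      have : (N : ℝ) ^ ((8 : ℝ) / 5) = (N : ℝ) ^ ((4 : ℝ) / 5) * (N : ℝ) ^ ((4 : ℝ) / 5) := by
        rw [← Real.rpow_add hNpos]
        norm_num
      rw [this]
      ring
    have h7 := ts_nonneg N
    nlinarith
  have hE : E1 * E2 * E3 * 72 ≤ 1 := by
    have h5 : E1 * E2 * E3 = Real.exp (2 * (N : ℝ) + 12 - Real.exp (ts N)) := by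
      rw [hE1, hE2, hE3, ← Real.exp_add, ← Real.exp_add]
      congr 1
      ring
    rw [h5]
    have h6 : (72 : ℝ) ≤ Real.exp 72 := by
      have := Real.add_one_le_exp (72 : ℝ)
      linarith
    have h7 : Real.exp (2 * (N : ℝ) + 12 - Real.exp (ts N)) * Real.exp 72 ≤ 1 := by
      rw [← Real.exp_add, Real.exp_le_one_iff]
      linarith
    have h8 := Real.exp_pos (2 * (N : ℝ) + 12 - Real.exp (ts N))
    nlinarith
  have e24 : 4 * E1 * (3 * E2 * (2 * E3)) = 24 * (E1 * E2 * E3) := by ring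
  rw [e24]
  linarith

/-- Good primes: normal and clean. -/
theorem good_mass_of : ∃ N₀ : ℕ, ∀ N ≥ N₀, NormalCount N → ∀ (a b : ℝ) (u : ℕ), t0 N ≤ a → a ≤ b → b ≤ (N : ℝ) + 5 →
    Clean N u → u ≠ 0 → (u.primeFactors.card : ℝ) ≤ Real.exp ((N : ℝ) + 7) →
    b - a - 1 ≤ ∑ p ∈ (primesLev a b).filter (fun p => Normal N p ∧ Clean N ((p - 1) * u)),
      (1 : ℝ) / ((p : ℝ) - 1) := by
  obtain ⟨C, a₀, hC0, hM⟩ := mert_interval
  obtain ⟨N₁, h1⟩ := abn_mass_of
  obtain ⟨N₂, h2⟩ := eventually_atTop.1 (t0_eventually_ge (max (a₀) (3 * C)))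
  obtain ⟨N₃, h3⟩ := eventually_atTop.1 (ev_rpow_le 1 (8 / 5) 32 (by norm_num))
  obtain ⟨N₄, h4⟩ := eventually_atTop.1 (ev_log_rpow_le 1 0 (23 / 100) 2 (by norm_num))
  refine ⟨max (max N₁ N₂) (max (max N₃ N₄) 100), ?_⟩
  intro N hN hc a b u hta hab hb hu hu0 hcard
  have hN1 : N₁ ≤ N := le_trans (le_trans (le_max_left _ _) (le_max_left _ _)) hN
  have hN2 : N₂ ≤ N := le_trans (le_trans (le_max_right _ _) (le_max_left _ _)) hN
  have hN3 : N₃ ≤ N := le_trans (le_trans (le_max_left _ _) (le_trans (le_max_left _ _) (le_max_right _ _))) hN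
  have hN4 : N₄ ≤ N := le_trans (le_trans (le_max_right _ _) (le_trans (le_max_left _ _) (le_max_right _ _))) hN
  have hN5 : 100 ≤ N := le_trans (le_trans (le_max_right _ _) (le_max_right _ _)) hN
  have hN5r : (100 : ℝ) ≤ N := by exact_mod_cast hN5
  have hNpos : (0 : ℝ) < N := by linarith
  have hT := h2 N hN2
  have hTa : a₀ ≤ t0 N := le_trans (le_max_left _ _) hT
  have hTC : 3 * C ≤ t0 N := le_trans (le_max_right _ _) hT
  set S := primesLev a b with hS
  set f : ℕ → ℝ := fun p => (1 : ℝ) / ((p : ℝ) - 1) with hf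
  have hSmem : ∀ p ∈ S, p.Prime ∧ a ≤ lev p ∧ lev p < b ∧ p ≤ ⌈Real.exp (Real.exp b)⌉₊ := by
    intro p hp
    have := Finset.mem_filter.1 hp
    have h5 := Finset.mem_range.1 this.1
    exact ⟨this.2.1, this.2.2.1, this.2.2.2, by omega⟩
  -- split
  have hsplit1 := Finset.sum_filter_add_sum_filter_not S (fun p => Normal N p) f
  have hsplit2 := Finset.sum_filter_add_sum_filter_not (S.filter (fun p => Normal N p))
    (fun p => Clean N ((p - 1) * u)) f
  rw [Finset.filter_filter] at hsplit2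
  -- Mertens
  have hMM := hM a b (le_trans hTa hta) hab
  have hMass : b - a - C * Real.exp (-a) ≤ ∑ p ∈ S, f p := by
    have := (abs_le.1 hMM).1
    unfold massI at this
    simp only [hf]
    linarith
  have hexpa : C * Real.exp (-a) ≤ 1 / 3 := by
    have e1 : Real.exp (-a) ≤ Real.exp (-t0 N) := Real.exp_le_exp.2 (by linarith)
    have e2 : t0 N * Real.exp (-t0 N) ≤ 1 := by
      have h6 := Real.add_one_le_exp (t0 N)
      rw [Real.exp_neg]
      have hpos := Real.exp_pos (t0 N)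
      rw [← div_eq_mul_inv, div_le_one hpos]
      linarith
    have e3 : 0 < Real.exp (-t0 N) := Real.exp_pos _
    have e4 : 3 * C * Real.exp (-t0 N) ≤ t0 N * Real.exp (-t0 N) :=
      mul_le_mul_of_nonneg_right hTC e3.le
    have e5 : C * Real.exp (-a) ≤ C * Real.exp (-t0 N) := mul_le_mul_of_nonneg_left e1 hC0.le
    linarith
  -- abnormal mass
  have hA : ∑ p ∈ S.filter (fun p => ¬ Normal N p), f p ≤ 10 * (N : ℝ) * eps0 N := by
    apply h1 N hN1 hc
    intro p hp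
    obtain ⟨hp1, hp2⟩ := Finset.mem_filter.1 hp
    obtain ⟨hp3, hp4, hp5, -⟩ := hSmem p hp1
    exact ⟨hp3, hp2, by linarith, by linarith⟩
  have hAsmall : 10 * (N : ℝ) * eps0 N ≤ 1 / 3 := by
    have h5 := h4 N hN4
    rw [Real.rpow_zero, mul_one, pow_one] at h5
    have h6 : eps0 N * ((N : ℝ) * (N : ℝ)) ≤ 1 := by
      unfold eps0
      have hexp : Real.exp (2 * Real.log N) = (N : ℝ) * (N : ℝ) := by
        rw [two_mul, Real.exp_add, Real.exp_log hNpos]
      rw [← hexp, ← Real.exp_add]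
      rw [Real.exp_le_one_iff]
      linarith
    have heps := eps0_pos N
    have h7 : 10 * (N : ℝ) * eps0 N * 30 ≤ eps0 N * ((N : ℝ) * (N : ℝ)) * 10 := by
      have : 30 * (N : ℝ) ≤ (N : ℝ) * N := by nlinarith
      nlinarith
    linarith
  -- non-clean mass
  have hB : ∑ p ∈ (S.filter (fun p => Normal N p)).filter (fun p => ¬ Clean N ((p - 1) * u)), f p ≤ 1 / 3 := by
    have hn := nonclean_mass N ⌈Real.exp (Real.exp b)⌉₊ u hu0 hu
      ((S.filter (fun p => Normal N p)).filter (fun p => ¬ Clean N ((p - 1) * u))) (by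
        intro p hp
        obtain ⟨hp1, hp2⟩ := Finset.mem_filter.1 hp
        obtain ⟨hp3, -⟩ := Finset.mem_filter.1 hp1
        obtain ⟨hp4, -, -, hp5⟩ := hSmem p hp3
        exact ⟨hp4, hp5, hp2⟩)
    refine le_trans hn ?_
    have h5 := h3 N hN3
    rw [Real.rpow_one] at h5
    exact nonclean_small hN5r hNpos h5 hb hcard (Nat.cast_nonneg _)
  simp only [hf] at hsplit1 hsplit2 hA hB hMass ⊢
  have hsum : ∑ p ∈ S.filter (fun p => Normal N p ∧ Clean N ((p - 1) * u)), (1 : ℝ) / ((p : ℝ) - 1) =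
      ∑ p ∈ S, (1 : ℝ) / ((p : ℝ) - 1)
        - ∑ p ∈ S.filter (fun p => ¬ Normal N p), (1 : ℝ) / ((p : ℝ) - 1)
        - ∑ p ∈ (S.filter (fun p => Normal N p)).filter (fun p => ¬ Clean N ((p - 1) * u)),
            (1 : ℝ) / ((p : ℝ) - 1) := by
    linarith
  rw [hsum]
  linarith

end
end NormalMass
end Vale.Agent.Lib.P031V
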