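import Vale.Agent.Lib.P031V.Defs

/-! # P031: eventual inequalities between the parameters. Add what you need here. -/

namespace Vale.Agent.Lib.P031V
open Real Filter Topology

/-- `C N^a ≤ N^b` eventually, for `a < b`. -/
theorem ev_rpow_le (a b C : ℝ) (h : a < b) : ∀ᶠ N : ℕ in atTop, C * (N : ℝ) ^ a ≤ (N : ℝ) ^ b := by
  have h1 : Tendsto (fun N : ℕ => (N : ℝ) ^ (b - a)) atTop atTop :=
    (tendsto_rpow_atTop (by linarith : 0 < b - a)).comp tendsto_natCast_atTop_atTop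
  filter_upwards [h1.eventually_ge_atTop C, eventually_gt_atTop 0] with N hN hN0
  have hN0' : (0 : ℝ) < N := by exact_mod_cast hN0
  have : (N : ℝ) ^ b = (N : ℝ) ^ (b - a) * (N : ℝ) ^ a := by
    rw [← Real.rpow_add hN0']; congr 1; ring
  rw [this]
  exact mul_le_mul_of_nonneg_right hN (Real.rpow_nonneg hN0'.le _)

/-- `C (log N)^k N^a ≤ N^b` eventually, for `a < b`. -/
theorem ev_log_rpow_le (k : ℕ) (a b C : ℝ) (h : a < b) :
    ∀ᶠ N : ℕ in atTop, C * (Real.log N) ^ k * (N : ℝ) ^ a ≤ (N : ℝ) ^ b := by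
  have hc : (fun x : ℝ => Real.log x ^ (k : ℝ)) =o[atTop] (fun x : ℝ => x ^ (b - a)) :=
    isLittleO_log_rpow_rpow_atTop _ (by linarith)
  have hc' : ∀ᶠ x : ℝ in atTop, |C| * ‖Real.log x ^ (k : ℝ)‖ ≤ 1 * ‖x ^ (b - a)‖ ∨ C = 0 := by
    by_cases hC : C = 0
    · exact Eventually.of_forall fun _ => Or.inr hC
    · have hpos : 0 < |C| := abs_pos.mpr hC
      have := hc.def (c := 1 / |C|) (by positivity)
      filter_upwards [this] with x hx
      left
      rw [one_mul]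
      have h2 : |C| * ‖Real.log x ^ (k : ℝ)‖ ≤ |C| * (1 / |C| * ‖x ^ (b - a)‖) :=
        mul_le_mul_of_nonneg_left hx hpos.le
      calc _ ≤ _ := h2
        _ = _ := by field_simp
  have hc2 := tendsto_natCast_atTop_atTop.eventually hc'
  filter_upwards [hc2, eventually_ge_atTop 3] with N hN hN3
  have hN0 : (0 : ℝ) < N := by
    have : (3 : ℝ) ≤ N := by exact_mod_cast hN3
    linarith
  have hlog : 0 ≤ Real.log N := Real.log_natCast_nonneg N
  have hsplit : (N : ℝ) ^ b = (N : ℝ) ^ (b - a) * (N : ℝ) ^ a := by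
    rw [← Real.rpow_add hN0]; congr 1; ring
  rw [hsplit]
  have hpa : 0 ≤ (N : ℝ) ^ a := Real.rpow_nonneg hN0.le _
  rcases hN with hN | hC
  · have e1 : ‖Real.log N ^ (k : ℝ)‖ = Real.log N ^ k := by
      rw [Real.rpow_natCast, Real.norm_of_nonneg (pow_nonneg hlog _)]
    have e2 : ‖(N : ℝ) ^ (b - a)‖ = (N : ℝ) ^ (b - a) := Real.norm_of_nonneg (Real.rpow_nonneg hN0.le _)
    rw [e1, e2, one_mul] at hN
    have h3 : C * Real.log N ^ k ≤ |C| * Real.log N ^ k :=
      mul_le_mul_of_nonneg_right (le_abs_self C) (pow_nonneg hlog _)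
    exact mul_le_mul_of_nonneg_right (h3.trans hN) hpa
  · rw [hC]; simp; positivity

/-- Eventually `N ≥ x`. -/
theorem ev_nat_ge (x : ℝ) : ∀ᶠ N : ℕ in atTop, x ≤ (N : ℝ) :=
  tendsto_natCast_atTop_atTop.eventually_ge_atTop x

theorem wd_nonneg (N : ℕ) : 0 ≤ wd N := by unfold wd; positivity
theorem Rr_nonneg (N : ℕ) : 0 ≤ Rr N := by unfold Rr; positivity
theorem tol_nonneg (N : ℕ) : 0 ≤ tol N := by unfold tol; positivity

end Vale.Agent.Lib.P031V
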