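import Vale.Agent.Lib.P031V.Mertens2
import Vale.Agent.Lib.P031V.Params

/-! # P031: generic dyadic summation (blueprint section 4, Mass corollary):
from a dyadic count of bad primes to a `1/(p-1)` mass, and to a count up to `Y`;
the harmonic bound for primes making `(p-1) u` not clean. -/

namespace Vale.Agent.Lib.P031V
namespace NormalMassGen
open Real Finset
open scoped Classical
noncomputable section

lemma sum_biUnion_le_of_nonneg {ι : Type} (s : Finset ι) (t : ι → Finset ℕ) (f : ℕ → ℝ)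
    (hf : ∀ x, 0 ≤ f x) : ∑ x ∈ s.biUnion t, f x ≤ ∑ i ∈ s, ∑ x ∈ t i, f x := by
  induction s using Finset.induction_on with
  | empty => simp
  | insert a s ha ih =>
    rw [Finset.biUnion_insert, Finset.sum_insert ha]
    have h1 := Finset.sum_union_inter (s₁ := t a) (s₂ := s.biUnion t) (f := f)
    have h2 : 0 ≤ ∑ x ∈ t a ∩ s.biUnion t, f x := Finset.sum_nonneg fun x _ => hf x
    linarith

/-- `∑_{k ≤ K} 1/(A + k L) ≤ 1/A + (log (A + K L) - log A)/L`. -/
lemma sum_inv_arith {A L : ℝ} (hA : 0 < A) (hL : 0 < L) (K : ℕ) :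
    ∑ k ∈ Finset.range (K + 1), 1 / (A + (k : ℝ) * L) ≤
      1 / A + (Real.log (A + (K : ℝ) * L) - Real.log A) / L := by
  induction K with
  | zero => simp
  | succ K ih =>
    rw [Finset.sum_range_succ]
    have hx : 0 < A + (K : ℝ) * L := by positivity
    have hy : 0 < A + ((K + 1 : ℕ) : ℝ) * L := by positivity
    have h1 := Real.log_le_sub_one_of_pos (div_pos hx hy)
    rw [Real.log_div hx.ne' hy.ne'] at h1
    have e : (A + (K : ℝ) * L) / (A + ((K + 1 : ℕ) : ℝ) * L) - 1 =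
        -(L / (A + ((K + 1 : ℕ) : ℝ) * L)) := by
      push_cast
      push_cast at hy
      field_simp
      ring
    rw [e] at h1
    have h2 : 1 / (A + ((K + 1 : ℕ) : ℝ) * L) ≤
        (Real.log (A + ((K + 1 : ℕ) : ℝ) * L) - Real.log (A + (K : ℝ) * L)) / L := by
      rw [le_div_iff₀ hL]
      have e2 : 1 / (A + ((K + 1 : ℕ) : ℝ) * L) * L = L / (A + ((K + 1 : ℕ) : ℝ) * L) := by ring
      rw [e2]
      linarith
    have e3 : (Real.log (A + ((K + 1 : ℕ) : ℝ) * L) - Real.log A) / L =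
        (Real.log (A + (K : ℝ) * L) - Real.log A) / L +
        (Real.log (A + ((K + 1 : ℕ) : ℝ) * L) - Real.log (A + (K : ℝ) * L)) / L := by
      ring
    rw [e3]
    linarith

lemma log_two_pos' : (0.69 : ℝ) < Real.log 2 := by
  have := Real.log_two_gt_d9
  linarith

/-- From a dyadic count of bad primes to their mass. -/
theorem dyadic_mass (Bad : ℕ → Prop) (t B δ : ℝ) (ht : 1 ≤ t) (htB : t ≤ B) (hδ : 0 ≤ δ)
    (hcount : ∀ X : ℝ, 1 < X → t ≤ levR X → levR X ≤ B →
      (((Finset.Ioc ⌊X⌋₊ ⌊2 * X⌋₊).filter (fun p : ℕ => p.Prime ∧ Bad p)).card : ℝ) ≤ δ * (X / Real.log X))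
    (P : Finset ℕ) (hP : ∀ p ∈ P, p.Prime ∧ Bad p ∧ t ≤ lev p ∧ lev p ≤ B) :
    ∑ p ∈ P, (1 : ℝ) / ((p : ℝ) - 1) ≤
      2 * δ * (Real.exp (-t) + (B - t) / Real.log 2) + 2 * Real.exp (-Real.exp t) := by
  set f : ℕ → ℝ := fun p => if 2 ≤ p then (1 : ℝ) / ((p : ℝ) - 1) else 0 with hf
  have hfnn : ∀ p, 0 ≤ f p := by
    intro p
    simp only [hf]
    split_ifs with h
    · have h2 : (2 : ℝ) ≤ p := by exact_mod_cast h
      have : 0 < (p : ℝ) - 1 := by linarith
      positivity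
    · exact le_rfl
  have hfP : ∀ p ∈ P, (1 : ℝ) / ((p : ℝ) - 1) = f p := by
    intro p hp
    simp only [hf]
    rw [if_pos (hP p hp).1.two_le]
  rw [Finset.sum_congr rfl hfP]
  set A : ℝ := Real.exp t with hAdef
  have hA : 0 < A := Real.exp_pos t
  have hA2 : 2 ≤ A := by
    have h1 : Real.exp 1 ≤ A := Real.exp_le_exp.2 ht
    have h2 := Real.exp_one_gt_d9
    linarith
  set X0 : ℝ := Real.exp A with hX0def
  have hX0 : 2 ≤ X0 := by
    have := Real.add_one_le_exp A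
    linarith
  set L : ℝ := Real.log 2 with hLdef
  have hL : 0 < L := Real.log_pos (by norm_num)
  set Xk : ℕ → ℝ := fun k => X0 * 2 ^ k with hXk
  have hXkge : ∀ k, X0 ≤ Xk k := by
    intro k
    have : (1 : ℝ) ≤ 2 ^ k := one_le_pow₀ (by norm_num)
    simp only [hXk]
    nlinarith
  have hXkpos : ∀ k, 0 < Xk k := fun k => by
    have := hXkge k
    linarith
  have hlogXk : ∀ k, Real.log (Xk k) = A + (k : ℝ) * L := by
    intro k
    simp only [hXk]
    rw [Real.log_mul (by linarith) (by positivity), Real.log_pow, hX0def, Real.log_exp]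
  -- levels of primes
  have hplev : ∀ p ∈ P, X0 ≤ (p : ℝ) ∧ Real.log p ≤ Real.exp B := by
    intro p hp
    obtain ⟨hpp, _, h1, h2⟩ := hP p hp
    have hp1 : (1 : ℝ) < p := by exact_mod_cast hpp.one_lt
    have hl : 0 < Real.log p := Real.log_pos hp1
    unfold lev at h1 h2
    have h3 : A ≤ Real.log p := (Real.le_log_iff_exp_le hl).1 h1
    constructor
    · exact (Real.le_log_iff_exp_le (by linarith)).1 h3
    · exact (Real.log_le_iff_le_exp hl).1 h2
  set K0 : ℕ := ⌊(Real.exp B - A) / L⌋₊ with hK0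
  have hK0nn : 0 ≤ (Real.exp B - A) / L := by
    apply div_nonneg _ hL.le
    have := Real.exp_le_exp.2 htB
    linarith
  -- split
  have hsplit : P ⊆ (P.filter (fun p : ℕ => (p : ℝ) ≤ X0)) ∪ (Finset.range (K0 + 1)).biUnion
      (fun k => (Finset.Ioc ⌊Xk k⌋₊ ⌊2 * Xk k⌋₊).filter (fun p : ℕ => p.Prime ∧ Bad p)) := by
    intro p hp
    by_cases hle : (p : ℝ) ≤ X0
    · exact Finset.mem_union_left _ (Finset.mem_filter.2 ⟨hp, hle⟩)
    · apply Finset.mem_union_right
      have hlt : X0 < p := not_le.1 hle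
      obtain ⟨hpp, hbad, _, _⟩ := hP p hp
      -- find the block
      have hex : ∃ k : ℕ, (p : ℝ) ≤ X0 * 2 ^ (k + 1) := by
        obtain ⟨k, hk⟩ := pow_unbounded_of_one_lt ((p : ℝ) / X0) (by norm_num : (1 : ℝ) < 2)
        refine ⟨k, ?_⟩
        have h1 : (p : ℝ) ≤ 2 ^ k * X0 := by
          rw [div_lt_iff₀ (by linarith)] at hk
          exact hk.le
        have h2 : (2 : ℝ) ^ k ≤ 2 ^ (k + 1) := pow_le_pow_right₀ (by norm_num) (by omega)
        have h3 : 0 ≤ X0 := by linarith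
        nlinarith
      have hfind := Nat.find_spec hex
      set k := Nat.find hex with hk
      have hlow : Xk k < p := by
        by_cases hk0 : k = 0
        · simp only [hXk, hk0, pow_zero, mul_one]
          exact hlt
        · have h1 := Nat.find_min hex (m := k - 1) (by omega)
          have e : k - 1 + 1 = k := by omega
          rw [e] at h1
          exact not_le.1 h1
      have hup : (p : ℝ) ≤ 2 * Xk k := by
        simp only [hXk]
        have e : X0 * 2 ^ (k + 1) = 2 * (X0 * 2 ^ k) := by ring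
        rw [← e]
        exact hfind
      have hkK : k ∈ Finset.range (K0 + 1) := by
        rw [Finset.mem_range, Nat.lt_succ_iff]
        apply Nat.le_floor
        rw [le_div_iff₀ hL]
        have h1 : Real.log (Xk k) ≤ Real.log p := Real.log_le_log (hXkpos k) hlow.le
        have h2 := (hplev p hp).2
        rw [hlogXk] at h1
        linarith
      refine Finset.mem_biUnion.2 ⟨k, hkK, Finset.mem_filter.2 ⟨?_, hpp, hbad⟩⟩
      refine Finset.mem_Ioc.2 ⟨(Nat.floor_lt (hXkpos k).le).2 hlow, Nat.le_floor hup⟩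
  have h1 : ∑ p ∈ P, f p ≤ ∑ p ∈ (P.filter (fun p : ℕ => (p : ℝ) ≤ X0)) ∪ (Finset.range (K0 + 1)).biUnion
      (fun k => (Finset.Ioc ⌊Xk k⌋₊ ⌊2 * Xk k⌋₊).filter (fun p : ℕ => p.Prime ∧ Bad p)), f p :=
    Finset.sum_le_sum_of_subset_of_nonneg hsplit (fun p _ _ => hfnn p)
  have h2 := Finset.sum_union_inter (s₁ := P.filter (fun p : ℕ => (p : ℝ) ≤ X0))
    (s₂ := (Finset.range (K0 + 1)).biUnion
      (fun k => (Finset.Ioc ⌊Xk k⌋₊ ⌊2 * Xk k⌋₊).filter (fun p : ℕ => p.Prime ∧ Bad p))) (f := f)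
  have h3 : 0 ≤ ∑ x ∈ (P.filter (fun p : ℕ => (p : ℝ) ≤ X0)) ∩ (Finset.range (K0 + 1)).biUnion
      (fun k => (Finset.Ioc ⌊Xk k⌋₊ ⌊2 * Xk k⌋₊).filter (fun p : ℕ => p.Prime ∧ Bad p)), f x :=
    Finset.sum_nonneg fun x _ => hfnn x
  -- the boundary term
  have hbd : ∑ p ∈ P.filter (fun p : ℕ => (p : ℝ) ≤ X0), f p ≤ 2 * Real.exp (-A) := by
    have hcard : (P.filter (fun p : ℕ => (p : ℝ) ≤ X0)).card ≤ 1 := by
      apply Finset.card_le_one.2
      intro p hp q hq
      obtain ⟨hp1, hp2⟩ := Finset.mem_filter.1 hp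
      obtain ⟨hq1, hq2⟩ := Finset.mem_filter.1 hq
      have h4 := (hplev p hp1).1
      have h5 := (hplev q hq1).1
      have h6 : (p : ℝ) = q := by linarith
      exact_mod_cast h6
    have hterm : ∀ p ∈ P.filter (fun p : ℕ => (p : ℝ) ≤ X0), f p ≤ 2 * Real.exp (-A) := by
      intro p hp
      obtain ⟨hp1, _⟩ := Finset.mem_filter.1 hp
      have h4 := (hplev p hp1).1
      have hp2 := (hP p hp1).1.two_le
      simp only [hf]
      rw [if_pos hp2]
      have hpr : (2 : ℝ) ≤ p := by exact_mod_cast hp2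
      have e : Real.exp (-A) = 1 / X0 := by
        rw [Real.exp_neg, hX0def, one_div]
      rw [e, mul_one_div, div_le_div_iff₀ (by linarith) (by linarith)]
      nlinarith
    calc ∑ p ∈ P.filter (fun p : ℕ => (p : ℝ) ≤ X0), f p
        ≤ ∑ _p ∈ P.filter (fun p : ℕ => (p : ℝ) ≤ X0), 2 * Real.exp (-A) := Finset.sum_le_sum hterm
      _ = ((P.filter (fun p : ℕ => (p : ℝ) ≤ X0)).card : ℝ) * (2 * Real.exp (-A)) := by
          rw [Finset.sum_const, nsmul_eq_mul]
      _ ≤ 1 * (2 * Real.exp (-A)) := by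
          apply mul_le_mul_of_nonneg_right _ (by positivity)
          exact_mod_cast hcard
      _ = _ := one_mul _
  -- the blocks
  have hblock : ∀ k ∈ Finset.range (K0 + 1),
      ∑ p ∈ (Finset.Ioc ⌊Xk k⌋₊ ⌊2 * Xk k⌋₊).filter (fun p : ℕ => p.Prime ∧ Bad p), f p ≤
        2 * δ * (1 / (A + (k : ℝ) * L)) := by
    intro k hk
    have hk' : (k : ℝ) ≤ (Real.exp B - A) / L := by
      have : k ≤ K0 := Nat.lt_succ_iff.1 (Finset.mem_range.1 hk)
      exact le_trans (by exact_mod_cast this) (Nat.floor_le hK0nn)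
    have hle : A + (k : ℝ) * L ≤ Real.exp B := by
      rw [le_div_iff₀ hL] at hk'
      linarith
    have hlogpos : 0 < A + (k : ℝ) * L := by positivity
    have hXgt : 1 < Xk k := by
      have := hXkge k
      linarith
    have hlev1 : t ≤ levR (Xk k) := by
      unfold levR
      rw [hlogXk, Real.le_log_iff_exp_le hlogpos]
      have : 0 ≤ (k : ℝ) * L := by positivity
      linarith
    have hlev2 : levR (Xk k) ≤ B := by
      unfold levR
      rw [hlogXk, Real.log_le_iff_le_exp hlogpos]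
      exact hle
    have hc := hcount (Xk k) hXgt hlev1 hlev2
    have hterm : ∀ p ∈ (Finset.Ioc ⌊Xk k⌋₊ ⌊2 * Xk k⌋₊).filter (fun p : ℕ => p.Prime ∧ Bad p),
        f p ≤ 2 / Xk k := by
      intro p hp
      obtain ⟨hp1, hp2, _⟩ := Finset.mem_filter.1 hp
      obtain ⟨hp3, _⟩ := Finset.mem_Ioc.1 hp1
      have hgt : Xk k < p := (Nat.floor_lt (hXkpos k).le).1 hp3
      simp only [hf]
      rw [if_pos hp2.two_le]
      have hXk2 : 2 ≤ Xk k := le_trans hX0 (hXkge k)
      rw [div_le_div_iff₀ (by linarith) (by linarith)]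
      nlinarith
    calc ∑ p ∈ (Finset.Ioc ⌊Xk k⌋₊ ⌊2 * Xk k⌋₊).filter (fun p : ℕ => p.Prime ∧ Bad p), f p
        ≤ ∑ _p ∈ (Finset.Ioc ⌊Xk k⌋₊ ⌊2 * Xk k⌋₊).filter (fun p : ℕ => p.Prime ∧ Bad p), 2 / Xk k :=
          Finset.sum_le_sum hterm
      _ = (((Finset.Ioc ⌊Xk k⌋₊ ⌊2 * Xk k⌋₊).filter (fun p : ℕ => p.Prime ∧ Bad p)).card : ℝ) * (2 / Xk k) := by
          rw [Finset.sum_const, nsmul_eq_mul]
      _ ≤ (δ * (Xk k / Real.log (Xk k))) * (2 / Xk k) :=
          mul_le_mul_of_nonneg_right hc (div_nonneg (by norm_num) (hXkpos k).le)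
      _ = 2 * δ * (1 / (A + (k : ℝ) * L)) := by
          rw [hlogXk]
          have := hXkpos k
          field_simp
  have hsumblocks : ∑ x ∈ (Finset.range (K0 + 1)).biUnion
      (fun k => (Finset.Ioc ⌊Xk k⌋₊ ⌊2 * Xk k⌋₊).filter (fun p : ℕ => p.Prime ∧ Bad p)), f x ≤
      2 * δ * (Real.exp (-t) + (B - t) / L) := by
    refine le_trans (sum_biUnion_le_of_nonneg _ _ f hfnn) ?_
    refine le_trans (Finset.sum_le_sum hblock) ?_
    rw [← Finset.mul_sum]
    apply mul_le_mul_of_nonneg_left _ (by positivity)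
    refine le_trans (sum_inv_arith hA hL K0) ?_
    have hle : A + (K0 : ℝ) * L ≤ Real.exp B := by
      have h4 := Nat.floor_le hK0nn
      rw [le_div_iff₀ hL] at h4
      linarith
    have h5 : Real.log (A + (K0 : ℝ) * L) ≤ B := by
      rw [Real.log_le_iff_le_exp (by positivity)]
      exact hle
    have e1 : 1 / A = Real.exp (-t) := by
      rw [Real.exp_neg, hAdef, one_div]
    have e2 : Real.log A = t := by
      rw [hAdef, Real.log_exp]
    rw [e1, e2]
    have : (Real.log (A + (K0 : ℝ) * L) - t) / L ≤ (B - t) / L :=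
      div_le_div_of_nonneg_right (by linarith) hL.le
    linarith
  linarith

/-- From a dyadic count of bad primes to their count up to `Y`. -/
theorem dyadic_count (Bad : ℕ → Prop) (δ Y : ℝ) (hδ : 0 ≤ δ) (hY1 : 1 < Y) (hY : 16 ≤ Real.log Y)
    (hcount : ∀ X : ℝ, Real.sqrt Y / 2 ≤ X → X ≤ Y →
      (((Finset.Ioc ⌊X⌋₊ ⌊2 * X⌋₊).filter (fun p : ℕ => p.Prime ∧ Bad p)).card : ℝ) ≤ δ * (X / Real.log X)) :
    (((Finset.Icc 1 ⌊Y⌋₊).filter (fun p : ℕ => p.Prime ∧ Bad p)).card : ℝ) ≤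
      2.2 * δ * (Y / Real.log Y) + Real.sqrt Y := by
  have hLY : 0 < Real.log Y := by linarith
  have hYpos : 0 < Y := by linarith
  have hsq : 0 < Real.sqrt Y := Real.sqrt_pos.2 hYpos
  set Xj : ℕ → ℝ := fun j => Y / 2 ^ (j + 1) with hXj
  have hXjpos : ∀ j, 0 < Xj j := fun j => by
    simp only [hXj]
    positivity
  -- an index set for the blocks
  set J : ℕ := ⌈Real.logb 2 Y⌉₊ + 1 with hJ
  set G : Finset ℕ := (Finset.range J).filter (fun j => Real.sqrt Y / 2 ≤ Xj j) with hG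
  have hcover : (Finset.Icc 1 ⌊Y⌋₊).filter (fun p : ℕ => p.Prime ∧ Bad p) ⊆
      (Finset.Icc 1 ⌊Real.sqrt Y⌋₊) ∪ G.biUnion
        (fun j => (Finset.Ioc ⌊Xj j⌋₊ ⌊2 * Xj j⌋₊).filter (fun p : ℕ => p.Prime ∧ Bad p)) := by
    intro p hp
    obtain ⟨hp1, hp2, hp3⟩ := Finset.mem_filter.1 hp
    obtain ⟨hp4, hp5⟩ := Finset.mem_Icc.1 hp1
    by_cases hle : (p : ℝ) ≤ Real.sqrt Y
    · exact Finset.mem_union_left _ (Finset.mem_Icc.2 ⟨hp4, Nat.le_floor hle⟩)
    · apply Finset.mem_union_right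
      have hlt : Real.sqrt Y < p := not_le.1 hle
      have hpY : (p : ℝ) ≤ Y := (Nat.le_floor_iff hYpos.le).1 hp5
      have hp0 : (0 : ℝ) < p := lt_trans hsq hlt
      -- the largest `j` with `p ≤ Y / 2 ^ j`
      have hex : ∃ j : ℕ, Y / 2 ^ (j + 1) < p := by
        obtain ⟨k, hk⟩ := pow_unbounded_of_one_lt (Y / p) (by norm_num : (1 : ℝ) < 2)
        refine ⟨k, ?_⟩
        rw [div_lt_iff₀ (by positivity)]
        rw [div_lt_iff₀ hp0] at hk
        have h2 : (2 : ℝ) ^ k ≤ 2 ^ (k + 1) := pow_le_pow_right₀ (by norm_num) (by omega)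
        nlinarith
      have hfind := Nat.find_spec hex
      set j := Nat.find hex with hj
      have hup : (p : ℝ) ≤ 2 * Xj j := by
        simp only [hXj]
        by_cases hj0 : j = 0
        · simp only [hj0]
          norm_num
          linarith
        · have h1 := Nat.find_min hex (m := j - 1) (by omega)
          have e : j - 1 + 1 = j := by omega
          rw [e] at h1
          have h2 := not_lt.1 h1
          have e2 : Y / 2 ^ j = 2 * (Y / 2 ^ (j + 1)) := by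
            rw [pow_succ]
            field_simp
          rw [← e2]
          exact h2
      have hlow : Xj j < p := hfind
      have hge : Real.sqrt Y / 2 ≤ Xj j := by linarith
      have hjJ : j < J := by
        -- `Y / 2 ^ (j+1) ≥ 1/2`, so `2 ^ j ≤ Y`
        have hY2 : 1 ≤ Real.sqrt Y := by
          rw [Real.one_le_sqrt]
          exact hY1.le
        have h1 : (1 : ℝ) / 2 ≤ Y / 2 ^ (j + 1) := by
          have := hge
          simp only [hXj] at this
          linarith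
        rw [div_eq_mul_one_div, le_div_iff₀ (by positivity)] at *
        have h2 : (2 : ℝ) ^ j ≤ Y := by
          rw [pow_succ] at h1
          nlinarith
        have h3 : (j : ℝ) ≤ Real.logb 2 Y := by
          rw [Real.le_logb_iff_rpow_le (by norm_num) hYpos, Real.rpow_natCast]
          exact h2
        have h4 : (j : ℝ) ≤ (⌈Real.logb 2 Y⌉₊ : ℝ) := le_trans h3 (Nat.le_ceil _)
        have h5 : j ≤ ⌈Real.logb 2 Y⌉₊ := by exact_mod_cast h4
        omega
      refine Finset.mem_biUnion.2 ⟨j, Finset.mem_filter.2 ⟨Finset.mem_range.2 hjJ, hge⟩,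
        Finset.mem_filter.2 ⟨?_, hp2, hp3⟩⟩
      exact Finset.mem_Ioc.2 ⟨(Nat.floor_lt (hXjpos j).le).2 hlow, Nat.le_floor hup⟩
  have h1 := Finset.card_le_card hcover
  have h2 := Finset.card_union_le (Finset.Icc 1 ⌊Real.sqrt Y⌋₊) (G.biUnion
        (fun j => (Finset.Ioc ⌊Xj j⌋₊ ⌊2 * Xj j⌋₊).filter (fun p : ℕ => p.Prime ∧ Bad p)))
  have h3 := Finset.card_biUnion_le (s := G)
    (t := fun j => (Finset.Ioc ⌊Xj j⌋₊ ⌊2 * Xj j⌋₊).filter (fun p : ℕ => p.Prime ∧ Bad p))
  have h4 : ((Finset.Icc 1 ⌊Real.sqrt Y⌋₊).card : ℝ) ≤ Real.sqrt Y := by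
    rw [Nat.card_Icc]
    simp only [add_tsub_cancel_right]
    exact Nat.floor_le hsq.le
  -- the blocks
  have hlogbd : ∀ j ∈ G, Real.log Y / 2.2 ≤ Real.log (Xj j) := by
    intro j hj
    have hge := (Finset.mem_filter.1 hj).2
    have h5 : Real.log (Real.sqrt Y / 2) ≤ Real.log (Xj j) :=
      Real.log_le_log (by positivity) hge
    rw [Real.log_div hsq.ne' (by norm_num), Real.log_sqrt hYpos.le] at h5
    have h6 := Real.log_two_lt_d9
    have e5 : Real.log Y / 2.2 = 5 / 11 * Real.log Y := by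
      norm_num
      ring
    rw [e5]
    linarith
  have hblock : ∀ j ∈ G,
      (((Finset.Ioc ⌊Xj j⌋₊ ⌊2 * Xj j⌋₊).filter (fun p : ℕ => p.Prime ∧ Bad p)).card : ℝ) ≤
        2.2 * δ * (Y / Real.log Y) * (1 / 2 ^ (j + 1)) := by
    intro j hj
    have hge := (Finset.mem_filter.1 hj).2
    have hle : Xj j ≤ Y := by
      simp only [hXj]
      apply div_le_self hYpos.le
      exact one_le_pow₀ (by norm_num)
    refine le_trans (hcount (Xj j) hge hle) ?_
    have hlb := hlogbd j hj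
    have hlpos : 0 < Real.log (Xj j) := lt_of_lt_of_le (by positivity) hlb
    have e : 2.2 * δ * (Y / Real.log Y) * (1 / 2 ^ (j + 1)) =
        δ * (Xj j / (Real.log Y / 2.2)) := by
      simp only [hXj]
      field_simp
    rw [e]
    apply mul_le_mul_of_nonneg_left _ hδ
    exact div_le_div_of_nonneg_left (hXjpos j).le (by positivity) hlb
  have hgeom : ∑ j ∈ G, (1 : ℝ) / 2 ^ (j + 1) ≤ 1 := by
    have h5 : ∑ j ∈ G, (1 : ℝ) / 2 ^ (j + 1) ≤ ∑ j ∈ Finset.range J, (1 : ℝ) / 2 ^ (j + 1) :=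
      Finset.sum_le_sum_of_subset_of_nonneg (Finset.filter_subset _ _) (fun _ _ _ => by positivity)
    refine le_trans h5 ?_
    have h6 : ∀ n : ℕ, ∑ j ∈ Finset.range n, (1 : ℝ) / 2 ^ (j + 1) = 1 - 1 / 2 ^ n := by
      intro n
      induction n with
      | zero => simp
      | succ n ih =>
        rw [Finset.sum_range_succ, ih, pow_succ]
        field_simp
        ring
    rw [h6]
    have : (0 : ℝ) < 1 / 2 ^ J := by positivity
    linarith
  have hbig : ((G.biUnion (fun j => (Finset.Ioc ⌊Xj j⌋₊ ⌊2 * Xj j⌋₊).filter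
      (fun p : ℕ => p.Prime ∧ Bad p))).card : ℝ) ≤ 2.2 * δ * (Y / Real.log Y) := by
    have h5 : ((G.biUnion (fun j => (Finset.Ioc ⌊Xj j⌋₊ ⌊2 * Xj j⌋₊).filter
        (fun p : ℕ => p.Prime ∧ Bad p))).card : ℝ) ≤ ∑ j ∈ G,
        (((Finset.Ioc ⌊Xj j⌋₊ ⌊2 * Xj j⌋₊).filter (fun p : ℕ => p.Prime ∧ Bad p)).card : ℝ) := by
      exact_mod_cast h3
    refine le_trans h5 (le_trans (Finset.sum_le_sum hblock) ?_)
    rw [← Finset.mul_sum]
    have h6 : 0 ≤ 2.2 * δ * (Y / Real.log Y) := by positivity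
    nlinarith
  have h7 : (((Finset.Icc 1 ⌊Y⌋₊).filter (fun p : ℕ => p.Prime ∧ Bad p)).card : ℝ) ≤
      ((Finset.Icc 1 ⌊Real.sqrt Y⌋₊).card : ℝ) +
      ((G.biUnion (fun j => (Finset.Ioc ⌊Xj j⌋₊ ⌊2 * Xj j⌋₊).filter
      (fun p : ℕ => p.Prime ∧ Bad p))).card : ℝ) := by
    exact_mod_cast le_trans h1 h2
  linarith

/-- Telescoping: `∑_{m < n ≤ X} 1/n^2 ≤ 1/m`. -/
lemma sum_inv_sq_tail {m : ℕ} (hm : 1 ≤ m) (X : ℕ) :
    ∑ n ∈ Finset.Ioc m X, (1 : ℝ) / (n : ℝ) ^ 2 ≤ 1 / m := by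
  by_cases hX : m ≤ X
  · have key : ∀ M : ℕ, m ≤ M → ∑ n ∈ Finset.Ioc m M, (1 : ℝ) / (n : ℝ) ^ 2 ≤ 1 / m - 1 / M := by
      intro M hM
      induction M, hM using Nat.le_induction with
      | base => simp
      | succ M hM ih =>
        rw [Finset.sum_Ioc_succ_top hM]
        have hM0 : (0 : ℝ) < M := by
          have : 0 < M := by omega
          exact_mod_cast this
        have e : (1 : ℝ) / M - 1 / ((M + 1 : ℕ) : ℝ) = 1 / ((M : ℝ) * ((M : ℝ) + 1)) := by
          push_cast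
          field_simp
          ring
        have h1 : (1 : ℝ) / ((M + 1 : ℕ) : ℝ) ^ 2 ≤ 1 / ((M : ℝ) * ((M : ℝ) + 1)) := by
          apply one_div_le_one_div_of_le (by positivity)
          push_cast
          nlinarith
        linarith
    have h1 := key X hX
    have h2 : (0 : ℝ) ≤ 1 / X := by positivity
    linarith
  · rw [Finset.Ioc_eq_empty (by omega)]
    simp only [Finset.sum_empty]
    positivity

lemma prime_gt_of_level {N : ℕ} {r : ℕ} (hr : r.Prime) (h : ts N < lev r) :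
    Real.exp (Real.exp (ts N)) < r := by
  have hr1 : (1 : ℝ) < r := by exact_mod_cast hr.one_lt
  have hl : 0 < Real.log r := Real.log_pos hr1
  unfold lev at h
  have h1 : Real.exp (ts N) < Real.log r := (Real.lt_log_iff_exp_lt hl).1 h
  exact (Real.lt_log_iff_exp_lt (by linarith)).1 h1

lemma ts_nonneg (N : ℕ) : 0 ≤ ts N := by
  unfold ts t0
  positivity

/-- Mass of the primes `p` in a bounded range such that `(p-1) u` is not clean, when `u` is clean. -/
theorem nonclean_mass (N : ℕ) (X : ℕ) (u : ℕ) (hu0 : u ≠ 0) (hu : Clean N u) (P : Finset ℕ)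
    (hP : ∀ p ∈ P, p.Prime ∧ p ≤ X ∧ ¬ Clean N ((p - 1) * u)) :
    ∑ p ∈ P, (1 : ℝ) / ((p : ℝ) - 1) ≤
      (Real.log ((X : ℝ) + 1) + 1) * (((u.primeFactors.card : ℝ) + 2) * (2 * Real.exp (-Real.exp (ts N)))) := by
  set f : ℕ → ℝ := fun p => if 2 ≤ p then (1 : ℝ) / ((p : ℝ) - 1) else 0 with hf
  have hfnn : ∀ p, 0 ≤ f p := by
    intro p
    simp only [hf]
    split_ifs with h
    · have h2 : (2 : ℝ) ≤ p := by exact_mod_cast h
      have : 0 < (p : ℝ) - 1 := by linarith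
      positivity
    · exact le_rfl
  have hfP : ∀ p ∈ P, (1 : ℝ) / ((p : ℝ) - 1) = f p := by
    intro p hp
    simp only [hf]
    rw [if_pos (hP p hp).1.two_le]
  rw [Finset.sum_congr rfl hfP]
  set A : ℕ → Finset ℕ := fun d => (Finset.range (X + 1)).filter (fun p => 2 ≤ p ∧ d ∣ p - 1) with hA
  set R1 : Finset ℕ := u.primeFactors.filter (fun r => ts N < lev r) with hR1
  set R2 : Finset ℕ := (Finset.Ioc ⌊Real.exp (Real.exp (ts N))⌋₊ X).filter Nat.Prime with hR2
  set E : ℝ := Real.exp (-Real.exp (ts N)) with hE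
  set Z : ℝ := Real.exp (Real.exp (ts N)) with hZ
  have hZE : 1 / Z = E := by
    rw [hE, Real.exp_neg, hZ, one_div]
  have hZ2 : 2 ≤ Z := by
    have h0 : 1 ≤ Real.exp (ts N) := Real.one_le_exp (ts_nonneg N)
    have h1 : Real.exp 1 ≤ Z := Real.exp_le_exp.2 h0
    have := Real.exp_one_gt_d9
    linarith
  have hcover : P ⊆ R1.biUnion A ∪ R2.biUnion (fun r => A (r ^ 2)) := by
    intro p hp
    obtain ⟨hpp, hpX, hnc⟩ := hP p hp
    unfold Clean at hnc
    push Not at hnc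
    obtain ⟨r, hr, hlev, hdvd⟩ := hnc
    have hp2 := hpp.two_le
    have hp1 : p - 1 ≠ 0 := by omega
    by_cases h1 : r ∣ u ∧ r ∣ p - 1
    · apply Finset.mem_union_left
      refine Finset.mem_biUnion.2 ⟨r, ?_, ?_⟩
      · exact Finset.mem_filter.2 ⟨Nat.mem_primeFactors.2 ⟨hr, h1.1, hu0⟩, hlev⟩
      · exact Finset.mem_filter.2 ⟨Finset.mem_range.2 (by omega), hp2, h1.2⟩
    · have hr2 : r ^ 2 ∣ p - 1 := by
        by_cases hru : r ∣ u
        · have hrp : ¬ r ∣ p - 1 := fun h => h1 ⟨hru, h⟩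
          have hcop : Nat.Coprime (r ^ 2) (p - 1) :=
            Nat.Coprime.pow_left 2 ((Nat.Prime.coprime_iff_not_dvd hr).2 hrp)
          exact absurd (hcop.dvd_of_dvd_mul_left hdvd) (hu r hr hlev)
        · have hcop : Nat.Coprime (r ^ 2) u :=
            Nat.Coprime.pow_left 2 ((Nat.Prime.coprime_iff_not_dvd hr).2 hru)
          exact hcop.dvd_of_dvd_mul_right hdvd
      apply Finset.mem_union_right
      refine Finset.mem_biUnion.2 ⟨r, ?_, ?_⟩
      · refine Finset.mem_filter.2 ⟨Finset.mem_Ioc.2 ⟨?_, ?_⟩, hr⟩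
        · exact (Nat.floor_lt (by linarith)).2 (prime_gt_of_level hr hlev)
        · have h3 : r ^ 2 ≤ p - 1 := Nat.le_of_dvd (by omega) hr2
          have h4 : r ≤ r ^ 2 := Nat.le_self_pow (by norm_num) r
          omega
      · exact Finset.mem_filter.2 ⟨Finset.mem_range.2 (by omega), hp2, hr2⟩
  have hH : 0 ≤ Real.log ((X : ℝ) + 1) + 1 := by
    have : 0 ≤ Real.log ((X : ℝ) + 1) := Real.log_nonneg (by
      have : (0 : ℝ) ≤ X := Nat.cast_nonneg X
      linarith)
    linarith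
  have hAsum : ∀ d : ℕ, 0 < d → ∑ p ∈ A d, f p ≤ (Real.log ((X : ℝ) + 1) + 1) / d := by
    intro d hd
    refine le_trans (le_of_eq ?_) (harmonic_dvd X d hd)
    apply Finset.sum_congr rfl
    intro p hp
    simp only [hf]
    rw [if_pos (Finset.mem_filter.1 hp).2.1]
  have h1 : ∑ p ∈ P, f p ≤ ∑ p ∈ R1.biUnion A ∪ R2.biUnion (fun r => A (r ^ 2)), f p :=
    Finset.sum_le_sum_of_subset_of_nonneg hcover (fun p _ _ => hfnn p)
  have h2 := Finset.sum_union_inter (s₁ := R1.biUnion A) (s₂ := R2.biUnion (fun r => A (r ^ 2))) (f := f)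
  have h3 : 0 ≤ ∑ x ∈ R1.biUnion A ∩ R2.biUnion (fun r => A (r ^ 2)), f x :=
    Finset.sum_nonneg fun x _ => hfnn x
  have h4 : ∑ p ∈ R1.biUnion A, f p ≤
      (Real.log ((X : ℝ) + 1) + 1) * ((u.primeFactors.card : ℝ) * E) := by
    refine le_trans (sum_biUnion_le_of_nonneg _ _ f hfnn) ?_
    have hterm : ∀ r ∈ R1, ∑ p ∈ A r, f p ≤ (Real.log ((X : ℝ) + 1) + 1) * E := by
      intro r hr
      obtain ⟨h5, h6⟩ := Finset.mem_filter.1 hr
      have hrp := Nat.prime_of_mem_primeFactors h5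
      refine le_trans (hAsum r hrp.pos) ?_
      rw [div_eq_mul_one_div]
      apply mul_le_mul_of_nonneg_left _ hH
      rw [← hZE]
      apply one_div_le_one_div_of_le (by linarith)
      exact (prime_gt_of_level hrp h6).le
    refine le_trans (Finset.sum_le_sum hterm) ?_
    rw [Finset.sum_const, nsmul_eq_mul]
    have h5 : (R1.card : ℝ) ≤ (u.primeFactors.card : ℝ) := by
      exact_mod_cast Finset.card_filter_le _ _
    have h6 : 0 ≤ (Real.log ((X : ℝ) + 1) + 1) * E := by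
      have : 0 < E := Real.exp_pos _
      positivity
    calc (R1.card : ℝ) * ((Real.log ((X : ℝ) + 1) + 1) * E)
        ≤ (u.primeFactors.card : ℝ) * ((Real.log ((X : ℝ) + 1) + 1) * E) :=
          mul_le_mul_of_nonneg_right h5 h6
      _ = _ := by ring
  have h5 : ∑ p ∈ R2.biUnion (fun r => A (r ^ 2)), f p ≤
      (Real.log ((X : ℝ) + 1) + 1) * (2 * (2 * E)) := by
    refine le_trans (sum_biUnion_le_of_nonneg _ _ f hfnn) ?_
    have hterm : ∀ r ∈ R2, ∑ p ∈ A (r ^ 2), f p ≤ (Real.log ((X : ℝ) + 1) + 1) * (1 / (r : ℝ) ^ 2) := by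
      intro r hr
      obtain ⟨_, h6⟩ := Finset.mem_filter.1 hr
      refine le_trans (hAsum (r ^ 2) (pow_pos h6.pos 2)) ?_
      rw [div_eq_mul_one_div]
      push_cast
      exact le_rfl
    refine le_trans (Finset.sum_le_sum hterm) ?_
    rw [← Finset.mul_sum]
    apply mul_le_mul_of_nonneg_left _ hH
    have hm : 1 ≤ ⌊Z⌋₊ := Nat.le_floor (by
      push_cast
      linarith)
    have h6 : ∑ r ∈ R2, (1 : ℝ) / (r : ℝ) ^ 2 ≤ ∑ n ∈ Finset.Ioc ⌊Z⌋₊ X, (1 : ℝ) / (n : ℝ) ^ 2 :=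
      Finset.sum_le_sum_of_subset_of_nonneg (Finset.filter_subset _ _) (fun _ _ _ => by positivity)
    refine le_trans h6 (le_trans (sum_inv_sq_tail hm X) ?_)
    have h7 : Z / 2 ≤ (⌊Z⌋₊ : ℝ) := by
      have := Nat.lt_floor_add_one Z
      linarith
    have h8 : 1 / (⌊Z⌋₊ : ℝ) ≤ 1 / (Z / 2) :=
      one_div_le_one_div_of_le (by linarith) h7
    have e : 1 / (Z / 2) = 2 * (1 / Z) := by
      field_simp
    rw [e, hZE] at h8
    have : 0 < E := Real.exp_pos _
    linarith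
  have hE0 : 0 < E := Real.exp_pos _
  have hfin : (Real.log ((X : ℝ) + 1) + 1) * ((u.primeFactors.card : ℝ) * E) +
      (Real.log ((X : ℝ) + 1) + 1) * (2 * (2 * E)) ≤
      (Real.log ((X : ℝ) + 1) + 1) * (((u.primeFactors.card : ℝ) + 2) * (2 * E)) := by
    rw [← mul_add]
    apply mul_le_mul_of_nonneg_left _ hH
    have hc : (0 : ℝ) ≤ (u.primeFactors.card : ℝ) := Nat.cast_nonneg _
    nlinarith
  linarith

end
end NormalMassGen
end Vale.Agent.Lib.P031V
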