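import Vale.Agent.Lib.P031V.Params

/-! # P031: `normal_count` and `weak_count` from the three tail bounds (interpolation over integer
points), blueprint section 4. -/

namespace Vale.Agent.Lib.P031V
namespace NormalCount
open Real Finset Filter
open scoped Classical
noncomputable section

/-- Lower tail, statement. -/
def LowerTailStmt : Prop :=
  ∃ C N₀ : ℝ, 0 < C ∧ ∀ (N : ℕ) (X y k : ℝ), N₀ ≤ N → 1 < X → t0 N ≤ levR X → levR X ≤ N + 5 →
    ts N ≤ y → y ≤ levR X - Real.log (C * N) → 0 < k → k ≤ y - ts N →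
    (((Finset.Ioc ⌊X⌋₊ ⌊2 * X⌋₊).filter (fun p => p.Prime ∧ (W N (p - 1) y : ℝ) < k)).card : ℝ)
      ≤ C * (N : ℝ) ^ 4 * (X / Real.log X) *
        Real.exp (-(y - ts N) + k + k * Real.log ((y - ts N) / k))

/-- Upper tail, statement. -/
def UpperTailStmt : Prop :=
  ∃ C N₀ : ℝ, 0 < C ∧ ∀ (N : ℕ) (X y k : ℝ), N₀ ≤ N → 1 < X → t0 N ≤ levR X → levR X ≤ N + 5 →
    ts N ≤ y → y ≤ levR X - Real.log (C * N) → y - ts N ≤ k → 0 < y - ts N →
    k ≤ Real.exp (ts N) * (y - ts N) → k ≤ 3 * N →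
    (((Finset.Ioc ⌊X⌋₊ ⌊2 * X⌋₊).filter (fun p => p.Prime ∧ k ≤ (W N (p - 1) y : ℝ))).card : ℝ)
      ≤ C * (N : ℝ) ^ 4 * (X / Real.log X) *
        Real.exp (k - (y - ts N) - k * Real.log (k / (y - ts N)))

/-- Top window, statement. -/
def TopWindowStmt : Prop :=
  ∃ C N₀ : ℝ, 0 < C ∧ ∀ (N : ℕ) (X A m : ℝ), N₀ ≤ N → 1 < X → t0 N ≤ levR X → levR X ≤ N + 5 →
    1 ≤ A → A ≤ 2 * Real.log (C * N) → (N : ℝ) ^ ((1 : ℝ) / 2) ≤ m →
    (((Finset.Ioc ⌊X⌋₊ ⌊2 * X⌋₊).filter (fun p => p.Prime ∧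
        m ≤ ((p - 1).primeFactors.filter (fun r => levR X - A < lev r)).card)).card : ℝ)
      ≤ (X / Real.log X) * Real.exp (-(N : ℝ) ^ ((2 : ℝ) / 5))

/-! ### Exponent inequalities -/

lemma log_ge_of_le_one {t : ℝ} (h0 : 0 < t) (h1 : t ≤ 1) : (t ^ 2 - 1) / (2 * t) ≤ Real.log t := by
  have ha : 0 ≤ -Real.log t := by
    have := Real.log_nonpos h0.le h1
    linarith
  have hs := Real.self_le_sinh_iff.mpr ha
  rw [Real.sinh_eq, neg_neg, Real.exp_log h0, Real.exp_neg, Real.exp_log h0] at hs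
  have h2 : (t ^ 2 - 1) / (2 * t) = -((t⁻¹ - t) / 2) := by
    field_simp
    ring
  rw [h2]
  linarith

/-- The exponent of the lower tail. -/
lemma lower_exponent {h k : ℝ} (hk : 0 < k) (hkh : k ≤ h) :
    -h + k + k * Real.log (h / k) ≤ -(h - k) ^ 2 / (2 * h) := by
  have hh : 0 < h := lt_of_lt_of_le hk hkh
  have ht0 : 0 < k / h := div_pos hk hh
  have ht1 : k / h ≤ 1 := (div_le_one hh).mpr hkh
  have h1 := log_ge_of_le_one ht0 ht1
  have h2 : Real.log (h / k) = -Real.log (k / h) := by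
    rw [← Real.log_inv, inv_div]
  rw [h2]
  have h3 : k * ((k / h) ^ 2 - 1) / (2 * (k / h)) = (k ^ 2 - h ^ 2) / (2 * h) := by
    field_simp
  have h4 : k * ((k / h) ^ 2 - 1) / (2 * (k / h)) ≤ k * Real.log (k / h) := by
    rw [mul_div_assoc]
    exact mul_le_mul_of_nonneg_left h1 hk.le
  have h5 : -h + k - (k ^ 2 - h ^ 2) / (2 * h) = -(h - k) ^ 2 / (2 * h) := by
    field_simp
    ring
  rw [← h5]
  nlinarith

/-- The exponent of the upper tail. -/
lemma upper_exponent {h k : ℝ} (hh : 0 < h) (hk : h ≤ k) :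
    k - h - k * Real.log (k / h) ≤ -(k - h) ^ 2 / (k + h) := by
  have hk0 : 0 < k := lt_of_lt_of_le hh hk
  have hv : 0 ≤ (k - h) / h := div_nonneg (by linarith) hh.le
  have h1 := Real.le_log_one_add_of_nonneg hv
  have h2 : 1 + (k - h) / h = k / h := by
    field_simp
    ring
  rw [h2] at h1
  have h3 : 2 * ((k - h) / h) / ((k - h) / h + 2) = 2 * (k - h) / (k + h) := by
    have hne : k + h ≠ 0 := by positivity
    have e : (k - h) / h + 2 = (k + h) / h := by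
      field_simp
      ring
    rw [e]
    field_simp
  rw [h3] at h1
  have h4 : k * (2 * (k - h) / (k + h)) ≤ k * Real.log (k / h) :=
    mul_le_mul_of_nonneg_left h1 hk0.le
  have h5 : k - h - k * (2 * (k - h) / (k + h)) = -(k - h) ^ 2 / (k + h) := by
    have : k + h ≠ 0 := by positivity
    field_simp
    ring
  rw [← h5]
  linarith

/-! ### The power `13/20` -/

/-- Shorthand. -/
def TT (N : ℕ) (y : ℝ) : ℝ := max (y - ts N) (ts N)

lemma tau_eq (N : ℕ) (y : ℝ) : tau N y = (TT N y) ^ ((13 : ℝ) / 20) := rfl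

lemma tau_mono' (N : ℕ) (hts : 0 ≤ ts N) {y y' : ℝ} (h : y ≤ y') : tau N y ≤ tau N y' := by
  unfold tau
  apply Real.rpow_le_rpow
  · exact le_max_of_le_right hts
  · exact max_le_max (by linarith) le_rfl
  · norm_num

lemma rho_le_tau (N : ℕ) (hts : 0 ≤ ts N) (y : ℝ) : (ts N) ^ ((13 : ℝ) / 20) ≤ tau N y := by
  unfold tau
  apply Real.rpow_le_rpow hts (le_max_right _ _)
  norm_num

/-- `τ(y+1) ≤ 3/2 τ(y)`. -/
lemma tau_succ_le (N : ℕ) (hts : 2 ≤ ts N) (y : ℝ) : tau N (y + 1) ≤ 3 / 2 * tau N y := by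
  have hT : 2 ≤ TT N y := le_trans hts (le_max_right _ _)
  have hT0 : 0 < TT N y := by linarith
  have h1 : TT N (y + 1) ≤ 3 / 2 * TT N y := by
    have e1 : y - ts N ≤ TT N y := le_max_left _ _
    have e2 : ts N ≤ TT N y := le_max_right _ _
    show max (y + 1 - ts N) (ts N) ≤ 3 / 2 * TT N y
    apply max_le
    · linarith
    · linarith
  have h0 : 0 ≤ TT N (y + 1) := le_trans (by linarith) (le_max_right _ _)
  rw [tau_eq, tau_eq]
  calc (TT N (y + 1)) ^ ((13 : ℝ) / 20) ≤ (3 / 2 * TT N y) ^ ((13 : ℝ) / 20) :=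
        Real.rpow_le_rpow h0 h1 (by norm_num)
    _ = (3 / 2 : ℝ) ^ ((13 : ℝ) / 20) * (TT N y) ^ ((13 : ℝ) / 20) :=
        Real.mul_rpow (by norm_num) hT0.le
    _ ≤ 3 / 2 * (TT N y) ^ ((13 : ℝ) / 20) := by
        apply mul_le_mul_of_nonneg_right _ (Real.rpow_nonneg hT0.le _)
        have := Real.rpow_le_rpow_of_exponent_le (by norm_num : (1 : ℝ) ≤ 3 / 2)
          (by norm_num : (13 : ℝ) / 20 ≤ 1)
        simpa using this

/-- The exponents at the grid points. With `T = max j ts`, `d = T^{13/20}/2`. -/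
lemma grid_exponents (N : ℕ) (hts : 1 ≤ ts N) (j : ℕ) (hj : 1 ≤ j) (d : ℝ)
    (hd : d = tau N (ts N + j) / 2) :
    (ts N) ^ ((3 : ℝ) / 10) / 12 ≤ d ^ 2 / (2 * j) ∧
      (ts N) ^ ((3 : ℝ) / 10) / 12 ≤ d ^ 2 / (2 * j + d) := by
  have hT : TT N (ts N + j) = max (j : ℝ) (ts N) := by
    unfold TT
    congr 1
    ring
  set T := max (j : ℝ) (ts N) with hTdef
  have hT1 : 1 ≤ T := le_trans hts (le_max_right _ _)
  have hT0 : 0 < T := by linarith
  have hjT : (j : ℝ) ≤ T := le_max_left _ _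
  have hd' : d = T ^ ((13 : ℝ) / 20) / 2 := by
    rw [hd, tau_eq, hT]
  have hdsq : d ^ 2 = T * T ^ ((3 : ℝ) / 10) / 4 := by
    rw [hd']
    have : T * T ^ ((3 : ℝ) / 10) = T ^ ((13 : ℝ) / 20) * T ^ ((13 : ℝ) / 20) := by
      rw [← Real.rpow_add hT0]
      nth_rewrite 1 [← Real.rpow_one T]
      rw [← Real.rpow_add hT0]
      norm_num
    rw [this]
    ring
  have hE : (ts N) ^ ((3 : ℝ) / 10) ≤ T ^ ((3 : ℝ) / 10) :=
    Real.rpow_le_rpow (by linarith) (le_max_right _ _) (by norm_num)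
  have hE0 : 0 ≤ T ^ ((3 : ℝ) / 10) := Real.rpow_nonneg hT0.le _
  have hdle : d ≤ T / 2 := by
    rw [hd']
    have := Real.rpow_le_rpow_of_exponent_le hT1 (by norm_num : (13 : ℝ) / 20 ≤ 1)
    rw [Real.rpow_one] at this
    linarith
  have hd0 : 0 ≤ d := by
    rw [hd']
    exact div_nonneg (Real.rpow_nonneg hT0.le _) (by norm_num)
  have hj0 : (0 : ℝ) < j := by exact_mod_cast hj
  constructor
  · rw [le_div_iff₀ (by positivity), hdsq]
    have h1 : (j : ℝ) * T ^ ((3 : ℝ) / 10) ≤ T * T ^ ((3 : ℝ) / 10) :=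
      mul_le_mul_of_nonneg_right hjT hE0
    have h2 : (ts N) ^ ((3 : ℝ) / 10) * (j : ℝ) ≤ T ^ ((3 : ℝ) / 10) * (j : ℝ) :=
      mul_le_mul_of_nonneg_right hE hj0.le
    nlinarith
  · rw [le_div_iff₀ (by positivity), hdsq]
    have h1 : (2 * (j : ℝ) + d) * T ^ ((3 : ℝ) / 10) ≤ (3 * T) * T ^ ((3 : ℝ) / 10) :=
      mul_le_mul_of_nonneg_right (by linarith) hE0
    have h2 : (ts N) ^ ((3 : ℝ) / 10) * (2 * (j : ℝ) + d) ≤ T ^ ((3 : ℝ) / 10) * (2 * (j : ℝ) + d) :=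
      mul_le_mul_of_nonneg_right hE (by positivity)
    nlinarith

/-- The exponent at a grid point for the lower tail. -/
lemma lower_grid (N : ℕ) (hts : 1 ≤ ts N) (j : ℕ) (k : ℝ) (hk : k = (j : ℝ) - tau N (ts N + j) / 2)
    (hk0 : 0 < k) (hτ : 0 ≤ tau N (ts N + j)) :
    -(j : ℝ) + k + k * Real.log ((j : ℝ) / k) ≤ -((ts N) ^ ((3 : ℝ) / 10) / 12) := by
  have hj : 1 ≤ j := by
    rcases Nat.eq_zero_or_pos j with rfl | h
    · simp only [Nat.cast_zero] at hk hτ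
      linarith
    · exact h
  have hkj : k ≤ (j : ℝ) := by linarith
  have h1 := lower_exponent hk0 hkj
  obtain ⟨h2, _⟩ := grid_exponents N hts j hj (tau N (ts N + j) / 2) rfl
  have h3 : (j : ℝ) - k = tau N (ts N + j) / 2 := by linarith
  rw [h3] at h1
  have h4 : -(tau N (ts N + j) / 2) ^ 2 / (2 * (j : ℝ)) = -((tau N (ts N + j) / 2) ^ 2 / (2 * (j : ℝ))) := by
    ring
  rw [h4] at h1
  linarith

/-- The exponent at a grid point for the upper tail. -/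
lemma upper_grid (N : ℕ) (hts : 1 ≤ ts N) (j : ℕ) (hj : 1 ≤ j) (k : ℝ)
    (hk : k = (j : ℝ) + tau N (ts N + j) / 2) (hτ : 0 ≤ tau N (ts N + j)) :
    k - (j : ℝ) - k * Real.log (k / (j : ℝ)) ≤ -((ts N) ^ ((3 : ℝ) / 10) / 12) := by
  have hj0 : (0 : ℝ) < j := by exact_mod_cast hj
  have hkj : (j : ℝ) ≤ k := by linarith
  have h1 := upper_exponent hj0 hkj
  obtain ⟨_, h2⟩ := grid_exponents N hts j hj (tau N (ts N + j) / 2) rfl
  have h3 : k - (j : ℝ) = tau N (ts N + j) / 2 := by linarith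
  have h5 : k + (j : ℝ) = 2 * (j : ℝ) + tau N (ts N + j) / 2 := by linarith
  rw [h3, h5] at h1
  have h4 : -(tau N (ts N + j) / 2) ^ 2 / (2 * (j : ℝ) + tau N (ts N + j) / 2)
      = -((tau N (ts N + j) / 2) ^ 2 / (2 * (j : ℝ) + tau N (ts N + j) / 2)) := by
    ring
  rw [h4] at h1
  rw [h3]
  linarith

/-! ### Levels of the primes in the dyadic block -/

lemma lev_bounds {X : ℝ} (hX : 1 < X) (hx : 1 ≤ levR X) {p : ℕ} (hp : p ∈ Finset.Ioc ⌊X⌋₊ ⌊2 * X⌋₊) :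
    levR X ≤ lev p ∧ lev p ≤ levR X + 1 := by
  have hp' := Finset.mem_Ioc.mp hp
  have h1 : X < p := Nat.lt_of_floor_lt hp'.1
  have h2 : (p : ℝ) ≤ 2 * X := by
    have : (p : ℝ) ≤ (⌊2 * X⌋₊ : ℝ) := by exact_mod_cast hp'.2
    exact this.trans (Nat.floor_le (by linarith))
  have hlX : 0 < Real.log X := Real.log_pos hX
  have hX0 : 0 < X := by linarith
  have hp0 : (0 : ℝ) < p := by linarith
  have hlp : Real.log X ≤ Real.log p := Real.log_le_log hX0 h1.le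
  have hlp0 : 0 < Real.log p := by linarith
  constructor
  · exact Real.log_le_log hlX hlp
  · have h3 : Real.log p ≤ Real.log 2 + Real.log X := by
      rw [← Real.log_mul (by norm_num) hX0.ne']
      exact Real.log_le_log hp0 h2
    have h4 : 1 ≤ Real.log X := by
      have h5 : Real.log 1 ≤ Real.log (Real.log X) := by
        simpa [levR] using (by linarith [hx] : (0 : ℝ) ≤ levR X)
      have h6 : (1 : ℝ) ≤ Real.exp (levR X) := Real.one_le_exp (by linarith)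
      have h7 : Real.exp (levR X) = Real.log X := by
        unfold levR
        exact Real.exp_log hlX
      linarith
    have hl2 : Real.log 2 ≤ 1 := by
      have := Real.log_two_lt_d9
      linarith
    have h8 : Real.log p ≤ Real.exp 1 * Real.log X := by
      have he : (2 : ℝ) ≤ Real.exp 1 := by
        have := Real.add_one_le_exp (1 : ℝ)
        linarith
      nlinarith
    have h9 : Real.log (Real.log p) ≤ Real.log (Real.exp 1 * Real.log X) :=
      Real.log_le_log hlp0 h8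
    rw [Real.log_mul (Real.exp_pos _).ne' hlX.ne', Real.log_exp] at h9
    unfold lev levR
    linarith

/-! ### W -/

lemma W_mono' (N k : ℕ) {y y' : ℝ} (h : y ≤ y') : W N k y ≤ W N k y' := by
  unfold W
  apply card_le_card
  intro r hr
  have hr' := mem_filter.mp hr
  exact mem_filter.mpr ⟨hr'.1, hr'.2.1, hr'.2.2.trans h⟩

lemma W_le_add (N k : ℕ) (y a : ℝ) :
    W N k y ≤ W N k a + (k.primeFactors.filter (fun r => a < lev r)).card := by
  unfold W
  refine le_trans (card_le_card ?_) (card_union_le _ _)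
  intro r hr
  have hr' := mem_filter.mp hr
  by_cases h : lev r ≤ a
  · exact mem_union_left _ (mem_filter.mpr ⟨hr'.1, hr'.2.1, h⟩)
  · exact mem_union_right _ (mem_filter.mpr ⟨hr'.1, not_le.mp h⟩)

lemma W_base (N k : ℕ) : W N k (ts N) = 0 := by
  unfold W
  rw [card_eq_zero, filter_eq_empty_iff]
  rintro r _ ⟨h1, h2⟩
  linarith

/-! ### Normality from the grid -/

/-- A prime which is not exceptional at any point of the grid is normal. -/
lemma normal_of_grid {N : ℕ} {X A m : ℝ} {J : ℕ} {p : ℕ} (hX : 1 < X)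
    (ht0 : t0 N ≤ levR X) (ht1 : 1 ≤ t0 N) (hts : 2 ≤ ts N)
    (hρ : 4 ≤ (ts N) ^ ((13 : ℝ) / 20))
    (hA : A + 2 ≤ (ts N) ^ ((13 : ℝ) / 20) / 2) (hm : m ≤ (ts N) ^ ((13 : ℝ) / 20) / 2)
    (hJ2 : levR X - A - 1 < ts N + J)
    (hp : p ∈ Finset.Ioc ⌊X⌋₊ ⌊2 * X⌋₊) (hpp : p.Prime)
    (hLo : ∀ j ≤ J, ¬ ((W N (p - 1) (ts N + j) : ℝ) < (j : ℝ) - tau N (ts N + j) / 2))
    (hUp : ∀ j ≤ J, ¬ ((j : ℝ) + tau N (ts N + j) / 2 ≤ (W N (p - 1) (ts N + j) : ℝ)))
    (hTop : ¬ (m ≤ ((p - 1).primeFactors.filter (fun r => levR X - (A + 1) < lev r)).card)) :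
    Normal N p := by
  have hx1 : 1 ≤ levR X := ht1.trans ht0
  obtain ⟨hl1, hl2⟩ := lev_bounds hX hx1 hp
  refine ⟨hpp, ht0.trans hl1, ?_⟩
  intro y hy1 hy2
  have hts0 : 0 ≤ ts N := by linarith
  have hτ : (ts N) ^ ((13 : ℝ) / 20) ≤ tau N y := rho_le_tau N hts0 y
  have hz : 0 ≤ y - ts N := by linarith
  set j := ⌊y - ts N⌋₊ with hj
  have hj1 : (j : ℝ) ≤ y - ts N := Nat.floor_le hz
  have hj2 : y - ts N < (j : ℝ) + 1 := Nat.lt_floor_add_one _
  rw [abs_le]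
  rcases lt_or_ge j J with hlt | hge
  · -- interior
    have hle1 : j ≤ J := hlt.le
    have hle2 : j + 1 ≤ J := hlt
    have h1 := not_lt.mp (hLo j hle1)
    have h2 := not_le.mp (hUp (j + 1) hle2)
    have hyj : ts N + (j : ℝ) ≤ y := by linarith
    have hyj' : y ≤ ts N + ((j + 1 : ℕ) : ℝ) := by
      push_cast
      linarith
    have h3 : (W N (p - 1) (ts N + j) : ℝ) ≤ (W N (p - 1) y : ℝ) := by
      exact_mod_cast W_mono' N _ hyj
    have h4 : (W N (p - 1) y : ℝ) ≤ (W N (p - 1) (ts N + ((j + 1 : ℕ) : ℝ)) : ℝ) := by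
      exact_mod_cast W_mono' N _ hyj'
    have h5 : tau N (ts N + j) ≤ tau N y := tau_mono' N hts0 hyj
    have h6 : tau N (ts N + ((j + 1 : ℕ) : ℝ)) ≤ tau N (y + 1) := by
      apply tau_mono' N hts0
      push_cast
      linarith
    have h7 := tau_succ_le N hts y
    push_cast at h2 h4 h6
    constructor
    · linarith
    · linarith
  · -- top
    have h1 := not_lt.mp (hLo J le_rfl)
    have h2 := not_le.mp (hUp J le_rfl)
    have hJj : (J : ℝ) ≤ (j : ℝ) := by exact_mod_cast hge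
    have hyJ : ts N + (J : ℝ) ≤ y := by linarith
    have h3 : (W N (p - 1) (ts N + J) : ℝ) ≤ (W N (p - 1) y : ℝ) := by
      exact_mod_cast W_mono' N _ hyJ
    have h5 : tau N (ts N + J) ≤ tau N y := tau_mono' N hts0 hyJ
    have h6 := W_le_add N (p - 1) y (ts N + J)
    have h7 : (((p - 1).primeFactors.filter (fun r => ts N + (J : ℝ) < lev r)).card : ℝ) < m := by
      refine lt_of_le_of_lt ?_ (not_le.mp hTop)
      have : ((p - 1).primeFactors.filter (fun r => ts N + (J : ℝ) < lev r)).card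
          ≤ ((p - 1).primeFactors.filter (fun r => levR X - (A + 1) < lev r)).card := by
        apply card_le_card
        intro r hr
        have hr' := mem_filter.mp hr
        refine mem_filter.mpr ⟨hr'.1, ?_⟩
        linarith [hr'.2]
      exact_mod_cast this
    have h8 : (W N (p - 1) y : ℝ) ≤ (W N (p - 1) (ts N + J) : ℝ)
        + (((p - 1).primeFactors.filter (fun r => ts N + (J : ℝ) < lev r)).card : ℝ) := by
      exact_mod_cast h6
    constructor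
    · linarith
    · linarith

/-! ### Eventual inequalities -/

lemma ts_eq (N : ℕ) : ts N = (N : ℝ) ^ ((4 : ℝ) / 5) * (1 / 2) := by
  unfold ts t0
  ring

lemma tendsto_n_rpow {a : ℝ} (ha : 0 < a) : Tendsto (fun N : ℕ => (N : ℝ) ^ a) atTop atTop :=
  (tendsto_rpow_atTop ha).comp tendsto_natCast_atTop_atTop

lemma rho_ge (N : ℕ) : (N : ℝ) ^ ((13 : ℝ) / 25) / 2 ≤ (ts N) ^ ((13 : ℝ) / 20) := by
  rw [ts_eq, Real.mul_rpow (by positivity) (by norm_num), ← Real.rpow_mul (by positivity)]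
  have h1 : ((4 : ℝ) / 5 * (13 / 20)) = 13 / 25 := by norm_num
  rw [h1, div_eq_mul_inv]
  apply mul_le_mul_of_nonneg_left _ (by positivity)
  have := Real.rpow_le_rpow_of_exponent_ge (by norm_num : (0 : ℝ) < 1 / 2)
    (by norm_num : (1 : ℝ) / 2 ≤ 1) (by norm_num : (13 : ℝ) / 20 ≤ 1)
  rw [Real.rpow_one] at this
  linarith

lemma ts3_ge (N : ℕ) : (N : ℝ) ^ ((6 : ℝ) / 25) / 2 ≤ (ts N) ^ ((3 : ℝ) / 10) := by
  rw [ts_eq, Real.mul_rpow (by positivity) (by norm_num), ← Real.rpow_mul (by positivity)]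
  have h1 : ((4 : ℝ) / 5 * (3 / 10)) = 6 / 25 := by norm_num
  rw [h1, div_eq_mul_inv]
  apply mul_le_mul_of_nonneg_left _ (by positivity)
  have := Real.rpow_le_rpow_of_exponent_ge (by norm_num : (0 : ℝ) < 1 / 2)
    (by norm_num : (1 : ℝ) / 2 ≤ 1) (by norm_num : (3 : ℝ) / 10 ≤ 1)
  rw [Real.rpow_one] at this
  linarith

lemma ev_basic : ∀ᶠ N : ℕ in atTop, 1 ≤ t0 N ∧ 2 ≤ ts N ∧ 4 ≤ (ts N) ^ ((13 : ℝ) / 20) := by
  have h1 : Tendsto (fun N : ℕ => (N : ℝ) ^ ((4 : ℝ) / 5) * (1 / 2)) atTop atTop :=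
    (tendsto_n_rpow (by norm_num)).atTop_mul_const (by norm_num)
  have h2 : Tendsto (fun N : ℕ => ((N : ℝ) ^ ((4 : ℝ) / 5) * (1 / 2)) ^ ((13 : ℝ) / 20)) atTop atTop :=
    (tendsto_rpow_atTop (by norm_num)).comp h1
  filter_upwards [h1.eventually_ge_atTop 2, h2.eventually_ge_atTop 4] with N h3 h4
  rw [← ts_eq] at h3 h4
  refine ⟨?_, h3, h4⟩
  have : t0 N = 2 * ts N := by
    unfold ts
    ring
  linarith

lemma ev_log_le (C : ℝ) (hC : 0 < C) (D a : ℝ) (ha : 0 < a) :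
    ∀ᶠ N : ℕ in atTop, Real.log (C * N) + D ≤ (N : ℝ) ^ a := by
  have h1 := ev_log_rpow_le 1 0 a 2 ha
  have h2 := (tendsto_n_rpow ha).eventually_ge_atTop (2 * (|Real.log C| + |D|))
  filter_upwards [h1, h2, eventually_gt_atTop 0] with N h3 h4 h5
  have hN : (0 : ℝ) < N := by exact_mod_cast h5
  rw [Real.log_mul hC.ne' hN.ne']
  simp only [pow_one, Real.rpow_zero, mul_one] at h3
  have := le_abs_self (Real.log C)
  have := le_abs_self D
  linarith

lemma ev_params (C' C₃ : ℝ) (hC' : 0 < C') (hC₃ : 0 < C₃) : ∀ᶠ N : ℕ in atTop,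
    Real.log (C' * N) + 2 ≤ (ts N) ^ ((13 : ℝ) / 20) / 2 ∧
    (N : ℝ) ^ ((1 : ℝ) / 2) ≤ (ts N) ^ ((13 : ℝ) / 20) / 2 ∧
    0 ≤ Real.log (C' * N) ∧ Real.log (C' * N) ≤ ts N ∧
    Real.log (C' * N) + 1 ≤ 2 * Real.log (C₃ * N) := by
  have h1 := ev_log_le C' hC' 2 (1 / 2) (by norm_num)
  have h2 := ev_rpow_le (1 / 2) (13 / 25) 4 (by norm_num)
  have h3 := ev_rpow_le (1 / 2) (4 / 5) 2 (by norm_num)
  have h4 : Tendsto (fun N : ℕ => Real.log (C' * N)) atTop atTop :=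
    Real.tendsto_log_atTop.comp (tendsto_natCast_atTop_atTop.const_mul_atTop hC')
  have h5 : Tendsto (fun N : ℕ => Real.log N) atTop atTop :=
    Real.tendsto_log_atTop.comp tendsto_natCast_atTop_atTop
  filter_upwards [h1, h2, h3, h4.eventually_ge_atTop 0,
    h5.eventually_ge_atTop (Real.log C' + 1 - 2 * Real.log C₃), eventually_gt_atTop 0]
    with N e1 e2 e3 e4 e5 e6
  have hN : (0 : ℝ) < N := by exact_mod_cast e6
  have hρ := rho_ge N
  have hts : ts N = (N : ℝ) ^ ((4 : ℝ) / 5) * (1 / 2) := ts_eq N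
  have hn : 0 ≤ (N : ℝ) ^ ((1 : ℝ) / 2) := by positivity
  refine ⟨by linarith, by linarith, e4, by linarith, ?_⟩
  rw [Real.log_mul hC'.ne' hN.ne', Real.log_mul hC₃.ne' hN.ne']
  linarith

lemma ev_final (Cc : ℝ) (hCc : 0 < Cc) : ∀ᶠ N : ℕ in atTop,
    4 * ((N : ℝ) + 6) * Cc * (N : ℝ) ^ 4 * Real.exp (-((ts N) ^ ((3 : ℝ) / 10) / 12))
        ≤ Real.exp (-(N : ℝ) ^ ((23 : ℝ) / 100)) ∧
    2 * Real.exp (-(N : ℝ) ^ ((2 : ℝ) / 5)) ≤ Real.exp (-(N : ℝ) ^ ((23 : ℝ) / 100)) := by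
  have h1 := ev_rpow_le (23 / 100) (6 / 25) 48 (by norm_num)
  have h2 := ev_log_rpow_le 1 0 (6 / 25) 480 (by norm_num)
  have h3 := (tendsto_n_rpow (by norm_num : (0 : ℝ) < 6 / 25)).eventually_ge_atTop
    (96 * Real.log (28 * Cc))
  have h4 := ev_rpow_le (23 / 100) (2 / 5) 2 (by norm_num)
  have h5 := (tendsto_n_rpow (by norm_num : (0 : ℝ) < 2 / 5)).eventually_ge_atTop 2
  filter_upwards [h1, h2, h3, h4, h5, eventually_ge_atTop 1] with N e1 e2 e3 e4 e5 e6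
  have hN : (1 : ℝ) ≤ N := by exact_mod_cast e6
  have hN0 : (0 : ℝ) < N := by linarith
  constructor
  · have h6 : 4 * ((N : ℝ) + 6) * Cc * (N : ℝ) ^ 4 ≤ (28 * Cc) * (N : ℝ) ^ 5 := by
      have h7 : (N : ℝ) + 6 ≤ 7 * N := by linarith
      have h8 : 0 ≤ Cc * (N : ℝ) ^ 4 := by positivity
      nlinarith [mul_le_mul_of_nonneg_right h7 h8]
    have h9 : (28 * Cc) * (N : ℝ) ^ 5 = Real.exp (Real.log (28 * Cc) + 5 * Real.log N) := by
      rw [Real.exp_add, Real.exp_log (by positivity), mul_comm (5 : ℝ), Real.exp_mul,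
        Real.exp_log hN0]
      norm_num
    have h10 := ts3_ge N
    simp only [pow_one, Real.rpow_zero, mul_one] at e2
    calc 4 * ((N : ℝ) + 6) * Cc * (N : ℝ) ^ 4 * Real.exp (-((ts N) ^ ((3 : ℝ) / 10) / 12))
        ≤ Real.exp (Real.log (28 * Cc) + 5 * Real.log N)
            * Real.exp (-((ts N) ^ ((3 : ℝ) / 10) / 12)) := by
          apply mul_le_mul_of_nonneg_right _ (Real.exp_pos _).le
          rw [← h9]
          exact h6
      _ = Real.exp (Real.log (28 * Cc) + 5 * Real.log N + -((ts N) ^ ((3 : ℝ) / 10) / 12)) :=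
          (Real.exp_add _ _).symm
      _ ≤ _ := by
          apply Real.exp_le_exp.mpr
          linarith
  · have h6 : Real.exp (1 + -(N : ℝ) ^ ((2 : ℝ) / 5)) ≤ Real.exp (-(N : ℝ) ^ ((23 : ℝ) / 100)) := by
      apply Real.exp_le_exp.mpr
      linarith
    refine le_trans ?_ h6
    rw [Real.exp_add]
    apply mul_le_mul_of_nonneg_right _ (Real.exp_pos _).le
    have := Real.add_one_le_exp (1 : ℝ)
    linarith

/-! ### `normal_count` -/

/-- One lower tail on the grid. -/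
lemma lo_bound {N : ℕ} {X A C Cc : ℝ} (hts : 2 ≤ ts N) (hρ : 4 ≤ (ts N) ^ ((13 : ℝ) / 20))
    (hXL : 0 < X / Real.log X) (hCc : C ≤ Cc) (hC : 0 < C)
    (hb : ∀ y k : ℝ, ts N ≤ y → y ≤ levR X - A → 0 < k → k ≤ y - ts N →
      (((Finset.Ioc ⌊X⌋₊ ⌊2 * X⌋₊).filter (fun p => p.Prime ∧ (W N (p - 1) y : ℝ) < k)).card : ℝ)
      ≤ C * (N : ℝ) ^ 4 * (X / Real.log X) *
        Real.exp (-(y - ts N) + k + k * Real.log ((y - ts N) / k)))
    (j : ℕ) (hj : (j : ℝ) ≤ levR X - A - ts N) :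
    (((Finset.Ioc ⌊X⌋₊ ⌊2 * X⌋₊).filter (fun p => p.Prime ∧
        (W N (p - 1) (ts N + j) : ℝ) < (j : ℝ) - tau N (ts N + j) / 2)).card : ℝ)
      ≤ Cc * (N : ℝ) ^ 4 * (X / Real.log X) * Real.exp (-((ts N) ^ ((3 : ℝ) / 10) / 12)) := by
  have hts0 : 0 ≤ ts N := by linarith
  have hτ : 0 < tau N (ts N + j) := by
    have := rho_le_tau N hts0 (ts N + j)
    linarith
  have hE0 : 0 ≤ Cc * (N : ℝ) ^ 4 * (X / Real.log X) * Real.exp (-((ts N) ^ ((3 : ℝ) / 10) / 12)) := by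
    have : 0 < Cc := by linarith
    positivity
  by_cases hk : 0 < (j : ℝ) - tau N (ts N + j) / 2
  · have hj0 : (0 : ℝ) ≤ j := by positivity
    have h1 := hb (ts N + j) ((j : ℝ) - tau N (ts N + j) / 2) (by linarith) (by linarith) hk
      (by rw [add_sub_cancel_left]; linarith)
    rw [add_sub_cancel_left] at h1
    refine h1.trans ?_
    have hg := lower_grid N (by linarith) j _ rfl hk hτ.le
    apply mul_le_mul
    · apply mul_le_mul_of_nonneg_right _ hXL.le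
      apply mul_le_mul_of_nonneg_right hCc (by positivity)
    · exact Real.exp_le_exp.mpr hg
    · exact (Real.exp_pos _).le
    · have : 0 < Cc := by linarith
      positivity
  · have : (Finset.Ioc ⌊X⌋₊ ⌊2 * X⌋₊).filter (fun p => p.Prime ∧
        (W N (p - 1) (ts N + j) : ℝ) < (j : ℝ) - tau N (ts N + j) / 2) = ∅ := by
      apply filter_eq_empty_iff.mpr
      rintro p _ ⟨_, h2⟩
      have : (0 : ℝ) ≤ (W N (p - 1) (ts N + j) : ℝ) := by positivity
      linarith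
    rw [this]
    simpa using hE0

/-- One upper tail on the grid. -/
lemma up_bound {N : ℕ} {X A C Cc : ℝ} (hts : 2 ≤ ts N) (hρ : 4 ≤ (ts N) ^ ((13 : ℝ) / 20))
    (hXL : 0 < X / Real.log X) (hCc : C ≤ Cc) (hC : 0 < C)
    (hb : ∀ y k : ℝ, ts N ≤ y → y ≤ levR X - A → y - ts N ≤ k → 0 < y - ts N →
      k ≤ Real.exp (ts N) * (y - ts N) → k ≤ 3 * N →
      (((Finset.Ioc ⌊X⌋₊ ⌊2 * X⌋₊).filter (fun p => p.Prime ∧ k ≤ (W N (p - 1) y : ℝ))).card : ℝ)
      ≤ C * (N : ℝ) ^ 4 * (X / Real.log X) *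
        Real.exp (k - (y - ts N) - k * Real.log (k / (y - ts N))))
    (j : ℕ) (hj : (j : ℝ) ≤ levR X - A - ts N)
    (hjN : (j : ℝ) ≤ (N : ℝ) + 6) (htsN : ts N ≤ (N : ℝ) + 6) (hN6 : (6 : ℝ) ≤ N) :
    (((Finset.Ioc ⌊X⌋₊ ⌊2 * X⌋₊).filter (fun p => p.Prime ∧
        (j : ℝ) + tau N (ts N + j) / 2 ≤ (W N (p - 1) (ts N + j) : ℝ))).card : ℝ)
      ≤ Cc * (N : ℝ) ^ 4 * (X / Real.log X) * Real.exp (-((ts N) ^ ((3 : ℝ) / 10) / 12)) := by
  have hts0 : 0 ≤ ts N := by linarith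
  have hτ : 0 < tau N (ts N + j) := by
    have := rho_le_tau N hts0 (ts N + j)
    linarith
  have hE0 : 0 ≤ Cc * (N : ℝ) ^ 4 * (X / Real.log X) * Real.exp (-((ts N) ^ ((3 : ℝ) / 10) / 12)) := by
    have : 0 < Cc := by linarith
    positivity
  rcases Nat.eq_zero_or_pos j with rfl | hj1
  · have : (Finset.Ioc ⌊X⌋₊ ⌊2 * X⌋₊).filter (fun p => p.Prime ∧
        ((0 : ℕ) : ℝ) + tau N (ts N + ((0 : ℕ) : ℝ)) / 2 ≤ (W N (p - 1) (ts N + ((0 : ℕ) : ℝ)) : ℝ)) = ∅ := by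
      apply filter_eq_empty_iff.mpr
      rintro p _ ⟨_, h2⟩
      simp only [Nat.cast_zero, add_zero] at h2 hτ
      rw [W_base] at h2
      simp only [Nat.cast_zero] at h2
      linarith
    rw [this]
    simpa using hE0
  · have hj0 : (0 : ℝ) < j := by exact_mod_cast hj1
    have hj1' : (1 : ℝ) ≤ j := by exact_mod_cast hj1
    have hτle : tau N (ts N + j) ≤ ts N * j := by
      have hT1 : 1 ≤ TT N (ts N + j) := le_trans (by linarith) (le_max_right _ _)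
      have h1 : tau N (ts N + j) ≤ TT N (ts N + j) := by
        rw [tau_eq]
        have := Real.rpow_le_rpow_of_exponent_le hT1 (by norm_num : (13 : ℝ) / 20 ≤ 1)
        rwa [Real.rpow_one] at this
      refine h1.trans ?_
      apply max_le
      · rw [add_sub_cancel_left]
        nlinarith
      · nlinarith
    have h5 := mul_le_mul_of_nonneg_right (Real.add_one_le_exp (ts N)) hj0.le
    have hτN : tau N (ts N + j) ≤ (N : ℝ) + 6 := by
      have hT1 : 1 ≤ TT N (ts N + j) := le_trans (by linarith) (le_max_right _ _)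
      have h1 : tau N (ts N + j) ≤ TT N (ts N + j) := by
        rw [tau_eq]
        have := Real.rpow_le_rpow_of_exponent_le hT1 (by norm_num : (13 : ℝ) / 20 ≤ 1)
        rwa [Real.rpow_one] at this
      refine h1.trans ?_
      apply max_le
      · rw [add_sub_cancel_left]
        exact hjN
      · exact htsN
    have h1 := hb (ts N + j) ((j : ℝ) + tau N (ts N + j) / 2) (by linarith) (by linarith)
      (by rw [add_sub_cancel_left]; linarith)
      (by rw [add_sub_cancel_left]; exact hj0)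
      (by rw [add_sub_cancel_left]; nlinarith)
      (by linarith)
    rw [add_sub_cancel_left] at h1
    refine h1.trans ?_
    have hg := upper_grid N (by linarith) j hj1 _ rfl hτ.le
    apply mul_le_mul
    · apply mul_le_mul_of_nonneg_right _ hXL.le
      apply mul_le_mul_of_nonneg_right hCc (by positivity)
    · exact Real.exp_le_exp.mpr hg
    · exact (Real.exp_pos _).le
    · have : 0 < Cc := by linarith
      positivity

/-- The union bound, from the three kinds of estimates. -/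
lemma union_count {N : ℕ} {X A m E Tb : ℝ} {J : ℕ} (hX : 1 < X)
    (hx1 : t0 N ≤ levR X) (ht1 : 1 ≤ t0 N) (hts : 2 ≤ ts N)
    (hρ : 4 ≤ (ts N) ^ ((13 : ℝ) / 20))
    (hA : A + 2 ≤ (ts N) ^ ((13 : ℝ) / 20) / 2) (hm : m ≤ (ts N) ^ ((13 : ℝ) / 20) / 2)
    (hJ2 : levR X - A - 1 < ts N + J)
    (hLo : ∀ j ≤ J, (((Finset.Ioc ⌊X⌋₊ ⌊2 * X⌋₊).filter (fun p => p.Prime ∧
        (W N (p - 1) (ts N + j) : ℝ) < (j : ℝ) - tau N (ts N + j) / 2)).card : ℝ) ≤ E)
    (hUp : ∀ j ≤ J, (((Finset.Ioc ⌊X⌋₊ ⌊2 * X⌋₊).filter (fun p => p.Prime ∧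
        (j : ℝ) + tau N (ts N + j) / 2 ≤ (W N (p - 1) (ts N + j) : ℝ))).card : ℝ) ≤ E)
    (hTop : (((Finset.Ioc ⌊X⌋₊ ⌊2 * X⌋₊).filter (fun p => p.Prime ∧
        m ≤ ((p - 1).primeFactors.filter (fun r => levR X - (A + 1) < lev r)).card)).card : ℝ) ≤ Tb) :
    (((Finset.Ioc ⌊X⌋₊ ⌊2 * X⌋₊).filter (fun p => p.Prime ∧ ¬ Normal N p)).card : ℝ)
      ≤ ((J : ℝ) + 1) * (2 * E) + Tb := by
  set S := Finset.Ioc ⌊X⌋₊ ⌊2 * X⌋₊ with hS
  let Lo : ℕ → Finset ℕ := fun j =>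
    S.filter (fun p => p.Prime ∧ (W N (p - 1) (ts N + j) : ℝ) < (j : ℝ) - tau N (ts N + j) / 2)
  let Up : ℕ → Finset ℕ := fun j =>
    S.filter (fun p => p.Prime ∧ (j : ℝ) + tau N (ts N + j) / 2 ≤ (W N (p - 1) (ts N + j) : ℝ))
  let Top : Finset ℕ :=
    S.filter (fun p => p.Prime ∧ m ≤ ((p - 1).primeFactors.filter (fun r => levR X - (A + 1) < lev r)).card)
  have hcover : S.filter (fun p => p.Prime ∧ ¬ Normal N p)
      ⊆ ((Finset.range (J + 1)).biUnion (fun j => Lo j ∪ Up j)) ∪ Top := by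
    intro p hp
    obtain ⟨hpS, hpp, hpn⟩ := mem_filter.mp hp
    by_contra hcon
    apply hpn
    rw [mem_union, not_or, mem_biUnion, not_exists] at hcon
    obtain ⟨hc1, hc2⟩ := hcon
    apply normal_of_grid hX hx1 ht1 hts hρ hA hm (A := A) (J := J) hJ2 hpS hpp
    · intro j hj hlo
      apply hc1 j
      exact ⟨mem_range.mpr (by omega), mem_union_left _ (mem_filter.mpr ⟨hpS, hpp, hlo⟩)⟩
    · intro j hj hup
      apply hc1 j
      exact ⟨mem_range.mpr (by omega), mem_union_right _ (mem_filter.mpr ⟨hpS, hpp, hup⟩)⟩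
    · intro htop
      exact hc2 (mem_filter.mpr ⟨hpS, hpp, htop⟩)
  have hcard : (S.filter (fun p => p.Prime ∧ ¬ Normal N p)).card
      ≤ ∑ j ∈ Finset.range (J + 1), ((Lo j).card + (Up j).card) + Top.card := by
    refine (card_le_card hcover).trans ((card_union_le _ _).trans ?_)
    apply Nat.add_le_add_right
    refine card_biUnion_le.trans ?_
    apply sum_le_sum
    intro j _
    exact card_union_le _ _
  have hcard' : ((S.filter (fun p => p.Prime ∧ ¬ Normal N p)).card : ℝ)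
      ≤ ∑ j ∈ Finset.range (J + 1), (((Lo j).card : ℝ) + ((Up j).card : ℝ)) + (Top.card : ℝ) := by
    exact_mod_cast hcard
  have hsum : ∑ j ∈ Finset.range (J + 1), (((Lo j).card : ℝ) + ((Up j).card : ℝ))
      ≤ ((J : ℝ) + 1) * (2 * E) := by
    calc ∑ j ∈ Finset.range (J + 1), (((Lo j).card : ℝ) + ((Up j).card : ℝ))
        ≤ ∑ _j ∈ Finset.range (J + 1), (2 * E) := by
          apply sum_le_sum
          intro j hj
          have hj' : j ≤ J := by
            have := mem_range.mp hj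
            omega
          linarith [hLo j hj', hUp j hj']
      _ = ((J : ℝ) + 1) * (2 * E) := by
          simp
  linarith

theorem normal_count_gen (hL : LowerTailStmt) (hU : UpperTailStmt) (hT : TopWindowStmt) :
    ∃ N₀ : ℕ, ∀ N ≥ N₀, ∀ X : ℝ, 1 < X → t0 N ≤ levR X → levR X ≤ N + 5 →
    (((Finset.Ioc ⌊X⌋₊ ⌊2 * X⌋₊).filter (fun p => p.Prime ∧ ¬ Normal N p)).card : ℝ)
      ≤ eps0 N * (X / Real.log X) := by
  obtain ⟨C₁, N₁, hC₁, hL⟩ := hL
  obtain ⟨C₂, N₂, hC₂, hU⟩ := hU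
  obtain ⟨C₃, N₃, hC₃, hT⟩ := hT
  set C' := max C₁ C₂ with hC'
  have hC'0 : 0 < C' := lt_max_of_lt_left hC₁
  have hCc : 0 < C₁ + C₂ := by linarith
  have hev := (ev_basic.and (ev_params C' C₃ hC'0 hC₃)).and (ev_final (C₁ + C₂) hCc)
  have hev' := (hev.and ((ev_nat_ge N₁).and ((ev_nat_ge N₂).and ((ev_nat_ge N₃).and (ev_nat_ge 6)))))
  obtain ⟨N₀, hN₀⟩ := eventually_atTop.mp (hev'.and (eventually_gt_atTop 0))
  refine ⟨N₀, fun N hN X hX hx1 hx2 => ?_⟩
  obtain ⟨⟨⟨⟨ht1, hts, hρ⟩, hA, hm, hA0, hAts, hA3⟩, hF1, hF2⟩, hNN₁, hNN₂, hNN₃, hN6⟩ := (hN₀ N hN).1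
  have hNpos : 0 < N := (hN₀ N hN).2
  have hN0 : (0 : ℝ) < N := by exact_mod_cast hNpos
  set A := Real.log (C' * N) with hAdef
  have ht0ts : t0 N = 2 * ts N := by
    unfold ts
    ring
  have hts0 : 0 ≤ ts N := by linarith
  have hlogX : 0 < Real.log X := Real.log_pos hX
  have hXL : 0 < X / Real.log X := div_pos (by linarith) hlogX
  set J := ⌊levR X - A - ts N⌋₊ with hJ
  have h0 : 0 ≤ levR X - A - ts N := by linarith
  have hJ1 : (J : ℝ) ≤ levR X - A - ts N := Nat.floor_le h0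
  have hJ2 : levR X - A - ts N < (J : ℝ) + 1 := Nat.lt_floor_add_one _
  have hJN : (J : ℝ) + 1 ≤ (N : ℝ) + 6 := by linarith
  have hC1A : Real.log (C₁ * N) ≤ A :=
    Real.log_le_log (by positivity) (mul_le_mul_of_nonneg_right (le_max_left _ _) hN0.le)
  have hC2A : Real.log (C₂ * N) ≤ A :=
    Real.log_le_log (by positivity) (mul_le_mul_of_nonneg_right (le_max_right _ _) hN0.le)
  have hLoB : ∀ j ≤ J, _ := fun j hj => lo_bound (N := N) (X := X) (A := A) (C := C₁) (Cc := C₁ + C₂)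
    hts hρ hXL (by linarith) hC₁
    (fun y k h1 h2 h3 h4 => hL N X y k hNN₁ hX hx1 hx2 h1 (by linarith) h3 h4) j
    (by have : (j : ℝ) ≤ (J : ℝ) := by exact_mod_cast hj
        linarith)
  have hUpB : ∀ j ≤ J, _ := fun j hj => up_bound (N := N) (X := X) (A := A) (C := C₂) (Cc := C₁ + C₂)
    hts hρ hXL (by linarith) hC₂
    (fun y k h1 h2 h3 h4 h5 h6 => hU N X y k hNN₂ hX hx1 hx2 h1 (by linarith) h3 h4 h5 h6) j
    (by have : (j : ℝ) ≤ (J : ℝ) := by exact_mod_cast hj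
        linarith)
    (by have : (j : ℝ) ≤ (J : ℝ) := by exact_mod_cast hj
        linarith)
    (by linarith)
    hN6
  have hTop := hT N X (A + 1) ((N : ℝ) ^ ((1 : ℝ) / 2)) hNN₃ hX hx1 hx2 (by linarith) hA3 le_rfl
  have hmain := union_count (N := N) (X := X) (A := A) (J := J) hX hx1 ht1 hts hρ hA hm
    (by linarith) hLoB hUpB hTop
  refine hmain.trans ?_
  have hE0 : 0 ≤ (C₁ + C₂) * (N : ℝ) ^ 4 * (X / Real.log X)
      * Real.exp (-((ts N) ^ ((3 : ℝ) / 10) / 12)) := by positivity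
  have h1 : ((J : ℝ) + 1) * (2 * ((C₁ + C₂) * (N : ℝ) ^ 4 * (X / Real.log X)
      * Real.exp (-((ts N) ^ ((3 : ℝ) / 10) / 12))))
      ≤ ((N : ℝ) + 6) * (2 * ((C₁ + C₂) * (N : ℝ) ^ 4 * (X / Real.log X)
      * Real.exp (-((ts N) ^ ((3 : ℝ) / 10) / 12)))) :=
    mul_le_mul_of_nonneg_right hJN (by positivity)
  have h2 := mul_le_mul_of_nonneg_right hF1 hXL.le
  have h3 := mul_le_mul_of_nonneg_right hF2 hXL.le
  unfold eps0
  nlinarith

/-! ### `weak_count` -/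

lemma log_fifty_le : Real.log 50 ≤ 4 := by
  rw [Real.log_le_iff_le_exp (by norm_num)]
  have h1 := Real.exp_one_gt_d9
  have h2 : Real.exp 4 = Real.exp 1 ^ 4 := by
    rw [← Real.exp_nat_mul]
    norm_num
  rw [h2]
  have h3 : (2.7 : ℝ) ≤ Real.exp 1 := by linarith
  calc (50 : ℝ) ≤ 2.7 ^ 4 := by norm_num
    _ ≤ _ := pow_le_pow_left₀ (by norm_num) h3 4

lemma ev_weak (C₁ : ℝ) (hC₁ : 0 < C₁) : ∀ᶠ N : ℕ in atTop,
    t0 N ≤ 0.9 * (N : ℝ) - 1 ∧ ts N ≤ (N : ℝ) / 100 ∧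
    (N : ℝ) / 2 ≤ 0.9 * (N : ℝ) - 1 - Real.log (C₁ * N) ∧
    C₁ * (N : ℝ) ^ 4 * Real.exp (-(0.44 * (N : ℝ))) ≤ Real.exp (-(0.42 * (N : ℝ))) := by
  have h1 := ev_rpow_le (4 / 5) 1 1000 (by norm_num)
  have h2 := ev_log_le C₁ hC₁ 1 (1 / 2) (by norm_num)
  have h3 := ev_rpow_le (1 / 2) 1 1000 (by norm_num)
  have h4 := ev_log_rpow_le 1 0 1 1000 (by norm_num)
  filter_upwards [h1, h2, h3, h4, ev_nat_ge (1000 * |Real.log C₁| + 1000), eventually_gt_atTop 0]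
    with N e1 e2 e3 e4 e5 e6
  have hN : (0 : ℝ) < N := by exact_mod_cast e6
  simp only [Real.rpow_one, pow_one, Real.rpow_zero, mul_one] at e1 e3 e4
  have hts : ts N = (N : ℝ) ^ ((4 : ℝ) / 5) * (1 / 2) := ts_eq N
  have ht0 : t0 N = (N : ℝ) ^ ((4 : ℝ) / 5) := rfl
  have hn : 0 ≤ (N : ℝ) ^ ((4 : ℝ) / 5) := by positivity
  have habs := le_abs_self (Real.log C₁)
  have habs0 := abs_nonneg (Real.log C₁)
  refine ⟨by linarith, by linarith, by linarith, ?_⟩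
  have h9 : C₁ * (N : ℝ) ^ 4 = Real.exp (Real.log C₁ + 4 * Real.log N) := by
    rw [Real.exp_add, Real.exp_log hC₁, mul_comm (4 : ℝ), Real.exp_mul, Real.exp_log hN]
    norm_num
  rw [h9, ← Real.exp_add]
  apply Real.exp_le_exp.mpr
  norm_num
  linarith

theorem weak_count_gen (hL : LowerTailStmt) :
    ∃ N₀ : ℕ, ∀ N ≥ N₀, ∀ X : ℝ, 1 < X → 0.9 * (N : ℝ) - 1 ≤ levR X → levR X ≤ N + 5 →
    (((Finset.Ioc ⌊X⌋₊ ⌊2 * X⌋₊).filter
        (fun p => p.Prime ∧ (W N (p - 1) ((N : ℝ) / 2) : ℝ) < (N : ℝ) / 100)).card : ℝ)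
      ≤ Real.exp (-(0.42 * (N : ℝ))) * (X / Real.log X) := by
  obtain ⟨C₁, N₁, hC₁, hL⟩ := hL
  obtain ⟨N₀, hN₀⟩ := eventually_atTop.mp
    (((ev_weak C₁ hC₁).and ev_basic).and ((ev_nat_ge N₁).and (eventually_gt_atTop 0)))
  refine ⟨N₀, fun N hN X hX hx1 hx2 => ?_⟩
  obtain ⟨⟨⟨h1, h2, h3, h4⟩, _, hts2, _⟩, hNN₁, hNpos⟩ := hN₀ N hN
  have hN0 : (0 : ℝ) < N := by exact_mod_cast hNpos
  have hlogX : 0 < Real.log X := Real.log_pos hX
  have hXL : 0 < X / Real.log X := div_pos (by linarith) hlogX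
  have hk : (0 : ℝ) < (N : ℝ) / 100 := by positivity
  have hb := hL N X ((N : ℝ) / 2) ((N : ℝ) / 100) hNN₁ hX (by linarith) hx2 (by linarith)
    (by linarith) hk (by linarith)
  refine hb.trans ?_
  set h := (N : ℝ) / 2 - ts N with hh
  have hh1 : (N : ℝ) * (49 / 100) ≤ h := by linarith
  have hh2 : h ≤ (N : ℝ) / 2 := by linarith
  have hh0 : 0 < h := by nlinarith
  have hratio : h / ((N : ℝ) / 100) ≤ 50 := by
    rw [div_le_iff₀ hk]
    linarith
  have hlog : Real.log (h / ((N : ℝ) / 100)) ≤ 4 :=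
    (Real.log_le_log (by positivity) hratio).trans log_fifty_le
  have hexp : -h + (N : ℝ) / 100 + (N : ℝ) / 100 * Real.log (h / ((N : ℝ) / 100))
      ≤ -(0.44 * (N : ℝ)) := by
    have := mul_le_mul_of_nonneg_left hlog hk.le
    norm_num at this ⊢
    linarith
  calc C₁ * (N : ℝ) ^ 4 * (X / Real.log X)
        * Real.exp (-h + (N : ℝ) / 100 + (N : ℝ) / 100 * Real.log (h / ((N : ℝ) / 100)))
      ≤ C₁ * (N : ℝ) ^ 4 * (X / Real.log X) * Real.exp (-(0.44 * (N : ℝ))) := by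
        apply mul_le_mul_of_nonneg_left (Real.exp_le_exp.mpr hexp) (by positivity)
    _ = (C₁ * (N : ℝ) ^ 4 * Real.exp (-(0.44 * (N : ℝ)))) * (X / Real.log X) := by ring
    _ ≤ _ := mul_le_mul_of_nonneg_right h4 hXL.le

end
end NormalCount
end Vale.Agent.Lib.P031V
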