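import Vale.Agent.Lib.P031V.SieveV
import Vale.Agent.Lib.P031V.Params

/-! # P031: the top window of blueprint section 4.
`m ≥ √N` prime factors of `p - 1` of level above `levR X - A` force a divisor `d ≤ √(2X)` with
`k ≈ √N / 2` such prime factors; summing Brun-Titchmarsh over `d` gives `exp (-N^{2/5})`. -/

namespace Vale.Agent.Lib.P031V
open Real Finset
open scoped Classical
noncomputable section

namespace TopW

/-- Elementary symmetric mass. -/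
lemma esymm_le (R : Finset ℕ) (a : ℕ → ℝ) (ha : ∀ r ∈ R, 0 ≤ a r) (k : ℕ) :
    ∑ T ∈ R.powersetCard k, ∏ r ∈ T, a r ≤ Real.exp (3 * ∑ r ∈ R, a r - k) := by
  set t : ℝ := Real.exp 1 with ht
  have htpos : 0 < t := Real.exp_pos 1
  have ht3 : t ≤ 3 := by
    have := Real.exp_one_lt_d9
    rw [ht]; linarith
  have h1 : ∏ r ∈ R, (1 + t * a r) = ∑ T ∈ R.powerset, ∏ r ∈ T, (t * a r) :=
    Finset.prod_one_add R
  have h2 : ∑ T ∈ R.powersetCard k, ∏ r ∈ T, (t * a r) ≤ ∑ T ∈ R.powerset, ∏ r ∈ T, (t * a r) := by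
    apply Finset.sum_le_sum_of_subset_of_nonneg (fun T hT => Finset.mem_powerset.2 (Finset.mem_powersetCard.1 hT).1)
    intro T hT _
    exact Finset.prod_nonneg (fun r hr => mul_nonneg htpos.le (ha r (Finset.mem_powerset.1 hT hr)))
  have h3 : ∑ T ∈ R.powersetCard k, ∏ r ∈ T, (t * a r)
      = t ^ k * ∑ T ∈ R.powersetCard k, ∏ r ∈ T, a r := by
    rw [Finset.mul_sum]
    apply Finset.sum_congr rfl
    intro T hT
    rw [Finset.prod_mul_distrib, Finset.prod_const, (Finset.mem_powersetCard.1 hT).2]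
  have h4 : ∏ r ∈ R, (1 + t * a r) ≤ Real.exp (t * ∑ r ∈ R, a r) := by
    rw [Finset.mul_sum, Real.exp_sum]
    apply Finset.prod_le_prod
    · intro r hr
      have := mul_nonneg htpos.le (ha r hr)
      linarith
    · intro r _
      have := Real.add_one_le_exp (t * a r)
      linarith
  have hsum : 0 ≤ ∑ r ∈ R, a r := Finset.sum_nonneg ha
  have h5 : t ^ k * ∑ T ∈ R.powersetCard k, ∏ r ∈ T, a r ≤ Real.exp (t * ∑ r ∈ R, a r) := by
    rw [← h3]; linarith [h1.ge, h1.le]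
  have htk : t ^ k = Real.exp (k : ℝ) := by
    rw [ht, ← Real.exp_nat_mul]; simp
  have h6 : Real.exp (t * ∑ r ∈ R, a r) ≤ Real.exp (3 * ∑ r ∈ R, a r) :=
    Real.exp_le_exp.2 (mul_le_mul_of_nonneg_right ht3 hsum)
  have h7 : Real.exp (3 * ∑ r ∈ R, a r - k) = Real.exp (3 * ∑ r ∈ R, a r) / Real.exp (k : ℝ) := by
    rw [Real.exp_sub]
  rw [h7, le_div_iff₀ (Real.exp_pos _), ← htk, mul_comm]
  linarith

/-- Half of the prime factors have small product. -/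
lemma exists_half (S : Finset ℕ) (n k : ℕ) (hn : 0 < n) (hS : ∀ r ∈ S, r.Prime ∧ r ∣ n)
    (hk : 2 * k ≤ S.card) : ∃ T ⊆ S, T.card = k ∧ (∏ r ∈ T, r) ^ 2 ≤ n := by
  obtain ⟨T₁, h1, h1c⟩ := Finset.exists_subset_card_eq (show k ≤ S.card by omega)
  have hc : k ≤ (S \ T₁).card := by
    rw [Finset.card_sdiff_of_subset h1]; omega
  obtain ⟨T₂, h2, h2c⟩ := Finset.exists_subset_card_eq hc
  have hdis : Disjoint T₁ T₂ := by
    rw [Finset.disjoint_left]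
    intro r hr hr'
    exact (Finset.mem_sdiff.1 (h2 hr')).2 hr
  have h2S : T₂ ⊆ S := fun r hr => (Finset.mem_sdiff.1 (h2 hr)).1
  have hdvd : ∏ r ∈ T₁ ∪ T₂, r ∣ n := by
    apply Finset.prod_primes_dvd
    · intro r hr
      rcases Finset.mem_union.1 hr with hr | hr
      · exact (hS r (h1 hr)).1.prime
      · exact (hS r (h2S hr)).1.prime
    · intro r hr
      rcases Finset.mem_union.1 hr with hr | hr
      · exact (hS r (h1 hr)).2
      · exact (hS r (h2S hr)).2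
  rw [Finset.prod_union hdis] at hdvd
  have hle := Nat.le_of_dvd hn hdvd
  rcases le_total (∏ r ∈ T₁, r) (∏ r ∈ T₂, r) with h | h
  · refine ⟨T₁, h1, h1c, ?_⟩
    calc (∏ r ∈ T₁, r) ^ 2 = (∏ r ∈ T₁, r) * (∏ r ∈ T₁, r) := by ring
      _ ≤ (∏ r ∈ T₁, r) * (∏ r ∈ T₂, r) := Nat.mul_le_mul_left _ h
      _ ≤ n := hle
  · refine ⟨T₂, h2S, h2c, ?_⟩
    calc (∏ r ∈ T₂, r) ^ 2 = (∏ r ∈ T₂, r) * (∏ r ∈ T₂, r) := by ring
      _ ≤ (∏ r ∈ T₁, r) * (∏ r ∈ T₂, r) := Nat.mul_le_mul_right _ h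
      _ ≤ n := hle

/-- The primes of a progression inject into the cofactors. -/
lemma fiber_card (X : ℝ) (hX : 1 < X) (d : ℕ) (hd : 1 ≤ d) :
    ((Finset.Ioc ⌊X⌋₊ ⌊2 * X⌋₊).filter (fun p => p.Prime ∧ d ∣ p - 1)).card
      ≤ ((Finset.Icc 1 ⌊2 * X / d⌋₊).filter (fun n => (1 + n * d).Prime ∧
          ∀ s : ℕ, s.Prime → s ∣ n → ¬ ((0 : ℝ) < lev s ∧ lev s ≤ 0))).card := by
  have hd0 : 0 < d := hd
  have hdR : (0 : ℝ) < d := by exact_mod_cast hd0
  apply Finset.card_le_card_of_injOn (fun p => (p - 1) / d)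
  · intro p hp
    have hp' := Finset.mem_filter.1 (Finset.mem_coe.1 hp)
    obtain ⟨hpI, hpP, hdvd⟩ := hp'
    have hp2 := hpP.two_le
    obtain ⟨n, hn⟩ := hdvd
    have hq : (p - 1) / d = n := by rw [hn]; exact Nat.mul_div_cancel_left n hd0
    simp only [hq]
    have hp1 : p = 1 + n * d := by
      have : p - 1 + 1 = p := by omega
      rw [← this, hn]; ring
    have hn0 : n ≠ 0 := by
      rintro rfl
      omega
    have hple : p ≤ ⌊2 * X⌋₊ := (Finset.mem_Ioc.1 hpI).2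
    have hple' : (p : ℝ) ≤ 2 * X := by
      have h2X : (0 : ℝ) ≤ 2 * X := by linarith
      exact (Nat.cast_le.2 hple).trans (Nat.floor_le h2X)
    have hnle : n ≤ ⌊2 * X / d⌋₊ := by
      apply Nat.le_floor
      rw [le_div_iff₀ hdR]
      have : (p : ℝ) = 1 + n * d := by rw [hp1]; push_cast; ring
      linarith
    refine Finset.mem_coe.2 (Finset.mem_filter.2 ⟨Finset.mem_Icc.2 ⟨Nat.one_le_iff_ne_zero.2 hn0, hnle⟩, ?_, ?_⟩)
    · rw [← hp1]; exact hpP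
    · intro s _ _ h
      linarith [h.1, h.2]
  · intro p hp p' hp' h
    have hp1 := Finset.mem_filter.1 (Finset.mem_coe.1 hp)
    have hp1' := Finset.mem_filter.1 (Finset.mem_coe.1 hp')
    have e1 : p - 1 = d * ((p - 1) / d) := (Nat.mul_div_cancel' hp1.2.2).symm
    have e2 : p' - 1 = d * ((p' - 1) / d) := (Nat.mul_div_cancel' hp1'.2.2).symm
    simp only at h
    have e3 : p - 1 = p' - 1 := by rw [e1, e2, h]
    have := hp1.2.1.two_le
    have := hp1'.2.1.two_le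
    omega

lemma ev_aux (c d b : ℝ) (hb : 0 < b) :
    ∀ᶠ N : ℕ in Filter.atTop, c * Real.log N + d ≤ (N : ℝ) ^ b := by
  have h1 := ev_log_rpow_le 1 0 b (2 * c) hb
  have h2 := ev_rpow_le 0 b (2 * d) hb
  filter_upwards [h1, h2] with N h1 h2
  simp only [Real.rpow_zero, mul_one, pow_one] at h1 h2
  linarith


/-- The level bound. -/
lemma log_le_of (X y : ℝ) (hX : 1 < X) (hy : y ≤ 2 * Real.log X) (hy0 : 0 < y) :
    Real.log y ≤ Real.log 2 + levR X := by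
  have hLXpos : 0 < Real.log X := Real.log_pos hX
  have : Real.log y ≤ Real.log (2 * Real.log X) := Real.log_le_log hy0 hy
  rw [Real.log_mul (by norm_num) hLXpos.ne'] at this
  exact this

/-- The covering by divisors. -/
lemma cover (X A m : ℝ) (k : ℕ) (hX : 1 < X) (hL : 1 ≤ Real.log X) (hkm : (2 * k : ℝ) ≤ m)
    (hlev : 1 ≤ 2 - Real.log 2) :
    (Finset.Ioc ⌊X⌋₊ ⌊2 * X⌋₊).filter (fun p => p.Prime ∧
        m ≤ ((p - 1).primeFactors.filter (fun r => levR X - A < lev r)).card)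
      ⊆ (((primesLev (levR X - A) (levR X + 2)).powersetCard k).filter
          (fun T => (((∏ r ∈ T, r : ℕ) : ℝ)) ^ 2 ≤ 2 * X)).biUnion
        (fun T => (Finset.Ioc ⌊X⌋₊ ⌊2 * X⌋₊).filter (fun p => p.Prime ∧ (∏ r ∈ T, r) ∣ p - 1)) := by
  have hXpos : 0 < X := by linarith
  have hl2 : Real.log 2 ≤ 1 := by have := Real.log_two_lt_d9; linarith
  have hlog2Xle : Real.log (2 * X) ≤ 2 * Real.log X := by
    rw [Real.log_mul (by norm_num) hXpos.ne']; linarith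
  intro p hp
  obtain ⟨hpI, hpP, hpm⟩ := Finset.mem_filter.1 hp
  have hp2 := hpP.two_le
  have hple : (p : ℝ) ≤ 2 * X :=
    (Nat.cast_le.2 (Finset.mem_Ioc.1 hpI).2).trans (Nat.floor_le (by linarith))
  have hcard : 2 * k ≤ ((p - 1).primeFactors.filter (fun r => levR X - A < lev r)).card := by
    have : ((2 * k : ℕ) : ℝ) ≤ ((p - 1).primeFactors.filter (fun r => levR X - A < lev r)).card := by
      push_cast; linarith
    exact_mod_cast this
  obtain ⟨T, hT, hTc, hTp⟩ := exists_half _ (p - 1) k (by omega) (by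
    intro r hr
    have := Nat.mem_primeFactors.1 (Finset.mem_filter.1 hr).1
    exact ⟨this.1, this.2.1⟩) hcard
  have hp1R : ((p - 1 : ℕ) : ℝ) = (p : ℝ) - 1 := by
    rw [Nat.cast_sub (by omega)]; simp
  refine Finset.mem_biUnion.2 ⟨T, ?_, ?_⟩
  · refine Finset.mem_filter.2 ⟨Finset.mem_powersetCard.2 ⟨?_, hTc⟩, ?_⟩
    · intro r hr
      have hr' := Finset.mem_filter.1 (hT hr)
      have hrf := Nat.mem_primeFactors.1 hr'.1
      have hrP := hrf.1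
      have hrle : r ≤ p - 1 := Nat.le_of_dvd (by omega) hrf.2.1
      have hrleR : (r : ℝ) ≤ 2 * X := by
        have : (r : ℝ) ≤ ((p - 1 : ℕ) : ℝ) := by exact_mod_cast hrle
        rw [hp1R] at this
        linarith
      have hr1 : (1 : ℝ) < r := by exact_mod_cast hrP.one_lt
      have hr0 : (0 : ℝ) < r := by linarith
      have hlogr : 0 < Real.log r := Real.log_pos hr1
      have hlogrle : Real.log r ≤ 2 * Real.log X :=
        (Real.log_le_log hr0 hrleR).trans hlog2Xle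
      have hlevle : lev r ≤ Real.log 2 + levR X := log_le_of X _ hX hlogrle hlogr
      have hlevlt : lev r < levR X + 2 := by linarith
      have hage : levR X - A ≤ lev r := hr'.2.le
      refine Finset.mem_filter.2 ⟨?_, hrP, hage, hlevlt⟩
      rw [Finset.mem_range]
      have hbd : (r : ℝ) < Real.exp (Real.exp (levR X + 2)) := by
        have h1 : Real.log r < Real.exp (levR X + 2) := by
          rw [← Real.exp_log hlogr]; exact Real.exp_lt_exp.2 hlevlt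
        calc (r : ℝ) = Real.exp (Real.log r) := (Real.exp_log hr0).symm
          _ < _ := Real.exp_lt_exp.2 h1
      have := Nat.lt_ceil.2 hbd
      omega
    · have h1 : (((∏ r ∈ T, r : ℕ)) : ℝ) ^ 2 ≤ ((p - 1 : ℕ) : ℝ) := by exact_mod_cast hTp
      rw [hp1R] at h1
      linarith
  · refine Finset.mem_filter.2 ⟨hpI, hpP, ?_⟩
    apply Finset.prod_primes_dvd
    · intro r hr
      exact (Nat.mem_primeFactors.1 (Finset.mem_filter.1 (hT hr)).1).1.prime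
    · intro r hr
      exact (Nat.mem_primeFactors.1 (Finset.mem_filter.1 (hT hr)).1).2.1

/-- The fibre bound, from Brun-Titchmarsh. -/
lemma fib_bound : ∃ Cb Y₀ : ℝ, 0 < Cb ∧ ∀ (X Q : ℝ) (d : ℕ), 1 < X → 1 ≤ Real.log X → 1 ≤ Q →
    1 ≤ d → ((d : ℝ)) ^ 2 ≤ 2 * X → Real.log 2 + levR X ≤ Q → Y₀ ≤ Real.log X / 2 →
    Real.log (Cb * Q) + Real.log 2 ≤ levR X →
    (((Finset.Ioc ⌊X⌋₊ ⌊2 * X⌋₊).filter (fun p => p.Prime ∧ d ∣ p - 1)).card : ℝ)
      ≤ 4 * Cb * Q ^ 3 * (X / Real.log X) * (1 / (d : ℝ)) := by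
  obtain ⟨Cb, Y₀, hCb, hBT⟩ := bt_hole
  refine ⟨Cb, Y₀, hCb, ?_⟩
  intro X Q d hX hL hQ1 hd1 hT2 hxQ hY0 hlogC
  have hXpos : 0 < X := by linarith
  have hLXpos : 0 < Real.log X := by linarith
  have hdR : (0 : ℝ) < d := by exact_mod_cast hd1
  have hd1R : (1 : ℝ) ≤ d := by exact_mod_cast hd1
  have hl2 : Real.log 2 ≤ 1 := by have := Real.log_two_lt_d9; linarith
  have hl0 : 0 < Real.log 2 := Real.log_pos (by norm_num)
  have hlog2X : Real.log (2 * X) = Real.log 2 + Real.log X := by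
    rw [Real.log_mul (by norm_num) hXpos.ne']
  obtain ⟨Y, hY⟩ : ∃ Y : ℝ, Y = 2 * X / d := ⟨_, rfl⟩
  have hYpos : 0 < Y := by rw [hY]; positivity
  have hlogY : Real.log Y = Real.log (2 * X) - Real.log d := by
    rw [hY, Real.log_div (by positivity) hdR.ne']
  have hlogd0 : 0 ≤ Real.log d := Real.log_nonneg hd1R
  have hlogd : 2 * Real.log d ≤ Real.log (2 * X) := by
    have h1 : Real.log ((d : ℝ) ^ 2) ≤ Real.log (2 * X) := Real.log_le_log (by positivity) hT2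
    rwa [Real.log_pow] at h1
  have hlogYge : Real.log X / 2 ≤ Real.log Y := by rw [hlogY]; linarith
  have hlogYle : Real.log Y ≤ 2 * Real.log X := by rw [hlogY]; linarith
  have hlogYpos : 0 < Real.log Y := by linarith
  have hlevY : levR Y ≤ Real.log 2 + levR X := log_le_of X _ hX hlogYle hlogYpos
  have hlevYge : levR X - Real.log 2 ≤ levR Y := by
    have h1 : Real.log (Real.log X / 2) ≤ Real.log (Real.log Y) :=
      Real.log_le_log (by positivity) hlogYge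
    rw [Real.log_div hLXpos.ne' (by norm_num)] at h1
    exact h1
  have hlevd : levR (d : ℝ) ≤ Q := by
    by_cases hd1' : d = 1
    · rw [hd1']; simp [levR]; linarith
    · have hd2 : (1 : ℝ) < d := by
        have : 1 < d := by omega
        exact_mod_cast this
      have h0 : 0 < Real.log d := Real.log_pos hd2
      have h1 : Real.log d ≤ 2 * Real.log X := by linarith
      exact (log_le_of X _ hX h1 h0).trans hxQ
  have hYge : Y₀ ≤ Y := by
    have h1 : Real.exp (Real.log Y) = Y := Real.exp_log hYpos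
    have h2 : Real.log Y ≤ Y := by
      have := Real.add_one_le_exp (Real.log Y)
      rw [h1] at this
      linarith
    linarith
  have hB := hBT Y Q 0 0 d hYge hd1 hQ1 hlevd (hlevY.trans hxQ) le_rfl le_rfl
    (by linarith)
  have hcard : (((Finset.Ioc ⌊X⌋₊ ⌊2 * X⌋₊).filter (fun p => p.Prime ∧ d ∣ p - 1)).card : ℝ)
      ≤ ((Finset.Icc 1 ⌊Y⌋₊).filter (fun n => (1 + n * d).Prime ∧
        ∀ s : ℕ, s.Prime → s ∣ n → ¬ ((0 : ℝ) < lev s ∧ lev s ≤ 0))).card := by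
    have := fiber_card X hX d hd1
    rw [← hY] at this
    exact_mod_cast this
  refine (hcard.trans hB).trans ?_
  have hsimp : Real.exp (-((0 : ℝ) - 0)) = 1 := by simp
  rw [hsimp, mul_one]
  have hQ3 : 0 ≤ Q ^ 3 := by positivity
  have hinv : Cb * Y * Q ^ 3 / Real.log Y ≤ Cb * Y * Q ^ 3 / (Real.log X / 2) := by
    apply div_le_div_of_nonneg_left (by positivity) (by positivity) hlogYge
  refine hinv.trans (le_of_eq ?_)
  rw [hY]
  field_simp
  ring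

/-- The sum over the covering family. -/
lemma sum_bound (X K h : ℝ) (R : Finset ℕ) (k : ℕ) (hK : 0 ≤ K)
    (hRsum : ∑ r ∈ R, (1 : ℝ) / (r : ℝ) ≤ h)
    (hfib : ∀ T ∈ (R.powersetCard k).filter (fun T => (((∏ r ∈ T, r : ℕ) : ℝ)) ^ 2 ≤ 2 * X),
      (((Finset.Ioc ⌊X⌋₊ ⌊2 * X⌋₊).filter (fun p => p.Prime ∧ (∏ r ∈ T, r) ∣ p - 1)).card : ℝ)
        ≤ K * ∏ r ∈ T, ((1 : ℝ) / (r : ℝ))) :
    ((((R.powersetCard k).filter (fun T => (((∏ r ∈ T, r : ℕ) : ℝ)) ^ 2 ≤ 2 * X)).biUnion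
        (fun T => (Finset.Ioc ⌊X⌋₊ ⌊2 * X⌋₊).filter (fun p => p.Prime ∧ (∏ r ∈ T, r) ∣ p - 1))).card : ℝ)
      ≤ K * Real.exp (3 * h - k) := by
  have h1 : ((((R.powersetCard k).filter (fun T => (((∏ r ∈ T, r : ℕ) : ℝ)) ^ 2 ≤ 2 * X)).biUnion
        (fun T => (Finset.Ioc ⌊X⌋₊ ⌊2 * X⌋₊).filter (fun p => p.Prime ∧ (∏ r ∈ T, r) ∣ p - 1))).card : ℝ)
      ≤ ∑ T ∈ (R.powersetCard k).filter (fun T => (((∏ r ∈ T, r : ℕ) : ℝ)) ^ 2 ≤ 2 * X),
        (((Finset.Ioc ⌊X⌋₊ ⌊2 * X⌋₊).filter (fun p => p.Prime ∧ (∏ r ∈ T, r) ∣ p - 1)).card : ℝ) := by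
    exact_mod_cast Finset.card_biUnion_le
  have h2 := Finset.sum_le_sum hfib
  have h3 : ∑ T ∈ (R.powersetCard k).filter (fun T => (((∏ r ∈ T, r : ℕ) : ℝ)) ^ 2 ≤ 2 * X),
        ∏ r ∈ T, ((1 : ℝ) / (r : ℝ))
      ≤ ∑ T ∈ R.powersetCard k, ∏ r ∈ T, ((1 : ℝ) / (r : ℝ)) := by
    apply Finset.sum_le_sum_of_subset_of_nonneg (Finset.filter_subset _ _)
    intro T _ _
    exact Finset.prod_nonneg (fun r _ => by positivity)
  have h4 := esymm_le R (fun r => (1 : ℝ) / (r : ℝ)) (fun r _ => by positivity) k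
  have h5 : Real.exp (3 * ∑ r ∈ R, (1 : ℝ) / (r : ℝ) - k) ≤ Real.exp (3 * h - k) :=
    Real.exp_le_exp.2 (by linarith)
  rw [← Finset.mul_sum] at h2
  calc _ ≤ _ := h1
    _ ≤ _ := h2
    _ ≤ _ := mul_le_mul_of_nonneg_left (h3.trans (h4.trans h5)) hK

/-- Mass of the window. -/
lemma window_mass : ∃ a₁ : ℝ, ∀ a b : ℝ, a₁ ≤ a → a ≤ b →
    ∑ r ∈ primesLev a b, (1 : ℝ) / (r : ℝ) ≤ b - a + 1 := by
  obtain ⟨CM, a₀, hCM, hM⟩ := mert_interval
  refine ⟨max a₀ (Real.log CM), ?_⟩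
  intro a b haa₁ hab
  have h1 := hM a b (le_trans (le_max_left _ _) haa₁) hab
  have h2 : CM * Real.exp (-a) ≤ 1 := by
    have hle : Real.log CM ≤ a := le_trans (le_max_right _ _) haa₁
    calc CM * Real.exp (-a) = Real.exp (Real.log CM - a) := by
          rw [Real.exp_sub, Real.exp_log hCM, Real.exp_neg]; rfl
      _ ≤ Real.exp 0 := Real.exp_le_exp.2 (by linarith)
      _ = 1 := Real.exp_zero
  have h3 := (abs_le.1 h1).2
  have hle : ∑ r ∈ primesLev a b, (1 : ℝ) / (r : ℝ) ≤ massI a b := by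
    unfold massI
    apply Finset.sum_le_sum
    intro r hr
    have hrP : r.Prime := (Finset.mem_filter.1 hr).2.1
    have hr2 : (2 : ℝ) ≤ r := by exact_mod_cast hrP.two_le
    apply one_div_le_one_div_of_le (by linarith) (by linarith)
  linarith

/-- Numerics at the end. -/
lemma final_num (C₀ Cb : ℝ) (hC₀ : 0 < C₀) (hCb : 0 < Cb) (N : ℕ) (hN1 : 1 ≤ N) (A k Q c₃ : ℝ)
    (hc₃ : c₃ = Real.log (1372 * Cb) + 6 * Real.log C₀ + 10)
    (hA2 : A ≤ 2 * Real.log (C₀ * N)) (hQ : Q = (N : ℝ) + 6)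
    (he4 : 4 * (N : ℝ) ^ ((2 : ℝ) / 5) ≤ (N : ℝ) ^ ((1 : ℝ) / 2))
    (he5 : 36 * Real.log N + 4 * c₃ ≤ (N : ℝ) ^ ((1 : ℝ) / 2))
    (hk2 : (N : ℝ) ^ ((1 : ℝ) / 2) / 2 - 1 ≤ k) :
    4 * Cb * Q ^ 3 * Real.exp (3 * (A + 3) - k) ≤ Real.exp (-(N : ℝ) ^ ((2 : ℝ) / 5)) := by
  have hN1R : (1 : ℝ) ≤ N := by exact_mod_cast hN1
  have hNpos : (0 : ℝ) < N := by linarith
  have hQ7 : Q ≤ 7 * N := by rw [hQ]; linarith
  have hQpos : 0 ≤ Q := by rw [hQ]; linarith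
  have hQ3 : Q ^ 3 ≤ 343 * (N : ℝ) ^ 3 := by
    calc Q ^ 3 ≤ (7 * (N : ℝ)) ^ 3 := pow_le_pow_left₀ hQpos hQ7 3
      _ = _ := by ring
  have hb1 : 4 * Cb * Q ^ 3 ≤ Real.exp (Real.log (1372 * Cb) + 3 * Real.log N) := by
    rw [Real.exp_add, Real.exp_log (by positivity)]
    have : Real.exp (3 * Real.log N) = (N : ℝ) ^ 3 := by
      rw [← Real.exp_log hNpos, ← Real.exp_nat_mul]
      simp
    rw [this]
    nlinarith
  have hA3 : 3 * (A + 3) ≤ 6 * Real.log C₀ + 6 * Real.log N + 9 := by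
    have : A ≤ 2 * (Real.log C₀ + Real.log N) := by
      rw [← Real.log_mul hC₀.ne' hNpos.ne']; exact hA2
    linarith
  calc 4 * Cb * Q ^ 3 * Real.exp (3 * (A + 3) - k)
      ≤ Real.exp (Real.log (1372 * Cb) + 3 * Real.log N) * Real.exp (3 * (A + 3) - k) :=
        mul_le_mul_of_nonneg_right hb1 (Real.exp_pos _).le
    _ = Real.exp (Real.log (1372 * Cb) + 3 * Real.log N + (3 * (A + 3) - k)) :=
        (Real.exp_add _ _).symm
    _ ≤ _ := Real.exp_le_exp.2 (by rw [hc₃] at he5; linarith)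

end TopW

open TopW in
/-- Top window, with any constant in the bound on `A`. -/
theorem top_window_gen (C₀ : ℝ) (hC₀ : 0 < C₀) : ∃ N₀ : ℕ, ∀ (N : ℕ) (X A m : ℝ), N₀ ≤ N → 1 < X →
    t0 N ≤ levR X → levR X ≤ N + 5 → 1 ≤ A → A ≤ 2 * Real.log (C₀ * N) →
    (N : ℝ) ^ ((1 : ℝ) / 2) ≤ m →
    (((Finset.Ioc ⌊X⌋₊ ⌊2 * X⌋₊).filter (fun p => p.Prime ∧
        m ≤ ((p - 1).primeFactors.filter (fun r => levR X - A < lev r)).card)).card : ℝ)
      ≤ (X / Real.log X) * Real.exp (-(N : ℝ) ^ ((2 : ℝ) / 5)) := by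
  obtain ⟨Cb, Y₀, hCb, hfibb⟩ := fib_bound
  obtain ⟨a₁, hmass⟩ := window_mass
  obtain ⟨c₃, hc₃⟩ : ∃ c₃ : ℝ, c₃ = Real.log (1372 * Cb) + 6 * Real.log C₀ + 10 := ⟨_, rfl⟩
  have hev : ∀ᶠ N : ℕ in Filter.atTop, (1 ≤ N) ∧
      (2 * Real.log N + (a₁ + 2 * Real.log C₀) ≤ (N : ℝ) ^ ((4 : ℝ) / 5)) ∧
      (1 * Real.log N + (Real.log (7 * Cb) + Real.log 2 + 1) ≤ (N : ℝ) ^ ((4 : ℝ) / 5)) ∧
      (0 * Real.log N + (2 * |Y₀| + 2) ≤ (N : ℝ) ^ ((4 : ℝ) / 5)) ∧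
      (4 * (N : ℝ) ^ ((2 : ℝ) / 5) ≤ (N : ℝ) ^ ((1 : ℝ) / 2)) ∧
      (36 * Real.log N + 4 * c₃ ≤ (N : ℝ) ^ ((1 : ℝ) / 2)) := by
    filter_upwards [Filter.eventually_ge_atTop 1, ev_aux 2 (a₁ + 2 * Real.log C₀) (4 / 5) (by norm_num),
      ev_aux 1 (Real.log (7 * Cb) + Real.log 2 + 1) (4 / 5) (by norm_num),
      ev_aux 0 (2 * |Y₀| + 2) (4 / 5) (by norm_num),
      ev_rpow_le (2 / 5) (1 / 2) 4 (by norm_num),
      ev_aux 36 (4 * c₃) (1 / 2) (by norm_num)] with N h1 h2 h3 h4 h5 h6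
    exact ⟨h1, h2, h3, h4, h5, h6⟩
  obtain ⟨N₀, hN₀⟩ := Filter.eventually_atTop.1 hev
  refine ⟨N₀, ?_⟩
  intro N X A m hN hX hlo hhi hA1 hA2 hm
  obtain ⟨hN1, he1, he2, he3, he4, he5⟩ := hN₀ N hN
  have hNpos : (0 : ℝ) < N := by exact_mod_cast hN1
  have hN1R : (1 : ℝ) ≤ N := by exact_mod_cast hN1
  have hlogN : 0 ≤ Real.log N := Real.log_natCast_nonneg N
  have ht0 : t0 N = (N : ℝ) ^ ((4 : ℝ) / 5) := rfl
  rw [ht0] at hlo
  have hl0 : 0 < Real.log 2 := Real.log_pos (by norm_num)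
  have hl2 : Real.log 2 ≤ 1 := by have := Real.log_two_lt_d9; linarith
  have hLXpos : 0 < Real.log X := Real.log_pos hX
  have hexpx : Real.exp (levR X) = Real.log X := Real.exp_log hLXpos
  have hx1 : 1 ≤ levR X := by
    have : 0 ≤ |Y₀| := abs_nonneg _
    linarith
  have hxL : levR X ≤ Real.log X := by
    rw [← hexpx]
    have := Real.add_one_le_exp (levR X)
    linarith
  have hL1 : 1 ≤ Real.log X := by linarith
  have hXpos : 0 < X := by linarith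
  obtain ⟨k, hk⟩ : ∃ k : ℕ, k = ⌊(N : ℝ) ^ ((1 : ℝ) / 2) / 2⌋₊ := ⟨_, rfl⟩
  have hk0 : 0 ≤ (N : ℝ) ^ ((1 : ℝ) / 2) / 2 := by positivity
  have hk1 : (k : ℝ) ≤ (N : ℝ) ^ ((1 : ℝ) / 2) / 2 := by rw [hk]; exact Nat.floor_le hk0
  have hk2 : (N : ℝ) ^ ((1 : ℝ) / 2) / 2 - 1 ≤ k := by
    have := Nat.lt_floor_add_one ((N : ℝ) ^ ((1 : ℝ) / 2) / 2)
    rw [← hk] at this
    linarith
  obtain ⟨Q, hQ⟩ : ∃ Q : ℝ, Q = (N : ℝ) + 6 := ⟨_, rfl⟩
  have hQ1 : 1 ≤ Q := by rw [hQ]; linarith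
  have hxQ : Real.log 2 + levR X ≤ Q := by rw [hQ]; linarith
  have hA2' : A ≤ 2 * (Real.log C₀ + Real.log N) := by
    rw [← Real.log_mul hC₀.ne' hNpos.ne']; exact hA2
  have haa₁ : a₁ ≤ levR X - A := by linarith
  have hRsum : ∑ r ∈ primesLev (levR X - A) (levR X + 2), (1 : ℝ) / (r : ℝ) ≤ A + 3 := by
    have := hmass (levR X - A) (levR X + 2) haa₁ (by linarith)
    linarith
  have hlogC : Real.log (Cb * Q) + Real.log 2 ≤ levR X := by
    have h1 : Cb * Q ≤ 7 * Cb * N := by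
      rw [hQ]; nlinarith
    have h2 : Real.log (Cb * Q) ≤ Real.log (7 * Cb * N) :=
      Real.log_le_log (by rw [hQ]; positivity) h1
    rw [Real.log_mul (by positivity) hNpos.ne'] at h2
    linarith
  have hY0 : Y₀ ≤ Real.log X / 2 := by
    have := le_abs_self Y₀
    linarith
  have hcov := cover X A m k hX hL1 (by linarith) (by linarith)
  have hKnn : 0 ≤ 4 * Cb * Q ^ 3 * (X / Real.log X) := by positivity
  have hsum := sum_bound X (4 * Cb * Q ^ 3 * (X / Real.log X)) (A + 3)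
    (primesLev (levR X - A) (levR X + 2)) k hKnn hRsum (by
      intro T hT
      obtain ⟨hT1, hT2⟩ := Finset.mem_filter.1 hT
      have hTR := (Finset.mem_powersetCard.1 hT1).1
      have hpos : 0 < ∏ r ∈ T, r :=
        Finset.prod_pos (fun r hr => (Finset.mem_filter.1 (hTR hr)).2.1.pos)
      have h := hfibb X Q (∏ r ∈ T, r) hX hL1 hQ1 hpos hT2 hxQ hY0 hlogC
      have hprod : ∏ r ∈ T, ((1 : ℝ) / (r : ℝ)) = 1 / ((∏ r ∈ T, r : ℕ) : ℝ) := by
        push_cast; rw [Finset.prod_div_distrib]; simp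
      rw [hprod]
      exact h)
  have hfinal := final_num C₀ Cb hC₀ hCb N hN1 A k Q c₃ hc₃ hA2 hQ he4 he5 hk2
  have hXLX : 0 ≤ X / Real.log X := by positivity
  have hcard := Finset.card_le_card hcov
  have hcardR := (Nat.cast_le (α := ℝ)).2 hcard
  calc _ ≤ _ := hcardR
    _ ≤ _ := hsum
    _ = (X / Real.log X) * (4 * Cb * Q ^ 3 * Real.exp (3 * (A + 3) - k)) := by ring
    _ ≤ _ := mul_le_mul_of_nonneg_left hfinal hXLX

/-- Top window as in the stub (with the hypothesis `1 < X`). -/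
theorem top_window_proved : ∃ C N₀ : ℝ, 0 < C ∧ ∀ (N : ℕ) (X A m : ℝ), N₀ ≤ N → 1 < X → t0 N ≤ levR X →
    levR X ≤ N + 5 → 1 ≤ A → A ≤ 2 * Real.log (C * N) → (N : ℝ) ^ ((1 : ℝ) / 2) ≤ m →
    (((Finset.Ioc ⌊X⌋₊ ⌊2 * X⌋₊).filter (fun p => p.Prime ∧
        m ≤ ((p - 1).primeFactors.filter (fun r => levR X - A < lev r)).card)).card : ℝ)
      ≤ (X / Real.log X) * Real.exp (-(N : ℝ) ^ ((2 : ℝ) / 5)) := by
  obtain ⟨N₀, h⟩ := top_window_gen 1 one_pos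
  refine ⟨1, N₀, one_pos, ?_⟩
  intro N X A m hN hX h1 h2 h3 h4 h5
  exact h N X A m (by exact_mod_cast hN) hX h1 h2 h3 h4 h5

end
end Vale.Agent.Lib.P031V
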