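import Vale.Agent.Lib.P031V.NormalPTop

/-! # P031: upper tail of the number of prime factors of `p - 1` in a level interval (blueprint section 4).
Truncated moment method: for `K ≤ W`, `t ^ K ≤ ∑_{U ⊆ S, |U| ≤ K} (t - 1) ^ |U|`, and all the divisors `∏ U`
are below `√(2X)` since the primes of the level interval are below `X ^ (1 / (C N))`. No exceptional set. -/

namespace Vale.Agent.Lib.P031V
open Real Finset
open scoped Classical
noncomputable section

namespace UpperT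

/-- Primes of level in `(a, y]`. -/
def Iset (a y : ℝ) : Finset ℕ :=
  (primesLev a (y + Real.exp (-a))).filter (fun r => a < lev r ∧ lev r ≤ y)

lemma mem_Iset {a y : ℝ} {r : ℕ} (hr : r.Prime) (h1 : a < lev r) (h2 : lev r ≤ y) : r ∈ Iset a y := by
  have hlevlt : lev r < y + Real.exp (-a) := by
    have := Real.exp_pos (-a)
    linarith
  have hr1 : (1 : ℝ) < r := by exact_mod_cast hr.one_lt
  have hr0 : (0 : ℝ) < r := by linarith
  have hlogr : 0 < Real.log r := Real.log_pos hr1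
  refine Finset.mem_filter.2 ⟨Finset.mem_filter.2 ⟨?_, hr, h1.le, hlevlt⟩, h1, h2⟩
  rw [Finset.mem_range]
  have hbd : (r : ℝ) < Real.exp (Real.exp (y + Real.exp (-a))) := by
    have h1 : Real.log r < Real.exp (y + Real.exp (-a)) := by
      rw [← Real.exp_log hlogr]; exact Real.exp_lt_exp.2 hlevlt
    calc (r : ℝ) = Real.exp (Real.log r) := (Real.exp_log hr0).symm
      _ < _ := Real.exp_lt_exp.2 h1
  have := Nat.lt_ceil.2 hbd
  omega

lemma mass_I : ∃ E a₀ : ℝ, 0 < E ∧ ∀ a y : ℝ, a₀ ≤ a → a ≤ y →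
    ∑ r ∈ Iset a y, (1 : ℝ) / (r : ℝ) ≤ (y - a) + E * Real.exp (-a) := by
  obtain ⟨CM, a₀, hCM, hM⟩ := mert_interval
  refine ⟨CM + 1, a₀, by linarith, ?_⟩
  intro a y ha hay
  have hexp := Real.exp_pos (-a)
  have h1 := hM a (y + Real.exp (-a)) ha (by linarith)
  have h3 := (abs_le.1 h1).2
  have hle : ∑ r ∈ Iset a y, (1 : ℝ) / (r : ℝ) ≤ massI a (y + Real.exp (-a)) := by
    unfold massI Iset
    refine le_trans (Finset.sum_le_sum_of_subset_of_nonneg (Finset.filter_subset _ _) ?_) ?_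
    · intro r _ _
      positivity
    · apply Finset.sum_le_sum
      intro r hr
      have hrP : r.Prime := (Finset.mem_filter.1 hr).2.1
      have hr2 : (2 : ℝ) ≤ r := by exact_mod_cast hrP.two_le
      apply one_div_le_one_div_of_le (by linarith) (by linarith)
  nlinarith

/-- The truncated moment inequality. -/
lemma moment_bound (I P : Finset ℕ) (S : ℕ → Finset ℕ) (hS : ∀ p ∈ P, S p ⊆ I) (K : ℕ) (t : ℝ)
    (ht : 1 ≤ t) (hcard : ∀ p ∈ P, K ≤ (S p).card) :
    t ^ K * (P.card : ℝ) ≤ ∑ U ∈ I.powerset.filter (fun U => U.card ≤ K),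
      (t - 1) ^ U.card * ((P.filter (fun p => U ⊆ S p)).card : ℝ) := by
  have ht0 : 0 ≤ t - 1 := by linarith
  have h1 : ∑ U ∈ I.powerset.filter (fun U => U.card ≤ K),
        (t - 1) ^ U.card * ((P.filter (fun p => U ⊆ S p)).card : ℝ)
      = ∑ p ∈ P, ∑ U ∈ I.powerset.filter (fun U => U.card ≤ K),
        if U ⊆ S p then (t - 1) ^ U.card else 0 := by
    rw [Finset.sum_comm]
    apply Finset.sum_congr rfl
    intro U _
    rw [Finset.card_filter]
    push_cast
    rw [Finset.mul_sum]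
    apply Finset.sum_congr rfl
    intro p _
    split_ifs <;> simp
  have h2 : t ^ K * (P.card : ℝ) = ∑ p ∈ P, t ^ K := by
    rw [Finset.sum_const, nsmul_eq_mul, mul_comm]
  rw [h1, h2]
  apply Finset.sum_le_sum
  intro p hp
  obtain ⟨T, hT, hTc⟩ := Finset.exists_subset_card_eq (hcard p hp)
  have h3 : t ^ K = ∑ U ∈ T.powerset, (t - 1) ^ U.card := by
    have := Finset.prod_one_add (f := fun _ : ℕ => t - 1) T
    simp only [Finset.prod_const] at this
    rw [← this, ← hTc]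
    congr 1
    ring
  rw [h3]
  have h4 : ∑ U ∈ T.powerset, (t - 1) ^ U.card
      = ∑ U ∈ T.powerset, if U ⊆ S p then (t - 1) ^ U.card else 0 := by
    apply Finset.sum_congr rfl
    intro U hU
    rw [if_pos ((Finset.mem_powerset.1 hU).trans hT)]
  rw [h4]
  apply Finset.sum_le_sum_of_subset_of_nonneg
  · intro U hU
    have hU' := Finset.mem_powerset.1 hU
    refine Finset.mem_filter.2 ⟨Finset.mem_powerset.2 (hU'.trans (hT.trans (hS p hp))), ?_⟩
    have := Finset.card_le_card hU'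
    omega
  · intro U _ _
    split_ifs
    · positivity
    · exact le_rfl

lemma prod_bound (I : Finset ℕ) (c : ℝ) (hc : 0 ≤ c) (K : ℕ) :
    ∑ U ∈ I.powerset.filter (fun U => U.card ≤ K), c ^ U.card * ∏ r ∈ U, ((1 : ℝ) / (r : ℝ))
      ≤ Real.exp (c * ∑ r ∈ I, (1 : ℝ) / (r : ℝ)) := by
  have h1 : ∑ U ∈ I.powerset.filter (fun U => U.card ≤ K), c ^ U.card * ∏ r ∈ U, ((1 : ℝ) / (r : ℝ))
      ≤ ∑ U ∈ I.powerset, ∏ r ∈ U, (c * ((1 : ℝ) / (r : ℝ))) := by
    have h2 : ∀ U : Finset ℕ, c ^ U.card * ∏ r ∈ U, ((1 : ℝ) / (r : ℝ))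
        = ∏ r ∈ U, (c * ((1 : ℝ) / (r : ℝ))) := by
      intro U
      rw [Finset.prod_mul_distrib, Finset.prod_const]
    simp only [h2]
    apply Finset.sum_le_sum_of_subset_of_nonneg (Finset.filter_subset _ _)
    intro U _ _
    exact Finset.prod_nonneg (fun r _ => by positivity)
  refine h1.trans ?_
  rw [← Finset.prod_one_add, Finset.mul_sum, Real.exp_sum]
  apply Finset.prod_le_prod
  · intro r _
    positivity
  · intro r _
    have := Real.add_one_le_exp (c * ((1 : ℝ) / (r : ℝ)))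
    linarith

/-- Size of the divisors. -/
lemma d_sq_le (X y C : ℝ) (N : ℕ) (U : Finset ℕ) (hX : 1 < X) (hN : 1 ≤ N) (hC : 8 ≤ C)
    (hU : ∀ r ∈ U, r.Prime ∧ lev r ≤ y) (hUc : (U.card : ℝ) ≤ 4 * N)
    (hy : Real.exp y ≤ Real.log X / (C * N)) :
    (((∏ r ∈ U, r : ℕ)) : ℝ) ^ 2 ≤ 2 * X := by
  have hNpos : (0 : ℝ) < N := by exact_mod_cast hN
  have hCpos : 0 < C := by linarith
  have hL : 0 < Real.log X := Real.log_pos hX
  have hdpos : (0 : ℝ) < ((∏ r ∈ U, r : ℕ) : ℝ) := by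
    have : 0 < ∏ r ∈ U, r := Finset.prod_pos (fun r hr => (hU r hr).1.pos)
    exact_mod_cast this
  have hlog : Real.log ((∏ r ∈ U, r : ℕ) : ℝ) ≤ (U.card : ℝ) * Real.exp y := by
    have h1 : Real.log ((∏ r ∈ U, r : ℕ) : ℝ) = ∑ r ∈ U, Real.log r := by
      rw [Nat.cast_prod, Real.log_prod]
      intro r hr
      have := (hU r hr).1.pos
      exact_mod_cast this.ne'
    rw [h1]
    have h2 : ∑ r ∈ U, Real.log r ≤ ∑ _r ∈ U, Real.exp y := by
      apply Finset.sum_le_sum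
      intro r hr
      have hr1 : (1 : ℝ) < r := by exact_mod_cast (hU r hr).1.one_lt
      have hlogr : 0 < Real.log r := Real.log_pos hr1
      have : Real.exp (lev r) = Real.log r := Real.exp_log hlogr
      rw [← this]
      exact Real.exp_le_exp.2 (hU r hr).2
    rw [Finset.sum_const, nsmul_eq_mul] at h2
    exact h2
  have hexpy := Real.exp_pos y
  have hlog2 : 2 * Real.log ((∏ r ∈ U, r : ℕ) : ℝ) ≤ Real.log X := by
    have h3 : (U.card : ℝ) * Real.exp y ≤ 4 * N * (Real.log X / (C * N)) :=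
      mul_le_mul hUc hy hexpy.le (by positivity)
    have h4 : 4 * (N : ℝ) * (Real.log X / (C * N)) = 4 * Real.log X / C := by
      field_simp
    rw [h4] at h3
    have h5 : 4 * Real.log X / C ≤ Real.log X / 2 := by
      rw [div_le_div_iff₀ hCpos (by norm_num)]
      nlinarith
    linarith
  have hlogsq : Real.log (((∏ r ∈ U, r : ℕ) : ℝ) ^ 2) ≤ Real.log X := by
    rw [Real.log_pow]; push_cast; push_cast at hlog2; linarith
  have hle : (((∏ r ∈ U, r : ℕ)) : ℝ) ^ 2 ≤ X :=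
    (Real.log_le_log_iff (by positivity) (by linarith)).1 hlogsq
  linarith

/-- The moment sum over the family of divisors. -/
lemma core_moment (I P : Finset ℕ) (S : ℕ → Finset ℕ) (hS : ∀ p ∈ P, S p ⊆ I) (K : ℕ) (t Kb : ℝ)
    (ht : 1 ≤ t) (hcard : ∀ p ∈ P, K ≤ (S p).card) (hKb : 0 ≤ Kb)
    (hfib : ∀ U ∈ I.powerset.filter (fun U => U.card ≤ K),
      ((P.filter (fun p => U ⊆ S p)).card : ℝ) ≤ Kb * ∏ r ∈ U, ((1 : ℝ) / (r : ℝ))) :
    t ^ K * (P.card : ℝ) ≤ Kb * Real.exp ((t - 1) * ∑ r ∈ I, (1 : ℝ) / (r : ℝ)) := by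
  have ht0 : 0 ≤ t - 1 := by linarith
  refine (moment_bound I P S hS K t ht hcard).trans ?_
  have h1 : ∑ U ∈ I.powerset.filter (fun U => U.card ≤ K),
        (t - 1) ^ U.card * ((P.filter (fun p => U ⊆ S p)).card : ℝ)
      ≤ ∑ U ∈ I.powerset.filter (fun U => U.card ≤ K),
        Kb * ((t - 1) ^ U.card * ∏ r ∈ U, ((1 : ℝ) / (r : ℝ))) := by
    apply Finset.sum_le_sum
    intro U hU
    have := mul_le_mul_of_nonneg_left (hfib U hU) (pow_nonneg ht0 U.card)
    linarith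
  rw [← Finset.mul_sum] at h1
  exact h1.trans (mul_le_mul_of_nonneg_left (prod_bound I (t - 1) ht0 K) hKb)

/-- Numerics of Markov. -/
lemma tail_num (Pc Kb t k h M E s : ℝ) (K : ℕ) (hKb : 0 ≤ Kb) (hh : 0 < h) (hk : h ≤ k)
    (ht : t = k / h) (hkK : k ≤ K) (hM : M ≤ h + E * Real.exp (-s)) (hE : 0 ≤ E)
    (hts : k ≤ Real.exp s * h)
    (hmain : t ^ K * Pc ≤ Kb * Real.exp ((t - 1) * M)) :
    Pc ≤ Kb * Real.exp E * Real.exp (k - h - k * Real.log (k / h)) := by
  have hkpos : 0 < k := by linarith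
  have ht1 : 1 ≤ t := by rw [ht, le_div_iff₀ hh]; linarith
  have htpos : 0 < t := by linarith
  have hlogt : 0 ≤ Real.log t := Real.log_nonneg ht1
  have hpow : t ^ K = Real.exp (K * Real.log t) := by
    rw [Real.exp_nat_mul, Real.exp_log htpos]
  have hexp1 : Real.exp (k * Real.log t) ≤ t ^ K := by
    rw [hpow]
    exact Real.exp_le_exp.2 (mul_le_mul_of_nonneg_right hkK hlogt)
  have htes : t * Real.exp (-s) ≤ 1 := by
    have h1 : t ≤ Real.exp s := by rw [ht, div_le_iff₀ hh]; exact hts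
    calc t * Real.exp (-s) ≤ Real.exp s * Real.exp (-s) :=
          mul_le_mul_of_nonneg_right h1 (Real.exp_pos _).le
      _ = 1 := by rw [← Real.exp_add]; simp
  have hexpo : (t - 1) * M ≤ k - h + E := by
    have h1 : (t - 1) * M ≤ (t - 1) * (h + E * Real.exp (-s)) :=
      mul_le_mul_of_nonneg_left hM (by linarith)
    have h2 : (t - 1) * h = k - h := by rw [ht]; field_simp
    have h3 : (t - 1) * (E * Real.exp (-s)) ≤ E := by
      have hes := Real.exp_pos (-s)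
      have h4 : (t - 1) * (E * Real.exp (-s)) ≤ t * (E * Real.exp (-s)) :=
        mul_le_mul_of_nonneg_right (by linarith) (by positivity)
      have h5 : t * (E * Real.exp (-s)) = E * (t * Real.exp (-s)) := by ring
      have h6 : E * (t * Real.exp (-s)) ≤ E * 1 := mul_le_mul_of_nonneg_left htes hE
      linarith
    nlinarith
  by_cases hPc : Pc ≤ 0
  · have : 0 ≤ Kb * Real.exp E * Real.exp (k - h - k * Real.log (k / h)) := by positivity
    linarith
  push Not at hPc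
  have h7 : Real.exp (k * Real.log t) * Pc ≤ Kb * Real.exp (k - h + E) := by
    calc Real.exp (k * Real.log t) * Pc ≤ t ^ K * Pc := mul_le_mul_of_nonneg_right hexp1 hPc.le
      _ ≤ _ := hmain
      _ ≤ _ := mul_le_mul_of_nonneg_left (Real.exp_le_exp.2 hexpo) hKb
  have h8 : Kb * Real.exp E * Real.exp (k - h - k * Real.log (k / h)) * Real.exp (k * Real.log t)
      = Kb * Real.exp (k - h + E) := by
    rw [← ht, mul_assoc, mul_assoc, ← Real.exp_add, ← Real.exp_add]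
    congr 2
    ring
  have h9 : Pc * Real.exp (k * Real.log t) ≤
      Kb * Real.exp E * Real.exp (k - h - k * Real.log (k / h)) * Real.exp (k * Real.log t) := by
    rw [h8, mul_comm]; exact h7
  exact le_of_mul_le_mul_right h9 (Real.exp_pos _)

end UpperT

open UpperT in
/-- Upper tail, without exceptional set, for `k ≤ 3 N`. -/
theorem upper_tail_proved : ∃ C N₀ : ℝ, 0 < C ∧ ∀ (N : ℕ) (X y k : ℝ), N₀ ≤ N → 1 < X → t0 N ≤ levR X →
    levR X ≤ N + 5 → ts N ≤ y → y ≤ levR X - Real.log (C * N) → y - ts N ≤ k → 0 < y - ts N →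
    k ≤ Real.exp (ts N) * (y - ts N) → k ≤ 3 * N →
    (((Finset.Ioc ⌊X⌋₊ ⌊2 * X⌋₊).filter (fun p => p.Prime ∧ k ≤ (W N (p - 1) y : ℝ))).card : ℝ)
      ≤ C * (N : ℝ) ^ 4 * (X / Real.log X) *
        Real.exp (k - (y - ts N) - k * Real.log (k / (y - ts N))) := by
  obtain ⟨Cb, Y₀, hCb, hfibb⟩ := TopW.fib_bound
  obtain ⟨E, a₀, hE, hmass⟩ := mass_I
  obtain ⟨C, hC⟩ : ∃ C : ℝ, C = 4 * Cb * 343 * Real.exp E + 8 := ⟨_, rfl⟩
  have hC8 : 8 ≤ C := by
    rw [hC]
    have : 0 ≤ 4 * Cb * 343 * Real.exp E := by positivity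
    linarith
  have hC0 : 0 < C := by linarith
  have hev : ∀ᶠ N : ℕ in Filter.atTop, (1 ≤ N) ∧
      (1 * Real.log N + (Real.log (7 * Cb) + Real.log 2 + 1) ≤ (N : ℝ) ^ ((4 : ℝ) / 5)) ∧
      (0 * Real.log N + (2 * |Y₀| + 2) ≤ (N : ℝ) ^ ((4 : ℝ) / 5)) ∧
      (0 * Real.log N + (2 * |a₀|) ≤ (N : ℝ) ^ ((4 : ℝ) / 5)) := by
    filter_upwards [Filter.eventually_ge_atTop 1,
      TopW.ev_aux 1 (Real.log (7 * Cb) + Real.log 2 + 1) (4 / 5) (by norm_num),
      TopW.ev_aux 0 (2 * |Y₀| + 2) (4 / 5) (by norm_num),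
      TopW.ev_aux 0 (2 * |a₀|) (4 / 5) (by norm_num)] with N h1 h2 h3 h4
    exact ⟨h1, h2, h3, h4⟩
  obtain ⟨N₀, hN₀⟩ := Filter.eventually_atTop.1 hev
  refine ⟨C, N₀, hC0, ?_⟩
  intro N X y k hN hX hlo hhi hy1 hy2 hk1 hh hk2 hk3
  obtain ⟨hN1, he2, he3, he4⟩ := hN₀ N (by exact_mod_cast hN)
  have hNpos : (0 : ℝ) < N := by exact_mod_cast hN1
  have hN1R : (1 : ℝ) ≤ N := by exact_mod_cast hN1
  have hlogN : 0 ≤ Real.log N := Real.log_natCast_nonneg N
  have ht0 : t0 N = (N : ℝ) ^ ((4 : ℝ) / 5) := rfl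
  have htsa : a₀ ≤ ts N := by
    have h1 : ts N = t0 N / 2 := rfl
    have h2 := le_abs_self a₀
    rw [h1, ht0]
    linarith
  rw [ht0] at hlo
  have hl0 : 0 < Real.log 2 := Real.log_pos (by norm_num)
  have hl2 : Real.log 2 ≤ 1 := by have := Real.log_two_lt_d9; linarith
  have hLXpos : 0 < Real.log X := Real.log_pos hX
  have hexpx : Real.exp (levR X) = Real.log X := Real.exp_log hLXpos
  have hY0abs := abs_nonneg Y₀
  have hx1 : 1 ≤ levR X := by linarith
  have hxL : levR X ≤ Real.log X := by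
    rw [← hexpx]
    have := Real.add_one_le_exp (levR X)
    linarith
  have hL1 : 1 ≤ Real.log X := by linarith
  obtain ⟨Q, hQ⟩ : ∃ Q : ℝ, Q = (N : ℝ) + 6 := ⟨_, rfl⟩
  have hQ1 : 1 ≤ Q := by rw [hQ]; linarith
  have hxQ : Real.log 2 + levR X ≤ Q := by rw [hQ]; linarith
  have hlogC : Real.log (Cb * Q) + Real.log 2 ≤ levR X := by
    have h1 : Cb * Q ≤ 7 * Cb * N := by
      rw [hQ]; nlinarith
    have h2 : Real.log (Cb * Q) ≤ Real.log (7 * Cb * N) :=
      Real.log_le_log (by rw [hQ]; positivity) h1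
    rw [Real.log_mul (by positivity) hNpos.ne'] at h2
    linarith
  have hY0 : Y₀ ≤ Real.log X / 2 := by
    have := le_abs_self Y₀
    linarith
  have hexpy : Real.exp y ≤ Real.log X / (C * N) := by
    have h1 : Real.exp y ≤ Real.exp (levR X - Real.log (C * N)) := Real.exp_le_exp.2 hy2
    rw [Real.exp_sub, hexpx, Real.exp_log (by positivity)] at h1
    exact h1
  obtain ⟨h, hhdef⟩ : ∃ h : ℝ, h = y - ts N := ⟨_, rfl⟩
  rw [← hhdef] at hk1 hh hk2 ⊢
  have hkpos : 0 < k := by linarith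
  obtain ⟨K, hKdef⟩ : ∃ K : ℕ, K = ⌈k⌉₊ := ⟨_, rfl⟩
  have hkK : k ≤ K := by rw [hKdef]; exact Nat.le_ceil k
  have hKle : (K : ℝ) ≤ 4 * N := by
    have := Nat.ceil_lt_add_one hkpos.le
    rw [← hKdef] at this
    linarith
  obtain ⟨t, ht⟩ : ∃ t : ℝ, t = k / h := ⟨_, rfl⟩
  have ht1 : 1 ≤ t := by rw [ht, le_div_iff₀ hh]; linarith
  have hXpos : 0 < X := by linarith
  have hKbnn : 0 ≤ 4 * Cb * Q ^ 3 * (X / Real.log X) := by positivity
  have hmain := core_moment (Iset (ts N) y)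
    ((Finset.Ioc ⌊X⌋₊ ⌊2 * X⌋₊).filter (fun p => p.Prime ∧ k ≤ (W N (p - 1) y : ℝ)))
    (fun p => (p - 1).primeFactors.filter (fun r => ts N < lev r ∧ lev r ≤ y))
    (by
      intro p _ r hr
      obtain ⟨hr1, hr2, hr3⟩ := Finset.mem_filter.1 hr
      exact mem_Iset (Nat.mem_primeFactors.1 hr1).1 hr2 hr3)
    K t (4 * Cb * Q ^ 3 * (X / Real.log X)) ht1
    (by
      intro p hp
      have h1 := (Finset.mem_filter.1 hp).2.2
      rw [hKdef]
      exact Nat.ceil_le.2 h1)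
    hKbnn
    (by
      intro U hU
      obtain ⟨hU1, hU2⟩ := Finset.mem_filter.1 hU
      have hUI := Finset.mem_powerset.1 hU1
      have hUp : ∀ r ∈ U, r.Prime ∧ lev r ≤ y := by
        intro r hr
        obtain ⟨h1, h2⟩ := Finset.mem_filter.1 (hUI hr)
        exact ⟨(Finset.mem_filter.1 h1).2.1, h2.2⟩
      have hUc : (U.card : ℝ) ≤ 4 * N := by
        have : (U.card : ℝ) ≤ K := by exact_mod_cast hU2
        linarith
      have hd2 := d_sq_le X y C N U hX hN1 hC8 hUp hUc hexpy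
      have hdpos : 1 ≤ ∏ r ∈ U, r := Finset.prod_pos (fun r hr => (hUp r hr).1.pos)
      have hfb := hfibb X Q (∏ r ∈ U, r) hX hL1 hQ1 hdpos hd2 hxQ hY0 hlogC
      have hprod : ∏ r ∈ U, ((1 : ℝ) / (r : ℝ)) = 1 / ((∏ r ∈ U, r : ℕ) : ℝ) := by
        push_cast; rw [Finset.prod_div_distrib]; simp
      rw [hprod]
      refine le_trans ?_ hfb
      have hsub : ((Finset.Ioc ⌊X⌋₊ ⌊2 * X⌋₊).filter
            (fun p => p.Prime ∧ k ≤ (W N (p - 1) y : ℝ))).filter
              (fun p => U ⊆ (p - 1).primeFactors.filter (fun r => ts N < lev r ∧ lev r ≤ y))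
          ⊆ (Finset.Ioc ⌊X⌋₊ ⌊2 * X⌋₊).filter (fun p => p.Prime ∧ (∏ r ∈ U, r) ∣ p - 1) := by
        intro p hp
        obtain ⟨hp1, hp2⟩ := Finset.mem_filter.1 hp
        obtain ⟨hp3, hp4, _⟩ := Finset.mem_filter.1 hp1
        refine Finset.mem_filter.2 ⟨hp3, hp4, ?_⟩
        apply Finset.prod_primes_dvd
        · intro r hr
          exact (hUp r hr).1.prime
        · intro r hr
          exact (Nat.mem_primeFactors.1 (Finset.mem_filter.1 (hp2 hr)).1).2.1
      exact_mod_cast Finset.card_le_card hsub)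
  have hM := hmass (ts N) y htsa hy1
  rw [← hhdef] at hM
  have hfin := tail_num _ (4 * Cb * Q ^ 3 * (X / Real.log X)) t k h _ E (ts N) K hKbnn hh hk1 ht hkK hM
    hE.le hk2 hmain
  refine hfin.trans ?_
  have hXL : 0 ≤ X / Real.log X := by positivity
  have hQ3 : Q ^ 3 ≤ 343 * (N : ℝ) ^ 4 := by
    have hQ7 : Q ≤ 7 * N := by rw [hQ]; linarith
    have h1 : Q ^ 3 ≤ (7 * (N : ℝ)) ^ 3 := pow_le_pow_left₀ (by linarith) hQ7 3
    have h2 : (N : ℝ) ^ 3 ≤ (N : ℝ) ^ 4 := pow_le_pow_right₀ hN1R (by norm_num)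
    calc Q ^ 3 ≤ (7 * (N : ℝ)) ^ 3 := h1
      _ = 343 * (N : ℝ) ^ 3 := by ring
      _ ≤ _ := by linarith
  have hconst : 4 * Cb * Q ^ 3 * Real.exp E ≤ C * (N : ℝ) ^ 4 := by
    have hN4 : 0 ≤ (N : ℝ) ^ 4 := by positivity
    have h1 : 4 * Cb * Q ^ 3 * Real.exp E ≤ 4 * Cb * (343 * (N : ℝ) ^ 4) * Real.exp E := by
      apply mul_le_mul_of_nonneg_right _ (Real.exp_pos _).le
      exact mul_le_mul_of_nonneg_left hQ3 (by positivity)
    have h2 : 4 * Cb * (343 * (N : ℝ) ^ 4) * Real.exp E = (4 * Cb * 343 * Real.exp E) * (N : ℝ) ^ 4 := by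
      ring
    rw [h2] at h1
    refine h1.trans (mul_le_mul_of_nonneg_right ?_ hN4)
    rw [hC]; linarith
  have hexp := Real.exp_pos (k - h - k * Real.log (k / h))
  calc 4 * Cb * Q ^ 3 * (X / Real.log X) * Real.exp E * Real.exp (k - h - k * Real.log (k / h))
      = (4 * Cb * Q ^ 3 * Real.exp E) * ((X / Real.log X) * Real.exp (k - h - k * Real.log (k / h))) := by
        ring
    _ ≤ (C * (N : ℝ) ^ 4) * ((X / Real.log X) * Real.exp (k - h - k * Real.log (k / h))) :=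
        mul_le_mul_of_nonneg_right hconst (by positivity)
    _ = _ := by ring

end
end Vale.Agent.Lib.P031V
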