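import Mathlib

/-!
Euler-product style lemmas (R0), (R0') of the P031 blueprint: generic statements
for a weight `g : ℕ → ℝ` with values at least one on all naturals (callers may extend
a weight on primes by one outside the primes).
-/

namespace Vale.Agent.Lib.P031V.RarityEuler

open Finset

/-- Counting multiples in an interval. -/
theorem card_filter_dvd_le (x d : ℕ) :
    (((Icc 1 x).filter (fun v => d ∣ v)).card : ℝ) ≤ (x : ℝ) / d := by
  have h1 : (Icc 1 x).filter (fun v => d ∣ v) = (Ioc 0 x).filter (fun v => d ∣ v) := by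
    ext v; simp [Nat.succ_le_iff]
  rw [h1, Nat.Ioc_filter_dvd_card_eq_div]
  exact Nat.cast_div_le

/-- (R0): `∑_{v ≤ x} ∏_{r ∣ v} g r ≤ x exp(∑_{r ≤ x} (g r - 1) / r)`. -/
theorem R0 (g : ℕ → ℝ) (hg : ∀ r, 1 ≤ g r) (x : ℕ) :
    ∑ v ∈ Icc 1 x, ∏ r ∈ v.primeFactors, g r
      ≤ (x : ℝ) * Real.exp (∑ r ∈ (Icc 1 x).filter Nat.Prime, (g r - 1) / r) := by
  classical
  set P := (Icc 1 x).filter Nat.Prime with hP
  have hsub : ∀ v ∈ Icc 1 x, v.primeFactors ⊆ P := by
    intro v hv r hr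
    have hv' := mem_Icc.mp hv
    have hrp := Nat.prime_of_mem_primeFactors hr
    have hrd := Nat.dvd_of_mem_primeFactors hr
    have hle : r ≤ v := Nat.le_of_dvd (by omega) hrd
    simp only [hP, mem_filter, mem_Icc]
    exact ⟨⟨hrp.one_lt.le, hle.trans hv'.2⟩, hrp⟩
  -- expand the product
  have hexp : ∀ v ∈ Icc 1 x, ∏ r ∈ v.primeFactors, g r
      = ∑ S ∈ P.powerset, if S ⊆ v.primeFactors then ∏ r ∈ S, (g r - 1) else 0 := by
    intro v hv
    have h1 : ∏ r ∈ v.primeFactors, g r = ∏ r ∈ v.primeFactors, (1 + (g r - 1)) := by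
      apply prod_congr rfl; intros; ring
    rw [h1, prod_one_add]
    rw [← sum_filter]
    apply sum_congr
    · ext S
      simp only [mem_powerset, mem_filter]
      constructor
      · intro h; exact ⟨h.trans (hsub v hv), h⟩
      · intro h; exact h.2
    · intros; rfl
  rw [sum_congr rfl hexp, sum_comm]
  -- bound for each S
  have hS : ∀ S ∈ P.powerset,
      (∑ v ∈ Icc 1 x, if S ⊆ v.primeFactors then ∏ r ∈ S, (g r - 1) else 0)
        ≤ (x : ℝ) * ∏ r ∈ S, ((g r - 1) / r) := by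
    intro S hS
    have hSP := mem_powerset.mp hS
    have hprime : ∀ r ∈ S, r.Prime := fun r hr => (mem_filter.mp (hSP hr)).2
    have hnn : 0 ≤ ∏ r ∈ S, (g r - 1) :=
      prod_nonneg (fun r _ => by linarith [hg r])
    have hdpos : 0 < ∏ r ∈ S, r := prod_pos (fun r hr => (hprime r hr).pos)
    rw [← sum_filter, sum_const, nsmul_eq_mul]
    have hcard : (((Icc 1 x).filter (fun v => S ⊆ v.primeFactors)).card : ℝ)
        ≤ (x : ℝ) / ((∏ r ∈ S, r : ℕ) : ℝ) := by
      refine le_trans ?_ (card_filter_dvd_le x (∏ r ∈ S, r))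
      norm_cast
      apply card_le_card
      intro v hv
      simp only [mem_filter] at hv ⊢
      refine ⟨hv.1, ?_⟩
      have hv0 : v ≠ 0 := by
        have := (mem_Icc.mp hv.1).1; omega
      apply Finset.prod_primes_dvd
      · intro r hr; exact (hprime r hr).prime
      · intro r hr; exact Nat.dvd_of_mem_primeFactors (hv.2 hr)
    have hprod : ∏ r ∈ S, ((g r - 1) / r)
        = (∏ r ∈ S, (g r - 1)) / ((∏ r ∈ S, r : ℕ) : ℝ) := by
      rw [prod_div_distrib]; push_cast; rfl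
    rw [hprod]
    calc _ ≤ (x : ℝ) / ((∏ r ∈ S, r : ℕ) : ℝ) * ∏ r ∈ S, (g r - 1) :=
            mul_le_mul_of_nonneg_right hcard hnn
      _ = _ := by ring
  calc _ ≤ ∑ S ∈ P.powerset, (x : ℝ) * ∏ r ∈ S, ((g r - 1) / r) := sum_le_sum hS
    _ = (x : ℝ) * ∏ r ∈ P, (1 + (g r - 1) / r) := by
          rw [← mul_sum, prod_one_add]
    _ ≤ _ := by
          apply mul_le_mul_of_nonneg_left _ (Nat.cast_nonneg x)
          rw [Real.exp_sum]
          apply prod_le_prod
          · intro r hr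
            have : 0 ≤ (g r - 1) / r := div_nonneg (by linarith [hg r]) (Nat.cast_nonneg r)
            linarith
          · intro r hr
            have := Real.add_one_le_exp ((g r - 1) / r)
            linarith

/-- The multiplicative function `m ↦ ∏_{r ∣ m} g r / m`. -/
noncomputable def wt (g : ℕ → ℝ) (m : ℕ) : ℝ := (∏ r ∈ m.primeFactors, g r) / m

theorem wt_one (g : ℕ → ℝ) : wt g 1 = 1 := by simp [wt]

theorem wt_mul (g : ℕ → ℝ) {m n : ℕ} (h : Nat.Coprime m n) :
    wt g (m * n) = wt g m * wt g n := by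
  unfold wt
  rcases Nat.eq_zero_or_pos m with rfl | hm
  · simp
  rcases Nat.eq_zero_or_pos n with rfl | hn
  · simp
  rw [h.primeFactors_mul, prod_union h.disjoint_primeFactors]
  push_cast
  field_simp

theorem wt_pow (g : ℕ → ℝ) {p : ℕ} (hp : p.Prime) (n : ℕ) :
    wt g (p ^ (n + 1)) = g p / (p : ℝ) ^ (n + 1) := by
  unfold wt
  rw [Nat.primeFactors_prime_pow (Nat.succ_ne_zero n) hp]
  simp

theorem wt_nonneg (g : ℕ → ℝ) (hg : ∀ r, 1 ≤ g r) (m : ℕ) : 0 ≤ wt g m := by
  unfold wt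
  exact div_nonneg (prod_nonneg (fun r _ => by linarith [hg r])) (Nat.cast_nonneg m)

theorem hasSum_wt_prime (g : ℕ → ℝ) {p : ℕ} (hp : p.Prime) :
    HasSum (fun n : ℕ => wt g (p ^ n)) (1 + g p / ((p : ℝ) - 1)) := by
  have hp1 : (1 : ℝ) < p := by exact_mod_cast hp.one_lt
  have hinv : (p : ℝ)⁻¹ < 1 := inv_lt_one_of_one_lt₀ hp1
  have hgeom := hasSum_geometric_of_lt_one (r := (p : ℝ)⁻¹) (by positivity) hinv
  have h2 := hgeom.mul_left (g p / (p : ℝ))
  have hne : (p : ℝ) - 1 ≠ 0 := by linarith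
  have hp0 : (p : ℝ) ≠ 0 := by linarith
  have hfun : (fun n : ℕ => wt g (p ^ (n + 1))) = fun n : ℕ => g p / (p : ℝ) * (p : ℝ)⁻¹ ^ n := by
    funext n
    rw [wt_pow g hp, pow_succ, inv_pow]
    field_simp
  have hval : g p / (p : ℝ) * (1 - (p : ℝ)⁻¹)⁻¹ = g p / ((p : ℝ) - 1) := by
    have : (1 - (p : ℝ)⁻¹) = ((p : ℝ) - 1) / p := by field_simp
    rw [this]
    field_simp
  have h1 : HasSum (fun n : ℕ => wt g (p ^ (n + 1))) (g p / ((p : ℝ) - 1)) := by
    rw [hfun, ← hval]; exact h2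
  have h4 : HasSum (fun n : ℕ => wt g (p ^ n)) (g p / ((p : ℝ) - 1) + wt g (p ^ 0)) := by
    have := (hasSum_nat_add_iff (f := fun n : ℕ => wt g (p ^ n)) 1).mp h1
    simpa using this
  have h5 : wt g (p ^ 0) = 1 := by simp [wt_one]
  rw [h5, add_comm] at h4
  exact h4

/-- (R0') for a finite set `F` of positive integers all of whose prime factors lie in `s`. -/
theorem R0' (g : ℕ → ℝ) (hg : ∀ r, 1 ≤ g r) (s : Finset ℕ) (F : Finset ℕ)
    (hF : ∀ m ∈ F, m ≠ 0 ∧ ∀ r ∈ m.primeFactors, r ∈ s) :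
    ∑ m ∈ F, (∏ r ∈ m.primeFactors, g r) / m
      ≤ Real.exp (∑ p ∈ s.filter Nat.Prime, g p / ((p : ℝ) - 1)) := by
  classical
  have hmain := EulerProduct.summable_and_hasSum_factoredNumbers_prod_filter_prime_tsum
    (f := wt g) (wt_one g) (fun h => wt_mul g h)
    (fun {p} hp => by
      have := (hasSum_wt_prime g hp).summable
      simpa [Real.norm_of_nonneg (wt_nonneg g hg _)] using this) s
  have hsum := hmain.2
  -- the finite sum is below the total
  have hmem : ∀ m ∈ F, m ∈ Nat.factoredNumbers s := by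
    intro m hm
    obtain ⟨h0, h1⟩ := hF m hm
    refine (Nat.mem_factoredNumbers' ).mpr ?_ |> fun h => h
    intro p hp hpm
    exact h1 p (Nat.mem_primeFactors.mpr ⟨hp, hpm, h0⟩)
  let F' : Finset (Nat.factoredNumbers s) := F.subtype (· ∈ Nat.factoredNumbers s)
  have h1 : ∑ m ∈ F, wt g m = ∑ m ∈ F', wt g m := by
    rw [Finset.sum_subtype_eq_sum_filter]
    rw [Finset.filter_true_of_mem hmem]
  have h2 : ∑ m ∈ F', wt g m ≤ ∏ p ∈ s with p.Prime, ∑' n : ℕ, wt g (p ^ n) :=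
    sum_le_hasSum F' (fun m _ => wt_nonneg g hg m) hsum
  have h3 : ∏ p ∈ s with p.Prime, ∑' n : ℕ, wt g (p ^ n)
      = ∏ p ∈ s with p.Prime, (1 + g p / ((p : ℝ) - 1)) := by
    apply prod_congr rfl
    intro p hp
    exact (hasSum_wt_prime g (mem_filter.mp hp).2).tsum_eq
  have h4 : ∏ p ∈ s with p.Prime, (1 + g p / ((p : ℝ) - 1))
      ≤ Real.exp (∑ p ∈ s.filter Nat.Prime, g p / ((p : ℝ) - 1)) := by
    rw [Real.exp_sum]
    apply prod_le_prod
    · intro p hp
      have hp' := (mem_filter.mp hp).2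
      have hp1 : (1 : ℝ) < p := by exact_mod_cast hp'.one_lt
      have : 0 ≤ g p / ((p : ℝ) - 1) := div_nonneg (by linarith [hg p]) (by linarith)
      linarith
    · intro p _
      have := Real.add_one_le_exp (g p / ((p : ℝ) - 1))
      linarith
  calc _ = ∑ m ∈ F, wt g m := rfl
    _ ≤ _ := by rw [h1]; exact h2.trans (h3 ▸ h4)

end Vale.Agent.Lib.P031V.RarityEuler
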