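import Vale.Agent.Lib.P031V.SieveV
import Vale.Agent.Lib.P031V.RarityEuler
import Vale.Agent.Lib.P031V.Params
import Vale.Agent.Lib.P031V.NormalMass

/-! # P031: the tails of the number of prime factors in a level window, blueprint section 4.
Both tails are one argument: `p - 1 = d e` with `d` the part of `p - 1` on the window `I`;
for `d ≤ √X`, Brun-Titchmarsh with a hole bounds the `e`; then `∑ 1/d ≤ t^{-k} exp (t mass I)`. -/

namespace Vale.Agent.Lib.P031V
namespace NormalTail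
open Real Finset Filter
open scoped Classical
noncomputable section

/-- Change of decidability instance in a filtered count. -/
lemma le_of_filter_irrel_aux {s : Finset ℕ} {q : ℕ → Prop} {d1 d2 : DecidablePred q} {r : ℝ}
    (h : (((@Finset.filter ℕ q d1 s).card : ℕ) : ℝ) ≤ r) : (((@Finset.filter ℕ q d2 s).card : ℕ) : ℝ) ≤ r :=
  NormalMass.le_of_filter_irrel d1 d2 h

/-- Split `n` into a part on `T` and a part free of `T`. -/
lemma split_finset (n : ℕ) (hn : n ≠ 0) (T : Finset ℕ) (hT : ∀ r ∈ T, r.Prime) :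
    ∃ d e : ℕ, n = d * e ∧ (∀ r, r.Prime → r ∣ d → r ∈ T) ∧ ∀ s ∈ T, ¬ s ∣ e := by
  induction T using Finset.induction_on with
  | empty =>
    refine ⟨1, n, by simp, ?_, by simp⟩
    intro r hr h
    exact absurd (Nat.dvd_one.1 h) hr.one_lt.ne'
  | insert s T hs ih =>
    obtain ⟨d, e, h1, h2, h3⟩ := ih (fun r hr => hT r (Finset.mem_insert_of_mem hr))
    have hsp : s.Prime := hT s (Finset.mem_insert_self s T)
    have he : e ≠ 0 := by
      rintro rfl
      simp at h1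
      exact hn h1
    obtain ⟨a, e', h4, h5⟩ := Nat.exists_eq_pow_mul_and_not_dvd he s hsp.one_lt.ne'
    refine ⟨d * s ^ a, e', ?_, ?_, ?_⟩
    · rw [h1, h5]; ring
    · intro r hr hdvd
      rcases (Nat.Prime.dvd_mul hr).1 hdvd with h | h
      · exact Finset.mem_insert_of_mem (h2 r hr h)
      · have : r = s := (Nat.prime_dvd_prime_iff_eq hr hsp).1 (hr.dvd_of_dvd_pow h)
        rw [this]
        exact Finset.mem_insert_self s T
    · intro r hr
      rcases Finset.mem_insert.1 hr with rfl | hr'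
      · exact h4
      · intro hdvd
        exact h3 r hr' (hdvd.trans (h5 ▸ Dvd.intro_left _ rfl))

/-- Split `n` into its `P`-part and a part free of `P`; the distinct primes of the first are the
`P`-primes of `n`. -/
lemma split_part (P : ℕ → Prop) (n : ℕ) (hn : n ≠ 0) :
    ∃ d e : ℕ, n = d * e ∧ (∀ r, r.Prime → r ∣ d → P r) ∧ (∀ s, s.Prime → P s → ¬ s ∣ e) ∧
      (n.primeFactors.filter P).card = d.primeFactors.card := by
  obtain ⟨d, e, h1, h2, h3⟩ := split_finset n hn (n.primeFactors.filter P)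
    (fun r hr => Nat.prime_of_mem_primeFactors (Finset.mem_filter.1 hr).1)
  have hd0 : d ≠ 0 := by
    rintro rfl
    simp at h1
    exact hn h1
  have hP : ∀ r, r.Prime → r ∣ d → P r := fun r hr h => (Finset.mem_filter.1 (h2 r hr h)).2
  have hQ : ∀ s, s.Prime → P s → ¬ s ∣ e := by
    intro s hs hPs hdvd
    have hsn : s ∣ n := by
      rw [h1]
      exact Dvd.dvd.mul_left hdvd d
    exact h3 s (Finset.mem_filter.2 ⟨Nat.mem_primeFactors.2 ⟨hs, hsn, hn⟩, hPs⟩) hdvd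
  refine ⟨d, e, h1, hP, hQ, ?_⟩
  apply congrArg Finset.card
  ext r
  simp only [Finset.mem_filter, Nat.mem_primeFactors]
  constructor
  · rintro ⟨⟨hr, hrn, -⟩, hPr⟩
    refine ⟨hr, ?_, hd0⟩
    rw [h1] at hrn
    rcases (Nat.Prime.dvd_mul hr).1 hrn with h | h
    · exact h
    · exact absurd h (hQ r hr hPr)
  · rintro ⟨hr, hrd, -⟩
    refine ⟨⟨hr, ?_, hn⟩, hP r hr hrd⟩
    rw [h1]
    exact Dvd.dvd.mul_right hrd e

/-- Euler bound with a constant weight. -/
lemma euler_const (t : ℝ) (ht : 0 ≤ t) (s F : Finset ℕ)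
    (hF : ∀ m ∈ F, m ≠ 0 ∧ ∀ r ∈ m.primeFactors, r ∈ s) (hs : ∀ r ∈ s, r.Prime) :
    ∑ m ∈ F, t ^ m.primeFactors.card / (m : ℝ) ≤ Real.exp (t * ∑ p ∈ s, (1 : ℝ) / ((p : ℝ) - 1)) := by
  set g : ℕ → ℝ := fun _ => t with hg
  have hwt : ∀ m : ℕ, 0 ≤ RarityEuler.wt g m := by
    intro m
    unfold RarityEuler.wt
    exact div_nonneg (Finset.prod_nonneg (fun r _ => ht)) (Nat.cast_nonneg m)
  have hmain := EulerProduct.summable_and_hasSum_factoredNumbers_prod_filter_prime_tsum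
    (f := RarityEuler.wt g) (RarityEuler.wt_one g) (fun h => RarityEuler.wt_mul g h)
    (fun {p} hp => by
      have := (RarityEuler.hasSum_wt_prime g hp).summable
      simpa [Real.norm_of_nonneg (hwt _)] using this) s
  have hsum := hmain.2
  have hmem : ∀ m ∈ F, m ∈ Nat.factoredNumbers s := by
    intro m hm
    obtain ⟨h0, h1⟩ := hF m hm
    refine (Nat.mem_factoredNumbers').mpr ?_ |> fun h => h
    intro p hp hpm
    exact h1 p (Nat.mem_primeFactors.mpr ⟨hp, hpm, h0⟩)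
  let F' : Finset (Nat.factoredNumbers s) := F.subtype (· ∈ Nat.factoredNumbers s)
  have h1 : ∑ m ∈ F, RarityEuler.wt g m = ∑ m ∈ F', RarityEuler.wt g m := by
    rw [Finset.sum_subtype_eq_sum_filter]
    rw [Finset.filter_true_of_mem hmem]
  have h2 : ∑ m ∈ F', RarityEuler.wt g m ≤ ∏ p ∈ s with p.Prime, ∑' n : ℕ, RarityEuler.wt g (p ^ n) :=
    sum_le_hasSum F' (fun m _ => hwt m) hsum
  have h3 : ∏ p ∈ s with p.Prime, ∑' n : ℕ, RarityEuler.wt g (p ^ n)
      = ∏ p ∈ s with p.Prime, (1 + g p / ((p : ℝ) - 1)) := by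
    apply Finset.prod_congr rfl
    intro p hp
    exact (RarityEuler.hasSum_wt_prime g (Finset.mem_filter.mp hp).2).tsum_eq
  have hfil : s.filter Nat.Prime = s := Finset.filter_true_of_mem hs
  have h4 : ∏ p ∈ s with p.Prime, (1 + g p / ((p : ℝ) - 1))
      ≤ Real.exp (t * ∑ p ∈ s, (1 : ℝ) / ((p : ℝ) - 1)) := by
    rw [hfil, Finset.mul_sum, Real.exp_sum]
    apply Finset.prod_le_prod
    · intro p hp
      have hp' := hs p hp
      have hp1 : (1 : ℝ) < p := by exact_mod_cast hp'.one_lt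
      have : 0 ≤ g p / ((p : ℝ) - 1) := div_nonneg ht (by linarith)
      linarith
    · intro p _
      have := Real.add_one_le_exp (g p / ((p : ℝ) - 1))
      have e : t * ((1 : ℝ) / ((p : ℝ) - 1)) = g p / ((p : ℝ) - 1) := by
        simp only [hg]
        ring
      rw [e]
      linarith
  have h5 : ∀ m ∈ F, t ^ m.primeFactors.card / (m : ℝ) = RarityEuler.wt g m := by
    intro m _
    unfold RarityEuler.wt
    simp only [hg, Finset.prod_const]
  rw [Finset.sum_congr rfl h5, h1]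
  exact h2.trans (h3 ▸ h4)

/-- The integers with a large divisor on small primes. -/
lemma exceptional_card : ∃ CR : ℝ, 0 < CR ∧ ∀ (X y : ℝ) (S : Finset ℕ), 1 < X → 9 ≤ y →
    (∀ n ∈ S, 1 ≤ n ∧ (n : ℝ) ≤ 2 * X ∧ ∃ d : ℕ, d ∣ n ∧ Real.sqrt X < d ∧
      ∀ r : ℕ, r.Prime → r ∣ d → lev r ≤ y) →
    (S.card : ℝ) ≤ 2 * X * (Real.exp (-(Real.log X / (2 * Real.exp y))) * (CR * Real.exp y) ^ 7) := by
  obtain ⟨C, hC0, hC⟩ := rankin
  refine ⟨C, hC0, ?_⟩
  intro X y S hX hy hS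
  have hX0 : 0 < X := by linarith
  have hexpy : 10 ≤ Real.exp y := by
    have := Real.add_one_le_exp y
    linarith
  have hZ : Real.exp 10 ≤ Real.exp (Real.exp y) := Real.exp_le_exp.2 hexpy
  have hsq : 1 ≤ Real.sqrt X := by
    rw [Real.one_le_sqrt]
    exact hX.le
  set F : Finset ℕ := (Finset.Icc 1 ⌊2 * X⌋₊).filter (fun d : ℕ => Real.sqrt X < d ∧
      ∀ r : ℕ, r.Prime → r ∣ d → lev r ≤ y) with hF
  have hF1 : ∀ d ∈ F, Real.sqrt X < d ∧ 0 < d ∧ ∀ r : ℕ, r.Prime → r ∣ d → (r : ℝ) ≤ Real.exp (Real.exp y) := by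
    intro d hd
    obtain ⟨h1, h2, h3⟩ := Finset.mem_filter.1 hd
    refine ⟨h2, (Finset.mem_Icc.1 h1).1, ?_⟩
    intro r hr hrd
    exact le_exp_exp_of_levR (x := (r : ℝ)) (by linarith) (h3 r hr hrd)
  have hb := hC (Real.sqrt X) (Real.exp (Real.exp y)) F hZ hsq hF1
  rw [Real.log_exp, Real.log_sqrt hX0.le] at hb
  have hc := card_le_of_dvd ⌊2 * X⌋₊ F S (fun d hd => (hF1 d hd).2.1) (by
    intro n hn
    obtain ⟨h1, h2, d, h3, h4, h5⟩ := hS n hn
    have hnle : n ≤ ⌊2 * X⌋₊ := Nat.le_floor h2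
    refine ⟨h1, hnle, d, ?_, h3⟩
    refine Finset.mem_filter.2 ⟨Finset.mem_Icc.2 ⟨?_, ?_⟩, h4, h5⟩
    · exact Nat.pos_of_dvd_of_pos h3 h1
    · exact (Nat.le_of_dvd h1 h3).trans hnle)
  have hf : ((⌊2 * X⌋₊ : ℕ) : ℝ) ≤ 2 * X := Nat.floor_le (by linarith)
  have hsumnn : 0 ≤ ∑ d ∈ F, (1 : ℝ) / d := Finset.sum_nonneg (fun d _ => by positivity)
  have e : Real.log X / 2 / Real.exp y = Real.log X / (2 * Real.exp y) := by
    rw [div_div]
  rw [e] at hb
  calc (S.card : ℝ) ≤ ((⌊2 * X⌋₊ : ℕ) : ℝ) * ∑ d ∈ F, (1 : ℝ) / d := hc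
    _ ≤ 2 * X * ∑ d ∈ F, (1 : ℝ) / d := mul_le_mul_of_nonneg_right hf hsumnn
    _ ≤ _ := mul_le_mul_of_nonneg_left hb (by linarith)

/-- One fibre: Brun-Titchmarsh with a hole for `1 + e d`, `e ≤ 2 X / d`. -/
lemma fibre_bound : ∃ C₁ Y₀ : ℝ, 0 < C₁ ∧ ∀ (X Q α β : ℝ) (d : ℕ), 1 < X → 1 ≤ Real.log X → Y₀ ≤ Real.sqrt X →
    1 ≤ d → (d : ℝ) ≤ Real.sqrt X → 1 ≤ Q → levR X + 1 ≤ Q → 0 ≤ α → α ≤ β →
    β + Real.log 2 + Real.log (C₁ * Q) ≤ levR X →
    (((Finset.Icc 1 ⌊2 * X / d⌋₊).filter (fun n => (1 + n * d).Prime ∧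
        ∀ s : ℕ, s.Prime → s ∣ n → ¬ (α < lev s ∧ lev s ≤ β))).card : ℝ)
      ≤ 4 * C₁ * Q ^ 3 * (X / Real.log X) * ((1 : ℝ) / d) * Real.exp (-(β - α)) := by
  obtain ⟨C₁, Y₀, hC₁, hbt⟩ := bt_hole
  refine ⟨C₁, Y₀, hC₁, ?_⟩
  intro X Q α β d hX hL hY₀ hd hdX hQ hQx hα hαβ hβ
  have hX0 : 0 < X := by linarith
  set L := Real.log X with hLdef
  have hsq0 : 0 < Real.sqrt X := Real.sqrt_pos.2 hX0
  have hsqsq : Real.sqrt X * Real.sqrt X = X := Real.mul_self_sqrt hX0.le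
  have hd1 : (1 : ℝ) ≤ d := by exact_mod_cast hd
  have hd0 : (0 : ℝ) < d := by linarith
  set Y := 2 * X / d with hY
  have hY1 : 2 * Real.sqrt X ≤ Y := by
    rw [hY, le_div_iff₀ hd0]
    nlinarith
  have hY2 : Y ≤ 2 * X := by
    rw [hY]
    exact div_le_self (by linarith) hd1
  have hYpos : 0 < Y := by linarith
  have hlogsq : Real.log (Real.sqrt X) = L / 2 := Real.log_sqrt hX0.le
  have hlogY1 : L / 2 ≤ Real.log Y := by
    rw [← hlogsq]
    exact Real.log_le_log hsq0 (by linarith)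
  have hL0 : 0 < L := by linarith
  have hlog2 : Real.log 2 ≤ 1 := by
    have := Real.log_two_lt_d9
    linarith
  have hlog2pos : 0 < Real.log 2 := Real.log_pos (by norm_num)
  have hlogY2 : Real.log Y ≤ 2 * L := by
    have h1 : Real.log Y ≤ Real.log (2 * X) := Real.log_le_log hYpos hY2
    rw [Real.log_mul (by norm_num) hX0.ne'] at h1
    linarith
  have hlogYpos : 0 < Real.log Y := by linarith
  have hlevY1 : levR X - Real.log 2 ≤ levR Y := by
    unfold levR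
    have h1 : Real.log (L / 2) ≤ Real.log (Real.log Y) :=
      Real.log_le_log (by linarith) hlogY1
    rw [Real.log_div hL0.ne' (by norm_num)] at h1
    linarith
  have hlevY2 : levR Y ≤ Q := by
    unfold levR at hQx ⊢
    have h1 : Real.log (Real.log Y) ≤ Real.log (2 * L) := Real.log_le_log hlogYpos hlogY2
    rw [Real.log_mul (by norm_num) hL0.ne'] at h1
    linarith
  have hlevd : levR (d : ℝ) ≤ Q := by
    rcases Nat.lt_or_ge 1 d with h | h
    · have hd2 : (1 : ℝ) < d := by exact_mod_cast h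
      have hlogd : 0 < Real.log d := Real.log_pos hd2
      have hlogd2 : Real.log d ≤ L := by
        have h1 : Real.log d ≤ Real.log (Real.sqrt X) := Real.log_le_log hd0 hdX
        rw [hlogsq] at h1
        linarith
      unfold levR at hQx ⊢
      have h2 := Real.log_le_log hlogd hlogd2
      linarith
    · have : d = 1 := le_antisymm h hd
      rw [this]
      unfold levR
      simp
      linarith
  have hb := hbt Y Q α β d (by linarith) hd hQ hlevd hlevY2 hα hαβ (by linarith)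
  refine hb.trans ?_
  apply mul_le_mul_of_nonneg_right _ (Real.exp_pos _).le
  have hQ3 : 0 ≤ C₁ * Q ^ 3 := by positivity
  have e1 : C₁ * Y * Q ^ 3 / Real.log Y = (C₁ * Q ^ 3) * Y / Real.log Y := by ring
  have e2 : 4 * C₁ * Q ^ 3 * (X / L) * ((1 : ℝ) / d) = (C₁ * Q ^ 3) * Y / (L / 2) := by
    rw [hY]
    field_simp
    ring
  rw [e1, e2]
  apply div_le_div_of_nonneg_left _ (by linarith) hlogY1
  positivity

/-- The mass of the primes in a window. -/
lemma window_mass : ∃ Cm a₀ : ℝ, 0 < Cm ∧ ∀ (a y : ℝ) (T : Finset ℕ), a₀ ≤ a → a ≤ y →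
    (∀ r ∈ T, r.Prime ∧ a < lev r ∧ lev r ≤ y) →
    ∑ r ∈ T, (1 : ℝ) / ((r : ℝ) - 1) ≤ y - a + Cm * Real.exp (-a) := by
  obtain ⟨C, a₀, hC, hM⟩ := mert_interval
  refine ⟨C + 1, a₀, by linarith, ?_⟩
  intro a y T ha hay hT
  have hpos := Real.exp_pos (-a)
  have hm := hM a (y + Real.exp (-a)) ha (by linarith)
  have hm2 := (abs_le.1 hm).2
  unfold massI at hm2
  have hsub : T ⊆ primesLev a (y + Real.exp (-a)) := by
    intro r hr
    obtain ⟨h1, h2, h3⟩ := hT r hr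
    unfold primesLev
    have hlt : lev r < y + Real.exp (-a) := by linarith
    refine Finset.mem_filter.2 ⟨Finset.mem_range.2 ?_, h1, h2.le, hlt⟩
    have h4 := lt_exp_exp_of_level h1 hlt
    have h5 : (r : ℝ) < (⌈Real.exp (Real.exp (y + Real.exp (-a)))⌉₊ : ℝ) := h4.trans_le (Nat.le_ceil _)
    have h6 : r < ⌈Real.exp (Real.exp (y + Real.exp (-a)))⌉₊ := by exact_mod_cast h5
    omega
  have hle : ∑ r ∈ T, (1 : ℝ) / ((r : ℝ) - 1) ≤
      ∑ r ∈ primesLev a (y + Real.exp (-a)), (1 : ℝ) / ((r : ℝ) - 1) := by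
    apply Finset.sum_le_sum_of_subset_of_nonneg hsub
    intro r hr _
    have hr1 := (Finset.mem_filter.1 hr).2.1
    have : (1 : ℝ) < r := by exact_mod_cast hr1.one_lt
    exact div_nonneg zero_le_one (by linarith)
  linarith

/-- The exceptional term is small. -/
lemma exceptional_small (CR C : ℝ) (hCR : 0 < CR) (hC : 24 ≤ C) (N : ℕ) (X y : ℝ) (hX : 1 < X)
    (hN : 40 + 2 * CR ^ 7 ≤ (N : ℝ)) (hx : levR X ≤ (N : ℝ) + 5) (hy : y ≤ levR X - Real.log (C * N)) :
    2 * X * (Real.exp (-(Real.log X / (2 * Real.exp y))) * (CR * Real.exp y) ^ 7) ≤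
      (X / Real.log X) * Real.exp (-(3 * (N : ℝ))) := by
  have hX0 : 0 < X := by linarith
  have hL0 : 0 < Real.log X := Real.log_pos hX
  have hN40 : (40 : ℝ) ≤ N := by
    have : 0 ≤ CR ^ 7 := by positivity
    linarith
  have hNpos : (0 : ℝ) < N := by linarith
  have hCN : 0 < C * N := by positivity
  have hLexp : Real.log X = Real.exp (levR X) := by
    unfold levR
    rw [Real.exp_log hL0]
  have hlogCN : 1 ≤ C * N := by nlinarith
  have hlog0 : 0 ≤ Real.log (C * N) := Real.log_nonneg hlogCN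
  -- `exp (x - y) ≥ C N`
  have hexp : C * N ≤ Real.log X / Real.exp y := by
    rw [hLexp, ← Real.exp_sub]
    have h1 : Real.log (C * N) ≤ levR X - y := by linarith
    have := Real.exp_le_exp.2 h1
    rwa [Real.exp_log hCN] at this
  have hyN : y ≤ (N : ℝ) + 5 := by linarith
  have hexpy : Real.exp y ≤ Real.exp ((N : ℝ) + 5) := Real.exp_le_exp.2 hyN
  have hexp2 : Real.log X / (2 * Real.exp y) = Real.log X / Real.exp y / 2 := by
    rw [div_div, mul_comm]
  have h1 : Real.exp (-(Real.log X / (2 * Real.exp y))) ≤ Real.exp (-(12 * (N : ℝ))) := by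
    apply Real.exp_le_exp.2
    rw [hexp2]
    nlinarith
  have h2 : (CR * Real.exp y) ^ 7 ≤ CR ^ 7 * Real.exp (7 * ((N : ℝ) + 5)) := by
    rw [mul_pow]
    apply mul_le_mul_of_nonneg_left _ (by positivity)
    rw [← Real.exp_nat_mul]
    apply Real.exp_le_exp.2
    push_cast
    nlinarith
  have hL : Real.log X ≤ Real.exp ((N : ℝ) + 5) := by
    rw [hLexp]
    exact Real.exp_le_exp.2 hx
  have h3 : Real.exp (-(Real.log X / (2 * Real.exp y))) * (CR * Real.exp y) ^ 7 ≤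
      Real.exp (-(12 * (N : ℝ))) * (CR ^ 7 * Real.exp (7 * ((N : ℝ) + 5))) :=
    mul_le_mul h1 h2 (by positivity) (by positivity)
  -- the constant
  have h4 : 2 * CR ^ 7 ≤ Real.exp ((N : ℝ) - 40) := by
    have := Real.add_one_le_exp ((N : ℝ) - 40)
    linarith
  have h5 : 2 * (Real.exp (-(12 * (N : ℝ))) * (CR ^ 7 * Real.exp (7 * ((N : ℝ) + 5)))) * Real.log X ≤
      Real.exp (-(3 * (N : ℝ))) := by
    have e : Real.exp (-(12 * (N : ℝ))) * Real.exp (7 * ((N : ℝ) + 5)) * Real.exp ((N : ℝ) + 5) * Real.exp ((N : ℝ) - 40) =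
        Real.exp (-(3 * (N : ℝ))) := by
      rw [← Real.exp_add, ← Real.exp_add, ← Real.exp_add]
      congr 1
      ring
    have hpos1 : 0 < Real.exp (-(12 * (N : ℝ))) * Real.exp (7 * ((N : ℝ) + 5)) := by positivity
    calc 2 * (Real.exp (-(12 * (N : ℝ))) * (CR ^ 7 * Real.exp (7 * ((N : ℝ) + 5)))) * Real.log X
        = (Real.exp (-(12 * (N : ℝ))) * Real.exp (7 * ((N : ℝ) + 5))) * (Real.log X * (2 * CR ^ 7)) := by ring
      _ ≤ (Real.exp (-(12 * (N : ℝ))) * Real.exp (7 * ((N : ℝ) + 5))) *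
            (Real.exp ((N : ℝ) + 5) * Real.exp ((N : ℝ) - 40)) := by
          apply mul_le_mul_of_nonneg_left _ hpos1.le
          exact mul_le_mul hL h4 (by positivity) (Real.exp_pos _).le
      _ = _ := by rw [← e]; ring
  have h6 : 2 * X * (Real.exp (-(Real.log X / (2 * Real.exp y))) * (CR * Real.exp y) ^ 7) ≤
      2 * X * (Real.exp (-(12 * (N : ℝ))) * (CR ^ 7 * Real.exp (7 * ((N : ℝ) + 5)))) :=
    mul_le_mul_of_nonneg_left h3 (by positivity)
  refine h6.trans ?_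
  rw [div_mul_eq_mul_div, le_div_iff₀ hL0]
  calc 2 * X * (Real.exp (-(12 * (N : ℝ))) * (CR ^ 7 * Real.exp (7 * ((N : ℝ) + 5)))) * Real.log X
      = X * (2 * (Real.exp (-(12 * (N : ℝ))) * (CR ^ 7 * Real.exp (7 * ((N : ℝ) + 5)))) * Real.log X) := by ring
    _ ≤ X * Real.exp (-(3 * (N : ℝ))) := mul_le_mul_of_nonneg_left h5 hX0.le

/-- The sum over the `d`. -/
lemma sum_D (t k : ℝ) (ht : 0 < t) (Pred : ℕ → Prop)
    (hP : ∀ w : ℕ, Pred w → k * Real.log t ≤ w * Real.log t) (D T : Finset ℕ) (hT : ∀ r ∈ T, r.Prime)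
    (hD : ∀ d ∈ D, d ≠ 0 ∧ (∀ r ∈ d.primeFactors, r ∈ T) ∧ Pred d.primeFactors.card) :
    ∑ d ∈ D, (1 : ℝ) / d ≤ Real.exp (-(k * Real.log t)) *
      Real.exp (t * ∑ r ∈ T, (1 : ℝ) / ((r : ℝ) - 1)) := by
  have h1 : ∀ d ∈ D, (1 : ℝ) / d ≤ Real.exp (-(k * Real.log t)) * (t ^ d.primeFactors.card / (d : ℝ)) := by
    intro d hd
    obtain ⟨h0, -, h2⟩ := hD d hd
    have hd0 : (0 : ℝ) < d := by exact_mod_cast Nat.pos_of_ne_zero h0
    have h3 := hP _ h2
    have h4 : t ^ d.primeFactors.card = Real.exp ((d.primeFactors.card : ℝ) * Real.log t) := by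
      rw [Real.exp_nat_mul, Real.exp_log ht]
    rw [h4]
    have h5 : 1 ≤ Real.exp (-(k * Real.log t)) * Real.exp ((d.primeFactors.card : ℝ) * Real.log t) := by
      rw [← Real.exp_add]
      exact Real.one_le_exp (by linarith)
    calc (1 : ℝ) / d ≤ (Real.exp (-(k * Real.log t)) * Real.exp ((d.primeFactors.card : ℝ) * Real.log t)) / d :=
          div_le_div_of_nonneg_right h5 hd0.le
      _ = _ := by ring
  refine (Finset.sum_le_sum h1).trans ?_
  rw [← Finset.mul_sum]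
  apply mul_le_mul_of_nonneg_left _ (Real.exp_pos _).le
  exact euler_const t ht.le T D (fun d hd => ⟨(hD d hd).1, (hD d hd).2.1⟩) hT

/-- The covering of the primes considered. -/
lemma cover_card (N : ℕ) (X y : ℝ) (Pred : ℕ → Prop) (hX : 1 < X) :
    ((Finset.Ioc ⌊X⌋₊ ⌊2 * X⌋₊).filter (fun p => p.Prime ∧ Pred (W N (p - 1) y))).card ≤
      (((Finset.Ioc ⌊X⌋₊ ⌊2 * X⌋₊).filter (fun p => p.Prime ∧ Pred (W N (p - 1) y))).filter
        (fun p => ∃ d : ℕ, d ∣ p - 1 ∧ Real.sqrt X < d ∧ ∀ r : ℕ, r.Prime → r ∣ d → lev r ≤ y)).card +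
      ∑ d ∈ (Finset.Icc 1 ⌊Real.sqrt X⌋₊).filter (fun d : ℕ =>
          (∀ r : ℕ, r.Prime → r ∣ d → (ts N < lev r ∧ lev r ≤ y)) ∧ Pred d.primeFactors.card),
        ((Finset.Icc 1 ⌊2 * X / d⌋₊).filter (fun n => (1 + n * d).Prime ∧
          ∀ s : ℕ, s.Prime → s ∣ n → ¬ (ts N < lev s ∧ lev s ≤ y))).card := by
  set S := (Finset.Ioc ⌊X⌋₊ ⌊2 * X⌋₊).filter (fun p => p.Prime ∧ Pred (W N (p - 1) y)) with hS
  set D := (Finset.Icc 1 ⌊Real.sqrt X⌋₊).filter (fun d : ℕ =>
          (∀ r : ℕ, r.Prime → r ∣ d → (ts N < lev r ∧ lev r ≤ y)) ∧ Pred d.primeFactors.card) with hD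
  set B : ℕ → Finset ℕ := fun d => (Finset.Icc 1 ⌊2 * X / d⌋₊).filter (fun n => (1 + n * d).Prime ∧
          ∀ s : ℕ, s.Prime → s ∣ n → ¬ (ts N < lev s ∧ lev s ≤ y)) with hB
  have hX0 : 0 < X := by linarith
  have hcov : S ⊆ (S.filter (fun p => ∃ d : ℕ, d ∣ p - 1 ∧ Real.sqrt X < d ∧
        ∀ r : ℕ, r.Prime → r ∣ d → lev r ≤ y)) ∪ D.biUnion (fun d => (B d).image (fun e => 1 + e * d)) := by
    intro p hp
    obtain ⟨hp1, hp2, hp3⟩ := Finset.mem_filter.1 hp
    have hp4 := Finset.mem_Ioc.1 hp1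
    have hp2' := hp2.two_le
    have hn : p - 1 ≠ 0 := by omega
    obtain ⟨d, e, h1, h2, h3, h4⟩ := split_part (fun r => ts N < lev r ∧ lev r ≤ y) (p - 1) hn
    have hW : W N (p - 1) y = d.primeFactors.card := by
      unfold W
      rw [← h4]
      apply congrArg Finset.card
      ext r
      simp only [Finset.mem_filter]
    have hd0 : d ≠ 0 := by
      rintro rfl
      simp at h1
      omega
    have he0 : e ≠ 0 := by
      rintro rfl
      simp at h1
      omega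
    by_cases hd : Real.sqrt X < d
    · apply Finset.mem_union_left
      refine Finset.mem_filter.2 ⟨hp, d, ?_, hd, fun r hr hrd => (h2 r hr hrd).2⟩
      rw [h1]
      exact Dvd.intro e rfl
    · push Not at hd
      apply Finset.mem_union_right
      refine Finset.mem_biUnion.2 ⟨d, Finset.mem_filter.2 ⟨Finset.mem_Icc.2
        ⟨Nat.pos_of_ne_zero hd0, Nat.le_floor hd⟩, h2, hW ▸ hp3⟩, ?_⟩
      have hpe : 1 + e * d = p := by
        rw [mul_comm, ← h1]
        omega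
      refine Finset.mem_image.2 ⟨e, Finset.mem_filter.2 ⟨Finset.mem_Icc.2 ⟨Nat.pos_of_ne_zero he0, ?_⟩, ?_, ?_⟩, hpe⟩
      · apply Nat.le_floor
        have hd0' : (0 : ℝ) < d := by exact_mod_cast Nat.pos_of_ne_zero hd0
        rw [le_div_iff₀ hd0']
        have h5 : ((e * d : ℕ) : ℝ) ≤ (p : ℝ) := by
          have : e * d ≤ p := by omega
          exact_mod_cast this
        have h6 : (p : ℝ) ≤ 2 * X := by
          have h7 : (p : ℝ) ≤ ((⌊2 * X⌋₊ : ℕ) : ℝ) := by exact_mod_cast hp4.2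
          exact h7.trans (Nat.floor_le (by linarith))
        push_cast at h5
        linarith
      · rw [hpe]
        exact hp2
      · intro s hs hse hP
        exact h3 s hs hP hse
  have hcard : (S.filter (fun p => ∃ d : ℕ, d ∣ p - 1 ∧ Real.sqrt X < d ∧
        ∀ r : ℕ, r.Prime → r ∣ d → lev r ≤ y)).card + ∑ d ∈ D, (B d).card ≥ S.card := by
    refine (Finset.card_le_card hcov).trans ((Finset.card_union_le _ _).trans ?_)
    apply Nat.add_le_add_left
    refine Finset.card_biUnion_le.trans ?_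
    exact Finset.sum_le_sum (fun d _ => Finset.card_image_le)
  exact hcard

/-- Both tails at once. -/
theorem tail_core : ∃ C N₀ : ℝ, 0 < C ∧ ∀ (N : ℕ) (X y t k : ℝ) (Pred : ℕ → Prop), N₀ ≤ N → 1 < X →
    t0 N ≤ levR X → levR X ≤ (N : ℝ) + 5 → ts N ≤ y → y ≤ levR X - Real.log (C * N) → 0 < t →
    t ≤ Real.exp (ts N) → (∀ w : ℕ, Pred w → k * Real.log t ≤ w * Real.log t) →
    (((Finset.Ioc ⌊X⌋₊ ⌊2 * X⌋₊).filter (fun p => p.Prime ∧ Pred (W N (p - 1) y))).card : ℝ)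
      ≤ C * (N : ℝ) ^ 3 * (X / Real.log X) *
          Real.exp (-(y - ts N) + t * (y - ts N) - k * Real.log t)
        + (X / Real.log X) * Real.exp (-(3 * (N : ℝ))) := by
  obtain ⟨C₁, Y₀, hC₁, hfib⟩ := fibre_bound
  obtain ⟨CR, hCR, hex⟩ := exceptional_card
  obtain ⟨Cm, a₀, hCm, hmass⟩ := window_mass
  set C : ℝ := 24 + 4 * C₁ + 32 * C₁ * Real.exp Cm with hC
  have hexpCm := Real.exp_pos Cm
  have hC0 : 24 ≤ C := by
    have : 0 ≤ 4 * C₁ + 32 * C₁ * Real.exp Cm := by positivity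
    rw [hC]
    linarith
  obtain ⟨N₁, hN₁⟩ := eventually_atTop.1
    ((tendsto_rpow_atTop (by norm_num : (0 : ℝ) < 4 / 5)).comp tendsto_natCast_atTop_atTop
      |>.eventually_ge_atTop (max 18 (max (2 * a₀) (2 * Y₀))))
  refine ⟨C, max (N₁ : ℝ) (max 6 (40 + 2 * CR ^ 7)), by linarith, ?_⟩
  intro N X y t k Pred hN hX hx1 hx2 hy1 hy2 ht1 ht2 hPred
  have hN1 : N₁ ≤ N := by
    have : (N₁ : ℝ) ≤ N := le_trans (le_max_left _ _) hN
    exact_mod_cast this
  have hN6 : (6 : ℝ) ≤ N := le_trans (le_trans (le_max_left _ _) (le_max_right _ _)) hN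
  have hN40 : 40 + 2 * CR ^ 7 ≤ (N : ℝ) := le_trans (le_trans (le_max_right _ _) (le_max_right _ _)) hN
  have hT := hN₁ N hN1
  simp only [Function.comp] at hT
  have ht0eq : t0 N = (N : ℝ) ^ ((4 : ℝ) / 5) := rfl
  rw [← ht0eq] at hT
  have hts_eq : ts N = t0 N / 2 := rfl
  have hT1 : 18 ≤ t0 N := le_trans (le_max_left _ _) hT
  have hT2 : 2 * a₀ ≤ t0 N := le_trans (le_trans (le_max_left _ _) (le_max_right _ _)) hT
  have hT3 : 2 * Y₀ ≤ t0 N := le_trans (le_trans (le_max_right _ _) (le_max_right _ _)) hT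
  have hts9 : 9 ≤ ts N := by rw [hts_eq]; linarith
  have htsa : a₀ ≤ ts N := by rw [hts_eq]; linarith
  have hy9 : 9 ≤ y := by linarith
  have hX0 : 0 < X := by linarith
  have hL0 : 0 < Real.log X := Real.log_pos hX
  have hLexp : Real.log X = Real.exp (levR X) := by
    unfold levR
    rw [Real.exp_log hL0]
  have hL1 : t0 N + 1 ≤ Real.log X := by
    rw [hLexp]
    have h1 := Real.add_one_le_exp (t0 N)
    have h2 := Real.exp_le_exp.2 hx1
    linarith
  have hLone : 1 ≤ Real.log X := by linarith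
  have hsq0 : 0 < Real.sqrt X := Real.sqrt_pos.2 hX0
  have hY₀ : Y₀ ≤ Real.sqrt X := by
    have h1 := Real.add_one_le_exp (Real.log (Real.sqrt X))
    rw [Real.exp_log hsq0, Real.log_sqrt hX0.le] at h1
    linarith
  set Q : ℝ := (N : ℝ) + 6 with hQ
  have hQ1 : 1 ≤ Q := by rw [hQ]; linarith
  have hQ2 : Q ≤ 2 * N := by rw [hQ]; linarith
  have hQpos : 0 < Q := by linarith
  have hCQ : 0 < C₁ * Q := by positivity
  have hNpos : (0 : ℝ) < N := by linarith
  have hCNpos : 0 < C * N := by positivity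
  have hlogQ : Real.log 2 + Real.log (C₁ * Q) ≤ Real.log (C * N) := by
    rw [← Real.log_mul (by norm_num) hCQ.ne']
    apply Real.log_le_log (by positivity)
    have h1 : 2 * (C₁ * Q) ≤ 4 * C₁ * N := by nlinarith
    have h2 : 4 * C₁ * N ≤ C * N := by
      apply mul_le_mul_of_nonneg_right _ hNpos.le
      have : 0 ≤ 24 + 32 * C₁ * Real.exp Cm := by positivity
      rw [hC]
      linarith
    linarith
  set S := (Finset.Ioc ⌊X⌋₊ ⌊2 * X⌋₊).filter (fun p => p.Prime ∧ Pred (W N (p - 1) y)) with hS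
  set D := (Finset.Icc 1 ⌊Real.sqrt X⌋₊).filter (fun d : ℕ =>
          (∀ r : ℕ, r.Prime → r ∣ d → (ts N < lev r ∧ lev r ≤ y)) ∧ Pred d.primeFactors.card) with hD
  have hcov := cover_card N X y Pred hX
  rw [← hS, ← hD] at hcov
  set B : ℕ → Finset ℕ := fun d => (Finset.Icc 1 ⌊2 * X / d⌋₊).filter (fun n => (1 + n * d).Prime ∧
          ∀ s : ℕ, s.Prime → s ∣ n → ¬ (ts N < lev s ∧ lev s ≤ y)) with hB
  -- the exceptional part
  set E := S.filter (fun p => ∃ d : ℕ, d ∣ p - 1 ∧ Real.sqrt X < d ∧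
        ∀ r : ℕ, r.Prime → r ∣ d → lev r ≤ y) with hE
  have hEcard : (E.card : ℝ) ≤ (X / Real.log X) * Real.exp (-(3 * (N : ℝ))) := by
    have hinj : Set.InjOn (fun p : ℕ => p - 1) (E : Set ℕ) := by
      intro p hp q hq hpq
      have hp1 := (Finset.mem_filter.1 (Finset.mem_filter.1 (Finset.mem_coe.1 hp)).1).2.1.two_le
      have hq1 := (Finset.mem_filter.1 (Finset.mem_filter.1 (Finset.mem_coe.1 hq)).1).2.1.two_le
      simp only at hpq
      omega
    have h1 := Finset.card_image_of_injOn hinj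
    have h2 := hex X y (E.image (fun p => p - 1)) hX hy9 (by
      intro n hn
      obtain ⟨p, hp, rfl⟩ := Finset.mem_image.1 hn
      obtain ⟨hp1, d, h3, h4, h5⟩ := Finset.mem_filter.1 hp
      obtain ⟨hp2, hp3, -⟩ := Finset.mem_filter.1 hp1
      have hp4 := Finset.mem_Ioc.1 hp2
      have hp5 := hp3.two_le
      refine ⟨by omega, ?_, d, h3, h4, h5⟩
      have h7 : ((p - 1 : ℕ) : ℝ) ≤ ((⌊2 * X⌋₊ : ℕ) : ℝ) := by
        have : p - 1 ≤ ⌊2 * X⌋₊ := by omega
        exact_mod_cast this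
      exact h7.trans (Nat.floor_le (by linarith)))
    rw [h1] at h2
    exact h2.trans (exceptional_small CR C hCR hC0 N X y hX hN40 hx2 hy2)
  -- the main part
  have hDmem : ∀ d ∈ D, 1 ≤ d ∧ (d : ℝ) ≤ Real.sqrt X ∧
      (∀ r : ℕ, r.Prime → r ∣ d → (ts N < lev r ∧ lev r ≤ y)) ∧ Pred d.primeFactors.card := by
    intro d hd
    obtain ⟨h1, h2, h3⟩ := Finset.mem_filter.1 hd
    obtain ⟨h4, h5⟩ := Finset.mem_Icc.1 h1
    refine ⟨h4, ?_, h2, h3⟩
    have h6 : (d : ℝ) ≤ ((⌊Real.sqrt X⌋₊ : ℕ) : ℝ) := by exact_mod_cast h5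
    exact h6.trans (Nat.floor_le hsq0.le)
  have hexph := Real.exp_pos (-(y - ts N))
  have hts0 : 0 ≤ ts N := by linarith
  have hfibre : ∀ d ∈ D, ((B d).card : ℝ) ≤
      4 * C₁ * Q ^ 3 * (X / Real.log X) * Real.exp (-(y - ts N)) * ((1 : ℝ) / d) := by
    intro d hd
    obtain ⟨h1, h2, -, -⟩ := hDmem d hd
    have h3 := hfib X Q (ts N) y d hX hLone hY₀ h1 h2 hQ1 (by rw [hQ]; linarith) hts0 hy1 (by linarith)
    calc ((B d).card : ℝ) ≤ _ := h3
      _ = _ := by ring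
  set T : Finset ℕ := D.biUnion (fun d => d.primeFactors) with hTdef
  have hTmem : ∀ r ∈ T, r.Prime ∧ ts N < lev r ∧ lev r ≤ y := by
    intro r hr
    obtain ⟨d, hd, hrd⟩ := Finset.mem_biUnion.1 hr
    have hr1 := Nat.prime_of_mem_primeFactors hrd
    exact ⟨hr1, (hDmem d hd).2.2.1 r hr1 (Nat.dvd_of_mem_primeFactors hrd)⟩
  have hsumD := sum_D t k ht1 Pred hPred D T (fun r hr => (hTmem r hr).1) (fun d hd => by
    obtain ⟨h1, -, -, h4⟩ := hDmem d hd
    exact ⟨by omega, fun r hr => Finset.mem_biUnion.2 ⟨d, hd, hr⟩, h4⟩)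
  have hm := hmass (ts N) y T htsa hy1 hTmem
  have hmt : t * ∑ r ∈ T, (1 : ℝ) / ((r : ℝ) - 1) ≤ t * (y - ts N) + Cm := by
    have h1 : t * ∑ r ∈ T, (1 : ℝ) / ((r : ℝ) - 1) ≤ t * (y - ts N + Cm * Real.exp (-ts N)) :=
      mul_le_mul_of_nonneg_left hm ht1.le
    have h2 : t * (Cm * Real.exp (-ts N)) ≤ Real.exp (ts N) * (Cm * Real.exp (-ts N)) :=
      mul_le_mul_of_nonneg_right ht2 (by positivity)
    have h3 : Real.exp (ts N) * (Cm * Real.exp (-ts N)) = Cm := by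
      rw [mul_left_comm, ← Real.exp_add]
      simp
    linarith
  have hsumD2 : ∑ d ∈ D, (1 : ℝ) / d ≤ Real.exp (Cm) *
      Real.exp (t * (y - ts N) - k * Real.log t) := by
    refine hsumD.trans ?_
    rw [← Real.exp_add, ← Real.exp_add]
    apply Real.exp_le_exp.2
    linarith
  have hXL : 0 ≤ X / Real.log X := div_nonneg hX0.le hL0.le
  have hmain : (∑ d ∈ D, ((B d).card : ℝ)) ≤
      C * (N : ℝ) ^ 3 * (X / Real.log X) * Real.exp (-(y - ts N) + t * (y - ts N) - k * Real.log t) := by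
    have h1 : (∑ d ∈ D, ((B d).card : ℝ)) ≤
        4 * C₁ * Q ^ 3 * (X / Real.log X) * Real.exp (-(y - ts N)) * ∑ d ∈ D, (1 : ℝ) / d := by
      rw [Finset.mul_sum]
      exact Finset.sum_le_sum hfibre
    have h2 : 4 * C₁ * Q ^ 3 * (X / Real.log X) * Real.exp (-(y - ts N)) * ∑ d ∈ D, (1 : ℝ) / d ≤
        4 * C₁ * Q ^ 3 * (X / Real.log X) * Real.exp (-(y - ts N)) *
          (Real.exp (Cm) * Real.exp (t * (y - ts N) - k * Real.log t)) :=
      mul_le_mul_of_nonneg_left hsumD2 (by positivity)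
    have h3 : Real.exp (-(y - ts N) + t * (y - ts N) - k * Real.log t) =
        Real.exp (-(y - ts N)) * Real.exp (t * (y - ts N) - k * Real.log t) := by
      rw [← Real.exp_add]
      congr 1
      ring
    have h4 : Q ^ 3 ≤ 8 * (N : ℝ) ^ 3 := by
      have : Q ^ 3 ≤ (2 * (N : ℝ)) ^ 3 := pow_le_pow_left₀ hQpos.le hQ2 3
      calc Q ^ 3 ≤ (2 * (N : ℝ)) ^ 3 := this
        _ = _ := by ring
    have h5 : 4 * C₁ * Q ^ 3 * Real.exp Cm ≤ C * (N : ℝ) ^ 3 := by
      have h6 : 4 * C₁ * Q ^ 3 * Real.exp Cm ≤ 4 * C₁ * (8 * (N : ℝ) ^ 3) * Real.exp Cm := by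
        apply mul_le_mul_of_nonneg_right _ hexpCm.le
        exact mul_le_mul_of_nonneg_left h4 (by positivity)
      have h7 : 4 * C₁ * (8 * (N : ℝ) ^ 3) * Real.exp Cm = (32 * C₁ * Real.exp Cm) * (N : ℝ) ^ 3 := by ring
      have h8 : (32 * C₁ * Real.exp Cm) * (N : ℝ) ^ 3 ≤ C * (N : ℝ) ^ 3 := by
        apply mul_le_mul_of_nonneg_right _ (by positivity)
        have : 0 ≤ 24 + 4 * C₁ := by positivity
        rw [hC]
        linarith
      linarith
    rw [h3]
    have h9 : 0 ≤ (X / Real.log X) * (Real.exp (-(y - ts N)) * Real.exp (t * (y - ts N) - k * Real.log t)) := by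
      positivity
    calc (∑ d ∈ D, ((B d).card : ℝ)) ≤ _ := h1.trans h2
      _ = (4 * C₁ * Q ^ 3 * Real.exp Cm) * ((X / Real.log X) *
            (Real.exp (-(y - ts N)) * Real.exp (t * (y - ts N) - k * Real.log t))) := by ring
      _ ≤ (C * (N : ℝ) ^ 3) * ((X / Real.log X) *
            (Real.exp (-(y - ts N)) * Real.exp (t * (y - ts N) - k * Real.log t))) :=
          mul_le_mul_of_nonneg_right h5 h9
      _ = _ := by ring
  have hcov' : (S.card : ℝ) ≤ (E.card : ℝ) + ∑ d ∈ D, ((B d).card : ℝ) := by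
    exact_mod_cast hcov
  linarith

/-- Lower tail. -/
theorem lower_tail_proved : ∃ C N₀ : ℝ, 0 < C ∧ ∀ (N : ℕ) (X y k : ℝ), N₀ ≤ N → 1 < X → t0 N ≤ levR X → levR X ≤ N + 5 →
    ts N ≤ y → y ≤ levR X - Real.log (C * N) → 0 < k → k ≤ y - ts N →
    (((Finset.Ioc ⌊X⌋₊ ⌊2 * X⌋₊).filter (fun p => p.Prime ∧ (W N (p - 1) y : ℝ) < k)).card : ℝ)
      ≤ C * (N : ℝ) ^ 4 * (X / Real.log X) *
        Real.exp (-(y - ts N) + k + k * Real.log ((y - ts N) / k)) := by
  obtain ⟨C, N₀, hC, hcore⟩ := tail_core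
  refine ⟨C + 1, max N₀ 3, by linarith, ?_⟩
  intro N X y k hN hX hx1 hx2 hy1 hy2 hk1 hk2
  have hN0 : N₀ ≤ N := le_trans (le_max_left _ _) hN
  have hN3 : (3 : ℝ) ≤ N := le_trans (le_max_right _ _) hN
  have hNpos : (0 : ℝ) < N := by linarith
  have hh : 0 < y - ts N := by linarith
  set h := y - ts N with hhdef
  have hts0 : 0 ≤ ts N := NormalMassGen.ts_nonneg N
  set t := k / h with ht
  have ht0 : 0 < t := div_pos hk1 hh
  have ht1 : t ≤ 1 := (div_le_one hh).2 hk2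
  have hlogt : Real.log t ≤ 0 := Real.log_nonpos ht0.le ht1
  have hlt : Real.log (h / k) = -Real.log t := by
    rw [ht, Real.log_div hk1.ne' hh.ne', Real.log_div hh.ne' hk1.ne']
    ring
  have hlog1 : Real.log (C * N) ≤ Real.log ((C + 1) * N) :=
    Real.log_le_log (by positivity) (mul_le_mul_of_nonneg_right (by linarith) hNpos.le)
  have hb := hcore N X y t k (fun w => (w : ℝ) < k) hN0 hX hx1 hx2 hy1 (by linarith) ht0
    (ht1.trans (Real.one_le_exp hts0)) (by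
      intro w hw
      exact mul_le_mul_of_nonpos_right hw.le hlogt)
  have he : -h + t * h - k * Real.log t = -h + k + k * Real.log (h / k) := by
    rw [hlt, ht]
    field_simp
    ring
  rw [← hhdef, he] at hb
  have hXL : 0 ≤ X / Real.log X := div_nonneg (by linarith) (Real.log_pos hX).le
  have hT := Real.exp_pos (-h + k + k * Real.log (h / k))
  have hlogpos : 0 ≤ Real.log (h / k) := by
    rw [hlt]
    linarith
  -- `y ≤ x ≤ N + 5`
  have hCN : 1 ≤ (C + 1) * N := by nlinarith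
  have hlogCN : 0 ≤ Real.log ((C + 1) * N) := Real.log_nonneg hCN
  have hhN : h ≤ (N : ℝ) + 5 := by
    rw [hhdef]
    linarith
  have hex : Real.exp (-(3 * (N : ℝ))) ≤ Real.exp (-h + k + k * Real.log (h / k)) := by
    apply Real.exp_le_exp.2
    have : 0 ≤ k * Real.log (h / k) := mul_nonneg hk1.le hlogpos
    linarith
  have hN34 : (N : ℝ) ^ 3 ≤ (N : ℝ) ^ 4 := pow_le_pow_right₀ (by linarith) (by norm_num)
  have hN14 : (1 : ℝ) ≤ (N : ℝ) ^ 4 := one_le_pow₀ (by linarith)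
  refine le_trans (le_of_filter_irrel_aux hb) ?_
  have h1 : C * (N : ℝ) ^ 3 * (X / Real.log X) * Real.exp (-h + k + k * Real.log (h / k)) ≤
      C * (N : ℝ) ^ 4 * (X / Real.log X) * Real.exp (-h + k + k * Real.log (h / k)) := by
    apply mul_le_mul_of_nonneg_right _ hT.le
    apply mul_le_mul_of_nonneg_right _ hXL
    exact mul_le_mul_of_nonneg_left hN34 hC.le
  have h2 : (X / Real.log X) * Real.exp (-(3 * (N : ℝ))) ≤
      (N : ℝ) ^ 4 * (X / Real.log X) * Real.exp (-h + k + k * Real.log (h / k)) := by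
    calc (X / Real.log X) * Real.exp (-(3 * (N : ℝ))) ≤
        (X / Real.log X) * Real.exp (-h + k + k * Real.log (h / k)) :=
        mul_le_mul_of_nonneg_left hex hXL
      _ = 1 * (X / Real.log X) * Real.exp (-h + k + k * Real.log (h / k)) := by ring
      _ ≤ _ := by
        apply mul_le_mul_of_nonneg_right _ hT.le
        exact mul_le_mul_of_nonneg_right hN14 hXL
  calc _ ≤ _ := add_le_add h1 h2
    _ = _ := by ring

/-- Upper tail. The bound on `k log (k / h)` is what the exceptional set allows. -/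
theorem upper_tail_proved : ∃ C N₀ : ℝ, 0 < C ∧ ∀ (N : ℕ) (X y k : ℝ), N₀ ≤ N → 1 < X → t0 N ≤ levR X → levR X ≤ N + 5 →
    ts N ≤ y → y ≤ levR X - Real.log (C * N) → y - ts N ≤ k → 0 < y - ts N → k ≤ Real.exp (ts N) * (y - ts N) →
    k * Real.log (k / (y - ts N)) ≤ N →
    (((Finset.Ioc ⌊X⌋₊ ⌊2 * X⌋₊).filter (fun p => p.Prime ∧ k ≤ (W N (p - 1) y : ℝ))).card : ℝ)
      ≤ C * (N : ℝ) ^ 4 * (X / Real.log X) *
        Real.exp (k - (y - ts N) - k * Real.log (k / (y - ts N))) := by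
  obtain ⟨C, N₀, hC, hcore⟩ := tail_core
  refine ⟨C + 1, max N₀ 3, by linarith, ?_⟩
  intro N X y k hN hX hx1 hx2 hy1 hy2 hk1 hh hk2 hk3
  have hN0 : N₀ ≤ N := le_trans (le_max_left _ _) hN
  have hN3 : (3 : ℝ) ≤ N := le_trans (le_max_right _ _) hN
  have hNpos : (0 : ℝ) < N := by linarith
  set h := y - ts N with hhdef
  have hk0 : 0 < k := by linarith
  set t := k / h with ht
  have ht0 : 0 < t := div_pos hk0 hh
  have ht1 : 1 ≤ t := (one_le_div hh).2 hk1
  have hlogt : 0 ≤ Real.log t := Real.log_nonneg ht1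
  have hlog1 : Real.log (C * N) ≤ Real.log ((C + 1) * N) :=
    Real.log_le_log (by positivity) (mul_le_mul_of_nonneg_right (by linarith) hNpos.le)
  have hb := hcore N X y t k (fun w => k ≤ (w : ℝ)) hN0 hX hx1 hx2 hy1 (by linarith) ht0
    ((div_le_iff₀ hh).2 hk2) (by
      intro w hw
      exact mul_le_mul_of_nonneg_right hw hlogt)
  have he : -h + t * h - k * Real.log t = k - h - k * Real.log t := by
    rw [ht]
    field_simp
    ring
  rw [← hhdef, he] at hb
  have hXL : 0 ≤ X / Real.log X := div_nonneg (by linarith) (Real.log_pos hX).le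
  have hT := Real.exp_pos (k - h - k * Real.log t)
  have hex : Real.exp (-(3 * (N : ℝ))) ≤ Real.exp (k - h - k * Real.log t) := by
    apply Real.exp_le_exp.2
    linarith
  have hN34 : (N : ℝ) ^ 3 ≤ (N : ℝ) ^ 4 := pow_le_pow_right₀ (by linarith) (by norm_num)
  have hN14 : (1 : ℝ) ≤ (N : ℝ) ^ 4 := one_le_pow₀ (by linarith)
  refine le_trans (le_of_filter_irrel_aux hb) ?_
  have h1 : C * (N : ℝ) ^ 3 * (X / Real.log X) * Real.exp (k - h - k * Real.log t) ≤
      C * (N : ℝ) ^ 4 * (X / Real.log X) * Real.exp (k - h - k * Real.log t) := by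
    apply mul_le_mul_of_nonneg_right _ hT.le
    apply mul_le_mul_of_nonneg_right _ hXL
    exact mul_le_mul_of_nonneg_left hN34 hC.le
  have h2 : (X / Real.log X) * Real.exp (-(3 * (N : ℝ))) ≤
      (N : ℝ) ^ 4 * (X / Real.log X) * Real.exp (k - h - k * Real.log t) := by
    calc (X / Real.log X) * Real.exp (-(3 * (N : ℝ))) ≤
        (X / Real.log X) * Real.exp (k - h - k * Real.log t) :=
        mul_le_mul_of_nonneg_left hex hXL
      _ = 1 * (X / Real.log X) * Real.exp (k - h - k * Real.log t) := by ring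
      _ ≤ _ := by
        apply mul_le_mul_of_nonneg_right _ hT.le
        exact mul_le_mul_of_nonneg_right hN14 hXL
  calc _ ≤ _ := add_le_add h1 h2
    _ = _ := by ring

end
end NormalTail
end Vale.Agent.Lib.P031V
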