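import Vale.Agent.Lib.P015.Sieve

/-!
Brun pure sieve with a variable number of residue classes at each prime
(module Si0 of the P031 blueprint).
-/

namespace Vale.Agent.Lib.P031V

open Finset Vale.Agent.Lib.P015

/-- Chinese remainder count with a variable number of classes. -/
lemma crt_count_var (Q : Finset ℕ) (hQ : ∀ p ∈ Q, p.Prime) (K : (p : ℕ) → Finset (ZMod p))
    (a b : ℤ) (hab : a ≤ b) :
    |(((Ico a b).filter (fun t : ℤ => ∀ p ∈ Q, (t : ZMod p) ∈ K p)).card : ℝ)
      - ((b - a : ℤ) : ℝ) * ∏ p ∈ Q, (((K p).card : ℝ) / p)| ≤ ∏ p ∈ Q, ((K p).card : ℝ) := by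
  classical
  let m : Q → ℕ := fun i => (i : ℕ)
  have hcop : Pairwise (Function.onFun Nat.Coprime m) := by
    intro i j hij
    have hi := hQ i i.2
    have hj := hQ j j.2
    exact (Nat.coprime_primes hi hj).mpr (fun h => hij (Subtype.ext h))
  let d : ℕ := ∏ i, m i
  have hdpos : 0 < d := Finset.prod_pos fun i _ => (hQ i i.2).pos
  have : NeZero d := ⟨hdpos.ne'⟩
  let e : ZMod d ≃+* Π i, ZMod (m i) := ZMod.prodEquivPi m hcop
  have he : ∀ (t : ℤ) (i : Q), e (t : ZMod d) i = (t : ZMod (m i)) := by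
    intro t i
    have h1 : e (t : ZMod d) = (t : Π i, ZMod (m i)) := map_intCast e t
    rw [h1]
    simp
  let W : Finset (ZMod d) := univ.filter (fun x => ∀ i : Q, e x i ∈ K (i : ℕ))
  have hWcard : W.card = ∏ p ∈ Q, (K p).card := by
    have h1 : W.card = (Fintype.piFinset (fun i : Q => K (i : ℕ))).card := by
      refine Finset.card_bij (fun x _ => e x) ?_ ?_ ?_
      · intro x hx
        rw [Fintype.mem_piFinset]
        exact (Finset.mem_filter.mp hx).2
      · intro x _ y _ h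
        exact e.injective h
      · intro y hy
        rw [Fintype.mem_piFinset] at hy
        refine ⟨e.symm y, ?_, by simp⟩
        simp only [W, Finset.mem_filter, Finset.mem_univ, true_and, RingEquiv.apply_symm_apply]
        exact hy
    rw [h1, Fintype.card_piFinset]
    exact Finset.prod_coe_sort Q (fun p => (K p).card)
  have hsub : (Ico a b).filter (fun t : ℤ => ∀ p ∈ Q, (t : ZMod p) ∈ K p)
      = (Ico a b).filter (fun t : ℤ => (t : ZMod d) ∈ W) := by
    refine Finset.filter_congr fun t _ => ?_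
    simp only [W, Finset.mem_filter, Finset.mem_univ, true_and]
    constructor
    · intro h i
      rw [he]
      exact h i i.2
    · intro h p hp
      have := h ⟨p, hp⟩
      rw [he] at this
      exact this
  have hfib : ((Ico a b).filter (fun t : ℤ => (t : ZMod d) ∈ W)).card
      = ∑ w ∈ W, ((Ico a b).filter (fun t : ℤ => (t : ZMod d) = w)).card := by
    rw [Finset.card_eq_sum_card_fiberwise (f := fun t : ℤ => (t : ZMod d)) (t := W)]
    · refine Finset.sum_congr rfl fun w hw => ?_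
      congr 1
      ext t
      simp only [Finset.mem_filter]
      constructor
      · rintro ⟨⟨h1, _⟩, h3⟩
        exact ⟨h1, h3⟩
      · rintro ⟨h1, h3⟩
        exact ⟨⟨h1, h3 ▸ hw⟩, h3⟩
    · intro t ht
      exact (Finset.mem_filter.mp ht).2
  have hprod : ((b - a : ℤ) : ℝ) * ∏ p ∈ Q, (((K p).card : ℝ) / p)
      = ∑ _w ∈ W, ((b - a : ℤ) : ℝ) / d := by
    have hd : (d : ℝ) = ∏ p ∈ Q, (p : ℝ) := by
      have : d = ∏ p ∈ Q, p := Finset.prod_coe_sort Q (fun p => p)
      rw [this]; push_cast; rfl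
    rw [Finset.sum_const, hWcard, nsmul_eq_mul, hd, Finset.prod_div_distrib]
    push_cast
    ring
  rw [hsub, hfib, hprod]
  push_cast
  rw [← Finset.sum_sub_distrib]
  calc |∑ w ∈ W, (((Ico a b).filter (fun t : ℤ => (t : ZMod d) = w)).card - ((b : ℝ) - a) / d)|
      ≤ ∑ w ∈ W, |(((Ico a b).filter (fun t : ℤ => (t : ZMod d) = w)).card - ((b : ℝ) - a) / d)| :=
        Finset.abs_sum_le_sum_abs _ _
    _ ≤ ∑ _w ∈ W, (1 : ℝ) := by
        refine Finset.sum_le_sum fun w _ => ?_
        have := Ico_class_count d hdpos a b hab w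
        push_cast at this
        exact this
    _ = ∏ p ∈ Q, ((K p).card : ℝ) := by
        rw [Finset.sum_const, hWcard]; simp

/-- Brun pure sieve with variable class numbers, first form. -/
lemma sieve_upper_var (S : Finset ℕ) (hS : ∀ p ∈ S, p.Prime) (K : (p : ℕ) → Finset (ZMod p))
    (kmax : ℕ) (hK : ∀ p ∈ S, (K p).card ≤ kmax) (a b : ℤ) (hab : a ≤ b) (J : ℕ) (hJ : Even J) :
    (((Ico a b).filter (fun t : ℤ => ∀ p ∈ S, (t : ZMod p) ∉ K p)).card : ℝ)
      ≤ ((b - a : ℤ) : ℝ) * truncSum S (fun p => ((K p).card : ℝ) / p) J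
        + truncSum S (fun _ => -(kmax : ℝ)) J := by
  classical
  let x : ℤ → ℕ → ℝ := fun t p => if (t : ZMod p) ∈ K p then 1 else 0
  have hx0 : ∀ t p, 0 ≤ x t p := by
    intro t p; simp only [x]; split_ifs <;> norm_num
  have hx1 : ∀ t p, x t p ≤ 1 := by
    intro t p; simp only [x]; split_ifs <;> norm_num
  have h1 : ∀ t : ℤ, (if ∀ p ∈ S, (t : ZMod p) ∉ K p then (1 : ℝ) else 0)
      ≤ truncSum S (x t) J := by
    intro t
    have h2 := (trunc_bounds S (x t) (fun p _ => hx0 t p) (fun p _ => hx1 t p) J).1 hJ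
    have h3 : ∏ p ∈ S, (1 - x t p) = if ∀ p ∈ S, (t : ZMod p) ∉ K p then (1 : ℝ) else 0 := by
      have : ∀ p ∈ S, 1 - x t p = if (t : ZMod p) ∉ K p then (1 : ℝ) else 0 := by
        intro p _
        simp only [x]
        by_cases h : (t : ZMod p) ∈ K p <;> simp [h]
      rw [Finset.prod_congr rfl this, Finset.prod_ite_zero]
      simp
    rwa [h3] at h2
  have hcQ : ∀ Q : Finset ℕ, ∑ t ∈ Ico a b, ∏ p ∈ Q, x t p
      = (((Ico a b).filter (fun t : ℤ => ∀ p ∈ Q, (t : ZMod p) ∈ K p)).card : ℝ) := by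
    intro Q
    rw [Finset.card_filter]
    push_cast
    refine Finset.sum_congr rfl fun t _ => ?_
    simp only [x]
    rw [Finset.prod_ite_zero]
    simp
  have hcard : (((Ico a b).filter (fun t : ℤ => ∀ p ∈ S, (t : ZMod p) ∉ K p)).card : ℝ)
      = ∑ t ∈ Ico a b, (if ∀ p ∈ S, (t : ZMod p) ∉ K p then (1 : ℝ) else 0) := by
    rw [Finset.card_filter]; push_cast; rfl
  rw [hcard]
  calc ∑ t ∈ Ico a b, (if ∀ p ∈ S, (t : ZMod p) ∉ K p then (1 : ℝ) else 0)
      ≤ ∑ t ∈ Ico a b, truncSum S (x t) J := Finset.sum_le_sum fun t _ => h1 t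
    _ = ∑ Q ∈ S.powerset, if Q.card ≤ J then (-1 : ℝ) ^ Q.card *
          (((Ico a b).filter (fun t : ℤ => ∀ p ∈ Q, (t : ZMod p) ∈ K p)).card : ℝ) else 0 := by
        unfold truncSum
        rw [Finset.sum_comm]
        refine Finset.sum_congr rfl fun Q _ => ?_
        split_ifs
        · rw [← hcQ, Finset.mul_sum]
        · simp
    _ ≤ ∑ Q ∈ S.powerset, ((if Q.card ≤ J then (-1 : ℝ) ^ Q.card *
            (((b - a : ℤ) : ℝ) * ∏ p ∈ Q, (((K p).card : ℝ) / p)) else 0)
          + (if Q.card ≤ J then (kmax : ℝ) ^ Q.card else 0)) := by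
        refine Finset.sum_le_sum fun Q hQ => ?_
        split_ifs with hc
        · have hQS : Q ⊆ S := Finset.mem_powerset.mp hQ
          have h4 := crt_count_var Q (fun p hp => hS p (hQS hp)) K a b hab
          have h5 : ∏ p ∈ Q, ((K p).card : ℝ) ≤ (kmax : ℝ) ^ Q.card := by
            calc ∏ p ∈ Q, ((K p).card : ℝ) ≤ ∏ _p ∈ Q, (kmax : ℝ) :=
                  Finset.prod_le_prod (fun p _ => Nat.cast_nonneg _)
                    (fun p hp => by exact_mod_cast hK p (hQS hp))
              _ = (kmax : ℝ) ^ Q.card := by simp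
          have h6 := h4.trans h5
          rw [abs_le] at h6
          rcases neg_one_pow_eq_or ℝ Q.card with h7 | h7 <;> rw [h7] <;> linarith [h6.1, h6.2]
        · simp
    _ = ((b - a : ℤ) : ℝ) * truncSum S (fun p => ((K p).card : ℝ) / p) J
        + truncSum S (fun _ => -(kmax : ℝ)) J := by
        rw [Finset.sum_add_distrib, truncSum_neg_eq]
        congr 1
        unfold truncSum
        rw [Finset.mul_sum]
        refine Finset.sum_congr rfl fun Q _ => ?_
        split_ifs
        · ring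
        · simp

/-- Brun pure sieve with variable class numbers, numerical form: `B` is a lower bound for the
sieve weight `∑ |K p| / p`, `B'` an upper bound, `J` even with `8 B' ≤ J`. -/
theorem sieve_var (S : Finset ℕ) (hS : ∀ p ∈ S, p.Prime) (K : (p : ℕ) → Finset (ZMod p))
    (kmax : ℕ) (hK : ∀ p ∈ S, (K p).card ≤ kmax) (hkp : ∀ p ∈ S, (K p).card ≤ p)
    (B B' : ℝ) (hB : 0 ≤ B) (hlo : B ≤ ∑ p ∈ S, ((K p).card : ℝ) / p)
    (hhi : ∑ p ∈ S, ((K p).card : ℝ) / p ≤ B') (J : ℕ) (hJe : Even J) (hJ : 8 * B' ≤ J)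
    (a b : ℤ) (hab : a ≤ b) :
    (((Ico a b).filter (fun t : ℤ => ∀ p ∈ S, (t : ZMod p) ∉ K p)).card : ℝ)
      ≤ ((b - a : ℤ) : ℝ) * (2 * Real.exp (-B)) + (1 + (kmax : ℝ) * S.card) ^ J := by
  have h1 := sieve_upper_var S hS K kmax hK a b hab J hJe
  have h2 : truncSum S (fun p => ((K p).card : ℝ) / p) J ≤ 2 * Real.exp (-B) := by
    refine truncSum_le_exp S _ (fun p _ => by positivity) ?_ B B' hB hlo hhi J hJe hJ
    intro p hp
    have hp0 : (0 : ℝ) < p := by exact_mod_cast (hS p hp).pos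
    rw [div_le_one hp0]
    exact_mod_cast hkp p hp
  have h3 := truncSum_neg_le S (kmax : ℝ) (Nat.cast_nonneg _) J
  have hba : (0 : ℝ) ≤ ((b - a : ℤ) : ℝ) := by
    have : 0 ≤ b - a := by omega
    exact_mod_cast this
  have h4 := mul_le_mul_of_nonneg_left h2 hba
  linarith

end Vale.Agent.Lib.P031V
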