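import Mathlib
import Vale.Agent.Lib.P031V.MertensLev
import Vale.Agent.Lib.P031V.SieveVar

/-!
Sieve forms for P031 (blueprint section 3): `sumdiv` (Si1), the parameter lemma `sieve_master`.
-/

namespace Vale.Agent.Lib.P031V.SF

open Finset Real

/-- Upper and lower bounds for `∑ 1/p` over primes in `(4, v]`. -/
lemma prime_recip_bound : ∃ C : ℝ, 0 ≤ C ∧ ∀ v : ℕ, 4 ≤ v →
    |primeSum 4 v - Real.log (Real.log v)| ≤ C := by
  obtain ⟨C, hC0, hC⟩ := primeSum_bound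
  have hl4 : 0 < Real.log ((4 : ℕ) : ℝ) := Real.log_pos (by norm_num)
  refine ⟨C / Real.log ((4 : ℕ) : ℝ) + |Real.log (Real.log ((4 : ℕ) : ℝ))|, by positivity, ?_⟩
  intro v hv
  have h := hC 4 v (by norm_num) hv
  generalize Real.log (Real.log ((4 : ℕ) : ℝ)) = L at h ⊢
  generalize C / Real.log ((4 : ℕ) : ℝ) = E at h ⊢
  have h1 := abs_le.1 h
  have h2 := le_abs_self L
  have h3 := neg_abs_le L
  rw [abs_le]
  constructor <;> linarith [h1.1, h1.2]

/-- `(Si1)` The sum of the reciprocals of the prime factors of `D ≤ exp exp Q` is at most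
`log Q + C`. -/
theorem sumdiv : ∃ C : ℝ, 0 ≤ C ∧ ∀ (D : ℕ) (Q : ℝ), 1 ≤ D → 1 ≤ Q → (D : ℝ) ≤ exp (exp Q) →
    ∑ s ∈ D.primeFactors, (1 : ℝ) / s ≤ Real.log Q + C := by
  obtain ⟨C0, hC0, hC⟩ := prime_recip_bound
  refine ⟨C0 + 3, by linarith, ?_⟩
  intro D Q hD hQ hDQ
  classical
  set M : ℕ := max ⌊exp Q⌋₊ 4 with hM
  have hM4 : 4 ≤ M := le_max_right _ _
  set P := D.primeFactors with hP
  have hsplit : ∑ s ∈ P, (1 : ℝ) / s
      = ∑ s ∈ P.filter (fun s => s ≤ M), (1 : ℝ) / s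
        + ∑ s ∈ P.filter (fun s => ¬ s ≤ M), (1 : ℝ) / s :=
    (Finset.sum_filter_add_sum_filter_not P _ _).symm
  -- part below M
  have hlow : ∑ s ∈ P.filter (fun s => s ≤ M), (1 : ℝ) / s ≤ primeSum 4 M + 1 := by
    have hsub : P.filter (fun s => s ≤ M) ⊆ ({2, 3} : Finset ℕ) ∪ (Ioc 4 M).filter Nat.Prime := by
      intro s hs
      rw [Finset.mem_filter] at hs
      have hsp : s.Prime := Nat.prime_of_mem_primeFactors hs.1
      have h2 := hsp.two_le
      rw [Finset.mem_union]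
      by_cases h4 : s ≤ 4
      · left
        interval_cases s
        · simp
        · simp
        · exact absurd hsp (by norm_num)
      · right
        rw [Finset.mem_filter, Finset.mem_Ioc]
        exact ⟨⟨by omega, hs.2⟩, hsp⟩
    calc ∑ s ∈ P.filter (fun s => s ≤ M), (1 : ℝ) / s
        ≤ ∑ s ∈ ({2, 3} : Finset ℕ) ∪ (Ioc 4 M).filter Nat.Prime, (1 : ℝ) / s :=
          Finset.sum_le_sum_of_subset_of_nonneg hsub (fun _ _ _ => by positivity)
      _ ≤ ∑ s ∈ ({2, 3} : Finset ℕ), (1 : ℝ) / s + ∑ s ∈ (Ioc 4 M).filter Nat.Prime, (1 : ℝ) / s :=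
          by
            have h0 := Finset.sum_union_inter (s₁ := ({2, 3} : Finset ℕ))
              (s₂ := (Ioc 4 M).filter Nat.Prime) (f := fun s : ℕ => (1 : ℝ) / s)
            have h1 : 0 ≤ ∑ s ∈ ({2, 3} : Finset ℕ) ∩ (Ioc 4 M).filter Nat.Prime, (1 : ℝ) / s :=
              Finset.sum_nonneg fun _ _ => by positivity
            linarith
      _ ≤ primeSum 4 M + 1 := by
          have : ∑ s ∈ ({2, 3} : Finset ℕ), (1 : ℝ) / s = 1 / 2 + 1 / 3 := by
            rw [Finset.sum_pair (by norm_num)]; norm_num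
          unfold primeSum
          rw [this]
          linarith
  have hMb : Real.log (Real.log M) ≤ Real.log Q + 1 := by
    have hMr : (4 : ℝ) ≤ M := by exact_mod_cast hM4
    have hl0 : 0 < Real.log (M : ℝ) := Real.log_pos (by linarith)
    by_cases hcase : ⌊exp Q⌋₊ ≤ 4
    · have : M = 4 := by rw [hM]; exact max_eq_right hcase
      rw [this]
      have h4 : Real.log (Real.log ((4 : ℕ) : ℝ)) ≤ 1 := by
        have h5 : Real.log ((4 : ℕ) : ℝ) ≤ exp 1 := by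
          have := Real.log_le_sub_one_of_pos (show (0 : ℝ) < ((4 : ℕ) : ℝ) by norm_num)
          have h6 := Real.exp_one_gt_d9
          have h7 : Real.log ((4 : ℕ) : ℝ) ≤ 2 := by
            have : ((4 : ℕ) : ℝ) = 2 ^ 2 := by norm_num
            rw [this, Real.log_pow]
            have := Real.log_two_lt_d9
            norm_num
            linarith
          linarith
        have h6 : 0 < Real.log ((4 : ℕ) : ℝ) := Real.log_pos (by norm_num)
        exact (Real.log_le_iff_le_exp h6).2 h5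
      have h8 : 0 ≤ Real.log Q := Real.log_nonneg hQ
      linarith
    · have : M = ⌊exp Q⌋₊ := by rw [hM]; exact max_eq_left (by omega)
      have hle : (M : ℝ) ≤ exp Q := by
        rw [this]; exact Nat.floor_le (exp_pos Q).le
      have h1 : Real.log (M : ℝ) ≤ Q := (Real.log_le_iff_le_exp (by linarith)).2 hle
      have h2 : Real.log (Real.log (M : ℝ)) ≤ Real.log Q := Real.log_le_log hl0 h1
      linarith
  -- part above M
  have hhigh : ∑ s ∈ P.filter (fun s => ¬ s ≤ M), (1 : ℝ) / s ≤ 1 := by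
    set T := P.filter (fun s => ¬ s ≤ M) with hT
    have hbig : ∀ s ∈ T, exp Q < (s : ℝ) := by
      intro s hs
      rw [hT, Finset.mem_filter] at hs
      have h1 : M < s := by omega
      have h2 : ⌊exp Q⌋₊ < s := lt_of_le_of_lt (le_max_left _ _) h1
      exact (Nat.floor_lt (exp_pos Q).le).1 h2
    have hprod : (exp Q) ^ T.card ≤ (D : ℝ) := by
      have h1 : (∏ s ∈ T, s) ∣ D := by
        have h2 : (∏ s ∈ T, s) ∣ ∏ s ∈ P, s :=
          Finset.prod_dvd_prod_of_subset _ _ _ (Finset.filter_subset _ _)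
        exact h2.trans (Nat.prod_primeFactors_dvd D)
      have h3 : ∏ s ∈ T, s ≤ D := Nat.le_of_dvd (by omega) h1
      have h4 : ((∏ s ∈ T, s : ℕ) : ℝ) ≤ D := by exact_mod_cast h3
      refine le_trans ?_ h4
      push_cast
      calc (exp Q) ^ T.card = ∏ _s ∈ T, exp Q := by simp
        _ ≤ ∏ s ∈ T, (s : ℝ) := Finset.prod_le_prod (fun _ _ => (exp_pos Q).le)
            (fun s hs => (hbig s hs).le)
    have hcard : (T.card : ℝ) * Q ≤ exp Q := by
      have h1 : (exp Q) ^ T.card ≤ exp (exp Q) := hprod.trans hDQ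
      rw [← Real.exp_nat_mul] at h1
      exact Real.exp_le_exp.1 h1
    have hQ0 : 0 < Q := by linarith
    calc ∑ s ∈ T, (1 : ℝ) / s ≤ ∑ _s ∈ T, exp (-Q) := by
          refine Finset.sum_le_sum fun s hs => ?_
          rw [Real.exp_neg, ← one_div]
          exact one_div_le_one_div_of_le (exp_pos Q) (hbig s hs).le
      _ = (T.card : ℝ) * exp (-Q) := by simp
      _ ≤ 1 := by
          have h1 : (T.card : ℝ) ≤ (T.card : ℝ) * Q := by
            have : (0 : ℝ) ≤ T.card := Nat.cast_nonneg _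
            nlinarith
          have h2 : (T.card : ℝ) ≤ exp Q := h1.trans hcard
          have h3 : exp Q * exp (-Q) = 1 := by
            rw [← Real.exp_add]; simp
          have h4 : 0 < exp (-Q) := exp_pos _
          nlinarith
  have hb := abs_le.1 (hC M hM4)
  rw [hsplit]
  linarith [hb.1, hb.2]

lemma exp_two_ge_seven : (7 : ℝ) ≤ exp 2 := by
  have h4 : exp 2 = exp 1 * exp 1 := by rw [← Real.exp_add]; norm_num
  have h5 := Real.exp_one_gt_d9
  rw [h4]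
  nlinarith

/-- Parameter lemma: the pure sieve with at most three classes per prime up to
`z = exp (log Y / (4 C2 Q))`. -/
theorem sieve_master : ∃ C2 : ℝ, 1 ≤ C2 ∧ ∀ (Y Q : ℝ), 1 ≤ Q → 1 ≤ Y → Y ≤ exp (exp Q) →
    8 * C2 * Q ≤ Real.log Y →
    ∀ (S : Finset ℕ) (K : (p : ℕ) → Finset (ZMod p)) (A : Finset ℕ),
      S ⊆ (Ioc 4 ⌊exp (Real.log Y / (4 * C2 * Q))⌋₊).filter Nat.Prime →
      (∀ p ∈ S, (K p).card ≤ 3) → (∀ a ∈ A, (a : ℝ) ≤ Y) →
      (∀ a ∈ A, ∀ p ∈ S, (a : ZMod p) ∉ K p) →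
      (A.card : ℝ) ≤ (Y + 1) * (2 * exp (-(∑ p ∈ S, ((K p).card : ℝ) / p)))
        + exp (Real.log Y / 2) := by
  obtain ⟨C0, hC0, hC⟩ := prime_recip_bound
  refine ⟨26 + 24 * C0, by linarith, ?_⟩
  intro Y Q hQ hY hYQ hlogY S K A hSsub hK3 hAY hAsift
  set C2 : ℝ := 26 + 24 * C0 with hC2
  have hC2pos : 0 < C2 := by rw [hC2]; linarith
  have hQ0 : 0 < Q := by linarith
  have hden : 0 < 4 * C2 * Q := by positivity
  set ℓ : ℝ := Real.log Y / (4 * C2 * Q) with hℓ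
  have hlogeq : Real.log Y = 4 * C2 * Q * ℓ := by
    rw [hℓ]; field_simp
  have hℓ2 : 2 ≤ ℓ := by
    rw [hℓ, le_div_iff₀ hden]
    linarith
  set z : ℕ := ⌊exp ℓ⌋₊ with hz
  have hzle : (z : ℝ) ≤ exp ℓ := Nat.floor_le (exp_pos ℓ).le
  have hexpℓ : (7 : ℝ) ≤ exp ℓ := by
    have h1 : exp 2 ≤ exp ℓ := Real.exp_le_exp.2 hℓ2
    linarith [exp_two_ge_seven]
  have hz4 : 4 ≤ z := by
    apply Nat.le_floor
    push_cast
    linarith
  have hzr : (4 : ℝ) ≤ z := by exact_mod_cast hz4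
  have hlogz0 : 0 < Real.log (z : ℝ) := Real.log_pos (by linarith)
  have hlogzℓ : Real.log (z : ℝ) ≤ ℓ := (Real.log_le_iff_le_exp (by linarith)).2 hzle
  have hℓlog : ℓ ≤ Real.log Y := by
    rw [hlogeq]
    have : 1 ≤ 4 * C2 * Q := by
      have h1 : 1 ≤ C2 := by rw [hC2]; linarith
      nlinarith
    nlinarith
  have hlogYexp : Real.log Y ≤ exp Q := by
    have hY0 : 0 < Y := by linarith
    exact (Real.log_le_iff_le_exp hY0).2 hYQ
  have hll : Real.log (Real.log (z : ℝ)) ≤ Q :=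
    (Real.log_le_iff_le_exp hlogz0).2 (by linarith)
  -- upper bound of the weight
  have hweight_hi : ∑ p ∈ S, ((K p).card : ℝ) / p ≤ 3 * (Q + C0) := by
    have h1 : ∑ p ∈ S, ((K p).card : ℝ) / p ≤ ∑ p ∈ S, 3 * ((1 : ℝ) / p) := by
      refine Finset.sum_le_sum fun p hp => ?_
      have : ((K p).card : ℝ) ≤ 3 := by exact_mod_cast hK3 p hp
      have hp0 : (0 : ℝ) ≤ p := Nat.cast_nonneg p
      rw [div_eq_mul_one_div]
      exact mul_le_mul_of_nonneg_right this (by positivity)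
    have h2 : ∑ p ∈ S, 3 * ((1 : ℝ) / p) = 3 * ∑ p ∈ S, (1 : ℝ) / p := by
      rw [Finset.mul_sum]
    have h3 : ∑ p ∈ S, (1 : ℝ) / p ≤ primeSum 4 z := by
      unfold primeSum
      exact Finset.sum_le_sum_of_subset_of_nonneg hSsub (fun _ _ _ => by positivity)
    have h4 := abs_le.1 (hC z hz4)
    linarith [h4.1, h4.2]
  have hweight_lo : 0 ≤ ∑ p ∈ S, ((K p).card : ℝ) / p :=
    Finset.sum_nonneg fun _ _ => div_nonneg (Nat.cast_nonneg _) (Nat.cast_nonneg _)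
  -- the truncation level
  set J : ℕ := 2 * ⌈12 * (Q + C0)⌉₊ with hJ
  have hJe : Even J := even_two_mul _
  have hJlo : 8 * (3 * (Q + C0)) ≤ (J : ℝ) := by
    rw [hJ]; push_cast
    have := Nat.le_ceil (12 * (Q + C0))
    linarith
  have hJhi : (J : ℝ) ≤ C2 * Q := by
    rw [hJ]; push_cast
    have := Nat.ceil_lt_add_one (show 0 ≤ 12 * (Q + C0) by positivity)
    rw [hC2]
    nlinarith
  have hhS : ∀ p ∈ S, p.Prime := fun p hp => (Finset.mem_filter.1 (hSsub hp)).2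
  have hkp : ∀ p ∈ S, (K p).card ≤ p := by
    intro p hp
    have h1 := (Finset.mem_filter.1 (hSsub hp)).1
    have h2 := (Finset.mem_Ioc.1 h1).1
    have h3 := hK3 p hp
    omega
  have hsieve := sieve_var S hhS K 3 hK3 hkp _ (3 * (Q + C0)) hweight_lo le_rfl hweight_hi J hJe
    hJlo (0 : ℤ) ((⌊Y⌋₊ : ℤ) + 1) (by positivity)
  -- the set A injects
  have hAcard : A.card ≤ ((Ico (0 : ℤ) ((⌊Y⌋₊ : ℤ) + 1)).filter
      (fun t : ℤ => ∀ p ∈ S, (t : ZMod p) ∉ K p)).card := by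
    refine Finset.card_le_card_of_injOn (fun a : ℕ => (a : ℤ)) ?_ ?_
    · intro a ha
      have ha' : a ∈ A := ha
      rw [Finset.mem_coe, Finset.mem_filter, Finset.mem_Ico]
      have h1 : a ≤ ⌊Y⌋₊ := Nat.le_floor (hAY a ha')
      refine ⟨⟨Int.natCast_nonneg a, ?_⟩, ?_⟩
      · show (a : ℤ) < (⌊Y⌋₊ : ℤ) + 1
        omega
      intro p hp
      have := hAsift a ha' p hp
      simpa using this
    · intro a _ b _ h
      have h' : (a : ℤ) = (b : ℤ) := h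
      exact_mod_cast h'
  have hAcard' : (A.card : ℝ) ≤ (((Ico (0 : ℤ) ((⌊Y⌋₊ : ℤ) + 1)).filter
      (fun t : ℤ => ∀ p ∈ S, (t : ZMod p) ∉ K p)).card : ℝ) := by exact_mod_cast hAcard
  -- the two terms
  have hlen : (((⌊Y⌋₊ : ℤ) + 1 - 0 : ℤ) : ℝ) ≤ Y + 1 := by
    push_cast
    have := Nat.floor_le (show 0 ≤ Y by linarith)
    linarith
  have hterm1 : (((⌊Y⌋₊ : ℤ) + 1 - 0 : ℤ) : ℝ) * (2 * exp (-(∑ p ∈ S, ((K p).card : ℝ) / p)))
      ≤ (Y + 1) * (2 * exp (-(∑ p ∈ S, ((K p).card : ℝ) / p))) :=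
    mul_le_mul_of_nonneg_right hlen (by positivity)
  have hcardS : (S.card : ℝ) ≤ z := by
    have h1 : S.card ≤ ((Ioc 4 z).filter Nat.Prime).card := Finset.card_le_card hSsub
    have h2 : ((Ioc 4 z).filter Nat.Prime).card ≤ (Ioc 4 z).card := Finset.card_filter_le _ _
    have h3 : (Ioc 4 z).card = z - 4 := by simp
    have : S.card ≤ z := by omega
    exact_mod_cast this
  have hterm2 : (1 + ((3 : ℕ) : ℝ) * S.card) ^ J ≤ exp (Real.log Y / 2) := by
    have h1 : 1 + ((3 : ℕ) : ℝ) * S.card ≤ exp (2 + ℓ) := by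
      have h2 : exp (2 + ℓ) = exp 2 * exp ℓ := Real.exp_add _ _
      have h3 : (4 : ℝ) ≤ exp 2 := by linarith [exp_two_ge_seven]
      have h6 : 0 < exp ℓ := exp_pos _
      push_cast
      rw [h2]
      nlinarith
    have h7 : 0 ≤ 1 + ((3 : ℕ) : ℝ) * S.card := by
      have h70 : (0 : ℝ) ≤ S.card := Nat.cast_nonneg _
      push_cast
      linarith
    calc (1 + ((3 : ℕ) : ℝ) * S.card) ^ J ≤ (exp (2 + ℓ)) ^ J := pow_le_pow_left₀ h7 h1 J
      _ = exp ((J : ℝ) * (2 + ℓ)) := by rw [Real.exp_nat_mul]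
      _ ≤ exp (Real.log Y / 2) := by
          apply Real.exp_le_exp.2
          have h8 : (J : ℝ) * (2 + ℓ) ≤ C2 * Q * (2 + ℓ) :=
            mul_le_mul_of_nonneg_right hJhi (by linarith)
          have h9 : C2 * Q * ℓ = Real.log Y / 4 := by rw [hlogeq]; ring
          nlinarith
  linarith

/-- Lower bound for the reciprocal sum of the sieving primes not dividing `D`. -/
theorem recip_sifted : ∃ C : ℝ, 0 ≤ C ∧ ∀ (C2 Y Q : ℝ) (D : ℕ), 1 ≤ C2 → 1 ≤ Q → 1 ≤ Y →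
    8 * C2 * Q ≤ Real.log Y → 1 ≤ D → (D : ℝ) ≤ exp (exp Q) →
    Real.log (Real.log Y) - Real.log (8 * C2) - 2 * Real.log Q - C ≤
      ∑ s ∈ ((Ioc 4 ⌊exp (Real.log Y / (4 * C2 * Q))⌋₊).filter Nat.Prime).filter
        (fun s => ¬ s ∣ D), (1 : ℝ) / s := by
  obtain ⟨C0, hC0, hC⟩ := prime_recip_bound
  obtain ⟨C1, hC1, hsd⟩ := sumdiv
  refine ⟨C0 + C1, by linarith, ?_⟩
  intro C2 Y Q D hC2 hQ hY hlogY hD hDQ
  have hC2pos : 0 < C2 := by linarith
  have hQ0 : 0 < Q := by linarith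
  have hden : 0 < 4 * C2 * Q := by positivity
  set ℓ : ℝ := Real.log Y / (4 * C2 * Q) with hℓ
  have hlogeq : Real.log Y = 4 * C2 * Q * ℓ := by
    rw [hℓ]; field_simp
  have hℓ2 : 2 ≤ ℓ := by
    rw [hℓ, le_div_iff₀ hden]
    linarith
  set z : ℕ := ⌊exp ℓ⌋₊ with hz
  have hexpℓ : (7 : ℝ) ≤ exp ℓ := by
    have h1 : exp 2 ≤ exp ℓ := Real.exp_le_exp.2 hℓ2
    linarith [exp_two_ge_seven]
  have hz4 : 4 ≤ z := by
    apply Nat.le_floor
    push_cast
    linarith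
  have hzr : (4 : ℝ) ≤ z := by exact_mod_cast hz4
  have hzlo : exp ℓ / 2 ≤ (z : ℝ) := by
    have := Nat.lt_floor_add_one (exp ℓ)
    rw [← hz] at this
    linarith
  have hlogzlo : ℓ / 2 ≤ Real.log (z : ℝ) := by
    have h1 : Real.log (exp ℓ / 2) ≤ Real.log (z : ℝ) :=
      Real.log_le_log (by positivity) hzlo
    rw [Real.log_div (exp_pos ℓ).ne' (by norm_num), Real.log_exp] at h1
    have h2 : Real.log 2 ≤ 1 := by
      have := Real.log_two_lt_d9
      linarith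
    linarith
  have hℓ0 : 0 < ℓ := by linarith
  have hlogY0 : 0 < Real.log Y := by rw [hlogeq]; positivity
  have hll : Real.log (Real.log Y) - Real.log (8 * C2) - Real.log Q ≤
      Real.log (Real.log (z : ℝ)) := by
    have h1 : Real.log (ℓ / 2) ≤ Real.log (Real.log (z : ℝ)) :=
      Real.log_le_log (by positivity) hlogzlo
    have h2 : ℓ / 2 = Real.log Y / (8 * C2 * Q) := by
      rw [hℓ]; field_simp; ring
    rw [h2, Real.log_div hlogY0.ne' (by positivity), Real.log_mul (by positivity) hQ0.ne'] at h1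
    linarith
  -- split the sum
  classical
  set P := (Ioc 4 z).filter Nat.Prime with hP
  have hsplit : ∑ s ∈ P, (1 : ℝ) / s = ∑ s ∈ P.filter (fun s => ¬ s ∣ D), (1 : ℝ) / s
      + ∑ s ∈ P.filter (fun s => ¬ ¬ s ∣ D), (1 : ℝ) / s :=
    (Finset.sum_filter_add_sum_filter_not P _ _).symm
  have hdiv : ∑ s ∈ P.filter (fun s => ¬ ¬ s ∣ D), (1 : ℝ) / s
      ≤ ∑ s ∈ D.primeFactors, (1 : ℝ) / s := by
    refine Finset.sum_le_sum_of_subset_of_nonneg ?_ (fun _ _ _ => by positivity)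
    intro s hs
    rw [Finset.mem_filter] at hs
    have hsP := (Finset.mem_filter.1 hs.1).2
    rw [Nat.mem_primeFactors]
    exact ⟨hsP, not_not.1 hs.2, by omega⟩
  have h1 := hsd D Q hD hQ hDQ
  have h2 := abs_le.1 (hC z hz4)
  have h3 : primeSum 4 z = ∑ s ∈ P, (1 : ℝ) / s := rfl
  linarith [h2.1, h2.2]

/-- `t^3 ≤ 216 exp (t/2)`. -/
lemma cube_le_exp_half (t : ℝ) (ht : 0 ≤ t) : t ^ 3 ≤ 216 * exp (t / 2) := by
  have h1 : t / 6 ≤ exp (t / 6) := by
    have := Real.add_one_le_exp (t / 6)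
    linarith
  have h2 : (t / 6) ^ 3 ≤ (exp (t / 6)) ^ 3 := pow_le_pow_left₀ (by positivity) h1 3
  have h3 : (exp (t / 6)) ^ 3 = exp (t / 2) := by
    rw [← Real.exp_nat_mul]; congr 1; push_cast; ring
  rw [h3] at h2
  nlinarith

/-- The square root term is negligible against `Y / (log Y)^3`. -/
lemma exp_half_le (Y : ℝ) (hY : 1 < Y) :
    exp (Real.log Y / 2) ≤ 216 * Y / (Real.log Y) ^ 3 := by
  have hY0 : 0 < Y := by linarith
  have ht : 0 < Real.log Y := Real.log_pos hY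
  rw [le_div_iff₀ (by positivity)]
  have h1 := cube_le_exp_half (Real.log Y) ht.le
  have h2 : exp (Real.log Y / 2) * exp (Real.log Y / 2) = Y := by
    rw [← Real.exp_add]
    have : Real.log Y / 2 + Real.log Y / 2 = Real.log Y := by ring
    rw [this, Real.exp_log hY0]
  have h3 : 0 < exp (Real.log Y / 2) := exp_pos _
  calc exp (Real.log Y / 2) * (Real.log Y) ^ 3 ≤ exp (Real.log Y / 2) * (216 * exp (Real.log Y / 2)) :=
        mul_le_mul_of_nonneg_left h1 h3.le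
    _ = 216 * (exp (Real.log Y / 2) * exp (Real.log Y / 2)) := by ring
    _ = 216 * Y := by rw [h2]

/-- Exponential of the negative sifted sum. -/
lemma exp_neg_sifted_le {C C2 Y Q x : ℝ} (hC2 : 1 ≤ C2) (hQ : 1 ≤ Q) (hlogY : 0 < Real.log Y)
    (h : Real.log (Real.log Y) - Real.log (8 * C2) - 2 * Real.log Q - C ≤ x) :
    exp (-x) ≤ (exp C * (8 * C2)) * Q ^ 2 / Real.log Y := by
  have hQ0 : 0 < Q := by linarith
  have hC20 : 0 < 8 * C2 := by linarith
  have e : (exp C * (8 * C2)) * Q ^ 2 / Real.log Y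
      = exp (C + Real.log (8 * C2) + 2 * Real.log Q - Real.log (Real.log Y)) := by
    rw [Real.exp_sub, Real.exp_add, Real.exp_add, Real.exp_log hC20, Real.exp_log hlogY]
    congr 2
    have : 2 * Real.log Q = Real.log (Q ^ 2) := by rw [Real.log_pow]; norm_num
    rw [this, Real.exp_log (by positivity)]
  rw [e]
  apply Real.exp_le_exp.2
  linarith

/-- `(Si2, S3)` Upper bound for prime triples `R, 1 + R F, 1 + R F'`. -/
theorem sieve_S3 : ∃ C : ℝ, 0 < C ∧ ∀ (Y Q : ℝ) (F F' : ℕ), 1 < Y → 1 ≤ Q → 1 ≤ F → 1 ≤ F' →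
    F ≠ F' → Y ≤ exp (exp Q) → ((F : ℝ) * F' * |(F : ℝ) - F'|) ≤ exp (exp Q) →
    (((Finset.Icc 1 ⌊Y⌋₊).filter
      (fun R => R.Prime ∧ (1 + R * F).Prime ∧ (1 + R * F').Prime)).card : ℝ)
      ≤ C * Y * Q ^ 6 / (Real.log Y) ^ 3 := by
  obtain ⟨C2, hC2, hmaster⟩ := sieve_master
  obtain ⟨C1, hC1, hrecip⟩ := recip_sifted
  set K1 : ℝ := exp C1 * (8 * C2) with hK1
  have hK1pos : 0 < K1 := by positivity
  refine ⟨(8 * C2) ^ 3 + 432 + 4 * K1 ^ 3 + 1, by positivity, ?_⟩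
  intro Y Q F F' hY hQ hF hF' hne hYQ hFF
  classical
  set A := (Finset.Icc 1 ⌊Y⌋₊).filter
      (fun R => R.Prime ∧ (1 + R * F).Prime ∧ (1 + R * F').Prime) with hA
  have hY0 : 0 < Y := by linarith
  have ht : 0 < Real.log Y := Real.log_pos hY
  have hQ0 : 0 < Q := by linarith
  have hQ6 : 1 ≤ Q ^ 6 := one_le_pow₀ hQ
  by_cases hcase : 8 * C2 * Q ≤ Real.log Y
  swap
  · -- trivial range
    push Not at hcase
    have h1 : (A.card : ℝ) ≤ Y := by
      have h2 : A.card ≤ (Finset.Icc 1 ⌊Y⌋₊).card := Finset.card_filter_le _ _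
      have h3 : (Finset.Icc 1 ⌊Y⌋₊).card = ⌊Y⌋₊ := by simp
      rw [h3] at h2
      calc (A.card : ℝ) ≤ (⌊Y⌋₊ : ℝ) := by exact_mod_cast h2
        _ ≤ Y := Nat.floor_le hY0.le
    rw [le_div_iff₀ (by positivity)]
    have h4 : (Real.log Y) ^ 3 ≤ (8 * C2 * Q) ^ 3 := pow_le_pow_left₀ ht.le hcase.le 3
    have h5 : (8 * C2 * Q) ^ 3 = (8 * C2) ^ 3 * Q ^ 3 := by ring
    have h6 : Q ^ 3 ≤ Q ^ 6 := pow_le_pow_right₀ hQ (by norm_num)
    have h7 : 0 ≤ (8 * C2) ^ 3 := by positivity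
    have h8 : (Real.log Y) ^ 3 ≤ (8 * C2) ^ 3 * Q ^ 6 := by
      rw [h5] at h4
      exact h4.trans (mul_le_mul_of_nonneg_left h6 h7)
    have h9 : 0 ≤ (Real.log Y) ^ 3 := by positivity
    calc (A.card : ℝ) * (Real.log Y) ^ 3 ≤ Y * (Real.log Y) ^ 3 :=
          mul_le_mul_of_nonneg_right h1 h9
      _ ≤ Y * ((8 * C2) ^ 3 * Q ^ 6) := mul_le_mul_of_nonneg_left h8 hY0.le
      _ ≤ ((8 * C2) ^ 3 + 432 + 4 * K1 ^ 3 + 1) * Y * Q ^ 6 := by
          have h10 : 0 ≤ Y * Q ^ 6 := by positivity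
          have h11 : 0 ≤ K1 ^ 3 := by positivity
          nlinarith
  -- the sieving range
  set z : ℕ := ⌊exp (Real.log Y / (4 * C2 * Q))⌋₊ with hz
  set D : ℕ := F * F' * ((F : ℤ) - F').natAbs with hD
  have hnatAbs : (((F : ℤ) - F').natAbs : ℝ) = |(F : ℝ) - F'| := by
    rw [Nat.cast_natAbs, Int.cast_abs]
    push_cast
    rfl
  have hDr : (D : ℝ) = (F : ℝ) * F' * |(F : ℝ) - F'| := by
    rw [hD]; push_cast; rw [hnatAbs]
  have hD1 : 1 ≤ D := by
    have : ((F : ℤ) - F').natAbs ≠ 0 := by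
      intro h
      have := Int.natAbs_eq_zero.1 h
      omega
    have h1 : 0 < ((F : ℤ) - F').natAbs := Nat.pos_of_ne_zero this
    have h2 : 0 < F * F' * ((F : ℤ) - F').natAbs := by positivity
    exact h2
  set S := ((Ioc 4 z).filter Nat.Prime).filter (fun s => ¬ s ∣ D) with hS
  let K : (p : ℕ) → Finset (ZMod p) := fun p =>
    {0, -(F : ZMod p)⁻¹, -(F' : ZMod p)⁻¹}
  have hS_prime : ∀ s ∈ S, s.Prime := fun s hs =>
    (Finset.mem_filter.1 (Finset.mem_filter.1 hs).1).2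
  have hS_ndvd : ∀ s ∈ S, ¬ s ∣ D := fun s hs => (Finset.mem_filter.1 hs).2
  have hS_le : ∀ s ∈ S, s ≤ z := fun s hs =>
    (Finset.mem_Ioc.1 (Finset.mem_filter.1 (Finset.mem_filter.1 hs).1).1).2
  have hSF : ∀ s ∈ S, (F : ZMod s) ≠ 0 := by
    intro s hs h
    apply hS_ndvd s hs
    have : s ∣ F := (ZMod.natCast_eq_zero_iff F s).1 h
    exact Dvd.dvd.mul_right (Dvd.dvd.mul_right this _) _
  have hSF' : ∀ s ∈ S, (F' : ZMod s) ≠ 0 := by
    intro s hs h
    apply hS_ndvd s hs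
    have : s ∣ F' := (ZMod.natCast_eq_zero_iff F' s).1 h
    exact Dvd.dvd.mul_right (Dvd.dvd.mul_left this _) _
  have hSFF : ∀ s ∈ S, (F : ZMod s) ≠ (F' : ZMod s) := by
    intro s hs h
    apply hS_ndvd s hs
    have h1 : (((F : ℤ) - F' : ℤ) : ZMod s) = 0 := by
      push_cast; rw [h]; ring
    have h2 : (s : ℤ) ∣ ((F : ℤ) - F') := (ZMod.intCast_zmod_eq_zero_iff_dvd _ s).1 h1
    have h3 : s ∣ ((F : ℤ) - F').natAbs := Int.natCast_dvd.1 h2
    exact Dvd.dvd.mul_left h3 _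
  have hKcard : ∀ s ∈ S, (K s).card = 3 := by
    intro s hs
    have : Fact s.Prime := ⟨hS_prime s hs⟩
    have h1 : (0 : ZMod s) ≠ -(F : ZMod s)⁻¹ := by
      intro h
      have := inv_eq_zero.1 (neg_eq_zero.1 h.symm)
      exact hSF s hs this
    have h2 : (0 : ZMod s) ≠ -(F' : ZMod s)⁻¹ := by
      intro h
      have := inv_eq_zero.1 (neg_eq_zero.1 h.symm)
      exact hSF' s hs this
    have h3 : -(F : ZMod s)⁻¹ ≠ -(F' : ZMod s)⁻¹ := by
      intro h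
      exact hSFF s hs (inv_injective (neg_injective h))
    exact Finset.card_eq_three.2 ⟨_, _, _, h1, h2, h3, rfl⟩
  -- the large elements of A are sifted
  set A' := A.filter (fun R => z < R) with hA'
  have hA'Y : ∀ a ∈ A', (a : ℝ) ≤ Y := by
    intro a ha
    have h1 := (Finset.mem_filter.1 (Finset.mem_filter.1 ha).1).1
    have h2 := (Finset.mem_Icc.1 h1).2
    exact (Nat.le_floor_iff hY0.le).1 h2
  have hsift : ∀ a ∈ A', ∀ s ∈ S, (a : ZMod s) ∉ K s := by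
    intro a ha s hs hmem
    have : Fact s.Prime := ⟨hS_prime s hs⟩
    have hza : z < a := (Finset.mem_filter.1 ha).2
    have hpr := (Finset.mem_filter.1 (Finset.mem_filter.1 ha).1).2
    have hsz := hS_le s hs
    have hsp := hS_prime s hs
    simp only [K, Finset.mem_insert, Finset.mem_singleton] at hmem
    rcases hmem with h | h | h
    · have h1 : s ∣ a := (ZMod.natCast_eq_zero_iff a s).1 h
      have h2 := (Nat.prime_dvd_prime_iff_eq hsp hpr.1).1 h1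
      omega
    · have h1 : ((1 + a * F : ℕ) : ZMod s) = 0 := by
        push_cast
        rw [h]
        have := hSF s hs
        field_simp
        ring
      have h2 : s ∣ 1 + a * F := (ZMod.natCast_eq_zero_iff _ s).1 h1
      have h3 := (Nat.prime_dvd_prime_iff_eq hsp hpr.2.1).1 h2
      have h4 : a ≤ a * F := Nat.le_mul_of_pos_right a (by omega)
      omega
    · have h1 : ((1 + a * F' : ℕ) : ZMod s) = 0 := by
        push_cast
        rw [h]
        have := hSF' s hs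
        field_simp
        ring
      have h2 : s ∣ 1 + a * F' := (ZMod.natCast_eq_zero_iff _ s).1 h1
      have h3 := (Nat.prime_dvd_prime_iff_eq hsp hpr.2.2).1 h2
      have h4 : a ≤ a * F' := Nat.le_mul_of_pos_right a (by omega)
      omega
  have hmain := hmaster Y Q hQ hY.le hYQ hcase S K A' (Finset.filter_subset _ _)
    (fun s hs => (hKcard s hs).le) hA'Y hsift
  -- the weight
  have hweight : ∑ p ∈ S, ((K p).card : ℝ) / p = 3 * ∑ p ∈ S, (1 : ℝ) / p := by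
    rw [Finset.mul_sum]
    refine Finset.sum_congr rfl fun p hp => ?_
    rw [hKcard p hp]; push_cast; ring
  have hrec := hrecip C2 Y Q D hC2 hQ hY.le hcase hD1 (by rw [hDr]; exact hFF)
  have hexp1 := exp_neg_sifted_le hC2 hQ ht hrec
  rw [← hS, ← hK1] at hexp1
  have hexp3 : exp (-(∑ p ∈ S, ((K p).card : ℝ) / p)) ≤ K1 ^ 3 * Q ^ 6 / (Real.log Y) ^ 3 := by
    rw [hweight]
    have e : -(3 * ∑ p ∈ S, (1 : ℝ) / p) = 3 * (-(∑ p ∈ S, (1 : ℝ) / p)) := by ring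
    rw [e, show (3 : ℝ) = ((3 : ℕ) : ℝ) by norm_num, Real.exp_nat_mul]
    have h0 : 0 ≤ exp (-(∑ p ∈ S, (1 : ℝ) / p)) := (exp_pos _).le
    calc exp (-(∑ p ∈ S, (1 : ℝ) / p)) ^ 3 ≤ (K1 * Q ^ 2 / Real.log Y) ^ 3 :=
          pow_le_pow_left₀ h0 hexp1 3
      _ = K1 ^ 3 * Q ^ 6 / (Real.log Y) ^ 3 := by
          rw [div_pow, mul_pow]; ring
  -- small elements
  have hsmall : ((A.filter (fun R => ¬ z < R)).card : ℝ) ≤ exp (Real.log Y / 2) := by
    have h1 : (A.filter (fun R => ¬ z < R)).card ≤ z := by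
      have h2 : A.filter (fun R => ¬ z < R) ⊆ Finset.Icc 1 z := by
        intro a ha
        rw [Finset.mem_filter] at ha
        have h3 := (Finset.mem_Icc.1 (Finset.mem_filter.1 ha.1).1).1
        exact Finset.mem_Icc.2 ⟨h3, by omega⟩
      have h3 := Finset.card_le_card h2
      simpa using h3
    have h4 : (z : ℝ) ≤ exp (Real.log Y / (4 * C2 * Q)) := Nat.floor_le (exp_pos _).le
    have h5 : Real.log Y / (4 * C2 * Q) ≤ Real.log Y / 2 := by
      apply div_le_div_of_nonneg_left ht.le (by norm_num)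
      nlinarith
    calc ((A.filter (fun R => ¬ z < R)).card : ℝ) ≤ z := by exact_mod_cast h1
      _ ≤ exp (Real.log Y / (4 * C2 * Q)) := h4
      _ ≤ exp (Real.log Y / 2) := Real.exp_le_exp.2 h5
  have hsum : (A.card : ℝ) = (A'.card : ℝ) + ((A.filter (fun R => ¬ z < R)).card : ℝ) := by
    have := Finset.card_filter_add_card_filter_not (s := A) (fun R => z < R)
    exact_mod_cast this.symm
  have hsq := exp_half_le Y hY
  have hY1 : Y + 1 ≤ 2 * Y := by linarith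
  have hterm : (Y + 1) * (2 * exp (-(∑ p ∈ S, ((K p).card : ℝ) / p)))
      ≤ 4 * K1 ^ 3 * Y * Q ^ 6 / (Real.log Y) ^ 3 := by
    calc (Y + 1) * (2 * exp (-(∑ p ∈ S, ((K p).card : ℝ) / p)))
        ≤ (2 * Y) * (2 * (K1 ^ 3 * Q ^ 6 / (Real.log Y) ^ 3)) := by
          apply mul_le_mul hY1 (by linarith) (by positivity) (by positivity)
      _ = 4 * K1 ^ 3 * Y * Q ^ 6 / (Real.log Y) ^ 3 := by ring
  have hcube : 0 < (Real.log Y) ^ 3 := by positivity
  rw [le_div_iff₀ hcube]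
  have htotal : (A.card : ℝ) ≤ 4 * K1 ^ 3 * Y * Q ^ 6 / (Real.log Y) ^ 3
      + 2 * (216 * Y / (Real.log Y) ^ 3) := by
    rw [hsum]; linarith
  have e2 : (4 * K1 ^ 3 * Y * Q ^ 6 / (Real.log Y) ^ 3 + 2 * (216 * Y / (Real.log Y) ^ 3))
      * (Real.log Y) ^ 3 = 4 * K1 ^ 3 * Y * Q ^ 6 + 432 * Y := by
    field_simp
    ring
  calc (A.card : ℝ) * (Real.log Y) ^ 3
      ≤ (4 * K1 ^ 3 * Y * Q ^ 6 / (Real.log Y) ^ 3 + 2 * (216 * Y / (Real.log Y) ^ 3))
        * (Real.log Y) ^ 3 := mul_le_mul_of_nonneg_right htotal hcube.le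
    _ = 4 * K1 ^ 3 * Y * Q ^ 6 + 432 * Y := e2
    _ ≤ ((8 * C2) ^ 3 + 432 + 4 * K1 ^ 3 + 1) * Y * Q ^ 6 := by
        have h10 : 0 ≤ Y * Q ^ 6 := by positivity
        have h11 : 0 ≤ (8 * C2) ^ 3 := by positivity
        have h12 : Y ≤ Y * Q ^ 6 := by nlinarith
        nlinarith

/-- `(Si2, S2)` Upper bound for prime pairs `R, 1 + R F`. -/
theorem sieve_S2 : ∃ C : ℝ, 0 < C ∧ ∀ (Y Q : ℝ) (F : ℕ), 1 < Y → 1 ≤ Q → 1 ≤ F →
    Y ≤ exp (exp Q) → (F : ℝ) ≤ exp (exp Q) →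
    (((Finset.Icc 1 ⌊Y⌋₊).filter (fun R => R.Prime ∧ (1 + R * F).Prime)).card : ℝ)
      ≤ C * Y * Q ^ 4 / (Real.log Y) ^ 2 := by
  obtain ⟨C2, hC2, hmaster⟩ := sieve_master
  obtain ⟨C1, hC1, hrecip⟩ := recip_sifted
  set K1 : ℝ := exp C1 * (8 * C2) with hK1
  have hK1pos : 0 < K1 := by positivity
  refine ⟨(8 * C2) ^ 2 + 432 + 4 * K1 ^ 2 + 1, by positivity, ?_⟩
  intro Y Q F hY hQ hF hYQ hFF
  classical
  set A := (Finset.Icc 1 ⌊Y⌋₊).filter (fun R => R.Prime ∧ (1 + R * F).Prime) with hA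
  have hY0 : 0 < Y := by linarith
  have ht : 0 < Real.log Y := Real.log_pos hY
  have hQ0 : 0 < Q := by linarith
  have hQ4 : 1 ≤ Q ^ 4 := one_le_pow₀ hQ
  by_cases hcase : 8 * C2 * Q ≤ Real.log Y
  swap
  · -- trivial range
    push Not at hcase
    have h1 : (A.card : ℝ) ≤ Y := by
      have h2 : A.card ≤ (Finset.Icc 1 ⌊Y⌋₊).card := Finset.card_filter_le _ _
      have h3 : (Finset.Icc 1 ⌊Y⌋₊).card = ⌊Y⌋₊ := by simp
      rw [h3] at h2
      calc (A.card : ℝ) ≤ (⌊Y⌋₊ : ℝ) := by exact_mod_cast h2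
        _ ≤ Y := Nat.floor_le hY0.le
    rw [le_div_iff₀ (by positivity)]
    have h4 : (Real.log Y) ^ 2 ≤ (8 * C2 * Q) ^ 2 := pow_le_pow_left₀ ht.le hcase.le 2
    have h5 : (8 * C2 * Q) ^ 2 = (8 * C2) ^ 2 * Q ^ 2 := by ring
    have h6 : Q ^ 2 ≤ Q ^ 4 := pow_le_pow_right₀ hQ (by norm_num)
    have h7 : 0 ≤ (8 * C2) ^ 2 := by positivity
    have h8 : (Real.log Y) ^ 2 ≤ (8 * C2) ^ 2 * Q ^ 4 := by
      rw [h5] at h4
      exact h4.trans (mul_le_mul_of_nonneg_left h6 h7)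
    have h9 : 0 ≤ (Real.log Y) ^ 2 := by positivity
    calc (A.card : ℝ) * (Real.log Y) ^ 2 ≤ Y * (Real.log Y) ^ 2 :=
          mul_le_mul_of_nonneg_right h1 h9
      _ ≤ Y * ((8 * C2) ^ 2 * Q ^ 4) := mul_le_mul_of_nonneg_left h8 hY0.le
      _ ≤ ((8 * C2) ^ 2 + 432 + 4 * K1 ^ 2 + 1) * Y * Q ^ 4 := by
          have h10 : 0 ≤ Y * Q ^ 4 := by positivity
          have h11 : 0 ≤ K1 ^ 2 := by positivity
          nlinarith
  -- the sieving range
  set z : ℕ := ⌊exp (Real.log Y / (4 * C2 * Q))⌋₊ with hz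
  set S := ((Ioc 4 z).filter Nat.Prime).filter (fun s => ¬ s ∣ F) with hS
  let K : (p : ℕ) → Finset (ZMod p) := fun p => {0, -(F : ZMod p)⁻¹}
  have hS_prime : ∀ s ∈ S, s.Prime := fun s hs =>
    (Finset.mem_filter.1 (Finset.mem_filter.1 hs).1).2
  have hS_ndvd : ∀ s ∈ S, ¬ s ∣ F := fun s hs => (Finset.mem_filter.1 hs).2
  have hS_le : ∀ s ∈ S, s ≤ z := fun s hs =>
    (Finset.mem_Ioc.1 (Finset.mem_filter.1 (Finset.mem_filter.1 hs).1).1).2
  have hSF : ∀ s ∈ S, (F : ZMod s) ≠ 0 := by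
    intro s hs h
    exact hS_ndvd s hs ((ZMod.natCast_eq_zero_iff F s).1 h)
  have hKcard : ∀ s ∈ S, (K s).card = 2 := by
    intro s hs
    have : Fact s.Prime := ⟨hS_prime s hs⟩
    have h1 : (0 : ZMod s) ≠ -(F : ZMod s)⁻¹ := by
      intro h
      have := inv_eq_zero.1 (neg_eq_zero.1 h.symm)
      exact hSF s hs this
    exact Finset.card_pair h1
  -- the large elements of A are sifted
  set A' := A.filter (fun R => z < R) with hA'
  have hA'Y : ∀ a ∈ A', (a : ℝ) ≤ Y := by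
    intro a ha
    have h1 := (Finset.mem_filter.1 (Finset.mem_filter.1 ha).1).1
    have h2 := (Finset.mem_Icc.1 h1).2
    exact (Nat.le_floor_iff hY0.le).1 h2
  have hsift : ∀ a ∈ A', ∀ s ∈ S, (a : ZMod s) ∉ K s := by
    intro a ha s hs hmem
    have : Fact s.Prime := ⟨hS_prime s hs⟩
    have hza : z < a := (Finset.mem_filter.1 ha).2
    have hpr := (Finset.mem_filter.1 (Finset.mem_filter.1 ha).1).2
    have hsz := hS_le s hs
    have hsp := hS_prime s hs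
    simp only [K, Finset.mem_insert, Finset.mem_singleton] at hmem
    rcases hmem with h | h
    · have h1 : s ∣ a := (ZMod.natCast_eq_zero_iff a s).1 h
      have h2 := (Nat.prime_dvd_prime_iff_eq hsp hpr.1).1 h1
      omega
    · have h1 : ((1 + a * F : ℕ) : ZMod s) = 0 := by
        push_cast
        rw [h]
        have := hSF s hs
        field_simp
        ring
      have h2 : s ∣ 1 + a * F := (ZMod.natCast_eq_zero_iff _ s).1 h1
      have h3 := (Nat.prime_dvd_prime_iff_eq hsp hpr.2).1 h2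
      have h4 : a ≤ a * F := Nat.le_mul_of_pos_right a (by omega)
      omega
  have hmain := hmaster Y Q hQ hY.le hYQ hcase S K A' (Finset.filter_subset _ _)
    (fun s hs => by rw [hKcard s hs]; norm_num) hA'Y hsift
  -- the weight
  have hweight : ∑ p ∈ S, ((K p).card : ℝ) / p = 2 * ∑ p ∈ S, (1 : ℝ) / p := by
    rw [Finset.mul_sum]
    refine Finset.sum_congr rfl fun p hp => ?_
    rw [hKcard p hp]; push_cast; ring
  have hrec := hrecip C2 Y Q F hC2 hQ hY.le hcase hF hFF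
  have hexp1 := exp_neg_sifted_le hC2 hQ ht hrec
  rw [← hS, ← hK1] at hexp1
  have hexp3 : exp (-(∑ p ∈ S, ((K p).card : ℝ) / p)) ≤ K1 ^ 2 * Q ^ 4 / (Real.log Y) ^ 2 := by
    rw [hweight]
    have e : -(2 * ∑ p ∈ S, (1 : ℝ) / p) = 2 * (-(∑ p ∈ S, (1 : ℝ) / p)) := by ring
    rw [e, show (2 : ℝ) = ((2 : ℕ) : ℝ) by norm_num, Real.exp_nat_mul]
    have h0 : 0 ≤ exp (-(∑ p ∈ S, (1 : ℝ) / p)) := (exp_pos _).le
    calc exp (-(∑ p ∈ S, (1 : ℝ) / p)) ^ 2 ≤ (K1 * Q ^ 2 / Real.log Y) ^ 2 :=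
          pow_le_pow_left₀ h0 hexp1 2
      _ = K1 ^ 2 * Q ^ 4 / (Real.log Y) ^ 2 := by
          rw [div_pow, mul_pow]; ring
  -- small elements
  have hsmall : ((A.filter (fun R => ¬ z < R)).card : ℝ) ≤ exp (Real.log Y / 2) := by
    have h1 : (A.filter (fun R => ¬ z < R)).card ≤ z := by
      have h2 : A.filter (fun R => ¬ z < R) ⊆ Finset.Icc 1 z := by
        intro a ha
        rw [Finset.mem_filter] at ha
        have h3 := (Finset.mem_Icc.1 (Finset.mem_filter.1 ha.1).1).1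
        exact Finset.mem_Icc.2 ⟨h3, by omega⟩
      have h3 := Finset.card_le_card h2
      simpa using h3
    have h4 : (z : ℝ) ≤ exp (Real.log Y / (4 * C2 * Q)) := Nat.floor_le (exp_pos _).le
    have h5 : Real.log Y / (4 * C2 * Q) ≤ Real.log Y / 2 := by
      apply div_le_div_of_nonneg_left ht.le (by norm_num)
      nlinarith
    calc ((A.filter (fun R => ¬ z < R)).card : ℝ) ≤ z := by exact_mod_cast h1
      _ ≤ exp (Real.log Y / (4 * C2 * Q)) := h4
      _ ≤ exp (Real.log Y / 2) := Real.exp_le_exp.2 h5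
  have hsum : (A.card : ℝ) = (A'.card : ℝ) + ((A.filter (fun R => ¬ z < R)).card : ℝ) := by
    have := Finset.card_filter_add_card_filter_not (s := A) (fun R => z < R)
    exact_mod_cast this.symm
  have hlogY1 : 1 ≤ Real.log Y := by
    have : 1 ≤ 8 * C2 * Q := by nlinarith
    linarith
  have hsq : exp (Real.log Y / 2) ≤ 216 * Y / (Real.log Y) ^ 2 := by
    have h1 := exp_half_le Y hY
    refine h1.trans ?_
    apply div_le_div_of_nonneg_left (by positivity) (by positivity)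
    exact pow_le_pow_right₀ hlogY1 (by norm_num)
  have hY1 : Y + 1 ≤ 2 * Y := by linarith
  have hterm : (Y + 1) * (2 * exp (-(∑ p ∈ S, ((K p).card : ℝ) / p)))
      ≤ 4 * K1 ^ 2 * Y * Q ^ 4 / (Real.log Y) ^ 2 := by
    calc (Y + 1) * (2 * exp (-(∑ p ∈ S, ((K p).card : ℝ) / p)))
        ≤ (2 * Y) * (2 * (K1 ^ 2 * Q ^ 4 / (Real.log Y) ^ 2)) := by
          apply mul_le_mul hY1 (by linarith) (by positivity) (by positivity)
      _ = 4 * K1 ^ 2 * Y * Q ^ 4 / (Real.log Y) ^ 2 := by ring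
  have hcube : 0 < (Real.log Y) ^ 2 := by positivity
  rw [le_div_iff₀ hcube]
  have htotal : (A.card : ℝ) ≤ 4 * K1 ^ 2 * Y * Q ^ 4 / (Real.log Y) ^ 2
      + 2 * (216 * Y / (Real.log Y) ^ 2) := by
    rw [hsum]; linarith
  have e2 : (4 * K1 ^ 2 * Y * Q ^ 4 / (Real.log Y) ^ 2 + 2 * (216 * Y / (Real.log Y) ^ 2))
      * (Real.log Y) ^ 2 = 4 * K1 ^ 2 * Y * Q ^ 4 + 432 * Y := by
    field_simp
    ring
  calc (A.card : ℝ) * (Real.log Y) ^ 2
      ≤ (4 * K1 ^ 2 * Y * Q ^ 4 / (Real.log Y) ^ 2 + 2 * (216 * Y / (Real.log Y) ^ 2))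
        * (Real.log Y) ^ 2 := mul_le_mul_of_nonneg_right htotal hcube.le
    _ = 4 * K1 ^ 2 * Y * Q ^ 4 + 432 * Y := e2
    _ ≤ ((8 * C2) ^ 2 + 432 + 4 * K1 ^ 2 + 1) * Y * Q ^ 4 := by
        have h10 : 0 ≤ Y * Q ^ 4 := by positivity
        have h11 : 0 ≤ (8 * C2) ^ 2 := by positivity
        have h12 : Y ≤ Y * Q ^ 4 := by nlinarith
        nlinarith

/-- Small elements of a set inside `[1, z]`. -/
lemma small_card_le {A : Finset ℕ} {z : ℕ} {Y C2 Q : ℝ} (hA : ∀ a ∈ A, 1 ≤ a)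
    (ht : 0 < Real.log Y) (hz : (z : ℝ) ≤ exp (Real.log Y / (4 * C2 * Q))) (hC2 : 1 ≤ C2)
    (hQ : 1 ≤ Q) :
    ((A.filter (fun R => ¬ z < R)).card : ℝ) ≤ exp (Real.log Y / 2) := by
  have h1 : (A.filter (fun R => ¬ z < R)).card ≤ z := by
    have h2 : A.filter (fun R => ¬ z < R) ⊆ Finset.Icc 1 z := by
      intro a ha
      rw [Finset.mem_filter] at ha
      exact Finset.mem_Icc.2 ⟨hA a ha.1, by omega⟩
    have h3 := Finset.card_le_card h2
    simpa using h3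
  have h5 : Real.log Y / (4 * C2 * Q) ≤ Real.log Y / 2 := by
    apply div_le_div_of_nonneg_left ht.le (by norm_num)
    nlinarith
  calc ((A.filter (fun R => ¬ z < R)).card : ℝ) ≤ z := by exact_mod_cast h1
    _ ≤ exp (Real.log Y / (4 * C2 * Q)) := hz
    _ ≤ exp (Real.log Y / 2) := Real.exp_le_exp.2 h5

/-- The square root term against the main term of `sieve_BT_hole`. -/
lemma sq_le_hole {Y Q h C0 : ℝ} (hY : 1 < Y) (hQ : 1 ≤ Q) (hlogY1 : 1 ≤ Real.log Y)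
    (hhupper : h ≤ 1 + Real.log (Real.log Y) + C0) :
    exp (Real.log Y / 2) ≤ 216 * exp (1 + C0) * Y * Q ^ 3 / Real.log Y * exp (-h) := by
  have hY0 : 0 < Y := by linarith
  have ht : 0 < Real.log Y := by linarith
  have hQ3 : 1 ≤ Q ^ 3 := one_le_pow₀ hQ
  have hinv : 1 / Real.log Y ≤ exp (1 + C0) * exp (-h) := by
    have h1 : h - (1 + C0) ≤ Real.log (Real.log Y) := by linarith
    have h2 : exp (h - (1 + C0)) ≤ Real.log Y := (Real.le_log_iff_exp_le ht).1 h1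
    have h3 : exp (1 + C0) * exp (-h) = 1 / exp (h - (1 + C0)) := by
      rw [← Real.exp_add, one_div, ← Real.exp_neg]
      congr 1; ring
    rw [h3]
    exact one_div_le_one_div_of_le (exp_pos _) h2
  have h1 := exp_half_le Y hY
  have h2 : 216 * Y / (Real.log Y) ^ 3 ≤ 216 * Y / Real.log Y * (1 / Real.log Y) := by
    have h3 : 216 * Y / Real.log Y * (1 / Real.log Y) = 216 * Y / (Real.log Y) ^ 2 := by
      field_simp
    rw [h3]
    apply div_le_div_of_nonneg_left (by positivity) (by positivity)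
    exact pow_le_pow_right₀ hlogY1 (by norm_num)
  have h4 : 216 * Y / Real.log Y * (1 / Real.log Y)
      ≤ 216 * Y / Real.log Y * (exp (1 + C0) * exp (-h)) :=
    mul_le_mul_of_nonneg_left hinv (by positivity)
  have h5 : 216 * Y / Real.log Y * (exp (1 + C0) * exp (-h))
      ≤ 216 * exp (1 + C0) * Y * Q ^ 3 / Real.log Y * exp (-h) := by
    have h6 : 0 ≤ 216 * exp (1 + C0) * Y * exp (-h) / Real.log Y := by positivity
    have e1 : 216 * Y / Real.log Y * (exp (1 + C0) * exp (-h))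
        = (216 * exp (1 + C0) * Y * exp (-h) / Real.log Y) * 1 := by ring
    have e2 : 216 * exp (1 + C0) * Y * Q ^ 3 / Real.log Y * exp (-h)
        = (216 * exp (1 + C0) * Y * exp (-h) / Real.log Y) * Q ^ 3 := by ring
    rw [e1, e2]
    exact mul_le_mul_of_nonneg_left hQ3 h6
  linarith

/-- Decomposition of the reciprocal sum of the hole. -/
lemma hole_split {I : Finset ℕ} {z d : ℕ} {Q C3 : ℝ} (hd : 1 ≤ d) (hI : ∀ s ∈ I, s.Prime)
    (hIz : ∀ s ∈ I, s ≤ z)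
    (h5 : ∑ s ∈ d.primeFactors, (1 : ℝ) / s ≤ Real.log Q + C3) :
    ∑ s ∈ I, (1 : ℝ) / s ≤ ∑ p ∈ (((Ioc 4 z).filter Nat.Prime).filter
        (fun s => ¬ s ∣ d)).filter (fun p => p ∈ I), (1 : ℝ) / p + (1 + Real.log Q + C3) := by
  classical
  set S := ((Ioc 4 z).filter Nat.Prime).filter (fun s => ¬ s ∣ d) with hS
  have hsub : I ⊆ S.filter (fun p => p ∈ I) ∪ (({2, 3} : Finset ℕ) ∪ d.primeFactors) := by
    intro s hs
    have hsp := hI s hs
    have hsz := hIz s hs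
    rw [Finset.mem_union, Finset.mem_union]
    by_cases h4 : s ≤ 4
    · right; left
      have h2 := hsp.two_le
      interval_cases s
      · simp
      · simp
      · exact absurd hsp (by norm_num)
    · by_cases hdv : s ∣ d
      · right; right
        rw [Nat.mem_primeFactors]
        exact ⟨hsp, hdv, by omega⟩
      · left
        rw [Finset.mem_filter, hS, Finset.mem_filter, Finset.mem_filter, Finset.mem_Ioc]
        exact ⟨⟨⟨⟨by omega, hsz⟩, hsp⟩, hdv⟩, hs⟩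
  have hpos : ∀ (T : Finset ℕ), 0 ≤ ∑ s ∈ T, (1 : ℝ) / s :=
    fun T => Finset.sum_nonneg fun _ _ => by positivity
  have hu : ∀ T T' : Finset ℕ, ∑ s ∈ T ∪ T', (1 : ℝ) / s
      ≤ ∑ s ∈ T, (1 : ℝ) / s + ∑ s ∈ T', (1 : ℝ) / s := by
    intro T T'
    have h0 := Finset.sum_union_inter (s₁ := T) (s₂ := T') (f := fun s : ℕ => (1 : ℝ) / s)
    linarith [hpos (T ∩ T')]
  have h1 : ∑ s ∈ I, (1 : ℝ) / s ≤ ∑ s ∈ S.filter (fun p => p ∈ I) ∪ (({2, 3} : Finset ℕ) ∪ d.primeFactors),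
      (1 : ℝ) / s := Finset.sum_le_sum_of_subset_of_nonneg hsub (fun _ _ _ => by positivity)
  have h2 := hu (S.filter (fun p => p ∈ I)) (({2, 3} : Finset ℕ) ∪ d.primeFactors)
  have h3 := hu ({2, 3} : Finset ℕ) d.primeFactors
  have h4 : ∑ s ∈ ({2, 3} : Finset ℕ), (1 : ℝ) / s = 1 / 2 + 1 / 3 := by
    rw [Finset.sum_pair (by norm_num)]; norm_num
  linarith

/-- Upper bound of the reciprocal sum of the hole. -/
lemma hole_upper {I : Finset ℕ} {z : ℕ} {Y C0 : ℝ} (hz4 : 4 ≤ z) (hI : ∀ s ∈ I, s.Prime)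
    (hIz : ∀ s ∈ I, s ≤ z) (hlogzℓ : Real.log (z : ℝ) ≤ Real.log Y)
    (hC0b : |primeSum 4 z - Real.log (Real.log z)| ≤ C0) :
    ∑ s ∈ I, (1 : ℝ) / s ≤ 1 + Real.log (Real.log Y) + C0 := by
  classical
  have hzr : (4 : ℝ) ≤ z := by exact_mod_cast hz4
  have hlogz0 : 0 < Real.log (z : ℝ) := Real.log_pos (by linarith)
  have hsub : I ⊆ ({2, 3} : Finset ℕ) ∪ (Ioc 4 z).filter Nat.Prime := by
    intro s hs
    have hsp := hI s hs
    have hsz := hIz s hs
    rw [Finset.mem_union]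
    by_cases h4 : s ≤ 4
    · left
      have h2 := hsp.two_le
      interval_cases s
      · simp
      · simp
      · exact absurd hsp (by norm_num)
    · right
      rw [Finset.mem_filter, Finset.mem_Ioc]
      exact ⟨⟨by omega, hsz⟩, hsp⟩
  have h1 : ∑ s ∈ I, (1 : ℝ) / s ≤ ∑ s ∈ ({2, 3} : Finset ℕ) ∪ (Ioc 4 z).filter Nat.Prime, (1 : ℝ) / s :=
    Finset.sum_le_sum_of_subset_of_nonneg hsub (fun _ _ _ => by positivity)
  have h0 := Finset.sum_union_inter (s₁ := ({2, 3} : Finset ℕ))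
    (s₂ := (Ioc 4 z).filter Nat.Prime) (f := fun s : ℕ => (1 : ℝ) / s)
  have h2 : 0 ≤ ∑ s ∈ ({2, 3} : Finset ℕ) ∩ (Ioc 4 z).filter Nat.Prime, (1 : ℝ) / s :=
    Finset.sum_nonneg fun _ _ => by positivity
  have h4 : ∑ s ∈ ({2, 3} : Finset ℕ), (1 : ℝ) / s = 1 / 2 + 1 / 3 := by
    rw [Finset.sum_pair (by norm_num)]; norm_num
  have h5 := abs_le.1 hC0b
  have h6 : Real.log (Real.log (z : ℝ)) ≤ Real.log (Real.log Y) :=
    Real.log_le_log hlogz0 hlogzℓ
  have h7 : primeSum 4 z = ∑ s ∈ (Ioc 4 z).filter Nat.Prime, (1 : ℝ) / s := rfl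
  linarith [h5.1, h5.2]

/-- Trivial range of `sieve_BT_hole`. -/
lemma hole_trivial {A I : Finset ℕ} {Y Q C C2 : ℝ} (hC16 : 16 * C2 ≤ C) (hC2 : 1 ≤ C2)
    (hY : 1 < Y) (hQ : 1 ≤ Q) (hcard_triv : (A.card : ℝ) ≤ Y)
    (hI : ∀ s ∈ I, s.Prime ∧ (s : ℝ) ≤ exp (Real.log Y / (C * Q)))
    (hcase : Real.log Y < 8 * C2 * Q) :
    (A.card : ℝ) ≤ C * Y * Q ^ 3 / Real.log Y * exp (-(∑ s ∈ I, (1 : ℝ) / s)) := by
  have hY0 : 0 < Y := by linarith
  have ht : 0 < Real.log Y := Real.log_pos hY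
  have hQ0 : 0 < Q := by linarith
  have hCpos : 0 < C := by linarith
  have hIe : I = ∅ := by
    apply Finset.eq_empty_of_forall_notMem
    intro s hs
    obtain ⟨hsp, hsle⟩ := hI s hs
    have h1 : Real.log Y / (C * Q) ≤ 1 / 2 := by
      rw [div_le_iff₀ (by positivity)]
      have h2 : 16 * C2 * Q ≤ C * Q := mul_le_mul_of_nonneg_right hC16 hQ0.le
      linarith
    have h2 : exp (Real.log Y / (C * Q)) ≤ exp (1 / 2) := Real.exp_le_exp.2 h1
    have h3 : exp (1 / 2 : ℝ) < 2 := by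
      have h4 : exp (1 / 2 : ℝ) * exp (1 / 2 : ℝ) = exp 1 := by
        rw [← Real.exp_add]; norm_num
      have h5 := Real.exp_one_lt_d9
      have h6 : 0 < exp (1 / 2 : ℝ) := exp_pos _
      nlinarith
    have h4 : (2 : ℝ) ≤ s := by exact_mod_cast hsp.two_le
    linarith
  rw [hIe]
  simp only [Finset.sum_empty, neg_zero, Real.exp_zero, mul_one]
  rw [le_div_iff₀ ht]
  have h1 : Real.log Y ≤ C * Q ^ 3 := by
    have h2 : 8 * C2 * Q ≤ C * Q := by
      apply mul_le_mul_of_nonneg_right _ hQ0.le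
      linarith
    have h3 : Q ≤ Q ^ 3 := le_self_pow₀ hQ (by norm_num)
    have h4 : C * Q ≤ C * Q ^ 3 := mul_le_mul_of_nonneg_left h3 hCpos.le
    linarith
  calc (A.card : ℝ) * Real.log Y ≤ Y * Real.log Y := mul_le_mul_of_nonneg_right hcard_triv ht.le
    _ ≤ Y * (C * Q ^ 3) := mul_le_mul_of_nonneg_left h1 hY0.le
    _ = C * Y * Q ^ 3 := by ring

/-- `(Si4)` Brun-Titchmarsh with a hole: integers `n ≤ Y` with `1 + n d` prime and not divisible
by any prime of a set `I` of primes below the sieving limit. -/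
theorem sieve_BT_hole : ∃ C : ℝ, 0 < C ∧ ∀ (Y Q : ℝ) (d : ℕ) (I : Finset ℕ), 1 < Y → 1 ≤ Q →
    1 ≤ d → Y ≤ exp (exp Q) → (d : ℝ) ≤ exp (exp Q) →
    (∀ s ∈ I, s.Prime ∧ (s : ℝ) ≤ exp (Real.log Y / (C * Q))) →
    (((Finset.Icc 1 ⌊Y⌋₊).filter (fun n => (1 + n * d).Prime ∧ ∀ s ∈ I, ¬ s ∣ n)).card : ℝ)
      ≤ C * Y * Q ^ 3 / Real.log Y * exp (-(∑ s ∈ I, (1 : ℝ) / s)) := by
  obtain ⟨C2, hC2, hmaster⟩ := sieve_master
  obtain ⟨C1, hC1, hrecip⟩ := recip_sifted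
  obtain ⟨C3, hC3, hsd⟩ := sumdiv
  obtain ⟨C0, hC0, hC0b⟩ := prime_recip_bound
  set K1 : ℝ := exp C1 * (8 * C2) with hK1
  have hK1pos : 0 < K1 := by positivity
  set C : ℝ := 16 * C2 + 4 * K1 * exp (1 + C3) + 432 * exp (1 + C0) + 1 with hC
  have hCpos : 0 < C := by positivity
  have hC16 : 16 * C2 ≤ C := by
    have h1 : 0 < 4 * K1 * exp (1 + C3) := by positivity
    have h2 : 0 < 432 * exp (1 + C0) := by positivity
    rw [hC]; linarith
  refine ⟨C, hCpos, ?_⟩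
  intro Y Q d I hY hQ hd hYQ hdQ hI
  classical
  set A := (Finset.Icc 1 ⌊Y⌋₊).filter (fun n => (1 + n * d).Prime ∧ ∀ s ∈ I, ¬ s ∣ n) with hA
  have hY0 : 0 < Y := by linarith
  have ht : 0 < Real.log Y := Real.log_pos hY
  have hQ0 : 0 < Q := by linarith
  have hQ3 : 1 ≤ Q ^ 3 := one_le_pow₀ hQ
  have hcard_triv : (A.card : ℝ) ≤ Y := by
    have h2 : A.card ≤ (Finset.Icc 1 ⌊Y⌋₊).card := Finset.card_filter_le _ _
    have h3 : (Finset.Icc 1 ⌊Y⌋₊).card = ⌊Y⌋₊ := by simp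
    rw [h3] at h2
    calc (A.card : ℝ) ≤ (⌊Y⌋₊ : ℝ) := by exact_mod_cast h2
      _ ≤ Y := Nat.floor_le hY0.le
  by_cases hcase : 8 * C2 * Q ≤ Real.log Y
  swap
  · push Not at hcase
    exact hole_trivial hC16 hC2 hY hQ hcard_triv hI hcase
  -- the sieving range
  have hden : 0 < 4 * C2 * Q := by positivity
  set z : ℕ := ⌊exp (Real.log Y / (4 * C2 * Q))⌋₊ with hz
  have hℓ2 : 2 ≤ Real.log Y / (4 * C2 * Q) := by
    rw [le_div_iff₀ hden]; linarith
  have hz4 : 4 ≤ z := by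
    apply Nat.le_floor
    have h1 : exp 2 ≤ exp (Real.log Y / (4 * C2 * Q)) := Real.exp_le_exp.2 hℓ2
    push_cast
    linarith [exp_two_ge_seven]
  have hzle : (z : ℝ) ≤ exp (Real.log Y / (4 * C2 * Q)) := Nat.floor_le (exp_pos _).le
  have hzr : (4 : ℝ) ≤ z := by exact_mod_cast hz4
  have hlogz0 : 0 < Real.log (z : ℝ) := Real.log_pos (by linarith)
  have hlogzℓ : Real.log (z : ℝ) ≤ Real.log Y := by
    have h1 : Real.log (z : ℝ) ≤ Real.log Y / (4 * C2 * Q) :=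
      (Real.log_le_iff_le_exp (by linarith)).2 hzle
    refine h1.trans ?_
    apply div_le_self ht.le
    nlinarith
  have hIz : ∀ s ∈ I, s ≤ z := by
    intro s hs
    apply Nat.le_floor
    refine (hI s hs).2.trans (Real.exp_le_exp.2 ?_)
    apply div_le_div_of_nonneg_left ht.le hden
    have : 4 * C2 * Q ≤ C * Q := by
      apply mul_le_mul_of_nonneg_right _ hQ0.le
      linarith
    exact this
  set S := ((Ioc 4 z).filter Nat.Prime).filter (fun s => ¬ s ∣ d) with hS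
  let K : (p : ℕ) → Finset (ZMod p) := fun p =>
    if p ∈ I then {0, -(d : ZMod p)⁻¹} else {-(d : ZMod p)⁻¹}
  have hS_prime : ∀ s ∈ S, s.Prime := fun s hs =>
    (Finset.mem_filter.1 (Finset.mem_filter.1 hs).1).2
  have hS_ndvd : ∀ s ∈ S, ¬ s ∣ d := fun s hs => (Finset.mem_filter.1 hs).2
  have hS_le : ∀ s ∈ S, s ≤ z := fun s hs =>
    (Finset.mem_Ioc.1 (Finset.mem_filter.1 (Finset.mem_filter.1 hs).1).1).2
  have hSd : ∀ s ∈ S, (d : ZMod s) ≠ 0 := by
    intro s hs h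
    exact hS_ndvd s hs ((ZMod.natCast_eq_zero_iff d s).1 h)
  have hKcard : ∀ s ∈ S, (K s).card = if s ∈ I then 2 else 1 := by
    intro s hs
    have : Fact s.Prime := ⟨hS_prime s hs⟩
    by_cases hsI : s ∈ I
    · have h1 : (0 : ZMod s) ≠ -(d : ZMod s)⁻¹ := by
        intro h
        have := inv_eq_zero.1 (neg_eq_zero.1 h.symm)
        exact hSd s hs this
      simp only [K, if_pos hsI]
      exact Finset.card_pair h1
    · simp only [K, if_neg hsI]
      simp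
  -- the large elements of A are sifted
  set A' := A.filter (fun R => z < R) with hA'
  have hA'Y : ∀ a ∈ A', (a : ℝ) ≤ Y := by
    intro a ha
    have h1 := (Finset.mem_filter.1 (Finset.mem_filter.1 ha).1).1
    have h2 := (Finset.mem_Icc.1 h1).2
    exact (Nat.le_floor_iff hY0.le).1 h2
  have hsift : ∀ a ∈ A', ∀ s ∈ S, (a : ZMod s) ∉ K s := by
    intro a ha s hs hmem
    have : Fact s.Prime := ⟨hS_prime s hs⟩
    have hza : z < a := (Finset.mem_filter.1 ha).2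
    have hpr := (Finset.mem_filter.1 (Finset.mem_filter.1 ha).1).2
    have hsz := hS_le s hs
    have hsp := hS_prime s hs
    have key : (a : ZMod s) ≠ -(d : ZMod s)⁻¹ := by
      intro h
      have h1 : ((1 + a * d : ℕ) : ZMod s) = 0 := by
        push_cast
        rw [h]
        have := hSd s hs
        field_simp
        ring
      have h2 : s ∣ 1 + a * d := (ZMod.natCast_eq_zero_iff _ s).1 h1
      have h3 := (Nat.prime_dvd_prime_iff_eq hsp hpr.1).1 h2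
      have h4 : a ≤ a * d := Nat.le_mul_of_pos_right a (by omega)
      omega
    by_cases hsI : s ∈ I
    · simp only [K, if_pos hsI, Finset.mem_insert, Finset.mem_singleton] at hmem
      rcases hmem with h | h
      · exact hpr.2 s hsI ((ZMod.natCast_eq_zero_iff a s).1 h)
      · exact key h
    · simp only [K, if_neg hsI, Finset.mem_singleton] at hmem
      exact key hmem
  have hK3 : ∀ s ∈ S, (K s).card ≤ 3 := by
    intro s hs
    rw [hKcard s hs]
    split_ifs <;> norm_num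
  have hmain := hmaster Y Q hQ hY.le hYQ hcase S K A' (Finset.filter_subset _ _) hK3 hA'Y hsift
  -- the weight
  set h : ℝ := ∑ s ∈ I, (1 : ℝ) / s with hh
  have hweight : ∑ p ∈ S, ((K p).card : ℝ) / p
      = ∑ p ∈ S, (1 : ℝ) / p + ∑ p ∈ S.filter (fun p => p ∈ I), (1 : ℝ) / p := by
    have hf : ∑ p ∈ S.filter (fun p => p ∈ I), (1 : ℝ) / p
        = ∑ p ∈ S, (if p ∈ I then (1 : ℝ) / p else 0) := Finset.sum_filter _ _
    rw [hf, ← Finset.sum_add_distrib]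
    refine Finset.sum_congr rfl fun p hp => ?_
    rw [hKcard p hp]
    split_ifs <;> push_cast <;> ring
  have hIsplit : h ≤ ∑ p ∈ S.filter (fun p => p ∈ I), (1 : ℝ) / p + (1 + Real.log Q + C3) :=
    hole_split hd (fun s hs => (hI s hs).1) hIz (hsd d Q hd hQ hdQ)
  have hhupper : h ≤ 1 + Real.log (Real.log Y) + C0 :=
    hole_upper hz4 (fun s hs => (hI s hs).1) hIz hlogzℓ (hC0b z hz4)
  have hrec := hrecip C2 Y Q d hC2 hQ hY.le hcase hd hdQ
  have hexp1 := exp_neg_sifted_le hC2 hQ ht hrec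
  rw [← hS, ← hK1] at hexp1
  have hexpw : exp (-(∑ p ∈ S, ((K p).card : ℝ) / p))
      ≤ K1 * exp (1 + C3) * Q ^ 3 / Real.log Y * exp (-h) := by
    have h1 : -(∑ p ∈ S, ((K p).card : ℝ) / p)
        ≤ -(∑ p ∈ S, (1 : ℝ) / p) + (1 + C3 + Real.log Q - h) := by
      rw [hweight]; linarith
    have h2 : exp (1 + C3 + Real.log Q - h) = exp (1 + C3) * Q * exp (-h) := by
      have : 1 + C3 + Real.log Q - h = (1 + C3) + Real.log Q + (-h) := by ring
      rw [this, Real.exp_add, Real.exp_add, Real.exp_log hQ0]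
    calc exp (-(∑ p ∈ S, ((K p).card : ℝ) / p))
        ≤ exp (-(∑ p ∈ S, (1 : ℝ) / p) + (1 + C3 + Real.log Q - h)) := Real.exp_le_exp.2 h1
      _ = exp (-(∑ p ∈ S, (1 : ℝ) / p)) * (exp (1 + C3) * Q * exp (-h)) := by
          rw [Real.exp_add, h2]
      _ ≤ (K1 * Q ^ 2 / Real.log Y) * (exp (1 + C3) * Q * exp (-h)) :=
          mul_le_mul_of_nonneg_right hexp1 (by positivity)
      _ = K1 * exp (1 + C3) * Q ^ 3 / Real.log Y * exp (-h) := by ring
  -- small elements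
  have hsmall : ((A.filter (fun R => ¬ z < R)).card : ℝ) ≤ exp (Real.log Y / 2) :=
    small_card_le (fun a ha => (Finset.mem_Icc.1 (Finset.mem_filter.1 ha).1).1) ht hzle hC2 hQ
  have hsum : (A.card : ℝ) = (A'.card : ℝ) + ((A.filter (fun R => ¬ z < R)).card : ℝ) := by
    have := Finset.card_filter_add_card_filter_not (s := A) (fun R => z < R)
    exact_mod_cast this.symm
  have hlogY1 : 1 ≤ Real.log Y := by
    have : 1 ≤ 8 * C2 * Q := by nlinarith
    linarith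
  have hsq : exp (Real.log Y / 2)
      ≤ 216 * exp (1 + C0) * Y * Q ^ 3 / Real.log Y * exp (-h) :=
    sq_le_hole hY hQ hlogY1 hhupper
  have hY1 : Y + 1 ≤ 2 * Y := by linarith
  have hterm : (Y + 1) * (2 * exp (-(∑ p ∈ S, ((K p).card : ℝ) / p)))
      ≤ 4 * K1 * exp (1 + C3) * Y * Q ^ 3 / Real.log Y * exp (-h) := by
    calc (Y + 1) * (2 * exp (-(∑ p ∈ S, ((K p).card : ℝ) / p)))
        ≤ (2 * Y) * (2 * (K1 * exp (1 + C3) * Q ^ 3 / Real.log Y * exp (-h))) := by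
          apply mul_le_mul hY1 (by linarith) (by positivity) (by positivity)
      _ = 4 * K1 * exp (1 + C3) * Y * Q ^ 3 / Real.log Y * exp (-h) := by ring
  have hfin : (A.card : ℝ) ≤ (4 * K1 * exp (1 + C3) + 432 * exp (1 + C0)) * Y * Q ^ 3 / Real.log Y
      * exp (-h) := by
    have e : (4 * K1 * exp (1 + C3) + 432 * exp (1 + C0)) * Y * Q ^ 3 / Real.log Y * exp (-h)
        = 4 * K1 * exp (1 + C3) * Y * Q ^ 3 / Real.log Y * exp (-h)
          + 2 * (216 * exp (1 + C0) * Y * Q ^ 3 / Real.log Y * exp (-h)) := by ring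
    rw [e, hsum]
    linarith
  refine hfin.trans ?_
  have h0 : 0 ≤ Y * Q ^ 3 / Real.log Y * exp (-h) := by positivity
  have e1 : (4 * K1 * exp (1 + C3) + 432 * exp (1 + C0)) * Y * Q ^ 3 / Real.log Y * exp (-h)
      = (4 * K1 * exp (1 + C3) + 432 * exp (1 + C0)) * (Y * Q ^ 3 / Real.log Y * exp (-h)) := by
    ring
  have e2 : C * Y * Q ^ 3 / Real.log Y * exp (-h) = C * (Y * Q ^ 3 / Real.log Y * exp (-h)) := by
    ring
  rw [e1, e2]
  apply mul_le_mul_of_nonneg_right _ h0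
  rw [hC]
  linarith

/-- Telescoping for inverse cubes. -/
lemma tele_cube (a : ℕ) (ha : 1 ≤ a) (m : ℕ) :
    ∑ n ∈ Finset.Ioc a (a + m), (1 : ℝ) / (n : ℝ) ^ 3 + 1 / (2 * ((a + m : ℕ) : ℝ) ^ 2)
      ≤ 1 / (2 * (a : ℝ) ^ 2) := by
  induction m with
  | zero => simp
  | succ m ih =>
    have hsucc : Finset.Ioc a (a + (m + 1)) = insert (a + m + 1) (Finset.Ioc a (a + m)) := by
      ext x
      simp only [Finset.mem_Ioc, Finset.mem_insert]
      omega
    have hnot : a + m + 1 ∉ Finset.Ioc a (a + m) := by simp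
    rw [hsucc, Finset.sum_insert hnot]
    set N : ℝ := ((a + m : ℕ) : ℝ) with hN
    have hN1 : 1 ≤ N := by
      rw [hN]; exact_mod_cast (by omega : 1 ≤ a + m)
    have e1 : ((a + m + 1 : ℕ) : ℝ) = N + 1 := by rw [hN]; push_cast; ring
    have e2 : ((a + (m + 1) : ℕ) : ℝ) = N + 1 := by rw [hN]; push_cast; ring
    rw [e1, e2]
    have key : 1 / (N + 1) ^ 3 + 1 / (2 * (N + 1) ^ 2) ≤ 1 / (2 * N ^ 2) := by
      have hN0 : 0 < N := by linarith
      rw [div_add_div _ _ (by positivity) (by positivity), div_le_div_iff₀ (by positivity) (by positivity)]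
      nlinarith [sq_nonneg N, sq_nonneg (N + 1), mul_pos hN0 hN0, mul_pos (mul_pos hN0 hN0) hN0,
        pow_pos hN0 4]
    linarith

/-- Telescoping for inverse squares. -/
lemma tele_sq (a : ℕ) (ha : 1 ≤ a) (m : ℕ) :
    ∑ n ∈ Finset.Ioc a (a + m), (1 : ℝ) / (n : ℝ) ^ 2 + 1 / ((a + m : ℕ) : ℝ)
      ≤ 1 / (a : ℝ) := by
  induction m with
  | zero => simp
  | succ m ih =>
    have hsucc : Finset.Ioc a (a + (m + 1)) = insert (a + m + 1) (Finset.Ioc a (a + m)) := by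
      ext x
      simp only [Finset.mem_Ioc, Finset.mem_insert]
      omega
    have hnot : a + m + 1 ∉ Finset.Ioc a (a + m) := by simp
    rw [hsucc, Finset.sum_insert hnot]
    set N : ℝ := ((a + m : ℕ) : ℝ) with hN
    have hN1 : 1 ≤ N := by
      rw [hN]; exact_mod_cast (by omega : 1 ≤ a + m)
    have e1 : ((a + m + 1 : ℕ) : ℝ) = N + 1 := by rw [hN]; push_cast; ring
    have e2 : ((a + (m + 1) : ℕ) : ℝ) = N + 1 := by rw [hN]; push_cast; ring
    rw [e1, e2]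
    have key : 1 / (N + 1) ^ 2 + 1 / (N + 1) ≤ 1 / N := by
      have hN0 : 0 < N := by linarith
      rw [div_add_div _ _ (by positivity) (by positivity), div_le_div_iff₀ (by positivity) (by positivity)]
      nlinarith [sq_nonneg N, mul_pos hN0 hN0]
    linarith

/-- Inverse cubes over a finite set of integers above `x`. -/
lemma sum_inv_cube_le (T : Finset ℕ) (x : ℝ) (hx : 2 ≤ x) (hT : ∀ n ∈ T, x ≤ n) :
    ∑ n ∈ T, (1 : ℝ) / (n : ℝ) ^ 3 ≤ 2 / x ^ 2 := by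
  set a : ℕ := ⌈x⌉₊ - 1 with ha
  have hc : x ≤ (⌈x⌉₊ : ℝ) := Nat.le_ceil x
  have hc2 : (⌈x⌉₊ : ℝ) < x + 1 := Nat.ceil_lt_add_one (by linarith)
  have hc3 : 2 ≤ ⌈x⌉₊ := by
    have : (2 : ℝ) ≤ (⌈x⌉₊ : ℝ) := hx.trans hc
    exact_mod_cast this
  have ha1 : 1 ≤ a := by omega
  have har : (a : ℝ) = (⌈x⌉₊ : ℝ) - 1 := by
    rw [ha]; push_cast [Nat.cast_sub (by omega : 1 ≤ ⌈x⌉₊)]; ring
  have hax : x / 2 ≤ a := by rw [har]; linarith
  set m := T.sup id with hm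
  have hsub : T ⊆ Finset.Ioc a (a + m) := by
    intro n hn
    rw [Finset.mem_Ioc]
    have h1 : x ≤ n := hT n hn
    have h2 : ⌈x⌉₊ ≤ n := Nat.ceil_le.2 h1
    have h3 : n ≤ m := Finset.le_sup (f := id) hn
    omega
  have h1 : ∑ n ∈ T, (1 : ℝ) / (n : ℝ) ^ 3 ≤ ∑ n ∈ Finset.Ioc a (a + m), (1 : ℝ) / (n : ℝ) ^ 3 :=
    Finset.sum_le_sum_of_subset_of_nonneg hsub (fun _ _ _ => by positivity)
  have h2 := tele_cube a ha1 m
  have h3 : 0 ≤ 1 / (2 * ((a + m : ℕ) : ℝ) ^ 2) := by positivity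
  have hx0 : 0 < x := by linarith
  have ha0 : (0 : ℝ) < a := by exact_mod_cast ha1
  have h4 : 1 / (2 * (a : ℝ) ^ 2) ≤ 2 / x ^ 2 := by
    rw [div_le_div_iff₀ (by positivity) (by positivity)]
    have h5 : (x / 2) ^ 2 ≤ (a : ℝ) ^ 2 := pow_le_pow_left₀ (by positivity) hax 2
    nlinarith
  linarith

/-- Inverse squares over a finite set of integers above `x`. -/
lemma sum_inv_sq_le (T : Finset ℕ) (x : ℝ) (hx : 2 ≤ x) (hT : ∀ n ∈ T, x ≤ n) :
    ∑ n ∈ T, (1 : ℝ) / (n : ℝ) ^ 2 ≤ 2 / x := by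
  set a : ℕ := ⌈x⌉₊ - 1 with ha
  have hc : x ≤ (⌈x⌉₊ : ℝ) := Nat.le_ceil x
  have hc2 : (⌈x⌉₊ : ℝ) < x + 1 := Nat.ceil_lt_add_one (by linarith)
  have hc3 : 2 ≤ ⌈x⌉₊ := by
    have : (2 : ℝ) ≤ (⌈x⌉₊ : ℝ) := hx.trans hc
    exact_mod_cast this
  have ha1 : 1 ≤ a := by omega
  have har : (a : ℝ) = (⌈x⌉₊ : ℝ) - 1 := by
    rw [ha]; push_cast [Nat.cast_sub (by omega : 1 ≤ ⌈x⌉₊)]; ring
  have hax : x / 2 ≤ a := by rw [har]; linarith
  set m := T.sup id with hm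
  have hsub : T ⊆ Finset.Ioc a (a + m) := by
    intro n hn
    rw [Finset.mem_Ioc]
    have h1 : x ≤ n := hT n hn
    have h2 : ⌈x⌉₊ ≤ n := Nat.ceil_le.2 h1
    have h3 : n ≤ m := Finset.le_sup (f := id) hn
    omega
  have h1 : ∑ n ∈ T, (1 : ℝ) / (n : ℝ) ^ 2 ≤ ∑ n ∈ Finset.Ioc a (a + m), (1 : ℝ) / (n : ℝ) ^ 2 :=
    Finset.sum_le_sum_of_subset_of_nonneg hsub (fun _ _ _ => by positivity)
  have h2 := tele_sq a ha1 m
  have h3 : 0 ≤ 1 / ((a + m : ℕ) : ℝ) := by positivity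
  have hx0 : 0 < x := by linarith
  have ha0 : (0 : ℝ) < a := by exact_mod_cast ha1
  have h4 : 1 / (a : ℝ) ≤ 2 / x := by
    rw [div_le_div_iff₀ ha0 hx0]
    linarith
  linarith

/-- Dyadic decomposition of a reciprocal sum. -/
lemma dyadic_recip (A : Finset ℕ) (hA : ∀ a ∈ A, 1 ≤ a) (f : ℕ → ℝ)
    (hf : ∀ k, ((A.filter (fun a => Nat.log 2 a = k)).card : ℝ) ≤ 2 ^ k * f k) :
    ∑ a ∈ A, (1 : ℝ) / a ≤ ∑ k ∈ A.image (Nat.log 2), f k := by
  classical
  rw [← Finset.sum_fiberwise_of_maps_to (s := A) (t := A.image (Nat.log 2)) (g := Nat.log 2)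
    (fun a ha => Finset.mem_image_of_mem _ ha)]
  refine Finset.sum_le_sum fun k _ => ?_
  have h2k : (0 : ℝ) < 2 ^ k := by positivity
  calc ∑ a ∈ A.filter (fun a => Nat.log 2 a = k), (1 : ℝ) / a
      ≤ ∑ _a ∈ A.filter (fun a => Nat.log 2 a = k), (1 : ℝ) / 2 ^ k := by
        refine Finset.sum_le_sum fun a ha => ?_
        rw [Finset.mem_filter] at ha
        have ha1 := hA a ha.1
        have h1 : 2 ^ Nat.log 2 a ≤ a := Nat.pow_log_le_self 2 (by omega)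
        rw [ha.2] at h1
        apply one_div_le_one_div_of_le h2k
        exact_mod_cast h1
    _ = ((A.filter (fun a => Nat.log 2 a = k)).card : ℝ) / 2 ^ k := by
        rw [Finset.sum_const, nsmul_eq_mul]; ring
    _ ≤ f k := by
        rw [div_le_iff₀ h2k]
        linarith [hf k]

/-- Growth of the range when passing from `Q` to `Q + 1`. -/
lemma two_mul_exp_exp_le {Q : ℝ} (hQ : 0 ≤ Q) : 2 * exp (exp Q) ≤ exp (exp (Q + 1)) := by
  have h1 : exp Q + 1 ≤ exp (Q + 1) := by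
    rw [Real.exp_add]
    have h2 := Real.exp_one_gt_d9
    have h3 : 1 ≤ exp Q := Real.one_le_exp hQ
    nlinarith
  have h2 : exp (exp Q + 1) ≤ exp (exp (Q + 1)) := Real.exp_le_exp.2 h1
  rw [Real.exp_add] at h2
  have h3 := Real.exp_one_gt_d9
  have h4 : 0 < exp (exp Q) := exp_pos _
  nlinarith

/-- The dyadic block is inside an initial segment. -/
lemma block_facts {A : Finset ℕ} {M k R : ℕ} {Q : ℝ} (hQ : 0 ≤ Q) (hAM : ∀ a ∈ A, 1 ≤ a ∧ a ≤ M)
    (hM : (M : ℝ) ≤ exp (exp Q)) (hR : R ∈ A.filter (fun a => Nat.log 2 a = k)) :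
    ((2 : ℝ) ^ (k + 1) ≤ exp (exp (Q + 1))) ∧ ∀ a ∈ A.filter (fun a => Nat.log 2 a = k),
      a ∈ Finset.Icc 1 ⌊(2 : ℝ) ^ (k + 1)⌋₊ := by
  constructor
  · rw [Finset.mem_filter] at hR
    have h1 := hAM R hR.1
    have h2 : 2 ^ Nat.log 2 R ≤ R := Nat.pow_log_le_self 2 (by omega)
    rw [hR.2] at h2
    have h3 : ((2 : ℝ) ^ k) ≤ M := by
      have : 2 ^ k ≤ M := h2.trans h1.2
      exact_mod_cast this
    calc (2 : ℝ) ^ (k + 1) = 2 * (2 : ℝ) ^ k := by ring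
      _ ≤ 2 * exp (exp Q) := by linarith
      _ ≤ exp (exp (Q + 1)) := two_mul_exp_exp_le hQ
  · intro a ha
    rw [Finset.mem_filter] at ha
    have h1 := hAM a ha.1
    rw [Finset.mem_Icc]
    refine ⟨h1.1, Nat.le_floor ?_⟩
    have h2 : a < 2 ^ (Nat.log 2 a + 1) := Nat.lt_pow_succ_log_self (by norm_num) a
    rw [ha.2] at h2
    exact_mod_cast h2.le

/-- The image of the dyadic index stays above `exp lam`. -/
lemma index_large {A : Finset ℕ} {lam : ℝ} (hA : ∀ a ∈ A, exp (exp lam) ≤ (a : ℝ)) :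
    ∀ n ∈ (A.image (Nat.log 2)).image (fun k : ℕ => k + 1), exp lam ≤ (n : ℝ) := by
  intro n hn
  obtain ⟨k, hk, hkn⟩ := Finset.mem_image.1 hn
  obtain ⟨a, ha, hak⟩ := Finset.mem_image.1 hk
  have h1 := hA a ha
  have h2 : a < 2 ^ (Nat.log 2 a + 1) := Nat.lt_pow_succ_log_self (by norm_num) a
  have h3 : (a : ℝ) < (2 : ℝ) ^ (Nat.log 2 a + 1) := by exact_mod_cast h2
  have h4 : (2 : ℝ) ^ (Nat.log 2 a + 1) ≤ exp ((Nat.log 2 a + 1 : ℕ) : ℝ) := by
    rw [← Real.exp_one_pow]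
    have h6 := Real.exp_one_gt_d9
    exact pow_le_pow_left₀ (by norm_num) (by linarith) _
  have h5 : exp (exp lam) ≤ exp ((Nat.log 2 a + 1 : ℕ) : ℝ) := by linarith
  have h7 := Real.exp_le_exp.1 h5
  rw [← hkn, ← hak]
  exact h7

lemma log_two_bounds : (1 / 2 : ℝ) ≤ Real.log 2 := by
  have := Real.log_two_gt_d9
  linarith

/-- `(Si3)` Mass form of the prime triple bound. -/
theorem sieve_mass3 : ∃ C : ℝ, 0 < C ∧ ∀ (lam Q : ℝ) (F F' M : ℕ), 1 ≤ lam → 1 ≤ Q → 1 ≤ F →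
    1 ≤ F' → F ≠ F' → (M : ℝ) ≤ exp (exp Q) → ((F : ℝ) * F' * |(F : ℝ) - F'|) ≤ exp (exp Q) →
    ∑ R ∈ (Finset.Icc 1 M).filter (fun R : ℕ => R.Prime ∧ exp (exp lam) ≤ (R : ℝ) ∧
        (1 + R * F).Prime ∧ (1 + R * F').Prime), (1 : ℝ) / R
      ≤ C * Q ^ 6 * exp (-(2 * lam)) := by
  obtain ⟨C, hC, hS3⟩ := sieve_S3
  refine ⟨4096 * C, by positivity, ?_⟩
  intro lam Q F F' M hlam hQ hF hF' hne hM hFF
  classical
  set A := (Finset.Icc 1 M).filter (fun R : ℕ => R.Prime ∧ exp (exp lam) ≤ (R : ℝ) ∧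
        (1 + R * F).Prime ∧ (1 + R * F').Prime) with hA
  have hQ0 : 0 ≤ Q := by linarith
  have hAM : ∀ a ∈ A, 1 ≤ a ∧ a ≤ M := fun a ha =>
    Finset.mem_Icc.1 (Finset.mem_filter.1 ha).1
  have hlog2 := log_two_bounds
  set f : ℕ → ℝ := fun k => 2 * C * (Q + 1) ^ 6 / (((k : ℝ) + 1) * Real.log 2) ^ 3 with hf
  have hf0 : ∀ k, 0 ≤ f k := fun k => by
    simp only [hf]
    positivity
  have hblock : ∀ k, ((A.filter (fun a => Nat.log 2 a = k)).card : ℝ) ≤ 2 ^ k * f k := by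
    intro k
    rcases (A.filter (fun a => Nat.log 2 a = k)).eq_empty_or_nonempty with he | ⟨R, hR⟩
    · rw [he]
      simp only [Finset.card_empty, Nat.cast_zero]
      exact mul_nonneg (by positivity) (hf0 k)
    obtain ⟨hY, hsub⟩ := block_facts hQ0 hAM hM hR
    have hY1 : (1 : ℝ) < (2 : ℝ) ^ (k + 1) := one_lt_pow₀ (by norm_num) (by omega)
    have hFF' : ((F : ℝ) * F' * |(F : ℝ) - F'|) ≤ exp (exp (Q + 1)) :=
      hFF.trans (Real.exp_le_exp.2 (Real.exp_le_exp.2 (by linarith)))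
    have hb := hS3 ((2 : ℝ) ^ (k + 1)) (Q + 1) F F' hY1 (by linarith) hF hF' hne hY hFF'
    have hc : (A.filter (fun a => Nat.log 2 a = k)).card ≤ ((Finset.Icc 1 ⌊(2 : ℝ) ^ (k + 1)⌋₊).filter
        (fun R => R.Prime ∧ (1 + R * F).Prime ∧ (1 + R * F').Prime)).card := by
      apply Finset.card_le_card
      intro a ha
      rw [Finset.mem_filter]
      refine ⟨hsub a ha, ?_⟩
      have h1 := (Finset.mem_filter.1 (Finset.mem_filter.1 ha).1).2
      exact ⟨h1.1, h1.2.2⟩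
    have hc' : ((A.filter (fun a => Nat.log 2 a = k)).card : ℝ) ≤ (((Finset.Icc 1 ⌊(2 : ℝ) ^ (k + 1)⌋₊).filter
        (fun R => R.Prime ∧ (1 + R * F).Prime ∧ (1 + R * F').Prime)).card : ℝ) := by exact_mod_cast hc
    refine hc'.trans (hb.trans (le_of_eq ?_))
    have hlogY : Real.log ((2 : ℝ) ^ (k + 1)) = ((k : ℝ) + 1) * Real.log 2 := by
      rw [Real.log_pow]; push_cast; ring
    rw [hlogY, hf]
    simp only
    rw [pow_succ]
    ring
  have hd := dyadic_recip A (fun a ha => (hAM a ha).1) f hblock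
  have hx2 : (2 : ℝ) ≤ exp lam := by
    have h1 : exp 1 ≤ exp lam := Real.exp_le_exp.2 hlam
    have h2 := Real.exp_one_gt_d9
    linarith
  have hAlarge : ∀ a ∈ A, exp (exp lam) ≤ (a : ℝ) := fun a ha =>
    (Finset.mem_filter.1 ha).2.2.1
  have hT := sum_inv_cube_le ((A.image (Nat.log 2)).image (fun k : ℕ => k + 1)) (exp lam) hx2
    (index_large hAlarge)
  rw [Finset.sum_image (fun a _ b _ h => by simpa using h)] at hT
  have hsumf : ∑ k ∈ A.image (Nat.log 2), f k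
      = (2 * C * (Q + 1) ^ 6 / (Real.log 2) ^ 3) *
        ∑ k ∈ A.image (Nat.log 2), (1 : ℝ) / (((k + 1 : ℕ) : ℝ)) ^ 3 := by
    rw [Finset.mul_sum]
    refine Finset.sum_congr rfl fun k _ => ?_
    simp only [hf]
    push_cast
    rw [mul_pow, div_mul_div_comm]
    congr 1
    · ring
    · ring
  have hcoef : 2 * C * (Q + 1) ^ 6 / (Real.log 2) ^ 3 ≤ 1024 * C * Q ^ 6 := by
    have h1 : (Q + 1) ^ 6 ≤ (2 * Q) ^ 6 := pow_le_pow_left₀ (by linarith) (by linarith) 6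
    have h2 : (1 / 2 : ℝ) ^ 3 ≤ (Real.log 2) ^ 3 := pow_le_pow_left₀ (by norm_num) hlog2 3
    have h3 : 0 < (Real.log 2) ^ 3 := by positivity
    rw [div_le_iff₀ h3]
    have h4 : 2 * C * (Q + 1) ^ 6 ≤ 2 * C * (2 * Q) ^ 6 :=
      mul_le_mul_of_nonneg_left h1 (by positivity)
    have h5 : 0 ≤ 1024 * C * Q ^ 6 := by positivity
    have h6 : 1024 * C * Q ^ 6 * (1 / 2 : ℝ) ^ 3 ≤ 1024 * C * Q ^ 6 * (Real.log 2) ^ 3 :=
      mul_le_mul_of_nonneg_left h2 h5
    have h7 : 2 * C * (2 * Q) ^ 6 = 1024 * C * Q ^ 6 * (1 / 2 : ℝ) ^ 3 := by ring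
    linarith
  have hfinal : 2 / (exp lam) ^ 2 = 2 * exp (-(2 * lam)) := by
    rw [← Real.exp_nat_mul, Real.exp_neg]
    push_cast
    rw [div_eq_mul_inv]
  rw [hfinal] at hT
  calc ∑ R ∈ A, (1 : ℝ) / R ≤ ∑ k ∈ A.image (Nat.log 2), f k := hd
    _ = (2 * C * (Q + 1) ^ 6 / (Real.log 2) ^ 3) *
        ∑ k ∈ A.image (Nat.log 2), (1 : ℝ) / (((k + 1 : ℕ) : ℝ)) ^ 3 := hsumf
    _ ≤ (1024 * C * Q ^ 6) * (2 * exp (-(2 * lam))) := by
        apply mul_le_mul hcoef hT (Finset.sum_nonneg fun _ _ => by positivity) (by positivity)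
    _ ≤ 4096 * C * Q ^ 6 * exp (-(2 * lam)) := by
        have h : 0 ≤ C * Q ^ 6 * exp (-(2 * lam)) := by positivity
        nlinarith

/-- `(Si3)` Mass form of the prime pair bound. -/
theorem sieve_mass2 : ∃ C : ℝ, 0 < C ∧ ∀ (lam Q : ℝ) (F M : ℕ), 1 ≤ lam → 1 ≤ Q → 1 ≤ F →
    (M : ℝ) ≤ exp (exp Q) → (F : ℝ) ≤ exp (exp Q) →
    ∑ R ∈ (Finset.Icc 1 M).filter (fun R : ℕ => R.Prime ∧ exp (exp lam) ≤ (R : ℝ) ∧
        (1 + R * F).Prime), (1 : ℝ) / R
      ≤ C * Q ^ 4 * exp (-lam) := by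
  obtain ⟨C, hC, hS2⟩ := sieve_S2
  refine ⟨1024 * C, by positivity, ?_⟩
  intro lam Q F M hlam hQ hF hM hFF
  classical
  set A := (Finset.Icc 1 M).filter (fun R : ℕ => R.Prime ∧ exp (exp lam) ≤ (R : ℝ) ∧
        (1 + R * F).Prime) with hA
  have hQ0 : 0 ≤ Q := by linarith
  have hAM : ∀ a ∈ A, 1 ≤ a ∧ a ≤ M := fun a ha =>
    Finset.mem_Icc.1 (Finset.mem_filter.1 ha).1
  have hlog2 := log_two_bounds
  set f : ℕ → ℝ := fun k => 2 * C * (Q + 1) ^ 4 / (((k : ℝ) + 1) * Real.log 2) ^ 2 with hf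
  have hf0 : ∀ k, 0 ≤ f k := fun k => by
    simp only [hf]
    positivity
  have hblock : ∀ k, ((A.filter (fun a => Nat.log 2 a = k)).card : ℝ) ≤ 2 ^ k * f k := by
    intro k
    rcases (A.filter (fun a => Nat.log 2 a = k)).eq_empty_or_nonempty with he | ⟨R, hR⟩
    · rw [he]
      simp only [Finset.card_empty, Nat.cast_zero]
      exact mul_nonneg (by positivity) (hf0 k)
    obtain ⟨hY, hsub⟩ := block_facts hQ0 hAM hM hR
    have hY1 : (1 : ℝ) < (2 : ℝ) ^ (k + 1) := one_lt_pow₀ (by norm_num) (by omega)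
    have hFF' : (F : ℝ) ≤ exp (exp (Q + 1)) :=
      hFF.trans (Real.exp_le_exp.2 (Real.exp_le_exp.2 (by linarith)))
    have hb := hS2 ((2 : ℝ) ^ (k + 1)) (Q + 1) F hY1 (by linarith) hF hY hFF'
    have hc : (A.filter (fun a => Nat.log 2 a = k)).card ≤ ((Finset.Icc 1 ⌊(2 : ℝ) ^ (k + 1)⌋₊).filter
        (fun R => R.Prime ∧ (1 + R * F).Prime)).card := by
      apply Finset.card_le_card
      intro a ha
      rw [Finset.mem_filter]
      refine ⟨hsub a ha, ?_⟩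
      have h1 := (Finset.mem_filter.1 (Finset.mem_filter.1 ha).1).2
      exact ⟨h1.1, h1.2.2⟩
    have hc' : ((A.filter (fun a => Nat.log 2 a = k)).card : ℝ) ≤ (((Finset.Icc 1 ⌊(2 : ℝ) ^ (k + 1)⌋₊).filter
        (fun R => R.Prime ∧ (1 + R * F).Prime)).card : ℝ) := by exact_mod_cast hc
    refine hc'.trans (hb.trans (le_of_eq ?_))
    have hlogY : Real.log ((2 : ℝ) ^ (k + 1)) = ((k : ℝ) + 1) * Real.log 2 := by
      rw [Real.log_pow]; push_cast; ring
    rw [hlogY, hf]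
    simp only
    rw [pow_succ]
    ring
  have hd := dyadic_recip A (fun a ha => (hAM a ha).1) f hblock
  have hx2 : (2 : ℝ) ≤ exp lam := by
    have h1 : exp 1 ≤ exp lam := Real.exp_le_exp.2 hlam
    have h2 := Real.exp_one_gt_d9
    linarith
  have hAlarge : ∀ a ∈ A, exp (exp lam) ≤ (a : ℝ) := fun a ha =>
    (Finset.mem_filter.1 ha).2.2.1
  have hT := sum_inv_sq_le ((A.image (Nat.log 2)).image (fun k : ℕ => k + 1)) (exp lam) hx2
    (index_large hAlarge)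
  rw [Finset.sum_image (fun a _ b _ h => by simpa using h)] at hT
  have hsumf : ∑ k ∈ A.image (Nat.log 2), f k
      = (2 * C * (Q + 1) ^ 4 / (Real.log 2) ^ 2) *
        ∑ k ∈ A.image (Nat.log 2), (1 : ℝ) / (((k + 1 : ℕ) : ℝ)) ^ 2 := by
    rw [Finset.mul_sum]
    refine Finset.sum_congr rfl fun k _ => ?_
    simp only [hf]
    push_cast
    rw [mul_pow, div_mul_div_comm]
    congr 1
    · ring
    · ring
  have hcoef : 2 * C * (Q + 1) ^ 4 / (Real.log 2) ^ 2 ≤ 128 * C * Q ^ 4 := by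
    have h1 : (Q + 1) ^ 4 ≤ (2 * Q) ^ 4 := pow_le_pow_left₀ (by linarith) (by linarith) 4
    have h2 : (1 / 2 : ℝ) ^ 2 ≤ (Real.log 2) ^ 2 := pow_le_pow_left₀ (by norm_num) hlog2 2
    have h3 : 0 < (Real.log 2) ^ 2 := by positivity
    rw [div_le_iff₀ h3]
    have h4 : 2 * C * (Q + 1) ^ 4 ≤ 2 * C * (2 * Q) ^ 4 :=
      mul_le_mul_of_nonneg_left h1 (by positivity)
    have h5 : 0 ≤ 128 * C * Q ^ 4 := by positivity
    have h6 : 128 * C * Q ^ 4 * (1 / 2 : ℝ) ^ 2 ≤ 128 * C * Q ^ 4 * (Real.log 2) ^ 2 :=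
      mul_le_mul_of_nonneg_left h2 h5
    have h7 : 2 * C * (2 * Q) ^ 4 = 128 * C * Q ^ 4 * (1 / 2 : ℝ) ^ 2 := by ring
    linarith
  have hfinal : 2 / (exp lam) = 2 * exp (-lam) := by
    rw [Real.exp_neg, div_eq_mul_inv]
  rw [hfinal] at hT
  calc ∑ R ∈ A, (1 : ℝ) / R ≤ ∑ k ∈ A.image (Nat.log 2), f k := hd
    _ = (2 * C * (Q + 1) ^ 4 / (Real.log 2) ^ 2) *
        ∑ k ∈ A.image (Nat.log 2), (1 : ℝ) / (((k + 1 : ℕ) : ℝ)) ^ 2 := hsumf
    _ ≤ (128 * C * Q ^ 4) * (2 * exp (-lam)) := by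
        apply mul_le_mul hcoef hT (Finset.sum_nonneg fun _ _ => by positivity) (by positivity)
    _ ≤ 1024 * C * Q ^ 4 * exp (-lam) := by
        have h : 0 ≤ C * Q ^ 4 * exp (-lam) := by positivity
        nlinarith

end Vale.Agent.Lib.P031V.SF
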