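import Vale.Agent.Lib.P031V.Mertens2
import Vale.Agent.Lib.P031V.SieveVar
import Vale.Agent.Lib.P031V.SieveForms
import Vale.Agent.Lib.P031V.Rankin

/-! # P031: sieve bounds, blueprint section 3 (derived from `SieveForms.lean`, `Rankin.lean`). -/

namespace Vale.Agent.Lib.P031V
open Real Finset
open scoped Classical
noncomputable section

/-- From a bound on the level to a bound on the number. -/
lemma le_exp_exp_of_levR {x Q : ℝ} (_hQ : 1 ≤ Q) (h : levR x ≤ Q) : x ≤ Real.exp (Real.exp Q) := by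
  by_cases hx : x ≤ 1
  · have : 1 ≤ Real.exp (Real.exp Q) := Real.one_le_exp (Real.exp_pos Q).le
    linarith
  · push Not at hx
    have h0 : 0 < x := by linarith
    have h1 : 0 < Real.log x := Real.log_pos hx
    have h2 : Real.log x ≤ Real.exp Q := (Real.log_le_iff_le_exp h1).1 h
    exact (Real.log_le_iff_le_exp h0).1 h2

/-- `∑_{s ∣ D} 1/s ≤ log Q + C` when `log log D ≤ Q`. -/
theorem sumdiv : ∃ C : ℝ, 0 < C ∧ ∀ (D : ℕ) (Q : ℝ), 1 ≤ D → 1 ≤ Q → levR D ≤ Q →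
    ∑ s ∈ D.primeFactors, (1 : ℝ) / s ≤ Real.log Q + C := by
  obtain ⟨C, hC0, hC⟩ := SF.sumdiv
  refine ⟨C + 1, by linarith, ?_⟩
  intro D Q hD hQ h
  have := hC D Q hD hQ (le_exp_exp_of_levR hQ h)
  linarith

/-- Three linear forms. `Q` bounds `log log` of the coefficients and of `Y`. -/
theorem S3_count : ∃ C Y₀ : ℝ, 0 < C ∧ ∀ (Y Q : ℝ) (F F' : ℕ), Y₀ ≤ Y → 1 ≤ F → 1 ≤ F' → F ≠ F' → 1 ≤ Q →
    levR (F * F' * |(F : ℝ) - F'|) ≤ Q → levR Y ≤ Q →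
    (((Finset.Icc 1 ⌊Y⌋₊).filter (fun R => R.Prime ∧ (1 + R * F).Prime ∧ (1 + R * F').Prime)).card : ℝ)
      ≤ C * Y * Q ^ 6 / (Real.log Y) ^ 3 := by
  obtain ⟨C, hC0, hC⟩ := SF.sieve_S3
  refine ⟨C, 2, hC0, ?_⟩
  intro Y Q F F' hY hF hF' hne hQ h1 h2
  have := hC Y Q F F' (by linarith) hQ hF hF' hne (le_exp_exp_of_levR hQ h2)
    (le_exp_exp_of_levR hQ h1)
  exact this

/-- Two linear forms. -/
theorem S2_count : ∃ C Y₀ : ℝ, 0 < C ∧ ∀ (Y Q : ℝ) (F : ℕ), Y₀ ≤ Y → 1 ≤ F → 1 ≤ Q →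
    levR F ≤ Q → levR Y ≤ Q →
    (((Finset.Icc 1 ⌊Y⌋₊).filter (fun R => R.Prime ∧ (1 + R * F).Prime)).card : ℝ)
      ≤ C * Y * Q ^ 4 / (Real.log Y) ^ 2 := by
  obtain ⟨C, hC0, hC⟩ := SF.sieve_S2
  refine ⟨C, 2, hC0, ?_⟩
  intro Y Q F hY hF hQ h1 h2
  have := hC Y Q F (by linarith) hQ hF (le_exp_exp_of_levR hQ h2) (le_exp_exp_of_levR hQ h1)
  exact this

/-- Elements of level in `[lam, Q]` lie in the range of the mass forms. -/
lemma mem_range_of_level {R : ℕ} {lam Q : ℝ} (hQ : 1 ≤ Q) (hR : R.Prime) (h1 : lam ≤ lev R)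
    (h2 : lev R ≤ Q) :
    R ∈ Finset.Icc 1 ⌊Real.exp (Real.exp Q)⌋₊ ∧ Real.exp (Real.exp lam) ≤ (R : ℝ) := by
  have hR1 : (1 : ℝ) < R := by exact_mod_cast hR.one_lt
  have hR0 : (0 : ℝ) < R := by linarith
  have hlog : 0 < Real.log R := Real.log_pos hR1
  constructor
  · rw [Finset.mem_Icc]
    refine ⟨hR.pos, Nat.le_floor ?_⟩
    exact le_exp_exp_of_levR (x := (R : ℝ)) hQ h2
  · have h3 : Real.exp lam ≤ Real.log R := (Real.le_log_iff_exp_le hlog).1 h1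
    exact (Real.le_log_iff_exp_le hR0).1 h3

/-- Mass form of `S3_count`: any finite set of primes of level in `[lam, Q]`. -/
theorem S3_mass : ∃ C lam₀ : ℝ, 0 < C ∧ ∀ (lam Q : ℝ) (F F' : ℕ) (P : Finset ℕ), lam₀ ≤ lam → 1 ≤ F → 1 ≤ F' →
    F ≠ F' → 1 ≤ Q → levR (F * F' * |(F : ℝ) - F'|) ≤ Q → (∀ R ∈ P, R.Prime ∧ lam ≤ lev R ∧ lev R ≤ Q) →
    ∑ R ∈ P, (if (1 + R * F).Prime ∧ (1 + R * F').Prime then (1 : ℝ) / R else 0)
      ≤ C * Q ^ 6 * Real.exp (-(2 * lam)) := by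
  obtain ⟨C, hC0, hC⟩ := SF.sieve_mass3
  refine ⟨C, 1, hC0, ?_⟩
  intro lam Q F F' P hlam hF hF' hne hQ h1 hP
  have hM : ((⌊Real.exp (Real.exp Q)⌋₊ : ℕ) : ℝ) ≤ Real.exp (Real.exp Q) :=
    Nat.floor_le (Real.exp_pos _).le
  have hb := hC lam Q F F' ⌊Real.exp (Real.exp Q)⌋₊ hlam hQ hF hF' hne hM
    (le_exp_exp_of_levR hQ h1)
  refine le_trans ?_ hb
  rw [← Finset.sum_filter]
  apply Finset.sum_le_sum_of_subset_of_nonneg
  · intro R hR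
    rw [Finset.mem_filter] at hR
    obtain ⟨hRp, hl1, hl2⟩ := hP R hR.1
    obtain ⟨h3, h4⟩ := mem_range_of_level hQ hRp hl1 hl2
    rw [Finset.mem_filter]
    exact ⟨h3, hRp, h4, hR.2.1, hR.2.2⟩
  · intro _ _ _
    positivity

/-- Mass form of `S2_count`. -/
theorem S2_mass : ∃ C lam₀ : ℝ, 0 < C ∧ ∀ (lam Q : ℝ) (F : ℕ) (P : Finset ℕ), lam₀ ≤ lam → 1 ≤ F → 1 ≤ Q →
    levR F ≤ Q → (∀ R ∈ P, R.Prime ∧ lam ≤ lev R ∧ lev R ≤ Q) →
    ∑ R ∈ P, (if (1 + R * F).Prime then (1 : ℝ) / R else 0) ≤ C * Q ^ 4 * Real.exp (-lam) := by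
  obtain ⟨C, hC0, hC⟩ := SF.sieve_mass2
  refine ⟨C, 1, hC0, ?_⟩
  intro lam Q F P hlam hF hQ h1 hP
  have hM : ((⌊Real.exp (Real.exp Q)⌋₊ : ℕ) : ℝ) ≤ Real.exp (Real.exp Q) :=
    Nat.floor_le (Real.exp_pos _).le
  have hb := hC lam Q F ⌊Real.exp (Real.exp Q)⌋₊ hlam hQ hF hM (le_exp_exp_of_levR hQ h1)
  refine le_trans ?_ hb
  rw [← Finset.sum_filter]
  apply Finset.sum_le_sum_of_subset_of_nonneg
  · intro R hR
    rw [Finset.mem_filter] at hR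
    obtain ⟨hRp, hl1, hl2⟩ := hP R hR.1
    obtain ⟨h3, h4⟩ := mem_range_of_level hQ hRp hl1 hl2
    rw [Finset.mem_filter]
    exact ⟨h3, hRp, h4, hR.2⟩
  · intro _ _ _
    positivity

/-- The reciprocal sum over the primes of level in `[a, b)`. -/
lemma recip_lev_lower : ∃ C : ℝ, 0 ≤ C ∧ ∀ a b : ℝ, 1 ≤ a → a ≤ b →
    b - a - C ≤ ∑ p ∈ levPrimes a b, (1 : ℝ) / p := by
  obtain ⟨C, hC0, hC⟩ := mertens_lev
  refine ⟨C + 2, by linarith, ?_⟩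
  intro a b ha hab
  have h1 := (abs_le.1 (hC a b ha hab)).1
  have h2 : Real.exp (-a) ≤ 1 := Real.exp_le_one_iff.2 (by linarith)
  have h3 : C * Real.exp (-a) ≤ C := by nlinarith
  have h4 : ∑ p ∈ levPrimes a b, (1 : ℝ) / ((p : ℝ) - 1)
      ≤ ∑ p ∈ levPrimes a b, (1 : ℝ) / p + 2 := by
    have h5 : ∑ p ∈ levPrimes a b, (1 : ℝ) / ((p : ℝ) - 1)
        ≤ ∑ p ∈ levPrimes a b, ((1 : ℝ) / p + 2 * ((1 : ℝ) / (p : ℝ) ^ 2)) := by
      refine Finset.sum_le_sum fun p hp => ?_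
      have hp2 : (2 : ℝ) ≤ p := by exact_mod_cast (mem_levPrimes.1 hp).1.two_le
      have hp1 : 0 < (p : ℝ) - 1 := by linarith
      have hp0 : 0 < (p : ℝ) := by linarith
      have e : (1 : ℝ) / p + 2 * ((1 : ℝ) / (p : ℝ) ^ 2) = ((p : ℝ) + 2) / (p : ℝ) ^ 2 := by
        field_simp
      rw [e, div_le_div_iff₀ hp1 (by positivity)]
      nlinarith
    have h6 : ∑ p ∈ levPrimes a b, (1 : ℝ) / (p : ℝ) ^ 2 ≤ 1 :=
      (SF.sum_inv_sq_le (levPrimes a b) 2 le_rfl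
        (fun p hp => by exact_mod_cast (mem_levPrimes.1 hp).1.two_le)).trans (by norm_num)
    have e5 : ∑ p ∈ levPrimes a b, ((1 : ℝ) / p + 2 * ((1 : ℝ) / (p : ℝ) ^ 2))
        = ∑ p ∈ levPrimes a b, (1 : ℝ) / p + 2 * ∑ p ∈ levPrimes a b, (1 : ℝ) / (p : ℝ) ^ 2 := by
      rw [Finset.sum_add_distrib, Finset.mul_sum]
    rw [e5] at h5
    linarith
  linarith

/-- Brun-Titchmarsh with a hole: `n ≤ Y`, `1 + n d` prime, `n` free of primes of level in `(α, β]`. -/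
theorem bt_hole : ∃ C Y₀ : ℝ, 0 < C ∧ ∀ (Y Q α β : ℝ) (d : ℕ), Y₀ ≤ Y → 1 ≤ d → 1 ≤ Q → levR d ≤ Q → levR Y ≤ Q →
    0 ≤ α → α ≤ β → β ≤ levR Y - Real.log (C * Q) →
    (((Finset.Icc 1 ⌊Y⌋₊).filter (fun n => (1 + n * d).Prime ∧
        ∀ s : ℕ, s.Prime → s ∣ n → ¬ (α < lev s ∧ lev s ≤ β))).card : ℝ)
      ≤ C * Y * Q ^ 3 / Real.log Y * Real.exp (-(β - α)) := by
  obtain ⟨C1, hC1, hBT⟩ := SF.sieve_BT_hole
  obtain ⟨Cm, hCm, hrecip⟩ := recip_lev_lower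
  set C : ℝ := C1 * Real.exp (Cm + 2) with hC
  have hCpos : 0 < C := by positivity
  have hCge : C1 ≤ C := by
    rw [hC]
    have : 1 ≤ Real.exp (Cm + 2) := Real.one_le_exp (by linarith)
    nlinarith
  refine ⟨C, 2, hCpos, ?_⟩
  intro Y Q α β d hY hd hQ hld hlY hα hαβ hβ
  have hY1 : 1 < Y := by linarith
  have hY0 : 0 < Y := by linarith
  have ht : 0 < Real.log Y := Real.log_pos hY1
  have hQ0 : 0 < Q := by linarith
  set a : ℝ := max α 1 + 1 with ha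
  have ha1 : 1 ≤ a := by
    have := le_max_right α 1
    rw [ha]; linarith
  have haα : α < a := by
    have := le_max_left α 1
    rw [ha]; linarith
  have ha2 : a ≤ α + 2 := by
    have : max α 1 ≤ α + 1 := max_le (by linarith) (by linarith)
    rw [ha]; linarith
  set I : Finset ℕ := if a ≤ β then levPrimes a β else ∅ with hI
  have hImem : ∀ s ∈ I, s.Prime ∧ a ≤ lev s ∧ lev s < β := by
    intro s hs
    rw [hI] at hs
    split_ifs at hs with hc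
    · exact mem_levPrimes.1 hs
    · simp at hs
  have hIsum : β - α - (Cm + 2) ≤ ∑ s ∈ I, (1 : ℝ) / s := by
    rw [hI]
    split_ifs with hc
    · have := hrecip a β ha1 hc
      linarith
    · push Not at hc
      simp only [Finset.sum_empty]
      linarith
  have hI2 : ∀ s ∈ I, s.Prime ∧ (s : ℝ) ≤ Real.exp (Real.log Y / (C1 * Q)) := by
    intro s hs
    obtain ⟨hsp, _, hs2⟩ := hImem s hs
    refine ⟨hsp, ?_⟩
    have hs1 : (1 : ℝ) < s := by exact_mod_cast hsp.one_lt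
    have hs0 : (0 : ℝ) < s := by linarith
    have hlogs : 0 < Real.log s := Real.log_pos hs1
    have h1 : Real.log (Real.log s) < levR Y - Real.log (C * Q) := lt_of_lt_of_le hs2 hβ
    have h2 : levR Y - Real.log (C * Q) = Real.log (Real.log Y / (C * Q)) := by
      rw [Real.log_div ht.ne' (by positivity)]
      rfl
    rw [h2] at h1
    have h3 : Real.log s < Real.log Y / (C * Q) :=
      (Real.log_lt_log_iff hlogs (by positivity)).1 h1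
    have h4 : Real.log Y / (C * Q) ≤ Real.log Y / (C1 * Q) := by
      apply div_le_div_of_nonneg_left ht.le (by positivity)
      exact mul_le_mul_of_nonneg_right hCge hQ0.le
    have h5 : Real.log s ≤ Real.log Y / (C1 * Q) := by linarith
    exact (Real.log_le_iff_le_exp hs0).1 h5
  have hb := hBT Y Q d I hY1 hQ hd (le_exp_exp_of_levR hQ hlY) (le_exp_exp_of_levR hQ hld) hI2
  have hsub : ((Finset.Icc 1 ⌊Y⌋₊).filter (fun n => (1 + n * d).Prime ∧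
        ∀ s : ℕ, s.Prime → s ∣ n → ¬ (α < lev s ∧ lev s ≤ β))).card
      ≤ ((Finset.Icc 1 ⌊Y⌋₊).filter (fun n => (1 + n * d).Prime ∧ ∀ s ∈ I, ¬ s ∣ n)).card := by
    apply Finset.card_le_card
    intro n hn
    rw [Finset.mem_filter] at hn ⊢
    refine ⟨hn.1, hn.2.1, ?_⟩
    intro s hs hdvd
    obtain ⟨hsp, h1, h2⟩ := hImem s hs
    exact hn.2.2 s hsp hdvd ⟨lt_of_lt_of_le haα h1, h2.le⟩
  have hsub' : (((Finset.Icc 1 ⌊Y⌋₊).filter (fun n => (1 + n * d).Prime ∧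
        ∀ s : ℕ, s.Prime → s ∣ n → ¬ (α < lev s ∧ lev s ≤ β))).card : ℝ)
      ≤ (((Finset.Icc 1 ⌊Y⌋₊).filter (fun n => (1 + n * d).Prime ∧ ∀ s ∈ I, ¬ s ∣ n)).card : ℝ) := by
    exact_mod_cast hsub
  refine hsub'.trans (hb.trans ?_)
  have hexp : Real.exp (-(∑ s ∈ I, (1 : ℝ) / s)) ≤ Real.exp (Cm + 2) * Real.exp (-(β - α)) := by
    rw [← Real.exp_add]
    apply Real.exp_le_exp.2
    linarith
  have h0 : 0 ≤ C1 * Y * Q ^ 3 / Real.log Y := by positivity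
  calc C1 * Y * Q ^ 3 / Real.log Y * Real.exp (-(∑ s ∈ I, (1 : ℝ) / s))
      ≤ C1 * Y * Q ^ 3 / Real.log Y * (Real.exp (Cm + 2) * Real.exp (-(β - α))) :=
        mul_le_mul_of_nonneg_left hexp h0
    _ = C * Y * Q ^ 3 / Real.log Y * Real.exp (-(β - α)) := by
        rw [hC]; ring

/-- Rankin: the mass of `Z`-smooth integers above `Y`. -/
theorem rankin : ∃ C : ℝ, 0 < C ∧ ∀ (Y Z : ℝ) (F : Finset ℕ), Real.exp 10 ≤ Z → 1 ≤ Y →
    (∀ d ∈ F, Y < d ∧ 0 < d ∧ ∀ r : ℕ, r.Prime → r ∣ d → (r : ℝ) ≤ Z) →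
    ∑ d ∈ F, (1 : ℝ) / d ≤ Real.exp (-(Real.log Y / Real.log Z)) * (C * Real.log Z) ^ 7 := by
  obtain ⟨C, hC1, hC⟩ := rankin_sum
  refine ⟨C, by linarith, ?_⟩
  intro Y Z F hZ hY hF
  have hb := hC Y Z hY hZ F (fun d hd => ⟨(hF d hd).2.1.ne', (hF d hd).1, (hF d hd).2.2⟩)
  refine hb.trans ?_
  have hZpos : 0 < Z := lt_of_lt_of_le (Real.exp_pos _) hZ
  have hlogZ : 10 ≤ Real.log Z := (Real.le_log_iff_exp_le hZpos).2 hZ
  apply mul_le_mul_of_nonneg_left _ (Real.exp_pos _).le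
  have h1 : 1 ≤ C * Real.log Z := by nlinarith
  exact pow_le_pow_right₀ h1 (by norm_num)

end
end Vale.Agent.Lib.P031V
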