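import Vale.Agent.Lib.P031V.NormalCore
import Vale.Agent.Lib.P031V.NormalAna
import Vale.Agent.Lib.P031V.SieveV

/-! Tail bounds at a fixed height `y` for section 4 of the P031 blueprint. -/

namespace Vale.Agent.Lib.P031V.NormalInt

open Finset NormalCore
open scoped Classical

noncomputable section

/-- Primes of level in `(a, b]`. -/
def primesIn (a b : ℝ) : Finset ℕ :=
  (Finset.range (⌈Real.exp (Real.exp b)⌉₊ + 1)).filter (fun r => r.Prime ∧ a < lev r ∧ lev r ≤ b)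

lemma le_exp_exp_of_lev {r : ℕ} (hr : r.Prime) {b : ℝ} (h : lev r ≤ b) :
    (r : ℝ) ≤ Real.exp (Real.exp b) := by
  have hp1 : (1 : ℝ) < r := by exact_mod_cast hr.one_lt
  have hl : 0 < Real.log r := Real.log_pos hp1
  have h1 : Real.log r ≤ Real.exp b := (Real.log_le_iff_le_exp hl).1 h
  exact (Real.log_le_iff_le_exp (by linarith)).1 h1

lemma mem_primesIn {a b : ℝ} {r : ℕ} : r ∈ primesIn a b ↔ r.Prime ∧ a < lev r ∧ lev r ≤ b := by
  unfold primesIn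
  simp only [mem_filter, mem_range, and_iff_right_iff_imp]
  rintro ⟨hp, _, h⟩
  have := Nat.le_ceil (Real.exp (Real.exp b))
  have h2 := le_exp_exp_of_lev hp h
  have h3 : (r : ℝ) ≤ (⌈Real.exp (Real.exp b)⌉₊ : ℝ) := h2.trans this
  have h4 : r ≤ ⌈Real.exp (Real.exp b)⌉₊ := by exact_mod_cast h3
  omega

lemma primesIn_prime {a b : ℝ} : ∀ r ∈ primesIn a b, r.Prime := fun _ hr => (mem_primesIn.1 hr).1

lemma W_eq_card (N k : ℕ) (y : ℝ) : W N k y = (sI (primesIn (ts N) y) k).card := by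
  unfold W
  congr 1
  ext r
  simp only [mem_filter, mem_sI, mem_primesIn, Nat.mem_primeFactors]
  tauto

/-- Mass of `primesIn`. -/
lemma mass_primesIn : ∃ C : ℝ, 0 ≤ C ∧ ∀ a b : ℝ, 1 ≤ a → a ≤ b →
    ∑ r ∈ primesIn a b, (1 : ℝ) / ((r : ℝ) - 1) ≤ b - a + 1 / 2 + C * Real.exp (-a) := by
  obtain ⟨C, hC0, hC⟩ := mass_le_of_level
  refine ⟨C, hC0, ?_⟩
  intro a b ha hab
  have := hC a (b + 1 / 2) ha (by linarith) (primesIn a b) (by
    intro p hp
    obtain ⟨h1, h2, h3⟩ := mem_primesIn.1 hp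
    refine ⟨h1, ?_, ?_⟩
    · have : a < lev p := h2
      unfold lev at this
      linarith
    · have : lev p ≤ b := h3
      unfold lev at this
      linarith)
  linarith

lemma sum_inv_le_sum_inv_sub (I : Finset ℕ) (hI : ∀ r ∈ I, r.Prime) :
    ∑ r ∈ I, (1 : ℝ) / (r : ℝ) ≤ ∑ r ∈ I, (1 : ℝ) / ((r : ℝ) - 1) := by
  apply Finset.sum_le_sum
  intro r hr
  have h2 : (2 : ℝ) ≤ r := by exact_mod_cast (hI r hr).two_le
  apply one_div_le_one_div_of_le <;> linarith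

/-- The sieve input, as a hypothesis. -/
def BTH (CB Y1 : ℝ) : Prop := ∀ (Y Q α β : ℝ) (d : ℕ), Y1 ≤ Y → 1 ≤ d → 1 ≤ Q → levR d ≤ Q →
    levR Y ≤ Q → 0 ≤ α → α ≤ β → β ≤ levR Y - Real.log (CB * Q) →
    (((Finset.Icc 1 ⌊Y⌋₊).filter (fun n => (1 + n * d).Prime ∧
        ∀ s : ℕ, s.Prime → s ∣ n → ¬ (α < lev s ∧ lev s ≤ β))).card : ℝ)
      ≤ CB * Y * Q ^ 3 / Real.log Y * Real.exp (-(β - α))

/-- The common factor of the bounds. -/
def BB (N : ℕ) (X CB : ℝ) : ℝ := 4 * CB * ((N : ℝ) + 8) ^ 3 * (X / Real.log X)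

/-- Bundle of the size conditions used below. -/
structure Good (N : ℕ) (X CB CR CM C1 Y1 : ℝ) : Prop where
  hN : 1 ≤ N
  hX : 1 < X
  hx0 : t0 N - 1 ≤ levR X
  hx1 : levR X ≤ (N : ℝ) + 6
  hY1 : 0 ≤ Y1
  hY : Y1 ^ 2 ≤ X
  h4 : 4 ≤ X
  hts : 3 ≤ ts N
  hCB : 0 < CB
  hCR : 1 ≤ CR
  hCM : 0 ≤ CM
  hC1 : 20 ≤ C1
  hC1' : 2 * CB * ((N : ℝ) + 8) ≤ C1 * N
  hE : 2 * CR ^ 3 * Real.exp (24 - 4 * (N : ℝ)) ≤ 1
  hM : CM * Real.exp (-ts N) ≤ 1 / 2
  hx2 : 0 ≤ levR X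

namespace Good

variable {N : ℕ} {X CB CR CM C1 Y1 : ℝ} (G : Good N X CB CR CM C1 Y1)
include G

lemma logX_pos : 0 < Real.log X := Real.log_pos G.hX

lemma logX_eq : Real.log X = Real.exp (levR X) := by
  unfold levR
  rw [Real.exp_log G.logX_pos]

lemma logX_ge_one : 1 ≤ Real.log X := by
  rw [G.logX_eq]
  exact Real.one_le_exp G.hx2

lemma logX_le : Real.log X ≤ Real.exp ((N : ℝ) + 6) := by
  rw [G.logX_eq]
  exact Real.exp_le_exp.2 G.hx1

lemma X_pos : 0 < X := by linarith [G.hX]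

lemma M_le : ((⌊2 * X⌋₊ : ℕ) : ℝ) ≤ 2 * X := Nat.floor_le (by linarith [G.hX])

lemma le_M : X ≤ ((⌊2 * X⌋₊ : ℕ) : ℝ) := by
  have := Nat.lt_floor_add_one (2 * X)
  linarith [G.hX]

lemma log_two_X_le : Real.log (2 * X) ≤ Real.log X + 1 := by
  rw [Real.log_mul (by norm_num) G.X_pos.ne']
  have := Real.log_two_lt_d9
  linarith

/-- `log log` of anything between `1` and `2X`. -/
lemma levR_le_of_le {z : ℝ} (h1 : 1 ≤ z) (h2 : z ≤ 2 * X) : levR z ≤ levR X + 1 := by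
  unfold levR
  rcases eq_or_lt_of_le h1 with h | h
  · rw [← h]
    simp only [Real.log_one, Real.log_zero]
    have : 0 ≤ Real.log (Real.log X) := G.hx2
    linarith
  · have hl : 0 < Real.log z := Real.log_pos h
    have h3 : Real.log z ≤ Real.log X + 1 :=
      (Real.log_le_log (by linarith) h2).trans G.log_two_X_le
    have h4 : Real.log X + 1 ≤ Real.log X * Real.exp 1 := by
      have := Real.add_one_le_exp (1 : ℝ)
      have h5 := G.logX_ge_one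
      nlinarith
    have h6 : Real.log (Real.log z) ≤ Real.log (Real.log X * Real.exp 1) :=
      Real.log_le_log hl (h3.trans h4)
    rw [Real.log_mul G.logX_pos.ne' (Real.exp_pos 1).ne', Real.log_exp] at h6
    exact h6

/-- The sieve bound in the shape needed for the cores. -/
lemma hyp_bt (hbt : BTH CB Y1)
    {α β : ℝ} (hα : 0 ≤ α) (hαβ : α ≤ β) (hβ : β ≤ levR X - Real.log (C1 * N))
    (d : ℕ) (hd1 : 1 ≤ d) (hd2 : d ^ 2 ≤ ⌊2 * X⌋₊) :
    (((Finset.Icc 1 (⌊2 * X⌋₊ / d)).filter (fun n => (1 + n * d).Prime ∧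
        ∀ s : ℕ, s.Prime → s ∣ n → ¬ (α < lev s ∧ lev s ≤ β))).card : ℝ)
      ≤ ((4 * CB * ((N : ℝ) + 8) ^ 3 * (X / Real.log X)) * Real.exp (-(β - α))) / d := by
  set M := ⌊2 * X⌋₊ with hM
  have hd0 : (0 : ℝ) < d := by exact_mod_cast hd1
  set Y : ℝ := (M : ℝ) / d with hYdef
  have hfloor : ⌊Y⌋₊ = M / d := Nat.floor_div_eq_div M d
  have hMX : X ≤ (M : ℝ) := G.le_M
  have hM2 : (M : ℝ) ≤ 2 * X := G.M_le
  have hMpos : (0 : ℝ) < M := lt_of_lt_of_le G.X_pos hMX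
  have hd2R : (d : ℝ) ^ 2 ≤ M := by exact_mod_cast hd2
  have hYpos : 0 < Y := div_pos hMpos hd0
  have hY2 : X ≤ Y ^ 2 := by
    have : Y ^ 2 = (M : ℝ) * ((M : ℝ) / (d : ℝ) ^ 2) := by
      rw [hYdef]; field_simp
    rw [this]
    have h1 : 1 ≤ (M : ℝ) / (d : ℝ) ^ 2 := by
      rw [le_div_iff₀ (by positivity)]
      linarith
    nlinarith
  have hYY1 : Y1 ≤ Y := by
    by_contra hlt
    push_neg at hlt
    have := G.hY
    have h3 : Y ^ 2 < Y1 ^ 2 := by nlinarith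
    linarith
  have hY3 : 2 ≤ Y := by
    by_contra hlt
    push_neg at hlt
    have : Y ^ 2 < 4 := by nlinarith
    linarith [G.h4]
  have hlogY : Real.log X / 2 ≤ Real.log Y := by
    have h1 : Real.log X ≤ Real.log (Y ^ 2) := Real.log_le_log G.X_pos hY2
    rw [Real.log_pow] at h1
    push_cast at h1
    linarith
  have hLpos := G.logX_pos
  have hlogYpos : 0 < Real.log Y := by linarith
  have hYle : Y ≤ 2 * X := by
    have h1 : Y ≤ M := by
      rw [hYdef]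
      exact div_le_self hMpos.le (by exact_mod_cast hd1)
    linarith
  have hYge1 : 1 ≤ Y := by linarith
  have hdR1 : (1 : ℝ) ≤ d := by exact_mod_cast hd1
  have hdle : (d : ℝ) ≤ 2 * X := by
    have : (d : ℝ) ≤ (d : ℝ) ^ 2 := by nlinarith
    linarith
  set Q : ℝ := (N : ℝ) + 8 with hQ
  have hQ1 : 1 ≤ Q := by
    have : (0 : ℝ) ≤ N := Nat.cast_nonneg N
    linarith
  have hQ0 : 0 < Q := by linarith
  have hx1 := G.hx1
  have hlevY : levR Y ≤ Q := by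
    have := G.levR_le_of_le hYge1 hYle
    linarith
  have hlevd : levR d ≤ Q := by
    have := G.levR_le_of_le hdR1 hdle
    linarith
  have hlevYlow : levR X - Real.log 2 ≤ levR Y := by
    unfold levR
    have h1 : Real.log (Real.log X / 2) ≤ Real.log (Real.log Y) :=
      Real.log_le_log (by positivity) hlogY
    rw [Real.log_div hLpos.ne' (by norm_num)] at h1
    exact h1
  have hCB := G.hCB
  have hβ2 : β ≤ levR Y - Real.log (CB * Q) := by
    have hC1pos : 0 < C1 * N := by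
      have hNpos : (0 : ℝ) < N := by exact_mod_cast G.hN
      have := G.hC1
      positivity
    have h1 : Real.log 2 + Real.log (CB * Q) ≤ Real.log (C1 * N) := by
      rw [← Real.log_mul (by norm_num) (by positivity)]
      apply Real.log_le_log (by positivity)
      have := G.hC1'
      calc 2 * (CB * Q) = 2 * CB * ((N : ℝ) + 8) := by rw [hQ]; ring
        _ ≤ _ := this
    linarith
  have h := hbt Y Q α β d hYY1 hd1 hQ1 hlevd hlevY hα hαβ hβ2
  rw [hfloor] at h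
  refine h.trans ?_
  have hexp := Real.exp_pos (-(β - α))
  have h1 : CB * Y * Q ^ 3 / Real.log Y ≤ 4 * CB * Q ^ 3 * (X / Real.log X) / d := by
    have hYd : Y = (M : ℝ) / d := rfl
    have h2 : CB * Y * Q ^ 3 / Real.log Y ≤ CB * Y * Q ^ 3 / (Real.log X / 2) := by
      apply div_le_div_of_nonneg_left (by positivity) (by positivity) hlogY
    refine h2.trans ?_
    have h3 : CB * Y * Q ^ 3 / (Real.log X / 2) = 2 * CB * Q ^ 3 * (M : ℝ) / (Real.log X * d) := by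
      rw [hYd]; field_simp
    rw [h3]
    have h4 : 4 * CB * Q ^ 3 * (X / Real.log X) / d = 2 * CB * Q ^ 3 * (2 * X) / (Real.log X * d) := by
      field_simp
      ring
    rw [h4]
    apply div_le_div_of_nonneg_right _ (by positivity)
    apply mul_le_mul_of_nonneg_left hM2 (by positivity)
  calc CB * Y * Q ^ 3 / Real.log Y * Real.exp (-(β - α))
      ≤ 4 * CB * Q ^ 3 * (X / Real.log X) / d * Real.exp (-(β - α)) :=
        mul_le_mul_of_nonneg_right h1 hexp.le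
    _ = _ := by ring

lemma BB_nonneg : 0 ≤ BB N X CB := by
  unfold BB
  have := G.hCB
  have := G.logX_pos
  have := G.X_pos
  positivity

/-- The hypothesis of `upper_core`, `window_core`. -/
lemma hyp_free (hbt : BTH CB Y1) {a : ℝ} (ha : 0 ≤ a) (ha2 : a ≤ levR X - Real.log (C1 * N))
    (d : ℕ) (hd1 : 1 ≤ d) (hd2 : d ^ 2 ≤ ⌊2 * X⌋₊) :
    (((Finset.Icc 1 (⌊2 * X⌋₊ / d)).filter (fun n => (1 + n * d).Prime)).card : ℝ)
      ≤ BB N X CB / d := by
  have h := G.hyp_bt hbt ha le_rfl ha2 d hd1 hd2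
  simp only [sub_self, neg_zero, Real.exp_zero, mul_one] at h
  refine le_trans (le_of_eq ?_) h
  congr 2
  ext n
  simp only [mem_filter]
  constructor
  · rintro ⟨h1, h2⟩
    exact ⟨h1, h2, fun s _ _ h3 => absurd h3.1 (not_lt.2 h3.2)⟩
  · rintro ⟨h1, h2, _⟩
    exact ⟨h1, h2⟩

/-- The hypothesis of `lower_core`. -/
lemma hyp_hole (hbt : BTH CB Y1) {α β : ℝ} (hα : 0 ≤ α) (hαβ : α ≤ β)
    (hβ : β ≤ levR X - Real.log (C1 * N)) (d : ℕ) (hd1 : 1 ≤ d) (hd2 : d ^ 2 ≤ ⌊2 * X⌋₊) :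
    (((Finset.Icc 1 (⌊2 * X⌋₊ / d)).filter
        (fun n => (1 + n * d).Prime ∧ ∀ r ∈ primesIn α β, ¬ r ∣ n)).card : ℝ)
      ≤ (BB N X CB * Real.exp (-(β - α))) / d := by
  have h := G.hyp_bt hbt hα hαβ hβ d hd1 hd2
  refine le_trans (le_of_eq ?_) h
  congr 2
  ext n
  simp only [mem_filter, mem_primesIn]
  constructor
  · rintro ⟨h1, h2, h3⟩
    exact ⟨h1, h2, fun s hs hd hh => h3 s ⟨hs, hh.1, hh.2⟩ hd⟩
  · rintro ⟨h1, h2, h3⟩
    exact ⟨h1, h2, fun s hs hd => h3 s hs.1 hd hs.2⟩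

lemma sum_primesIn_le {α y : ℝ} (hC : ∀ a b : ℝ, 1 ≤ a → a ≤ b →
      ∑ r ∈ primesIn a b, (1 : ℝ) / ((r : ℝ) - 1) ≤ b - a + 1 / 2 + CM * Real.exp (-a))
    (hα : ts N ≤ α) (hy : α ≤ y) :
    ∑ r ∈ primesIn α y, (1 : ℝ) / ((r : ℝ) - 1) ≤ y - α + 1 := by
  have h3 := G.hts
  have h1 := hC α y (by linarith) hy
  have h2 : CM * Real.exp (-α) ≤ CM * Real.exp (-ts N) :=
    mul_le_mul_of_nonneg_left (Real.exp_le_exp.2 (by linarith)) G.hCM
  linarith [G.hM]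

/-- General lower tail. -/
theorem tail_lower (hbt : BTH CB Y1) {α y K t : ℝ} (hα : 0 ≤ α) (hαy : α ≤ y)
    (hy : y ≤ levR X - Real.log (C1 * N)) (ht : 0 < t) (ht1 : t ≤ 1) (S : ℝ)
    (hS : ∑ r ∈ primesIn α y, (1 : ℝ) / ((r : ℝ) - 1) ≤ S)
    (P : Finset ℕ) (hP : ∀ p ∈ P, p.Prime ∧ p ≤ ⌊2 * X⌋₊ ∧ (Ipart (primesIn α y) (p - 1)) ^ 2 ≤ ⌊2 * X⌋₊ ∧
      ((sI (primesIn α y) (p - 1)).card : ℝ) < K) :
    (P.card : ℝ) ≤ BB N X CB * Real.exp (-(y - α) - K * Real.log t + t * S) := by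
  have hB : 0 ≤ BB N X CB * Real.exp (-(y - α)) :=
    mul_nonneg G.BB_nonneg (Real.exp_pos _).le
  have h := lower_core (M := ⌊2 * X⌋₊) (I := primesIn α y) (P := P) hB primesIn_prime
    (fun p hp => ⟨(hP p hp).1, (hP p hp).2.1⟩) (fun p hp => (hP p hp).2.2.1)
    (G.hyp_hole hbt hα hαy hy) ht ht1 (fun p hp => (hP p hp).2.2.2)
  refine h.trans ?_
  have h2 : Real.exp (t * ∑ r ∈ primesIn α y, 1 / ((r : ℝ) - 1)) ≤ Real.exp (t * S) :=
    Real.exp_le_exp.2 (mul_le_mul_of_nonneg_left hS ht.le)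
  have e : Real.exp (-(y - α) - K * Real.log t + t * S)
      = Real.exp (-(y - α)) * (Real.exp (-(K * Real.log t)) * Real.exp (t * S)) := by
    rw [← Real.exp_add, ← Real.exp_add]
    congr 1
    ring
  rw [e, mul_assoc]
  apply mul_le_mul_of_nonneg_left _ G.BB_nonneg
  apply mul_le_mul_of_nonneg_left _ (Real.exp_pos _).le
  apply mul_le_mul_of_nonneg_left h2 (Real.exp_pos _).le

/-- General upper tail. -/
theorem tail_upper (hbt : BTH CB Y1) {α y K s : ℝ} (hα : 0 ≤ α) (hαy : α ≤ y)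
    (hy : y ≤ levR X - Real.log (C1 * N)) (hs : 0 ≤ s) (S : ℝ)
    (hS : ∑ r ∈ primesIn α y, (1 : ℝ) / ((r : ℝ) - 1) ≤ S)
    (P : Finset ℕ) (hP : ∀ p ∈ P, p.Prime ∧ p ≤ ⌊2 * X⌋₊ ∧ (Ipart (primesIn α y) (p - 1)) ^ 2 ≤ ⌊2 * X⌋₊ ∧
      K ≤ ((sI (primesIn α y) (p - 1)).card : ℝ)) :
    (P.card : ℝ) ≤ BB N X CB * Real.exp (s * S - K * Real.log (1 + s)) := by
  have h := upper_core (M := ⌊2 * X⌋₊) (I := primesIn α y) (P := P) G.BB_nonneg primesIn_prime
    (fun p hp => ⟨(hP p hp).1, (hP p hp).2.1⟩) (fun p hp => (hP p hp).2.2.1)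
    (G.hyp_free hbt hα (by linarith)) hs (fun p hp => (hP p hp).2.2.2)
  have h2 : ∑ r ∈ primesIn α y, (1 : ℝ) / (r : ℝ) ≤ S :=
    (sum_inv_le_sum_inv_sub _ primesIn_prime).trans hS
  have h3 : Real.exp (s * ∑ r ∈ primesIn α y, 1 / (r : ℝ)) ≤ Real.exp (s * S) :=
    Real.exp_le_exp.2 (mul_le_mul_of_nonneg_left h2 hs)
  have e : Real.exp (s * S - K * Real.log (1 + s))
      = Real.exp (s * S) * (Real.exp (K * Real.log (1 + s)))⁻¹ := by
    rw [← Real.exp_neg, ← Real.exp_add]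
    congr 1
  rw [e, ← mul_assoc, ← div_eq_mul_inv, le_div_iff₀ (Real.exp_pos _)]
  refine h.trans ?_
  exact mul_le_mul_of_nonneg_left h3 G.BB_nonneg

/-- Exceptional primes. -/
theorem tail_exc (hR : ∀ Y Z : ℝ, 1 ≤ Y → Real.exp 10 ≤ Z → ∀ F : Finset ℕ,
      (∀ d ∈ F, d ≠ 0 ∧ Y < d ∧ ∀ r : ℕ, r.Prime → r ∣ d → (r : ℝ) ≤ Z) →
      ∑ d ∈ F, (1 : ℝ) / d ≤ Real.exp (-(Real.log Y / Real.log Z)) * (CR * Real.log Z) ^ 3)
    {α y : ℝ} (hy0 : 3 ≤ y) (hy : y ≤ levR X - Real.log (C1 * N))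
    (P : Finset ℕ) (hP : ∀ p ∈ P, p.Prime ∧ p ≤ ⌊2 * X⌋₊ ∧ ⌊2 * X⌋₊ < (Ipart (primesIn α y) (p - 1)) ^ 2) :
    (P.card : ℝ) ≤ (X / Real.log X) * Real.exp (-(2 * (N : ℝ))) := by
  set M := ⌊2 * X⌋₊ with hM
  have hMX : X ≤ (M : ℝ) := G.le_M
  have hM2 : (M : ℝ) ≤ 2 * X := G.M_le
  have hMpos : (0 : ℝ) < M := lt_of_lt_of_le G.X_pos hMX
  have hMge : (4 : ℝ) ≤ M := by linarith [G.h4]
  set Y : ℝ := Real.sqrt M with hYdef
  have hY1 : 1 ≤ Y := by
    rw [hYdef, Real.one_le_sqrt]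
    linarith
  set Z : ℝ := Real.exp (Real.exp y) with hZdef
  have hZ10 : Real.exp 10 ≤ Z := by
    apply Real.exp_le_exp.2
    have := Real.add_one_le_exp y
    have h2 : Real.exp 3 ≤ Real.exp y := Real.exp_le_exp.2 hy0
    have h3 : (10 : ℝ) ≤ Real.exp 3 := by
      have h4 := Real.exp_one_gt_d9
      have h5 : Real.exp 3 = Real.exp 1 ^ 3 := by
        rw [← Real.exp_nat_mul]; norm_num
      rw [h5]
      have : (2.7 : ℝ) ^ 3 ≤ Real.exp 1 ^ 3 := by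
        apply pow_le_pow_left₀ (by norm_num) (by linarith)
      norm_num at this ⊢
      linarith
    linarith
  have hlogZ : Real.log Z = Real.exp y := Real.log_exp _
  have hIZ : ∀ r ∈ primesIn α y, r.Prime ∧ (r : ℝ) ≤ Z := by
    intro r hr
    obtain ⟨h1, _, h3⟩ := mem_primesIn.1 hr
    exact ⟨h1, le_exp_exp_of_lev h1 h3⟩
  have hcore := exc_core hR (M := M) (I := primesIn α y) (P := P) hY1 hZ10 hIZ (by
    intro p hp
    obtain ⟨h1, h2, h3⟩ := hP p hp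
    refine ⟨h1, h2, ?_⟩
    rw [hYdef, Real.sqrt_lt' (by exact_mod_cast Ipart_pos)]
    exact_mod_cast h3)
  refine hcore.trans ?_
  rw [hlogZ]
  have hLpos := G.logX_pos
  have hNpos : (0 : ℝ) < N := by exact_mod_cast G.hN
  have hC1 := G.hC1
  have hCR := G.hCR
  -- the ratio
  have hexpy : Real.exp y * (C1 * N) ≤ Real.log X := by
    have h1 : y + Real.log (C1 * N) ≤ levR X := by linarith
    have h2 := Real.exp_le_exp.2 h1
    rw [Real.exp_add, Real.exp_log (by positivity), ← G.logX_eq] at h2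
    exact h2
  have hlogY : Real.log X / 2 ≤ Real.log Y := by
    rw [hYdef, Real.log_sqrt hMpos.le]
    have := Real.log_le_log G.X_pos hMX
    linarith
  have hexpy0 := Real.exp_pos y
  have hratio : 10 * (N : ℝ) ≤ Real.log Y / Real.exp y := by
    rw [le_div_iff₀ hexpy0]
    have h1 : 20 * (N : ℝ) * Real.exp y ≤ C1 * N * Real.exp y := by
      apply mul_le_mul_of_nonneg_right _ hexpy0.le
      exact mul_le_mul_of_nonneg_right hC1 hNpos.le
    nlinarith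
  have hyN : y ≤ (N : ℝ) + 6 := by
    have h1 : 0 ≤ Real.log (C1 * N) := by
      apply Real.log_nonneg
      have : (1 : ℝ) ≤ N := by exact_mod_cast G.hN
      nlinarith
    linarith [G.hx1]
  have h3 : (CR * Real.exp y) ^ 3 ≤ CR ^ 3 * Real.exp (3 * (N : ℝ) + 18) := by
    rw [mul_pow]
    apply mul_le_mul_of_nonneg_left _ (by positivity)
    rw [← Real.exp_nat_mul]
    apply Real.exp_le_exp.2
    push_cast
    linarith
  have h4 : Real.exp (-(Real.log Y / Real.exp y)) ≤ Real.exp (-(10 * (N : ℝ))) :=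
    Real.exp_le_exp.2 (by linarith)
  have h5 : Real.exp (-(Real.log Y / Real.exp y)) * (CR * Real.exp y) ^ 3
      ≤ Real.exp (-(10 * (N : ℝ))) * (CR ^ 3 * Real.exp (3 * (N : ℝ) + 18)) :=
    mul_le_mul h4 h3 (by positivity) (by positivity)
  have h6 : (M : ℝ) * (Real.exp (-(Real.log Y / Real.exp y)) * (CR * Real.exp y) ^ 3)
      ≤ (2 * X) * (Real.exp (-(10 * (N : ℝ))) * (CR ^ 3 * Real.exp (3 * (N : ℝ) + 18))) :=
    mul_le_mul hM2 h5 (by positivity) (by linarith [G.X_pos])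
  refine h6.trans ?_
  -- final comparison
  have hL := G.logX_le
  have hE := G.hE
  have e1 : Real.exp (-(10 * (N : ℝ))) * (CR ^ 3 * Real.exp (3 * (N : ℝ) + 18))
      = CR ^ 3 * Real.exp (18 - 7 * (N : ℝ)) := by
    rw [mul_left_comm, ← Real.exp_add]
    congr 2
    ring
  rw [e1]
  have h7 : (2 * X) * (CR ^ 3 * Real.exp (18 - 7 * (N : ℝ)))
      = (X / Real.log X) * (Real.log X * (2 * CR ^ 3 * Real.exp (18 - 7 * (N : ℝ)))) := by
    field_simp
  rw [h7]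
  apply mul_le_mul_of_nonneg_left _ (div_nonneg G.X_pos.le hLpos.le)
  have h8 : Real.log X * (2 * CR ^ 3 * Real.exp (18 - 7 * (N : ℝ)))
      ≤ Real.exp ((N : ℝ) + 6) * (2 * CR ^ 3 * Real.exp (18 - 7 * (N : ℝ))) :=
    mul_le_mul_of_nonneg_right hL (by positivity)
  refine h8.trans ?_
  have e2 : Real.exp ((N : ℝ) + 6) * (2 * CR ^ 3 * Real.exp (18 - 7 * (N : ℝ)))
      = (2 * CR ^ 3 * Real.exp (24 - 4 * (N : ℝ))) * Real.exp (-(2 * (N : ℝ))) := by
    have : Real.exp (24 - 4 * (N : ℝ)) * Real.exp (-(2 * (N : ℝ)))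
        = Real.exp ((N : ℝ) + 6) * Real.exp (18 - 7 * (N : ℝ)) := by
      rw [← Real.exp_add, ← Real.exp_add]
      congr 1
      ring
    calc _ = 2 * CR ^ 3 * (Real.exp ((N : ℝ) + 6) * Real.exp (18 - 7 * (N : ℝ))) := by ring
      _ = 2 * CR ^ 3 * (Real.exp (24 - 4 * (N : ℝ)) * Real.exp (-(2 * (N : ℝ)))) := by rw [this]
      _ = _ := by ring
  rw [e2]
  have := Real.exp_pos (-(2 * (N : ℝ)))
  nlinarith

end Good

end

end Vale.Agent.Lib.P031V.NormalInt
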