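import Mathlib

namespace Vale.Agent.Lib.P031V

open Filter Topology Asymptotics

/-- `2 √x log x / x → 0`. -/
theorem aux_sqrt_log_div : Tendsto (fun x : ℝ => 2 * Real.sqrt x * Real.log x / x) atTop (𝓝 0) := by
  have h1 : (Real.log) =o[atTop] (fun x : ℝ => x ^ ((1:ℝ)/2)) :=
    isLittleO_log_rpow_atTop (by norm_num)
  have h2 : Tendsto (fun x : ℝ => Real.log x / x ^ ((1:ℝ)/2)) atTop (𝓝 0) := h1.tendsto_div_nhds_zero
  have h3 : Tendsto (fun x : ℝ => 2 * (Real.log x / x ^ ((1:ℝ)/2))) atTop (𝓝 (2 * 0)) :=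
    h2.const_mul 2
  rw [mul_zero] at h3
  refine h3.congr' ?_
  filter_upwards [eventually_gt_atTop 0] with x hx
  rw [← Real.sqrt_eq_rpow]
  have hs : Real.sqrt x * Real.sqrt x = x := Real.mul_self_sqrt hx.le
  have hs0 : 0 < Real.sqrt x := Real.sqrt_pos.mpr hx
  have h2' : Real.sqrt x ^ 2 = x := Real.sq_sqrt hx.le
  field_simp
  rw [h2']

/-- `θ(x)/x → 1` from `ψ(x)/x → 1`. -/
theorem theta_div_tendsto_of_psi (h : Tendsto (fun x : ℝ => Chebyshev.psi x / x) atTop (𝓝 1)) :
    Tendsto (fun x : ℝ => Chebyshev.theta x / x) atTop (𝓝 1) := by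
  have hdiff : Tendsto (fun x : ℝ => (Chebyshev.psi x - Chebyshev.theta x) / x) atTop (𝓝 0) := by
    refine squeeze_zero_norm' ?_ aux_sqrt_log_div
    filter_upwards [eventually_ge_atTop 1] with x hx
    have hx0 : 0 < x := by linarith
    rw [Real.norm_eq_abs, abs_div, abs_of_pos hx0]
    exact div_le_div_of_nonneg_right (Chebyshev.abs_psi_sub_theta_le_sqrt_mul_log hx) hx0.le
  have := h.sub hdiff
  rw [sub_zero] at this
  refine this.congr' ?_
  filter_upwards [eventually_gt_atTop 0] with x hx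
  field_simp
  ring

/-- The prime number theorem from `θ(x)/x → 1`. -/
theorem pnt_of_theta (h : Tendsto (fun x : ℝ => Chebyshev.theta x / x) atTop (𝓝 1)) :
    Tendsto (fun x : ℝ => (Nat.primeCounting ⌊x⌋₊ : ℝ) * Real.log x / x) atTop (𝓝 1) := by
  have hO := Chebyshev.primeCounting_sub_theta_div_log_isBigO
  have hinv : Tendsto (fun x : ℝ => (Real.log x)⁻¹) atTop (𝓝 0) :=
    Real.tendsto_log_atTop.inv_tendsto_atTop
  obtain ⟨C, hC⟩ := hO.bound
  have hsmall : Tendsto (fun x : ℝ => ((Nat.primeCounting ⌊x⌋₊ : ℝ) - Chebyshev.theta x / Real.log x)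
      * Real.log x / x) atTop (𝓝 0) := by
    have hb : Tendsto (fun x : ℝ => C * (Real.log x)⁻¹) atTop (𝓝 0) := by
      simpa using hinv.const_mul C
    refine squeeze_zero_norm' ?_ hb
    filter_upwards [hC, eventually_gt_atTop 1] with x hx hx1
    have hl : 0 < Real.log x := Real.log_pos hx1
    have hx0 : 0 < x := by linarith
    rw [Real.norm_eq_abs] at hx ⊢
    rw [Real.norm_eq_abs, abs_of_pos (by positivity : 0 < x / Real.log x ^ 2)] at hx
    rw [abs_div, abs_mul, abs_of_pos hl, abs_of_pos hx0]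
    calc |(Nat.primeCounting ⌊x⌋₊ : ℝ) - Chebyshev.theta x / Real.log x| * Real.log x / x
        ≤ (C * (x / Real.log x ^ 2)) * Real.log x / x := by gcongr
      _ = C * (Real.log x)⁻¹ := by field_simp
  have := hsmall.add h
  rw [zero_add] at this
  refine this.congr' ?_
  filter_upwards [eventually_gt_atTop 1] with x hx1
  have hl : 0 < Real.log x := Real.log_pos hx1
  have hx0 : 0 < x := by linarith
  field_simp
  ring

/-- Ratio form. -/
theorem pnt_interval_of_pnt
    (h : Tendsto (fun x : ℝ => (Nat.primeCounting ⌊x⌋₊ : ℝ) * Real.log x / x) atTop (𝓝 1))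
    (c : ℝ) (hc : 1 < c) :
    Tendsto (fun X : ℝ => ((Nat.primeCounting ⌊c * X⌋₊ : ℝ) - (Nat.primeCounting ⌊X⌋₊ : ℝ)) * Real.log X / X)
      atTop (𝓝 (c - 1)) := by
  have hc0 : 0 < c := by linarith
  have hcomp : Tendsto (fun X : ℝ => c * X) atTop atTop := tendsto_id.const_mul_atTop hc0
  have h1 := h.comp hcomp
  -- log X / log (cX) → 1
  have hlogratio : Tendsto (fun X : ℝ => Real.log X / Real.log (c * X)) atTop (𝓝 1) := by
    have hinv : Tendsto (fun X : ℝ => Real.log c * (Real.log (c * X))⁻¹) atTop (𝓝 0) := by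
      have := (Real.tendsto_log_atTop.comp hcomp).inv_tendsto_atTop.const_mul (Real.log c)
      simpa using this
    have := (tendsto_const_nhds (x := (1:ℝ))).sub hinv
    rw [sub_zero] at this
    refine this.congr' ?_
    filter_upwards [eventually_gt_atTop 1] with X hX
    have hX0 : 0 < X := by linarith
    have hl : 0 < Real.log (c * X) := Real.log_pos (by nlinarith)
    rw [Real.log_mul hc0.ne' hX0.ne'] at hl ⊢
    field_simp
    ring
  have h2 : Tendsto (fun X : ℝ => ((Nat.primeCounting ⌊c * X⌋₊ : ℝ) * Real.log (c * X) / (c * X)) * c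
      * (Real.log X / Real.log (c * X))) atTop (𝓝 (1 * c * 1)) :=
    (h1.mul_const c).mul hlogratio
  have h3 := h2.sub h
  have : (1 * c * 1 - 1 : ℝ) = c - 1 := by ring
  rw [this] at h3
  refine h3.congr' ?_
  filter_upwards [eventually_gt_atTop 1] with X hX
  have hX0 : 0 < X := by linarith
  have hl : 0 < Real.log (c * X) := Real.log_pos (by nlinarith)
  field_simp

/-- Prime number theorem and ratio form, from the Chebyshev form. -/
theorem pnt_of_psi (h : Tendsto (fun x : ℝ => Chebyshev.psi x / x) atTop (𝓝 1)) :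
    Tendsto (fun x : ℝ => (Nat.primeCounting ⌊x⌋₊ : ℝ) * Real.log x / x) atTop (𝓝 1) :=
  pnt_of_theta (theta_div_tendsto_of_psi h)

theorem pnt_interval_of_psi (h : Tendsto (fun x : ℝ => Chebyshev.psi x / x) atTop (𝓝 1))
    (c : ℝ) (hc : 1 < c) :
    Tendsto (fun X : ℝ => ((Nat.primeCounting ⌊c * X⌋₊ : ℝ) - (Nat.primeCounting ⌊X⌋₊ : ℝ)) * Real.log X / X)
      atTop (𝓝 (c - 1)) :=
  pnt_interval_of_pnt (pnt_of_psi h) c hc

end Vale.Agent.Lib.P031V
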