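import Vale.Agent.Lib.P031V.Defs

/-! # P031: the abstract peeling lemma, blueprint section 6 (Lemma (peel)).
Self-contained combinatorics: a configuration assigns to each prime of `P` either nothing or a cell `(i,j)`. -/

namespace Vale.Agent.Lib.P031V
namespace Peel
open Real Finset
open scoped Classical
noncomputable section

variable {α β : Type} [Fintype α] [Fintype β]

/-- The data of the peeling. -/
structure Data (α β : Type) where
  P : Finset ℕ
  primeP : ∀ r ∈ P, r.Prime
  f : α → ℕ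
  g : β → ℕ
  u : ℕ → ℝ
  u0 : ∀ r, 0 ≤ u r
  u1 : ∀ r, u r ≤ 1
  alive : ℕ → α → β → Prop
  lamA : α → ℝ
  lamB : β → ℝ
  /-- all row and column primes are at most `Fm` -/
  Fm : ℕ

/-- Configurations. -/
abbrev Conf (D : Data α β) := {r // r ∈ D.P} → Option (α × β)

variable (D : Data α β)

/-- Product of the primes in row `i`. -/
def rowP (κ : Conf D) (i : α) : ℕ :=
  ∏ r : {r // r ∈ D.P}, if ∃ j, κ r = some (i, j) then (r : ℕ) else 1

/-- Product of the primes in column `j`. -/
def colP (κ : Conf D) (j : β) : ℕ :=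
  ∏ r : {r // r ∈ D.P}, if ∃ i, κ r = some (i, j) then (r : ℕ) else 1

/-- Weight of a configuration. -/
def wt (κ : Conf D) : ℝ :=
  ∏ r : {r // r ∈ D.P}, match κ r with
    | none => 1
    | some c => if D.alive r c.1 c.2 then D.u r / (r : ℕ) else 0

/-- Row condition: a prime of level `≥ lamA i` in the row, and `1 + f_i A_i` is a prime `≤ Fm`. -/
def rowOK (κ : Conf D) (i : α) : Prop :=
  (∃ r j, κ r = some (i, j) ∧ D.lamA i ≤ lev r) ∧ (1 + D.f i * rowP D κ i).Prime ∧ 1 + D.f i * rowP D κ i ≤ D.Fm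

/-- Column condition. -/
def colOK (κ : Conf D) (j : β) : Prop :=
  (∃ r i, κ r = some (i, j) ∧ D.lamB j ≤ lev r) ∧ (1 + D.g j * colP D κ j).Prime ∧ 1 + D.g j * colP D κ j ≤ D.Fm

/-- The indicator. -/
def Ind (I : Finset α) (J : Finset β) (κ : Conf D) : Prop :=
  (∀ i ∈ I, rowOK D κ i) ∧ (∀ j ∈ J, colOK D κ j) ∧
    ∀ i ∈ I, ∀ j ∈ J, 1 + D.f i * rowP D κ i ≠ 1 + D.g j * colP D κ j

/-- The sum. -/
def AA (I : Finset α) (J : Finset β) : ℝ :=
  ∑ κ : Conf D, if Ind D I J κ then wt D κ else 0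

/-- Sieve hypotheses: `M` and the exponents `xA, xB`. -/
structure SieveHyp (M : ℝ) (xA : α → ℝ) (xB : β → ℝ) : Prop where
  two : ∀ i j (F F' : ℕ), 1 ≤ F → 1 ≤ F' → F ≠ F' → F ≤ D.Fm → F' ≤ D.Fm →
    ∑ R ∈ D.P, (if D.lamA i ≤ lev (R : ℕ) ∧ D.lamB j ≤ lev (R : ℕ) ∧ (1 + (R : ℕ) * F).Prime ∧ (1 + (R : ℕ) * F').Prime
      then (1 : ℝ) / (R : ℕ) else 0) ≤ M * Real.exp (-xA i - xB j)
  oneA : ∀ i (F : ℕ), 1 ≤ F → F ≤ D.Fm →
    ∑ R ∈ D.P, (if D.lamA i ≤ lev (R : ℕ) ∧ (1 + (R : ℕ) * F).Prime then (1 : ℝ) / (R : ℕ) else 0) ≤ M * Real.exp (-xA i)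
  oneB : ∀ j (F : ℕ), 1 ≤ F → F ≤ D.Fm →
    ∑ R ∈ D.P, (if D.lamB j ≤ lev (R : ℕ) ∧ (1 + (R : ℕ) * F).Prime then (1 : ℝ) / (R : ℕ) else 0) ≤ M * Real.exp (-xB j)

/-- Positivity of the `f,g`. -/
def PosFG : Prop := (∀ i, 1 ≤ D.f i) ∧ ∀ j, 1 ≤ D.g j

/-- The local term of the weight. -/
def tm (D : Data α β) (o : Option (α × β)) (r : {r // r ∈ D.P}) : ℝ :=
  match o with
  | none => 1
  | some c => if D.alive r c.1 c.2 then D.u r / (r : ℕ) else 0

lemma wt_eq (κ : Conf D) : wt D κ = ∏ r, tm D (κ r) r := rfl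

lemma tm_nonneg (o : Option (α × β)) (r : {r // r ∈ D.P}) : 0 ≤ tm D o r := by
  unfold tm
  cases o with
  | none => simp
  | some c =>
    simp only
    split_ifs
    · exact div_nonneg (D.u0 _) (Nat.cast_nonneg _)
    · exact le_rfl

lemma wt_nonneg (κ : Conf D) : 0 ≤ wt D κ :=
  Finset.prod_nonneg fun r _ => tm_nonneg D _ r

lemma AA_nonneg (I : Finset α) (J : Finset β) : 0 ≤ AA D I J := by
  unfold AA
  apply Finset.sum_nonneg
  intro κ _
  split_ifs
  · exact wt_nonneg D κ
  · exact le_rfl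

/-- Splitting a product over the updated configuration. -/
lemma prod_update {M : Type} [CommMonoid M] (F : Option (α × β) → {r // r ∈ D.P} → M) (κ : Conf D)
    (R : {r // r ∈ D.P}) (o : Option (α × β)) :
    ∏ r, F (Function.update κ R o r) r = F o R * ∏ r ∈ Finset.univ.erase R, F (κ r) r := by
  rw [← Finset.mul_prod_erase Finset.univ _ (Finset.mem_univ R)]
  simp only [Function.update_self]
  congr 1
  apply Finset.prod_congr rfl
  intro r hr
  rw [Function.update_of_ne (Finset.ne_of_mem_erase hr)]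

lemma prod_none {M : Type} [CommMonoid M] (F : Option (α × β) → {r // r ∈ D.P} → M) (κ : Conf D)
    (R : {r // r ∈ D.P}) (hR : κ R = none) (h1 : F none R = 1) :
    ∏ r ∈ Finset.univ.erase R, F (κ r) r = ∏ r, F (κ r) r := by
  rw [← Finset.mul_prod_erase Finset.univ _ (Finset.mem_univ R), hR, h1, one_mul]

lemma wt_update (κ : Conf D) (R : {r // r ∈ D.P}) (hR : κ R = none) (c : α × β) :
    wt D (Function.update κ R (some c)) = tm D (some c) R * wt D κ := by
  rw [wt_eq, wt_eq, prod_update D (fun o r => tm D o r) κ R (some c),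
    prod_none D (fun o r => tm D o r) κ R hR rfl]

/-- Factor of `rowP`. -/
def rowF (i : α) (o : Option (α × β)) (r : {r // r ∈ D.P}) : ℕ :=
  if ∃ j, o = some (i, j) then (r : ℕ) else 1

/-- Factor of `colP`. -/
def colF (j : β) (o : Option (α × β)) (r : {r // r ∈ D.P}) : ℕ :=
  if ∃ i, o = some (i, j) then (r : ℕ) else 1

lemma rowP_eq (κ : Conf D) (i : α) : rowP D κ i = ∏ r, rowF D i (κ r) r := rfl

lemma colP_eq (κ : Conf D) (j : β) : colP D κ j = ∏ r, colF D j (κ r) r := rfl

lemma rowP_update_same (κ : Conf D) (R : {r // r ∈ D.P}) (hR : κ R = none) (a : α) (b : β) :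
    rowP D (Function.update κ R (some (a, b))) a = (R : ℕ) * rowP D κ a := by
  rw [rowP_eq, rowP_eq, prod_update D (rowF D a) κ R (some (a, b)),
    prod_none D (rowF D a) κ R hR (by simp [rowF])]
  simp [rowF]

lemma rowP_update_ne (κ : Conf D) (R : {r // r ∈ D.P}) (hR : κ R = none) {a i : α} (b : β)
    (h : i ≠ a) : rowP D (Function.update κ R (some (a, b))) i = rowP D κ i := by
  rw [rowP_eq, rowP_eq, prod_update D (rowF D i) κ R (some (a, b)),
    prod_none D (rowF D i) κ R hR (by simp [rowF])]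
  have : ¬ ∃ j, some (a, b) = some (i, j) := by
    rintro ⟨j, hj⟩
    simp only [Option.some.injEq, Prod.mk.injEq] at hj
    exact h hj.1.symm
  have e : rowF D i (some (a, b)) R = 1 := by
    unfold rowF
    rw [if_neg this]
  rw [e, one_mul]

lemma colP_update_same (κ : Conf D) (R : {r // r ∈ D.P}) (hR : κ R = none) (a : α) (b : β) :
    colP D (Function.update κ R (some (a, b))) b = (R : ℕ) * colP D κ b := by
  rw [colP_eq, colP_eq, prod_update D (colF D b) κ R (some (a, b)),
    prod_none D (colF D b) κ R hR (by simp [colF])]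
  simp [colF]

lemma colP_update_ne (κ : Conf D) (R : {r // r ∈ D.P}) (hR : κ R = none) (a : α) {b j : β}
    (h : j ≠ b) : colP D (Function.update κ R (some (a, b))) j = colP D κ j := by
  rw [colP_eq, colP_eq, prod_update D (colF D j) κ R (some (a, b)),
    prod_none D (colF D j) κ R hR (by simp [colF])]
  have : ¬ ∃ i, some (a, b) = some (i, j) := by
    rintro ⟨i, hi⟩
    simp only [Option.some.injEq, Prod.mk.injEq] at hi
    exact h hi.2.symm
  have e : colF D j (some (a, b)) R = 1 := by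
    unfold colF
    rw [if_neg this]
  rw [e, one_mul]

lemma rowP_pos (κ : Conf D) (i : α) : 0 < rowP D κ i := by
  unfold rowP
  apply Finset.prod_pos
  intro r _
  split_ifs
  · exact (D.primeP _ r.2).pos
  · exact Nat.one_pos

lemma colP_pos (κ : Conf D) (j : β) : 0 < colP D κ j := by
  unfold colP
  apply Finset.prod_pos
  intro r _
  split_ifs
  · exact (D.primeP _ r.2).pos
  · exact Nat.one_pos

lemma lev_mono_prime {p q : ℕ} (hp : p.Prime) (h : p ≤ q) : lev p ≤ lev q := by
  unfold lev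
  have h1 : (1 : ℝ) < p := by exact_mod_cast hp.one_lt
  have h2 : (p : ℝ) ≤ q := by exact_mod_cast h
  have h3 : 0 < Real.log p := Real.log_pos h1
  exact Real.log_le_log h3 (Real.log_le_log (by linarith) h2)

/-- Deleting a prime `R` placed in the cell `(a, b)` preserves the indicator for the remaining
rows and columns. -/
lemma Ind_erase {I : Finset α} {J : Finset β} (κ' : Conf D) (R : {r // r ∈ D.P}) (hR : κ' R = none)
    (a : α) (b : β) (h : Ind D I J (Function.update κ' R (some (a, b)))) :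
    Ind D (I.erase a) (J.erase b) κ' := by
  obtain ⟨h1, h2, h3⟩ := h
  refine ⟨?_, ?_, ?_⟩
  · intro i hi
    obtain ⟨hia, hiI⟩ := Finset.mem_erase.1 hi
    obtain ⟨⟨r, j, hr, hl⟩, hp, hF⟩ := h1 i hiI
    rw [rowP_update_ne D κ' R hR b hia] at hp hF
    refine ⟨⟨r, j, ?_, hl⟩, hp, hF⟩
    by_cases hrR : r = R
    · subst hrR
      rw [Function.update_self] at hr
      simp only [Option.some.injEq, Prod.mk.injEq] at hr
      exact absurd hr.1.symm hia
    · rwa [Function.update_of_ne hrR] at hr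
  · intro j hj
    obtain ⟨hjb, hjJ⟩ := Finset.mem_erase.1 hj
    obtain ⟨⟨r, i, hr, hl⟩, hp, hF⟩ := h2 j hjJ
    rw [colP_update_ne D κ' R hR a hjb] at hp hF
    refine ⟨⟨r, i, ?_, hl⟩, hp, hF⟩
    by_cases hrR : r = R
    · subst hrR
      rw [Function.update_self] at hr
      simp only [Option.some.injEq, Prod.mk.injEq] at hr
      exact absurd hr.2.symm hjb
    · rwa [Function.update_of_ne hrR] at hr
  · intro i hi j hj
    obtain ⟨hia, hiI⟩ := Finset.mem_erase.1 hi
    obtain ⟨hjb, hjJ⟩ := Finset.mem_erase.1 hj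
    have := h3 i hiI j hjJ
    rwa [rowP_update_ne D κ' R hR b hia, colP_update_ne D κ' R hR a hjb] at this

/-- A fibrewise comparison: if every `κ` with `g κ ≠ 0` is `rec t` for a `t` with `g κ ≤ h t`,
then the sum of `g` is at most the sum of `h`. -/
lemma sum_le_sum_of_rec {A T : Type} [Fintype A] [Fintype T] (g : A → ℝ) (h : T → ℝ)
    (hh : ∀ t, 0 ≤ h t) (rec : T → A) (H : ∀ a, g a ≠ 0 → ∃ t, rec t = a ∧ g a ≤ h t)
    (hg : ∀ a, 0 ≤ g a) : ∑ a, g a ≤ ∑ t, h t := by
  classical
  rw [← Finset.sum_fiberwise Finset.univ rec h]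
  apply Finset.sum_le_sum
  intro a _
  by_cases h0 : g a = 0
  · rw [h0]
    exact Finset.sum_nonneg fun t _ => hh t
  · obtain ⟨t, ht, hle⟩ := H a h0
    refine le_trans hle ?_
    exact Finset.single_le_sum (f := h) (fun t _ => hh t)
      (Finset.mem_filter.2 ⟨Finset.mem_univ t, ht⟩)

/-- Validity of a prime `R` placed in the cell `c` of the partial configuration `κ'`. -/
def Val (I : Finset α) (J : Finset β) (c : α × β) (κ' : Conf D) (R : {r // r ∈ D.P}) : Prop :=
  (c.1 ∈ I → D.lamA c.1 ≤ lev (R : ℕ) ∧ (1 + (R : ℕ) * (D.f c.1 * rowP D κ' c.1)).Prime ∧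
      1 + (R : ℕ) * (D.f c.1 * rowP D κ' c.1) ≤ D.Fm) ∧
  (c.2 ∈ J → D.lamB c.2 ≤ lev (R : ℕ) ∧ (1 + (R : ℕ) * (D.g c.2 * colP D κ' c.2)).Prime ∧
      1 + (R : ℕ) * (D.g c.2 * colP D κ' c.2) ≤ D.Fm) ∧
  (c.1 ∈ I → c.2 ∈ J → D.f c.1 * rowP D κ' c.1 ≠ D.g c.2 * colP D κ' c.2)

/-- Exponential bound in one step of the peeling. -/
def BB (M : ℝ) (xA : α → ℝ) (xB : β → ℝ) (I : Finset α) (J : Finset β) (c : α × β) : ℝ :=
  M * Real.exp (-(if c.1 ∈ I then xA c.1 else 0) - (if c.2 ∈ J then xB c.2 else 0))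

lemma sum_subtype_P (φ : ℕ → ℝ) : ∑ R : {r // r ∈ D.P}, φ (R : ℕ) = ∑ R ∈ D.P, φ R :=
  Finset.sum_coe_sort D.P φ

/-- The sieve bound for the sum over the peeled prime. -/
lemma sum_val_le (hpos : PosFG D) {M : ℝ} (hM : 1 ≤ M) {xA : α → ℝ} {xB : β → ℝ}
    (hS : SieveHyp D M xA xB) (I : Finset α) (J : Finset β) (c : α × β)
    (hc : c.1 ∈ I ∨ c.2 ∈ J) (κ' : Conf D) :
    ∑ R : {r // r ∈ D.P}, (if κ' R = none ∧ Val D I J c κ' R then D.u R / (R : ℕ) else 0)
      ≤ BB M xA xB I J c := by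
  classical
  have hBB : 0 ≤ BB M xA xB I J c := by
    unfold BB
    positivity
  by_cases hex : ∃ R0 : {r // r ∈ D.P}, κ' R0 = none ∧ Val D I J c κ' R0
  swap
  · have : ∀ R : {r // r ∈ D.P},
        (if κ' R = none ∧ Val D I J c κ' R then D.u R / (R : ℕ) else 0) = (0 : ℝ) := by
      intro R
      rw [if_neg]
      exact fun h => hex ⟨R, h⟩
    simp only [this, Finset.sum_const_zero]
    exact hBB
  obtain ⟨R0, _, hv1, hv2, hv3⟩ := hex
  have hR0 : 1 ≤ (R0 : ℕ) := (D.primeP _ R0.2).one_lt.le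
  have hF1 : 1 ≤ D.f c.1 * rowP D κ' c.1 := Nat.mul_pos (hpos.1 _) (rowP_pos D κ' _)
  have hF2 : 1 ≤ D.g c.2 * colP D κ' c.2 := Nat.mul_pos (hpos.2 _) (colP_pos D κ' _)
  have hFbd1 : c.1 ∈ I → D.f c.1 * rowP D κ' c.1 ≤ D.Fm := by
    intro h
    have h1 := (hv1 h).2.2
    have h2 : D.f c.1 * rowP D κ' c.1 ≤ (R0 : ℕ) * (D.f c.1 * rowP D κ' c.1) :=
      Nat.le_mul_of_pos_left _ hR0
    omega
  have hFbd2 : c.2 ∈ J → D.g c.2 * colP D κ' c.2 ≤ D.Fm := by
    intro h
    have h1 := (hv2 h).2.2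
    have h2 : D.g c.2 * colP D κ' c.2 ≤ (R0 : ℕ) * (D.g c.2 * colP D κ' c.2) :=
      Nat.le_mul_of_pos_left _ hR0
    omega
  have hterm : ∀ R : {r // r ∈ D.P}, (R : ℕ) ≠ 0 → 0 ≤ D.u R / (R : ℕ) ∧
      D.u R / (R : ℕ) ≤ 1 / (R : ℕ) := by
    intro R _
    refine ⟨div_nonneg (D.u0 _) (Nat.cast_nonneg _), ?_⟩
    exact div_le_div_of_nonneg_right (D.u1 _) (Nat.cast_nonneg _)
  by_cases hI : c.1 ∈ I <;> by_cases hJ : c.2 ∈ J
  · -- both
    have h2 := hS.two c.1 c.2 _ _ hF1 hF2 (hv3 hI hJ) (hFbd1 hI) (hFbd2 hJ)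
    rw [← sum_subtype_P D] at h2
    unfold BB
    simp only [hI, hJ, if_true]
    have e : -xA c.1 - xB c.2 = -xA c.1 - xB c.2 := rfl
    refine le_trans (Finset.sum_le_sum ?_) h2
    intro R _
    have hR := (D.primeP _ R.2).ne_zero
    split_ifs with h1 h3
    · exact (hterm R hR).2
    · exfalso
      obtain ⟨_, v1, v2, _⟩ := h1
      exact h3 ⟨(v1 hI).1, (v2 hJ).1, (v1 hI).2.1, (v2 hJ).2.1⟩
    · positivity
    · exact le_rfl
  · have h2 := hS.oneA c.1 _ hF1 (hFbd1 hI)
    rw [← sum_subtype_P D] at h2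
    unfold BB
    simp only [hI, hJ, if_true, if_false, sub_zero]
    refine le_trans (Finset.sum_le_sum ?_) h2
    intro R _
    have hR := (D.primeP _ R.2).ne_zero
    split_ifs with h1 h3
    · exact (hterm R hR).2
    · exfalso
      obtain ⟨_, v1, _, _⟩ := h1
      exact h3 ⟨(v1 hI).1, (v1 hI).2.1⟩
    · positivity
    · exact le_rfl
  · have h2 := hS.oneB c.2 _ hF2 (hFbd2 hJ)
    rw [← sum_subtype_P D] at h2
    unfold BB
    simp only [hI, hJ, if_true, if_false, neg_zero, zero_sub]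
    refine le_trans (Finset.sum_le_sum ?_) h2
    intro R _
    have hR := (D.primeP _ R.2).ne_zero
    split_ifs with h1 h3
    · exact (hterm R hR).2
    · exfalso
      obtain ⟨_, _, v2, _⟩ := h1
      exact h3 ⟨(v2 hJ).1, (v2 hJ).2.1⟩
    · positivity
    · exact le_rfl
  · exact absurd hc (by simp [hI, hJ])

/-- One step of the peeling. -/
lemma AA_step (hpos : PosFG D) {M : ℝ} (hM : 1 ≤ M) {xA : α → ℝ} {xB : β → ℝ}
    (hS : SieveHyp D M xA xB) (I : Finset α) (J : Finset β) (hne : I.Nonempty ∨ J.Nonempty) :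
    AA D I J ≤ ∑ c : α × β, if c.1 ∈ I ∨ c.2 ∈ J then
      BB M xA xB I J c * AA D (I.erase c.1) (J.erase c.2) else 0 := by
  classical
  -- the comparison function
  let h : (α × β) × Conf D × {r // r ∈ D.P} → ℝ := fun t =>
    if (t.1.1 ∈ I ∨ t.1.2 ∈ J) ∧ Ind D (I.erase t.1.1) (J.erase t.1.2) t.2.1 ∧ t.2.1 t.2.2 = none ∧
      Val D I J t.1 t.2.1 t.2.2 then wt D t.2.1 * (D.u t.2.2 / (t.2.2 : ℕ)) else 0
  have hh : ∀ t, 0 ≤ h t := by
    intro t
    simp only [h]
    split_ifs
    · exact mul_nonneg (wt_nonneg D _) (div_nonneg (D.u0 _) (Nat.cast_nonneg _))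
    · exact le_rfl
  have hcomp : AA D I J ≤ ∑ t, h t := by
    unfold AA
    refine sum_le_sum_of_rec _ h hh (fun t => Function.update t.2.1 t.2.2 (some t.1)) ?_ ?_
    · intro κ hκ
      have hInd : Ind D I J κ := by
        by_contra hcon
        exact hκ (if_neg hcon)
      rw [if_pos hInd]
      obtain ⟨h1, h2, h3⟩ := id hInd
      -- the largest prime in the rows of `I` and the columns of `J`
      set S : Finset {r // r ∈ D.P} := Finset.univ.filter
        (fun r => ∃ c : α × β, κ r = some c ∧ (c.1 ∈ I ∨ c.2 ∈ J)) with hSdef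
      have hSne : S.Nonempty := by
        rcases hne with ⟨i, hi⟩ | ⟨j, hj⟩
        · obtain ⟨⟨r, j, hr, _⟩, _⟩ := h1 i hi
          exact ⟨r, Finset.mem_filter.2 ⟨Finset.mem_univ _, (i, j), hr, Or.inl hi⟩⟩
        · obtain ⟨⟨r, i, hr, _⟩, _⟩ := h2 j hj
          exact ⟨r, Finset.mem_filter.2 ⟨Finset.mem_univ _, (i, j), hr, Or.inr hj⟩⟩
      obtain ⟨R, hRS, hRmax⟩ := Finset.exists_max_image S (fun r => (r : ℕ)) hSne
      obtain ⟨⟨a, b⟩, hcR, hab⟩ := (Finset.mem_filter.1 hRS).2
      set κ' : Conf D := Function.update κ R none with hκ'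
      have hκ'R : κ' R = none := by simp [hκ']
      have hκrec : Function.update κ' R (some (a, b)) = κ := by
        rw [hκ', Function.update_idem, ← hcR, Function.update_eq_self]
      refine ⟨((a, b), κ', R), hκrec, ?_⟩
      have hIndκ : Ind D I J (Function.update κ' R (some (a, b))) := by rw [hκrec]; exact hInd
      have hInd' := Ind_erase D κ' R hκ'R a b hIndκ
      have hrow : rowP D κ a = (R : ℕ) * rowP D κ' a := by
        rw [← hκrec]
        exact rowP_update_same D κ' R hκ'R a b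
      have hcol : colP D κ b = (R : ℕ) * colP D κ' b := by
        rw [← hκrec]
        exact colP_update_same D κ' R hκ'R a b
      have hval : Val D I J (a, b) κ' R := by
        refine ⟨?_, ?_, ?_⟩
        · intro ha
          simp only at ha ⊢
          obtain ⟨⟨r, j, hr, hl⟩, hp, hF⟩ := h1 a ha
          have hrS : r ∈ S := Finset.mem_filter.2 ⟨Finset.mem_univ _, (a, j), hr, Or.inl ha⟩
          have hle : (r : ℕ) ≤ R := hRmax r hrS
          have e : 1 + D.f a * rowP D κ a = 1 + (R : ℕ) * (D.f a * rowP D κ' a) := by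
            rw [hrow]
            ring
          rw [e] at hp hF
          exact ⟨le_trans hl (lev_mono_prime (D.primeP _ r.2) hle), hp, hF⟩
        · intro hb
          simp only at hb ⊢
          obtain ⟨⟨r, i, hr, hl⟩, hp, hF⟩ := h2 b hb
          have hrS : r ∈ S := Finset.mem_filter.2 ⟨Finset.mem_univ _, (i, b), hr, Or.inr hb⟩
          have hle : (r : ℕ) ≤ R := hRmax r hrS
          have e : 1 + D.g b * colP D κ b = 1 + (R : ℕ) * (D.g b * colP D κ' b) := by
            rw [hcol]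
            ring
          rw [e] at hp hF
          exact ⟨le_trans hl (lev_mono_prime (D.primeP _ r.2) hle), hp, hF⟩
        · intro ha hb heq
          simp only at ha hb heq
          apply h3 a ha b hb
          rw [hrow, hcol]
          have : D.f a * ((R : ℕ) * rowP D κ' a) = D.g b * ((R : ℕ) * colP D κ' b) := by
            calc D.f a * ((R : ℕ) * rowP D κ' a) = (R : ℕ) * (D.f a * rowP D κ' a) := by ring
              _ = (R : ℕ) * (D.g b * colP D κ' b) := by rw [heq]
              _ = D.g b * ((R : ℕ) * colP D κ' b) := by ring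
          rw [this]
      simp only [h]
      rw [if_pos ⟨hab, hInd', hκ'R, hval⟩]
      rw [← hκrec, wt_update D κ' R hκ'R (a, b)]
      rw [mul_comm]
      apply mul_le_mul_of_nonneg_left _ (wt_nonneg D κ')
      unfold tm
      simp only
      split_ifs
      · exact le_rfl
      · exact div_nonneg (D.u0 _) (Nat.cast_nonneg _)
    · intro κ
      split_ifs
      · exact wt_nonneg D κ
      · exact le_rfl
  refine le_trans hcomp ?_
  rw [Fintype.sum_prod_type]
  apply Finset.sum_le_sum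
  intro c _
  rw [Fintype.sum_prod_type]
  by_cases hc : c.1 ∈ I ∨ c.2 ∈ J
  · rw [if_pos hc]
    unfold AA
    rw [Finset.mul_sum]
    apply Finset.sum_le_sum
    intro κ' _
    by_cases hind : Ind D (I.erase c.1) (J.erase c.2) κ'
    · rw [if_pos hind]
      have hval := sum_val_le D hpos hM hS I J c hc κ'
      have e : ∑ R : {r // r ∈ D.P}, h (c, κ', R) =
          wt D κ' * ∑ R : {r // r ∈ D.P},
            (if κ' R = none ∧ Val D I J c κ' R then D.u R / (R : ℕ) else 0) := by
        rw [Finset.mul_sum]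
        apply Finset.sum_congr rfl
        intro R _
        simp only [h]
        by_cases hRR : κ' R = none ∧ Val D I J c κ' R
        · rw [if_pos ⟨hc, hind, hRR.1, hRR.2⟩, if_pos hRR]
        · rw [if_neg, if_neg hRR, mul_zero]
          rintro ⟨_, _, h4, h5⟩
          exact hRR ⟨h4, h5⟩
      rw [e, mul_comm]
      exact mul_le_mul_of_nonneg_right hval (wt_nonneg D κ')
    · rw [if_neg hind, mul_zero]
      apply le_of_eq
      apply Finset.sum_eq_zero
      intro R _
      simp only [h]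
      rw [if_neg]
      rintro ⟨_, h4, _⟩
      exact hind h4
  · rw [if_neg hc]
    apply le_of_eq
    apply Finset.sum_eq_zero
    intro κ' _
    apply Finset.sum_eq_zero
    intro R _
    simp only [h]
    rw [if_neg]
    rintro ⟨h4, _⟩
    exact hc h4

/-- The peeling bound (induct on `|I|+|J|`, take the largest prime lying in a row of `I` or a column of `J`). -/
theorem AA_le (hpos : PosFG D) (M : ℝ) (hM : 1 ≤ M) (xA : α → ℝ) (xB : β → ℝ) (hS : SieveHyp D M xA xB)
    (I : Finset α) (J : Finset β) :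
    AA D I J ≤ (M * (Fintype.card α : ℝ) * (Fintype.card β : ℝ) + 1) ^ (I.card + J.card)
      * Real.exp (-(∑ i ∈ I, xA i) - ∑ j ∈ J, xB j) * AA D ∅ ∅ := by
  classical
  set K : ℝ := M * (Fintype.card α : ℝ) * (Fintype.card β : ℝ) + 1 with hK
  have hK1 : 1 ≤ K := by
    have : 0 ≤ M * (Fintype.card α : ℝ) * (Fintype.card β : ℝ) := by positivity
    linarith
  have hE := AA_nonneg D ∅ ∅
  induction' hn : I.card + J.card using Nat.strong_induction_on with n ih generalizing I J
  by_cases hne : I.Nonempty ∨ J.Nonempty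
  swap
  · have hI : I = ∅ := by
      by_contra h
      exact hne (Or.inl (Finset.nonempty_iff_ne_empty.2 h))
    have hJ : J = ∅ := by
      by_contra h
      exact hne (Or.inr (Finset.nonempty_iff_ne_empty.2 h))
    subst hI hJ
    subst hn
    simp
  have hn1 : 1 ≤ n := by
    subst hn
    rcases hne with h | h
    · have := Finset.card_pos.2 h
      omega
    · have := Finset.card_pos.2 h
      omega
  refine le_trans (AA_step D hpos hM hS I J hne) ?_
  have hstep : ∀ c : α × β, (if c.1 ∈ I ∨ c.2 ∈ J then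
      BB M xA xB I J c * AA D (I.erase c.1) (J.erase c.2) else 0) ≤
      M * K ^ (n - 1) * Real.exp (-(∑ i ∈ I, xA i) - ∑ j ∈ J, xB j) * AA D ∅ ∅ := by
    intro c
    have hnn : 0 ≤ M * K ^ (n - 1) * Real.exp (-(∑ i ∈ I, xA i) - ∑ j ∈ J, xB j) * AA D ∅ ∅ := by
      positivity
    split_ifs with hc
    swap
    · exact hnn
    have hcard : (I.erase c.1).card + (J.erase c.2).card < n := by
      subst hn
      rcases hc with h | h
      · have h1 := Finset.card_erase_lt_of_mem h
        have h2 := Finset.card_erase_le (s := J) (a := c.2)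
        omega
      · have h1 := Finset.card_erase_lt_of_mem h
        have h2 := Finset.card_erase_le (s := I) (a := c.1)
        omega
    have hIH := ih _ hcard (I.erase c.1) (J.erase c.2) rfl
    have hpow : K ^ ((I.erase c.1).card + (J.erase c.2).card) ≤ K ^ (n - 1) :=
      pow_le_pow_right₀ hK1 (by omega)
    have hsumI : (if c.1 ∈ I then xA c.1 else 0) + ∑ i ∈ I.erase c.1, xA i = ∑ i ∈ I, xA i := by
      split_ifs with h
      · exact Finset.add_sum_erase I xA h
      · rw [zero_add, Finset.erase_eq_of_notMem h]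
    have hsumJ : (if c.2 ∈ J then xB c.2 else 0) + ∑ j ∈ J.erase c.2, xB j = ∑ j ∈ J, xB j := by
      split_ifs with h
      · exact Finset.add_sum_erase J xB h
      · rw [zero_add, Finset.erase_eq_of_notMem h]
    have hBBnn : 0 ≤ BB M xA xB I J c := by
      unfold BB
      positivity
    calc BB M xA xB I J c * AA D (I.erase c.1) (J.erase c.2)
        ≤ BB M xA xB I J c * (K ^ ((I.erase c.1).card + (J.erase c.2).card)
            * Real.exp (-(∑ i ∈ I.erase c.1, xA i) - ∑ j ∈ J.erase c.2, xB j) * AA D ∅ ∅) :=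
          mul_le_mul_of_nonneg_left hIH hBBnn
      _ ≤ BB M xA xB I J c * (K ^ (n - 1)
            * Real.exp (-(∑ i ∈ I.erase c.1, xA i) - ∑ j ∈ J.erase c.2, xB j) * AA D ∅ ∅) := by
          apply mul_le_mul_of_nonneg_left _ hBBnn
          apply mul_le_mul_of_nonneg_right _ hE
          exact mul_le_mul_of_nonneg_right hpow (Real.exp_pos _).le
      _ = M * K ^ (n - 1) * Real.exp (-(∑ i ∈ I, xA i) - ∑ j ∈ J, xB j) * AA D ∅ ∅ := by
          unfold BB
          have e2 : Real.exp (-(∑ i ∈ I, xA i) - ∑ j ∈ J, xB j) =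
              Real.exp (-(if c.1 ∈ I then xA c.1 else 0) - (if c.2 ∈ J then xB c.2 else 0)) *
              Real.exp (-(∑ i ∈ I.erase c.1, xA i) - ∑ j ∈ J.erase c.2, xB j) := by
            rw [← Real.exp_add, ← hsumI, ← hsumJ]
            congr 1
            ring
          rw [e2]
          ring
  refine le_trans (Finset.sum_le_sum (fun c _ => hstep c)) ?_
  rw [Finset.sum_const, Finset.card_univ, Fintype.card_prod, nsmul_eq_mul]
  have hn2 : K ^ n = K * K ^ (n - 1) := by
    rw [← pow_succ']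
    congr 1
    omega
  rw [hn2]
  have hnn : 0 ≤ K ^ (n - 1) * Real.exp (-(∑ i ∈ I, xA i) - ∑ j ∈ J, xB j) * AA D ∅ ∅ := by
    positivity
  have hle : ((Fintype.card α * Fintype.card β : ℕ) : ℝ) * M ≤ K := by
    push_cast
    rw [hK]
    nlinarith
  calc ((Fintype.card α * Fintype.card β : ℕ) : ℝ) *
        (M * K ^ (n - 1) * Real.exp (-(∑ i ∈ I, xA i) - ∑ j ∈ J, xB j) * AA D ∅ ∅)
      = (((Fintype.card α * Fintype.card β : ℕ) : ℝ) * M) *
        (K ^ (n - 1) * Real.exp (-(∑ i ∈ I, xA i) - ∑ j ∈ J, xB j) * AA D ∅ ∅) := by ring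
    _ ≤ K * (K ^ (n - 1) * Real.exp (-(∑ i ∈ I, xA i) - ∑ j ∈ J, xB j) * AA D ∅ ∅) :=
        mul_le_mul_of_nonneg_right hle hnn
    _ = K * K ^ (n - 1) * Real.exp (-(∑ i ∈ I, xA i) - ∑ j ∈ J, xB j) * AA D ∅ ∅ := by ring

/-- Base case. -/
theorem AA_empty_le :
    AA D ∅ ∅ ≤ Real.exp (∑ r ∈ D.P, ∑ c : α × β, if D.alive r c.1 c.2 then D.u r / (r : ℕ) else 0) := by
  classical
  have h1 : AA D ∅ ∅ = ∑ κ : Conf D, ∏ r, tm D (κ r) r := by
    unfold AA
    apply Finset.sum_congr rfl
    intro κ _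
    rw [if_pos]
    · rfl
    · refine ⟨?_, ?_, ?_⟩ <;> simp
  have h2 : ∑ κ : Conf D, ∏ r, tm D (κ r) r = ∏ r : {r // r ∈ D.P}, ∑ o : Option (α × β), tm D o r := by
    rw [Finset.prod_univ_sum, Fintype.piFinset_univ]
  rw [h1, h2]
  have h3 : ∀ r : {r // r ∈ D.P}, ∑ o : Option (α × β), tm D o r ≤
      Real.exp (∑ c : α × β, if D.alive r c.1 c.2 then D.u r / (r : ℕ) else 0) := by
    intro r
    rw [Fintype.sum_option]
    have e : tm D none r = 1 := rfl
    rw [e]
    have e2 : ∀ c : α × β, tm D (some c) r = if D.alive r c.1 c.2 then D.u r / (r : ℕ) else 0 :=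
      fun c => rfl
    simp only [e2]
    have := Real.add_one_le_exp (∑ c : α × β, if D.alive r c.1 c.2 then D.u r / (r : ℕ) else 0)
    linarith
  calc ∏ r : {r // r ∈ D.P}, ∑ o : Option (α × β), tm D o r
      ≤ ∏ r : {r // r ∈ D.P},
        Real.exp (∑ c : α × β, if D.alive r c.1 c.2 then D.u r / (r : ℕ) else 0) := by
        apply Finset.prod_le_prod
        · intro r _
          exact Finset.sum_nonneg fun o _ => tm_nonneg D o r
        · intro r _
          exact h3 r
    _ = _ := by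
        rw [← Real.exp_sum]
        congr 1
        exact Finset.sum_coe_sort D.P
          (fun r => ∑ c : α × β, if D.alive r c.1 c.2 then D.u r / (r : ℕ) else 0)

/-- Count form: configurations with `K(κ) ≤ Y` whose largest prime has level `≥ lam`.
`K κ` is the product of the primes used. The largest prime `R₁` is counted with the three form sieve `hS3`,
and `κ` with `R₁` removed is in the sum `AA` with the row and the column of `R₁` removed. -/
def KK (κ : Conf D) : ℕ := ∏ r : {r // r ∈ D.P}, if (κ r).isSome then (r : ℕ) else 1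

/-- Unweighted-tilt weight (no `1/r`). -/
def wtU (κ : Conf D) : ℝ :=
  ∏ r : {r // r ∈ D.P}, match κ r with
    | none => 1
    | some c => if D.alive r c.1 c.2 then D.u r else 0

/-- The local term of `wtU`. -/
def tmU (D : Data α β) (o : Option (α × β)) (r : {r // r ∈ D.P}) : ℝ :=
  match o with
  | none => 1
  | some c => if D.alive r c.1 c.2 then D.u r else 0

/-- The local term of `KK`. -/
def kkF (D : Data α β) (o : Option (α × β)) (r : {r // r ∈ D.P}) : ℕ :=
  if o.isSome then (r : ℕ) else 1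

lemma wtU_eq (κ : Conf D) : wtU D κ = ∏ r, tmU D (κ r) r := rfl

lemma KK_eq (κ : Conf D) : KK D κ = ∏ r, kkF D (κ r) r := rfl

lemma KK_pos (κ : Conf D) : 0 < KK D κ := by
  unfold KK
  apply Finset.prod_pos
  intro r _
  split_ifs
  · exact (D.primeP _ r.2).pos
  · exact Nat.one_pos

lemma tmU_nonneg (o : Option (α × β)) (r : {r // r ∈ D.P}) : 0 ≤ tmU D o r := by
  unfold tmU
  cases o with
  | none => simp
  | some c =>
    simp only
    split_ifs
    · exact D.u0 _
    · exact le_rfl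

lemma wtU_nonneg (κ : Conf D) : 0 ≤ wtU D κ :=
  Finset.prod_nonneg fun r _ => tmU_nonneg D _ r

lemma wt_eq_wtU_div (κ : Conf D) : wt D κ = wtU D κ / (KK D κ : ℝ) := by
  rw [wt_eq, wtU_eq, KK_eq]
  push_cast
  rw [← Finset.prod_div_distrib]
  apply Finset.prod_congr rfl
  intro r _
  unfold tm tmU kkF
  cases κ r with
  | none => simp
  | some c =>
    simp only [Option.isSome_some, if_true]
    split_ifs
    · rfl
    · simp

lemma wtU_update (κ : Conf D) (R : {r // r ∈ D.P}) (hR : κ R = none) (c : α × β) :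
    wtU D (Function.update κ R (some c)) = tmU D (some c) R * wtU D κ := by
  rw [wtU_eq, wtU_eq, prod_update D (fun o r => tmU D o r) κ R (some c),
    prod_none D (fun o r => tmU D o r) κ R hR rfl]

lemma KK_update (κ : Conf D) (R : {r // r ∈ D.P}) (hR : κ R = none) (c : α × β) :
    KK D (Function.update κ R (some c)) = (R : ℕ) * KK D κ := by
  rw [KK_eq, KK_eq, prod_update D (kkF D) κ R (some c),
    prod_none D (kkF D) κ R hR (by simp [kkF])]
  simp [kkF]

/-- Validity in the count form. -/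
def Val2 (Y lam : ℝ) (c : α × β) (κ' : Conf D) (R : {r // r ∈ D.P}) : Prop :=
  ((R : ℕ) : ℝ) ≤ Y / (KK D κ' : ℝ) ∧ lam ≤ lev (R : ℕ) ∧
  (1 + (R : ℕ) * (D.f c.1 * rowP D κ' c.1)).Prime ∧
  (1 + (R : ℕ) * (D.g c.2 * colP D κ' c.2)).Prime ∧
  1 + (R : ℕ) * (D.f c.1 * rowP D κ' c.1) ≤ D.Fm ∧
  1 + (R : ℕ) * (D.g c.2 * colP D κ' c.2) ≤ D.Fm ∧
  D.f c.1 * rowP D κ' c.1 ≠ D.g c.2 * colP D κ' c.2

theorem count_top (hpos : PosFG D) (M₃ Y lam : ℝ) (hY : 0 < Y) (hM₃ : 0 ≤ M₃) (I : Finset α) (J : Finset β)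
    (hS3 : ∀ (Z : ℝ) (F F' : ℕ), 0 < Z → Z ≤ Y → 1 ≤ F → 1 ≤ F' → F ≠ F' → F ≤ D.Fm → F' ≤ D.Fm →
      (((D.P).filter (fun R : ℕ => (R : ℝ) ≤ Z ∧ lam ≤ lev R ∧ (1 + R * F).Prime ∧ (1 + R * F').Prime)).card : ℝ)
        ≤ M₃ * Z)
    (hI : ∀ κ : Conf D, Ind D I J κ → (∀ r c, κ r = some c → D.alive r c.1 c.2) →
          ∀ (r : {r // r ∈ D.P}), (κ r).isSome →
          (∀ s : {r // r ∈ D.P}, (κ s).isSome → (s : ℕ) ≤ r) → lam ≤ lev r ∧
          ∃ i j, κ r = some (i, j) ∧ i ∈ I ∧ j ∈ J) :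
    ∑ κ : Conf D, (if Ind D I J κ ∧ (KK D κ : ℝ) ≤ Y ∧ ∃ r, (κ r).isSome then wtU D κ else 0)
      ≤ M₃ * Y * ∑ c : α × β, (if c.1 ∈ I ∧ c.2 ∈ J then AA D (I.erase c.1) (J.erase c.2) else 0) := by
  classical
  let h : (α × β) × Conf D × {r // r ∈ D.P} → ℝ := fun t =>
    if (t.1.1 ∈ I ∧ t.1.2 ∈ J) ∧ Ind D (I.erase t.1.1) (J.erase t.1.2) t.2.1 ∧ t.2.1 t.2.2 = none ∧
      Val2 D Y lam t.1 t.2.1 t.2.2 then wtU D t.2.1 else 0
  have hh : ∀ t, 0 ≤ h t := by
    intro t
    simp only [h]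
    split_ifs
    · exact wtU_nonneg D _
    · exact le_rfl
  have hcomp : ∑ κ : Conf D, (if Ind D I J κ ∧ (KK D κ : ℝ) ≤ Y ∧ ∃ r, (κ r).isSome then wtU D κ else 0)
      ≤ ∑ t, h t := by
    refine sum_le_sum_of_rec _ h hh (fun t => Function.update t.2.1 t.2.2 (some t.1)) ?_ ?_
    · intro κ hκ
      have hcond : Ind D I J κ ∧ (KK D κ : ℝ) ≤ Y ∧ ∃ r, (κ r).isSome := by
        by_contra hcon
        exact hκ (if_neg hcon)
      rw [if_pos hcond] at hκ ⊢
      obtain ⟨hInd, hKK, hex⟩ := hcond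
      obtain ⟨h1, h2, h3⟩ := id hInd
      -- all used cells are alive, since the weight does not vanish
      have halive : ∀ r c, κ r = some c → D.alive r c.1 c.2 := by
        intro r c hr
        by_contra hna
        apply hκ
        rw [wtU_eq]
        apply Finset.prod_eq_zero (Finset.mem_univ r)
        rw [hr]
        simp [tmU, hna]
      set S : Finset {r // r ∈ D.P} := Finset.univ.filter (fun r => (κ r).isSome) with hSdef
      have hSne : S.Nonempty := by
        obtain ⟨r, hr⟩ := hex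
        exact ⟨r, Finset.mem_filter.2 ⟨Finset.mem_univ _, hr⟩⟩
      obtain ⟨R, hRS, hRmax⟩ := Finset.exists_max_image S (fun r => (r : ℕ)) hSne
      have hRsome : (κ R).isSome := (Finset.mem_filter.1 hRS).2
      obtain ⟨hlam, a, b, hcR, ha, hb⟩ := hI κ hInd halive R hRsome
        (fun s hs => hRmax s (Finset.mem_filter.2 ⟨Finset.mem_univ _, hs⟩))
      set κ' : Conf D := Function.update κ R none with hκ'
      have hκ'R : κ' R = none := by simp [hκ']
      have hκrec : Function.update κ' R (some (a, b)) = κ := by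
        rw [hκ', Function.update_idem, ← hcR, Function.update_eq_self]
      refine ⟨((a, b), κ', R), hκrec, ?_⟩
      have hIndκ : Ind D I J (Function.update κ' R (some (a, b))) := by rw [hκrec]; exact hInd
      have hInd' := Ind_erase D κ' R hκ'R a b hIndκ
      have hrow : rowP D κ a = (R : ℕ) * rowP D κ' a := by
        rw [← hκrec]
        exact rowP_update_same D κ' R hκ'R a b
      have hcol : colP D κ b = (R : ℕ) * colP D κ' b := by
        rw [← hκrec]
        exact colP_update_same D κ' R hκ'R a b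
      have hKKeq : KK D κ = (R : ℕ) * KK D κ' := by
        rw [← hκrec]
        exact KK_update D κ' R hκ'R (a, b)
      have hKK'pos : (0 : ℝ) < (KK D κ' : ℝ) := by exact_mod_cast KK_pos D κ'
      have hval : Val2 D Y lam (a, b) κ' R := by
        obtain ⟨_, hp1, hF1⟩ := h1 a ha
        obtain ⟨_, hp2, hF2⟩ := h2 b hb
        have e1 : 1 + D.f a * rowP D κ a = 1 + (R : ℕ) * (D.f a * rowP D κ' a) := by
          rw [hrow]
          ring
        have e2 : 1 + D.g b * colP D κ b = 1 + (R : ℕ) * (D.g b * colP D κ' b) := by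
          rw [hcol]
          ring
        rw [e1] at hp1 hF1
        rw [e2] at hp2 hF2
        refine ⟨?_, hlam, hp1, hp2, hF1, hF2, ?_⟩
        · rw [le_div_iff₀ hKK'pos]
          rw [hKKeq] at hKK
          push_cast at hKK
          exact hKK
        · intro heq
          simp only at heq
          apply h3 a ha b hb
          rw [e1, e2, heq]
      simp only [h]
      rw [if_pos ⟨⟨ha, hb⟩, hInd', hκ'R, hval⟩]
      rw [← hκrec, wtU_update D κ' R hκ'R (a, b)]
      have ht : tmU D (some (a, b)) R ≤ 1 := by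
        unfold tmU
        simp only
        split_ifs
        · exact D.u1 _
        · exact zero_le_one
      have := wtU_nonneg D κ'
      nlinarith
    · intro κ
      split_ifs
      · exact wtU_nonneg D κ
      · exact le_rfl
  refine le_trans hcomp ?_
  rw [Fintype.sum_prod_type, Finset.mul_sum]
  apply Finset.sum_le_sum
  intro c _
  rw [Fintype.sum_prod_type]
  by_cases hc : c.1 ∈ I ∧ c.2 ∈ J
  · rw [if_pos hc]
    unfold AA
    rw [Finset.mul_sum]
    apply Finset.sum_le_sum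
    intro κ' _
    have hKK'pos : (0 : ℝ) < (KK D κ' : ℝ) := by exact_mod_cast KK_pos D κ'
    by_cases hind : Ind D (I.erase c.1) (J.erase c.2) κ'
    · rw [if_pos hind]
      have e : ∑ R : {r // r ∈ D.P}, h (c, κ', R) =
          ((Finset.univ.filter (fun R : {r // r ∈ D.P} => κ' R = none ∧ Val2 D Y lam c κ' R)).card : ℝ)
            * wtU D κ' := by
        rw [← nsmul_eq_mul, ← Finset.sum_const, Finset.sum_filter]
        apply Finset.sum_congr rfl
        intro R _
        simp only [h]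
        by_cases hRR : κ' R = none ∧ Val2 D Y lam c κ' R
        · rw [if_pos ⟨hc, hind, hRR.1, hRR.2⟩, if_pos hRR]
        · rw [if_neg, if_neg hRR]
          rintro ⟨_, _, h4, h5⟩
          exact hRR ⟨h4, h5⟩
      rw [e, wt_eq_wtU_div]
      -- the count
      have hcnt : ((Finset.univ.filter (fun R : {r // r ∈ D.P} => κ' R = none ∧ Val2 D Y lam c κ' R)).card : ℝ)
          ≤ M₃ * (Y / (KK D κ' : ℝ)) := by
        by_cases hex : ∃ R0 : {r // r ∈ D.P}, κ' R0 = none ∧ Val2 D Y lam c κ' R0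
        swap
        · have hemp : Finset.univ.filter (fun R : {r // r ∈ D.P} => κ' R = none ∧ Val2 D Y lam c κ' R) = ∅ := by
            apply Finset.filter_eq_empty_iff.2
            intro R _ hR
            exact hex ⟨R, hR⟩
          rw [hemp]
          simp only [Finset.card_empty, Nat.cast_zero]
          positivity
        obtain ⟨R0, _, _, _, _, _, hF1, hF2, hne⟩ := hex
        have hR0 : 1 ≤ (R0 : ℕ) := (D.primeP _ R0.2).one_lt.le
        have hFp1 : 1 ≤ D.f c.1 * rowP D κ' c.1 := Nat.mul_pos (hpos.1 _) (rowP_pos D κ' _)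
        have hFp2 : 1 ≤ D.g c.2 * colP D κ' c.2 := Nat.mul_pos (hpos.2 _) (colP_pos D κ' _)
        have hFb1 : D.f c.1 * rowP D κ' c.1 ≤ D.Fm := by
          have h2 : D.f c.1 * rowP D κ' c.1 ≤ (R0 : ℕ) * (D.f c.1 * rowP D κ' c.1) :=
            Nat.le_mul_of_pos_left _ hR0
          omega
        have hFb2 : D.g c.2 * colP D κ' c.2 ≤ D.Fm := by
          have h2 : D.g c.2 * colP D κ' c.2 ≤ (R0 : ℕ) * (D.g c.2 * colP D κ' c.2) :=
            Nat.le_mul_of_pos_left _ hR0
          omega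
        have hZpos : 0 < Y / (KK D κ' : ℝ) := by positivity
        have hZle : Y / (KK D κ' : ℝ) ≤ Y := by
          apply div_le_self hY.le
          have : 1 ≤ KK D κ' := KK_pos D κ'
          exact_mod_cast this
        have hmain := hS3 _ _ _ hZpos hZle hFp1 hFp2 hne hFb1 hFb2
        refine le_trans ?_ hmain
        have hcard : (Finset.univ.filter (fun R : {r // r ∈ D.P} => κ' R = none ∧ Val2 D Y lam c κ' R)).card ≤
            ((D.P).filter (fun R : ℕ => (R : ℝ) ≤ Y / (KK D κ' : ℝ) ∧ lam ≤ lev R ∧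
              (1 + R * (D.f c.1 * rowP D κ' c.1)).Prime ∧ (1 + R * (D.g c.2 * colP D κ' c.2)).Prime)).card := by
          apply Finset.card_le_card_of_injOn (fun R : {r // r ∈ D.P} => (R : ℕ))
          · intro R hR
            obtain ⟨_, _, v1, v2, v3, v4, _, _, _⟩ := Finset.mem_filter.1 (Finset.mem_coe.1 hR)
            exact Finset.mem_coe.2 (Finset.mem_filter.2 ⟨R.2, v1, v2, v3, v4⟩)
          · intro R _ R' _ hRR
            exact Subtype.ext hRR
        exact_mod_cast hcard
      have hw := wtU_nonneg D κ'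
      calc ((Finset.univ.filter (fun R : {r // r ∈ D.P} => κ' R = none ∧ Val2 D Y lam c κ' R)).card : ℝ)
            * wtU D κ'
          ≤ (M₃ * (Y / (KK D κ' : ℝ))) * wtU D κ' := mul_le_mul_of_nonneg_right hcnt hw
        _ = M₃ * Y * (wtU D κ' / (KK D κ' : ℝ)) := by ring
    · rw [if_neg hind, mul_zero]
      apply le_of_eq
      apply Finset.sum_eq_zero
      intro R _
      simp only [h]
      rw [if_neg]
      rintro ⟨_, h4, _⟩
      exact hind h4
  · rw [if_neg hc, mul_zero]
    apply le_of_eq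
    apply Finset.sum_eq_zero
    intro κ' _
    apply Finset.sum_eq_zero
    intro R _
    simp only [h]
    rw [if_neg]
    rintro ⟨h4, _⟩
    exact hc h4

end
end Peel
end Vale.Agent.Lib.P031V
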