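import Vale.Agent.Lib.P031V.ChainB

/-! # P031: validity of a reduced pair of rows, near agreement and the tilt bound, blueprint section 6. -/

namespace Vale.Agent.Lib.P031V
open Real Finset
open scoped Classical
noncomputable section

/-- A reduced pair: rows `I`, `J` (disjoint, top first) in the cells `b`, `b'`, equal products. -/
structure PairOK (N : ℕ) (b b' : List ℕ) (I : List ℕ) (low₁ : ℕ) (J : List ℕ) (low₂ : ℕ) : Prop where
  sortedI : I.Pairwise (· > ·)
  sortedJ : J.Pairwise (· > ·)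
  normalI : ∀ p ∈ I, Normal N p
  normalJ : ∀ p ∈ J, Normal N p
  cellsI : I.map (fun p => ⌊lev p⌋₊) = b
  cellsJ : J.map (fun p => ⌊lev p⌋₊) = b'
  lenI : I.length ≤ U0 N + 1
  lenJ : J.length ≤ U0 N + 1
  topI : ∀ p ∈ I, lev p ≤ (N : ℝ) + 5
  topJ : ∀ p ∈ J, lev p ≤ (N : ℝ) + 5
  disj : ∀ p ∈ I, p ∉ J
  lowI : LowVal N low₁
  lowJ : LowVal N low₂
  eq : rowsProd I * low₁ = rowsProd J * low₂
  clean : Clean N (rowsProd I * low₁)

/-- `n̄(t) = #{s : b_s + 1 ≥ t}`. -/
def nb (b : List ℕ) (t : ℝ) : ℕ := (b.filter (fun c => t ≤ (c : ℝ) + 1)).length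

/-- `∑_{s ≥ 1} (a_s + 1) (b_s + 1 - t0)`, index `s` counted from `0` at the head of `b`. -/
def ThT (N : ℕ) : ℕ → List ℕ → ℝ
  | _, [] => 0
  | h, c :: bs => (aa (h + 1) + 1) * ((c : ℝ) + 1 - t0 N) + ThT N (h + 1) bs

/-- The error in the tilt. -/
def errT (N : ℕ) : ℝ := 8 * ((U0 N : ℝ) + 2) ^ 3 * (tau N ((N : ℝ) + 6) + 2)

/-- The error in the agreement. -/
def errA (N : ℕ) : ℝ := 8 * ((U0 N : ℝ) + 2) * (tau N ((N : ℝ) + 6) + 2)

/-! ### Small facts -/

lemma pb_coe_list (b : List ℕ) : ((b : List ℕ) : List ℝ) = b.map (fun a : ℕ => (a : ℝ)) := by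
  induction b with
  | nil => rfl
  | cons a l ih =>
    have e : ((a :: l : List ℕ) : List ℝ) = (a : ℝ) :: ((l : List ℕ) : List ℝ) := by
      simp
    rw [e, ih]; rfl

lemma pb_t0_nonneg (N : ℕ) : 0 ≤ t0 N := Real.rpow_nonneg (Nat.cast_nonneg N) _

lemma pb_ts_nonneg (N : ℕ) : 0 ≤ ts N := by
  unfold ts
  have := pb_t0_nonneg N
  linarith

lemma pb_ts_le_t0 (N : ℕ) : ts N ≤ t0 N := by
  unfold ts
  have := pb_t0_nonneg N
  linarith

lemma pb_tau_nonneg (N : ℕ) (y : ℝ) : 0 ≤ tau N y := by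
  unfold tau
  refine Real.rpow_nonneg ?_ _
  exact le_trans (pb_ts_nonneg N) (le_max_right _ _)

lemma pb_tau_mono (N : ℕ) {y y' : ℝ} (h : y ≤ y') : tau N y ≤ tau N y' := by
  unfold tau
  refine Real.rpow_le_rpow ?_ ?_ (by norm_num)
  · exact le_trans (pb_ts_nonneg N) (le_max_right _ _)
  · exact max_le_max (by linarith) le_rfl

lemma pb_lev_le_of_dvd {p r : ℕ} (hp : p.Prime) (hr : r.Prime) (hd : r ∣ p - 1) : lev r ≤ lev p := by
  have h1 : 0 < p - 1 := by have := hp.two_le; omega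
  have h2 : r ≤ p - 1 := Nat.le_of_dvd h1 hd
  exact lev_mono hr.two_le (by omega)

lemma pb_low_ne_zero {N low : ℕ} (h : LowVal N low) : low ≠ 0 := by
  obtain ⟨n, hn, _, rfl, _⟩ := h
  exact Nat.totient_pos.mpr (Nat.pos_of_ne_zero hn) |>.ne'

/-- Count of the primes of a row between two levels. -/
lemma pb_row_count {N p : ℕ} (hp : Normal N p) (hN : lev p ≤ (N : ℝ) + 6) {y : ℝ} (hy : t0 N ≤ y) :
    ((((p - 1).primeFactors.filter (fun r => t0 N < lev r ∧ lev r ≤ y)).card : ℕ) : ℝ)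
      ≤ min y (lev p) - t0 N + 2 * tau N ((N : ℝ) + 6) := by
  obtain ⟨hpp, hpl, hW⟩ := hp
  set y' := min y (lev p) with hy'
  have hy0 : t0 N ≤ y' := le_min hy hpl
  have hy1 : y' ≤ lev p := min_le_right _ _
  have hA : ((p - 1).primeFactors.filter (fun r => t0 N < lev r ∧ lev r ≤ y)).card + W N (p - 1) (t0 N)
      ≤ W N (p - 1) y' := by
    unfold W
    rw [← Finset.card_union_of_disjoint]
    · apply Finset.card_le_card
      intro r hr
      simp only [Finset.mem_union, Finset.mem_filter] at hr ⊢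
      rcases hr with ⟨h1, h2, h3⟩ | ⟨h1, h2, h3⟩
      · refine ⟨h1, lt_of_le_of_lt (pb_ts_le_t0 N) h2, le_min h3 ?_⟩
        exact pb_lev_le_of_dvd hpp (Nat.prime_of_mem_primeFactors h1) (Nat.dvd_of_mem_primeFactors h1)
      · exact ⟨h1, h2, le_trans h3 hy0⟩
    · rw [Finset.disjoint_left]
      intro r hr hr2
      simp only [Finset.mem_filter] at hr hr2
      exact absurd hr.2.1 (not_lt.mpr hr2.2.2)
  have h1 := hW y' (le_trans (pb_ts_le_t0 N) hy0) hy1
  have h2 := hW (t0 N) (pb_ts_le_t0 N) hpl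
  have h3 := abs_le.mp h1
  have h4 := abs_le.mp h2
  have h5 : tau N y' ≤ tau N ((N : ℝ) + 6) := pb_tau_mono N (le_trans hy1 hN)
  have h6 : tau N (t0 N) ≤ tau N ((N : ℝ) + 6) := pb_tau_mono N (le_trans hpl hN)
  have hA' : ((((p - 1).primeFactors.filter (fun r => t0 N < lev r ∧ lev r ≤ y)).card : ℕ) : ℝ)
      + (W N (p - 1) (t0 N) : ℝ) ≤ (W N (p - 1) y' : ℝ) := by exact_mod_cast hA
  linarith [h3.1, h3.2, h4.1, h4.2]

/-- A row of level at least `t0 + 3 τ` has a prime of level in `(x - 3τ, x]`, `> t0`. -/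
theorem leader_exists : ∃ N₀ : ℕ, ∀ N ≥ N₀, ∀ p : ℕ, Normal N p → lev p ≤ (N : ℝ) + 6 →
    t0 N + 3 * tau N ((N : ℝ) + 6) ≤ lev p →
    ∃ r ∈ (p - 1).primeFactors, lev p - 3 * tau N ((N : ℝ) + 6) ≤ lev r ∧ t0 N < lev r := by
  refine ⟨0, fun N _ p hp hN hl => ?_⟩
  obtain ⟨hpp, hpl, hW⟩ := hp
  set τ := tau N ((N : ℝ) + 6) with hτ
  have hτ0 : 0 ≤ τ := pb_tau_nonneg N _
  have hτpos : 0 < τ := by
    rw [hτ]
    unfold tau
    refine Real.rpow_pos_of_pos ?_ _
    have h1 := pb_ts_nonneg N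
    have h2 : (0 : ℝ) ≤ (N : ℝ) := Nat.cast_nonneg N
    by_contra hc
    have h3 := le_max_left ((N : ℝ) + 6 - ts N) (ts N)
    have h4 := le_max_right ((N : ℝ) + 6 - ts N) (ts N)
    have h5 : max ((N : ℝ) + 6 - ts N) (ts N) ≤ 0 := not_lt.mp hc
    linarith
  set y0 := lev p - 3 * τ with hy0
  have h0 : t0 N ≤ y0 := by rw [hy0]; linarith
  have hy01 : y0 ≤ lev p := by rw [hy0]; linarith
  have h1 := abs_le.mp (hW (lev p) (le_trans (pb_ts_le_t0 N) hpl) le_rfl)
  have h2 := abs_le.mp (hW y0 (le_trans (pb_ts_le_t0 N) h0) hy01)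
  have h5 : tau N (lev p) ≤ τ := pb_tau_mono N hN
  have h6 : tau N y0 ≤ τ := pb_tau_mono N (le_trans hy01 hN)
  have hlt : (W N (p - 1) y0 : ℝ) < (W N (p - 1) (lev p) : ℝ) := by
    linarith [h1.1, h1.2, h2.1, h2.2]
  have hlt' : W N (p - 1) y0 < W N (p - 1) (lev p) := by exact_mod_cast hlt
  unfold W at hlt'
  obtain ⟨r, hr1, hr2⟩ := Finset.exists_mem_notMem_of_card_lt_card hlt'
  simp only [Finset.mem_filter, not_and, not_le] at hr1 hr2
  have hr3 : y0 < lev r := hr2 hr1.1 hr1.2.1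
  exact ⟨r, hr1.1, hr3.le, lt_of_le_of_lt h0 hr3⟩

/-! ### Near agreement -/

lemma pb_sum_min_eq (N : ℕ) (y : ℝ) (l : List ℕ) (hl : ∀ p ∈ l, t0 N ≤ lev p) :
    (l.map (fun p => min y (lev p) - t0 N)).sum = GG l (t0 N) - GG l y := by
  induction l with
  | nil => simp [GG]
  | cons a l ih =>
    have ih' := ih (fun p hp => hl p (List.mem_cons_of_mem _ hp))
    have ha : t0 N ≤ lev a := hl a (List.mem_cons_self)
    have e : (a :: l).map (fun p => min y (lev p) - t0 N)
        = (min y (lev a) - t0 N) :: l.map (fun p => min y (lev p) - t0 N) := rfl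
    rw [e, List.sum_cons, ih']
    simp only [GG, List.map_cons, List.sum_cons]
    have e1 : max (lev a - t0 N) 0 = lev a - t0 N := max_eq_left (by linarith)
    have e2 : min y (lev a) = lev a - max (lev a - y) 0 := by
      rcases le_total y (lev a) with h | h
      · rw [min_eq_left h, max_eq_left (by linarith)]; ring
      · rw [min_eq_right h, max_eq_right (by linarith)]; ring
    rw [e1, e2]
    ring

lemma pb_floor_err (N : ℕ) (y : ℝ) (l : List ℕ) (hl : ∀ p ∈ l, 0 ≤ lev p) :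
    |(l.map (fun p => min y (((⌊lev p⌋₊ : ℕ) : ℝ) + 1) - t0 N)).sum
      - (l.map (fun p => min y (lev p) - t0 N)).sum| ≤ l.length := by
  induction l with
  | nil => simp
  | cons a l ih =>
    have ih' := ih (fun p hp => hl p (List.mem_cons_of_mem _ hp))
    have ha : 0 ≤ lev a := hl a (List.mem_cons_self)
    simp only [List.map_cons, List.sum_cons, List.length_cons]
    have h1 : lev a < ((⌊lev a⌋₊ : ℕ) : ℝ) + 1 := Nat.lt_floor_add_one _
    have h2 : ((⌊lev a⌋₊ : ℕ) : ℝ) ≤ lev a := Nat.floor_le ha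
    have h3 : min y (lev a) ≤ min y (((⌊lev a⌋₊ : ℕ) : ℝ) + 1) := min_le_min le_rfl h1.le
    have h4 : min y (((⌊lev a⌋₊ : ℕ) : ℝ) + 1) ≤ min y (lev a) + 1 := by
      rcases le_total y (lev a) with h | h
      · rw [min_eq_left h, min_eq_left (by linarith)]; linarith
      · rw [min_eq_right h]; exact le_trans (min_le_right _ _) (by linarith)
    have h5 := abs_le.mp ih'
    rw [abs_le]
    push_cast
    constructor <;> linarith [h5.1, h5.2]

lemma pb_nonneg_lev {N : ℕ} {l : List ℕ} (h : ∀ p ∈ l, Normal N p) : ∀ p ∈ l, 0 ≤ lev p :=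
  fun p hp => le_trans (pb_t0_nonneg N) (h p hp).2.1

/-- Near agreement for a reduced pair: `∑_j (min(y, ȳ_j) - t0)` and `∑_i (min(y, x̄_i) - t0)` are close. -/
theorem agree_min : ∃ N₀ : ℕ, ∀ N ≥ N₀, ∀ (b b' I J : List ℕ) (low₁ low₂ : ℕ), PairOK N b b' I low₁ J low₂ →
    ∀ y : ℝ, t0 N ≤ y →
      |(b'.map (fun c => min y ((c : ℝ) + 1) - t0 N)).sum - (b.map (fun c => min y ((c : ℝ) + 1) - t0 N)).sum|
        ≤ errA N := by
  obtain ⟨N₀, hN₀⟩ := pi_close
  refine ⟨N₀, fun N hN b b' I J low₁ low₂ H y hy => ?_⟩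
  set τ := tau N ((N : ℝ) + 6) with hτ
  have hτ0 : 0 ≤ τ := pb_tau_nonneg N _
  -- the lists
  have eb : (b.map (fun c => min y ((c : ℝ) + 1) - t0 N)).sum
      = (I.map (fun p => min y (((⌊lev p⌋₊ : ℕ) : ℝ) + 1) - t0 N)).sum := by
    rw [← H.cellsI, pb_coe_list, List.map_map, List.map_map]; rfl
  have eb' : (b'.map (fun c => min y ((c : ℝ) + 1) - t0 N)).sum
      = (J.map (fun p => min y (((⌊lev p⌋₊ : ℕ) : ℝ) + 1) - t0 N)).sum := by
    rw [← H.cellsJ, pb_coe_list, List.map_map, List.map_map]; rfl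
  rw [eb, eb']
  have f1 := pb_floor_err N y I (pb_nonneg_lev H.normalI)
  have f2 := pb_floor_err N y J (pb_nonneg_lev H.normalJ)
  rw [pb_sum_min_eq N y I (fun p hp => (H.normalI p hp).2.1)] at f1
  rw [pb_sum_min_eq N y J (fun p hp => (H.normalJ p hp).2.1)] at f2
  -- the pi_close
  have cI : ∀ z, t0 N ≤ z → |(PiC (rowsProd I * low₁) z : ℝ) - GG I z| ≤ 2 * (I.length : ℝ) * τ := by
    intro z hz
    exact hN₀ N hN I low₁ z H.sortedI
      (fun p hp => ⟨H.normalI p hp, by linarith [H.topI p hp]⟩) H.lowI.smooth (pb_low_ne_zero H.lowI)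
      H.clean hz
  have cJ : ∀ z, t0 N ≤ z → |(PiC (rowsProd I * low₁) z : ℝ) - GG J z| ≤ 2 * (J.length : ℝ) * τ := by
    intro z hz
    rw [H.eq]
    refine hN₀ N hN J low₂ z H.sortedJ
      (fun p hp => ⟨H.normalJ p hp, by linarith [H.topJ p hp]⟩) H.lowJ.smooth (pb_low_ne_zero H.lowJ)
      ?_ hz
    rw [← H.eq]
    exact H.clean
  have a1 := abs_le.mp (cI y hy)
  have a2 := abs_le.mp (cJ y hy)
  have a3 := abs_le.mp (cI (t0 N) le_rfl)
  have a4 := abs_le.mp (cJ (t0 N) le_rfl)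
  have f1' := abs_le.mp f1
  have f2' := abs_le.mp f2
  have hI : (I.length : ℝ) ≤ (U0 N : ℝ) + 1 := by exact_mod_cast H.lenI
  have hJ : (J.length : ℝ) ≤ (U0 N : ℝ) + 1 := by exact_mod_cast H.lenJ
  have hI0 : (0 : ℝ) ≤ (I.length : ℝ) := Nat.cast_nonneg _
  have hJ0 : (0 : ℝ) ≤ (J.length : ℝ) := Nat.cast_nonneg _
  have hU : (0 : ℝ) ≤ (U0 N : ℝ) := Nat.cast_nonneg _
  have key : ((I.length : ℝ) + (J.length : ℝ)) * (1 + 4 * τ) ≤ errA N := by
    unfold errA
    rw [← hτ]
    have h1 : (I.length : ℝ) + (J.length : ℝ) ≤ 2 * ((U0 N : ℝ) + 1) := by linarith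
    calc ((I.length : ℝ) + (J.length : ℝ)) * (1 + 4 * τ)
        ≤ (2 * ((U0 N : ℝ) + 1)) * (1 + 4 * τ) := by
          apply mul_le_mul_of_nonneg_right h1; linarith
      _ ≤ 8 * ((U0 N : ℝ) + 2) * (τ + 2) := by nlinarith
  refine le_trans ?_ key
  rw [abs_le]
  constructor <;> nlinarith [a1.1, a1.2, a2.1, a2.2, a3.1, a3.2, a4.1, a4.2, f1'.1, f1'.2, f2'.1, f2'.2]

/-! ### The tilt bound -/

/-- `log (count)` as a sum over indices, for an antitone vector. -/
lemma pb_log_count (k : ℕ) (x : ℕ → ℝ) (hx : ∀ i j, i ≤ j → j ≤ k → x j ≤ x i) (t : ℝ) :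
    Real.log (((Finset.range (k + 1)).filter (fun s => t ≤ x s)).card : ℝ)
      = ∑ s ∈ Finset.Icc 1 k, cs s * (if t ≤ x s then 1 else 0) := by
  induction k with
  | zero =>
    have h : ((Finset.range 1).filter (fun s => t ≤ x s)).card ≤ 1 := by
      refine le_trans (Finset.card_filter_le _ _) (by simp)
    have h2 : ((Finset.range (0 + 1)).filter (fun s => t ≤ x s)).card = 0 ∨
        ((Finset.range (0 + 1)).filter (fun s => t ≤ x s)).card = 1 := by
      simp only [zero_add] at *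
      omega
    rcases h2 with h2 | h2 <;> rw [h2] <;> simp
  | succ k ih =>
    have ih' := ih (fun i j hij hj => hx i j hij (by omega))
    by_cases h : t ≤ x (k + 1)
    · have hall : (Finset.range (k + 1 + 1)).filter (fun s => t ≤ x s) = Finset.range (k + 1 + 1) := by
        apply Finset.filter_true_of_mem
        intro s hs
        exact le_trans h (hx s (k + 1) (by have := Finset.mem_range.mp hs; omega) le_rfl)
      rw [hall, Finset.card_range]
      have e := sum_cs (k + 1)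
      rw [show ((k + 1 + 1 : ℕ) : ℝ) = ((k + 1 : ℕ) : ℝ) + 1 by push_cast; ring, ← e]
      apply Finset.sum_congr rfl
      intro s hs
      have hs' := (Finset.mem_Icc.mp hs).2
      rw [if_pos (le_trans h (hx s (k + 1) hs' le_rfl)), mul_one]
    · rw [Finset.sum_Icc_succ_top (by omega), if_neg h, mul_zero, add_zero, ← ih']
      congr 2
      rw [Finset.range_add_one, Finset.filter_insert, if_neg h]

/-- The core inequality on an antitone vector. -/
lemma pb_core (k : ℕ) (x : ℕ → ℝ) (hx : ∀ i j, i ≤ j → j ≤ k → x j ≤ x i) (P : Finset ℕ) (lv : ℕ → ℝ)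
    (t τ : ℝ) (hτ : 0 ≤ τ)
    (hc : ∀ s ∈ Finset.Icc 1 k, ((P.filter (fun r => lv r ≤ x s)).card : ℝ)
      ≤ ∑ i ∈ Finset.range (k + 1), (min (x s) (x i) - t + 2 * τ)) :
    ∑ r ∈ P, Real.log (((Finset.range (k + 1)).filter (fun s => lv r ≤ x s)).card : ℝ)
      ≤ ∑ s ∈ Finset.Icc 1 k, (aa s + 1) * (x s - t)
        + 2 * τ * ((k : ℝ) + 1) * Real.log ((k : ℝ) + 1) := by
  have e1 : ∀ r ∈ P, Real.log (((Finset.range (k + 1)).filter (fun s => lv r ≤ x s)).card : ℝ)
      = ∑ s ∈ Finset.Icc 1 k, cs s * (if lv r ≤ x s then 1 else 0) :=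
    fun r _ => pb_log_count k x hx (lv r)
  rw [Finset.sum_congr rfl e1, Finset.sum_comm]
  have e2 : ∀ s ∈ Finset.Icc 1 k, ∑ r ∈ P, cs s * (if lv r ≤ x s then (1 : ℝ) else 0)
      ≤ ∑ i ∈ Finset.range (k + 1), cs s * (min (x s - t) (x i - t)) + cs s * (2 * τ * ((k : ℝ) + 1)) := by
    intro s hs
    rw [← Finset.mul_sum, ← Finset.mul_sum, ← mul_add]
    apply mul_le_mul_of_nonneg_left _ (cs_nonneg s)
    have h1 := hc s hs
    have h2 : ∑ r ∈ P, (if lv r ≤ x s then (1 : ℝ) else 0) = ((P.filter (fun r => lv r ≤ x s)).card : ℝ) := by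
      rw [Finset.card_filter]; push_cast; rfl
    rw [h2]
    refine le_trans h1 (le_of_eq ?_)
    have h3 : ∀ i ∈ Finset.range (k + 1), min (x s) (x i) - t + 2 * τ = min (x s - t) (x i - t) + 2 * τ := by
      intro i _
      rcases le_total (x s) (x i) with h | h
      · rw [min_eq_left h, min_eq_left (by linarith)]
      · rw [min_eq_right h, min_eq_right (by linarith)]
    rw [Finset.sum_congr rfl h3, Finset.sum_add_distrib, Finset.sum_const, Finset.card_range, nsmul_eq_mul]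
    push_cast
    ring
  refine le_trans (Finset.sum_le_sum e2) ?_
  rw [Finset.sum_add_distrib, Finset.sum_comm]
  have eul := euler_identity k (fun i => x i - t) (fun i j hij hj => by
    have := hx i j hij hj
    show x j - t ≤ x i - t
    linarith)
  rw [eul]
  apply add_le_add le_rfl
  have h4 := sum_cs k
  have h5 : ∑ s ∈ Finset.Icc 1 k, cs s * (2 * τ * ((k : ℝ) + 1))
      = 2 * τ * ((k : ℝ) + 1) * ∑ s ∈ Finset.Icc 1 k, cs s := by
    rw [Finset.mul_sum]; apply Finset.sum_congr rfl; intros; ring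
  rw [h5, h4]

/-- `nb` as a count over indices. -/
lemma pb_nb_eq (l : List ℕ) (f : ℕ → ℕ) (t : ℝ) :
    nb (l.map f) t = ((Finset.range l.length).filter
      (fun s => t ≤ ((f (l.getD s 0) : ℕ) : ℝ) + 1)).card := by
  induction l with
  | nil => simp [nb]
  | cons a l ih =>
    have e : nb ((a :: l).map f) t = (if t ≤ ((f a : ℕ) : ℝ) + 1 then 1 else 0) + nb (l.map f) t := by
      unfold nb
      simp only [List.map_cons]
      have e0 : ((f a :: l.map f : List ℕ) : List ℝ) = ((f a : ℕ) : ℝ) :: ((l.map f : List ℕ) : List ℝ) := by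
        simp
      rw [e0]
      by_cases h : t ≤ ((f a : ℕ) : ℝ) + 1
      · rw [List.filter_cons_of_pos (by simpa using h), if_pos h, List.length_cons]; omega
      · rw [List.filter_cons_of_neg (by simpa using h), if_neg h]; omega
    rw [e, ih, Finset.card_filter, Finset.card_filter, List.length_cons, Finset.sum_range_succ']
    simp only [List.getD_cons_succ, List.getD_cons_zero]
    omega

lemma pb_ThT_eq (N : ℕ) (l : List ℕ) (f : ℕ → ℕ) (h : ℕ) :
    ThT N h (l.map f) = ∑ j ∈ Finset.range l.length,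
      (aa (h + j + 1) + 1) * (((f (l.getD j 0) : ℕ) : ℝ) + 1 - t0 N) := by
  induction l generalizing h with
  | nil => simp [ThT]
  | cons a l ih =>
    simp only [List.map_cons, ThT, List.length_cons]
    rw [ih (h + 1), Finset.sum_range_succ']
    simp only [List.getD_cons_succ, List.getD_cons_zero, add_zero]
    rw [add_comm]
    congr 1
    apply Finset.sum_congr rfl
    intro j _
    have : h + (j + 1) + 1 = h + 1 + j + 1 := by omega
    rw [this]

lemma pb_sum_Icc_eq (g : ℕ → ℝ) (k : ℕ) :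
    ∑ s ∈ Finset.Icc 1 k, g s = ∑ j ∈ Finset.range k, g (j + 1) := by
  induction k with
  | zero => simp
  | succ k ih => rw [Finset.sum_Icc_succ_top (by omega), ih, Finset.sum_range_succ]

/-- The tilt bound: the sum of `log n̄(lev r)` over the primes of `v₁` above level `t0`. -/
theorem tilt_bound : ∃ N₀ : ℕ, ∀ N ≥ N₀, ∀ (b b' I J : List ℕ) (low₁ low₂ : ℕ), PairOK N b b' I low₁ J low₂ →
    ∑ r ∈ (rowsProd I * low₁).primeFactors.filter (fun r => t0 N < lev r), Real.log (nb b (lev r))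
      ≤ ThT N 0 b.tail + errT N := by
  refine ⟨0, fun N _ b b' I J low₁ low₂ H => ?_⟩
  set τ := tau N ((N : ℝ) + 6) with hτ
  have hτ0 : 0 ≤ τ := pb_tau_nonneg N _
  have hU : (0 : ℝ) ≤ (U0 N : ℝ) := Nat.cast_nonneg _
  have herrT : 0 ≤ errT N := by
    unfold errT
    rw [← hτ]
    positivity
  have hb := H.cellsI
  subst hb
  set fl : ℕ → ℕ := fun p => ⌊lev p⌋₊ with hfl
  rcases I with _ | ⟨p0, I'⟩
  · -- empty rows: `nb [] t = 0`
    have e : ∀ r, Real.log ((nb (List.map fl []) (lev r) : ℕ) : ℝ) = 0 := by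
      intro r; simp [nb]
    simp only [e, Finset.sum_const_zero]
    simpa [ThT] using herrT
  -- the general case
  set I := p0 :: I' with hI
  set k := I'.length with hk
  have hlen : I.length = k + 1 := by simp [hI, hk]
  set p : ℕ → ℕ := fun i => I.getD i 0 with hp
  have hpmem : ∀ i, i ≤ k → p i ∈ I := by
    intro i hi
    have hlt : i < I.length := by omega
    have : p i = I[i] := by
      simp only [hp]
      exact List.getD_eq_getElem _ _ hlt
    rw [this]
    exact List.getElem_mem hlt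
  have hprime : ∀ q ∈ I, q.Prime := fun q hq => (H.normalI q hq).1
  set x : ℕ → ℝ := fun i => ((fl (p i) : ℕ) : ℝ) + 1 with hx
  -- antitone
  have hanti : ∀ i j, i ≤ j → j ≤ k → x j ≤ x i := by
    intro i j hij hj
    rcases eq_or_lt_of_le hij with rfl | hlt
    · exact le_rfl
    have hjlt : j < I.length := by omega
    have hilt : i < I.length := by omega
    have hpw := (List.pairwise_iff_getElem.mp H.sortedI) i j hilt hjlt hlt
    have e1 : p i = I[i] := List.getD_eq_getElem _ _ hilt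
    have e2 : p j = I[j] := List.getD_eq_getElem _ _ hjlt
    have hle : p j ≤ p i := by rw [e1, e2]; exact le_of_lt hpw
    have hlev : lev (p j) ≤ lev (p i) :=
      lev_mono (hprime _ (hpmem j hj)).two_le hle
    simp only [hx, hfl]
    have := Nat.floor_le_floor hlev
    have h' : ((⌊lev (p j)⌋₊ : ℕ) : ℝ) ≤ ((⌊lev (p i)⌋₊ : ℕ) : ℝ) := by exact_mod_cast this
    linarith
  have hxlev : ∀ i, lev (p i) < x i := fun i => Nat.lt_floor_add_one _
  -- rewriting `nb`
  have enb : ∀ r, ((nb (I.map fl) (lev r) : ℕ) : ℝ)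
      = (((Finset.range (k + 1)).filter (fun s => lev r ≤ x s)).card : ℝ) := by
    intro r
    rw [pb_nb_eq I fl (lev r), hlen]
  simp only [enb]
  -- counts
  set P := (rowsProd I * low₁).primeFactors.filter (fun r => t0 N < lev r) with hP
  have hc : ∀ s ∈ Finset.Icc 1 k, ((P.filter (fun r => lev r ≤ x s)).card : ℝ)
      ≤ ∑ i ∈ Finset.range (k + 1), (min (x s) (x i) - t0 N + 2 * τ) := by
    intro s hs
    have hs' := (Finset.mem_Icc.mp hs).2
    have hsub : P.filter (fun r => lev r ≤ x s) ⊆ (Finset.range (k + 1)).biUnion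
        (fun i => (p i - 1).primeFactors.filter (fun r => t0 N < lev r ∧ lev r ≤ x s)) := by
      intro r hr
      simp only [hP, Finset.mem_filter, Nat.mem_primeFactors] at hr
      obtain ⟨⟨⟨hr1, hr2, hr3⟩, hr4⟩, hr5⟩ := hr
      have hrlow : ¬ r ∣ low₁ := by
        intro hd
        have := H.lowI.smooth r hr1 hd
        linarith
      have hrrows : r ∣ rowsProd I := by
        rcases (Nat.Prime.dvd_mul hr1).mp hr2 with h | h
        · exact h
        · exact absurd h hrlow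
      unfold rowsProd at hrrows
      obtain ⟨a, ha, hd⟩ := (Prime.dvd_prod_iff hr1.prime).mp hrrows
      obtain ⟨q, hq, rfl⟩ := List.mem_map.mp ha
      obtain ⟨i, hi, rfl⟩ := List.getElem_of_mem hq
      have hik : i ≤ k := by omega
      have epi : p i = I[i] := List.getD_eq_getElem _ _ hi
      simp only [Finset.mem_biUnion, Finset.mem_range, Finset.mem_filter, Nat.mem_primeFactors]
      refine ⟨i, by omega, ⟨hr1, by rw [epi]; exact hd, ?_⟩, hr4, hr5⟩
      have : 2 ≤ p i := (hprime _ (hpmem i hik)).two_le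
      omega
    have h1 := Finset.card_le_card hsub
    have h2 := Finset.card_biUnion_le (s := Finset.range (k + 1))
      (t := fun i => (p i - 1).primeFactors.filter (fun r => t0 N < lev r ∧ lev r ≤ x s))
    have h3 : ((P.filter (fun r => lev r ≤ x s)).card : ℝ)
        ≤ ∑ i ∈ Finset.range (k + 1),
          (((p i - 1).primeFactors.filter (fun r => t0 N < lev r ∧ lev r ≤ x s)).card : ℝ) := by
      exact_mod_cast le_trans h1 h2
    refine le_trans h3 (Finset.sum_le_sum ?_)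
    intro i hi
    have hik : i ≤ k := by have := Finset.mem_range.mp hi; omega
    have hmem := hpmem i hik
    have hn := H.normalI _ hmem
    have hys : t0 N ≤ x s := by
      have := hxlev s
      have h5 := (H.normalI _ (hpmem s hs')).2.1
      linarith
    have := pb_row_count hn (by linarith [H.topI _ hmem]) hys
    refine le_trans this ?_
    have h6 : min (x s) (lev (p i)) ≤ min (x s) (x i) := min_le_min le_rfl (hxlev i).le
    linarith
  have main := pb_core k x hanti P lev (t0 N) τ hτ0 hc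
  refine le_trans main ?_
  -- the main term and the error
  have etail : (I.map fl).tail = I'.map fl := by simp [hI]
  rw [etail, pb_ThT_eq N I' fl 0, pb_sum_Icc_eq]
  have e3 : ∀ j ∈ Finset.range k, (aa (j + 1) + 1) * (x (j + 1) - t0 N)
      = (aa (0 + j + 1) + 1) * (((fl (I'.getD j 0) : ℕ) : ℝ) + 1 - t0 N) := by
    intro j _
    have e4 : p (j + 1) = I'.getD j 0 := by simp [hp, hI]
    simp only [hx, e4, zero_add]
  rw [Finset.sum_congr rfl e3, ← hk]
  apply add_le_add le_rfl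
  -- error
  have hklen : (k : ℝ) + 1 ≤ (U0 N : ℝ) + 1 := by
    have : I.length ≤ U0 N + 1 := H.lenI
    rw [hlen] at this
    exact_mod_cast this
  have hk0 : (0 : ℝ) ≤ (k : ℝ) := Nat.cast_nonneg _
  have hlog : Real.log ((k : ℝ) + 1) ≤ (k : ℝ) + 1 := by
    have := Real.log_le_sub_one_of_pos (by linarith : (0 : ℝ) < (k : ℝ) + 1)
    linarith
  have hlog0 : 0 ≤ Real.log ((k : ℝ) + 1) := Real.log_nonneg (by linarith)
  unfold errT
  rw [← hτ]
  have h7 : ((k : ℝ) + 1) * Real.log ((k : ℝ) + 1) ≤ ((U0 N : ℝ) + 1) * ((U0 N : ℝ) + 1) := by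
    apply mul_le_mul hklen (by linarith) hlog0 (by linarith)
  have h8 : ((U0 N : ℝ) + 1) * ((U0 N : ℝ) + 1) ≤ ((U0 N : ℝ) + 2) ^ 3 := by nlinarith [sq_nonneg ((U0 N : ℝ) + 1)]
  have h9 : 2 * τ * ((k : ℝ) + 1) * Real.log ((k : ℝ) + 1)
      = 2 * τ * (((k : ℝ) + 1) * Real.log ((k : ℝ) + 1)) := by ring
  rw [h9]
  calc 2 * τ * (((k : ℝ) + 1) * Real.log ((k : ℝ) + 1))
      ≤ 2 * τ * ((U0 N : ℝ) + 2) ^ 3 := by
        apply mul_le_mul_of_nonneg_left (le_trans h7 h8); linarith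
    _ ≤ 8 * ((U0 N : ℝ) + 2) ^ 3 * (τ + 2) := by
        have : 0 ≤ ((U0 N : ℝ) + 2) ^ 3 := by positivity
        nlinarith

end
end Vale.Agent.Lib.P031V
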