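import Mathlib
import Vale.Agent.Lib.P031V.RarityEuler

/-!
Riesz refinement (low parts of section 6 of the P031 blueprint): two factorisations
`∏ a i = ∏ b j` of a positive integer come from a matrix `c i j`, and the mass of pairs of
smooth factorisations with equal products is at most `exp (m n ∑ 1 / (p - 1))`.
-/

namespace Vale.Agent.Lib.P031V

open Finset

/-- A divisor of a product splits along the factors. -/
theorem exists_dvd_split {n : ℕ} (b : Fin n → ℕ) (a : ℕ) (h : a ∣ ∏ j, b j) :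
    ∃ d : Fin n → ℕ, (∀ j, d j ∣ b j) ∧ ∏ j, d j = a := by
  induction n generalizing a with
  | zero =>
    refine ⟨fun _ => 1, fun j => j.elim0, ?_⟩
    simpa using (Nat.dvd_one.mp (by simpa using h)).symm
  | succ n ih =>
    rw [Fin.prod_univ_succ] at h
    obtain ⟨y, z, hy, hz, hyz⟩ := (Nat.dvd_mul).mp h
    obtain ⟨d, hd, hd2⟩ := ih (fun j => b j.succ) z hz
    refine ⟨Fin.cons y d, ?_, ?_⟩
    · intro j
      refine Fin.cases ?_ (fun i => ?_) j
      · simpa using hy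
      · simpa using hd i
    · rw [Fin.prod_univ_succ]
      simp only [Fin.cons_zero, Fin.cons_succ]
      rw [hd2, hyz]

/-- Riesz refinement. -/
theorem riesz_matrix {m n : ℕ} (a : Fin m → ℕ) (b : Fin n → ℕ) (ha : ∀ i, a i ≠ 0)
    (h : ∏ i, a i = ∏ j, b j) :
    ∃ c : Fin m → Fin n → ℕ, (∀ i, ∏ j, c i j = a i) ∧ (∀ j, ∏ i, c i j = b j) := by
  induction m generalizing b with
  | zero =>
    refine ⟨fun i => i.elim0, fun i => i.elim0, ?_⟩
    intro j
    have h1 : ∏ j, b j = 1 := by simpa using h.symm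
    have : b j ∣ ∏ j, b j := Finset.dvd_prod_of_mem _ (mem_univ j)
    rw [h1] at this
    simpa using (Nat.dvd_one.mp this).symm
  | succ m ih =>
    rw [Fin.prod_univ_succ] at h
    have hdvd : a 0 ∣ ∏ j, b j := ⟨_, h.symm⟩
    obtain ⟨d, hd, hd2⟩ := exists_dvd_split b (a 0) hdvd
    have hd0 : ∀ j, d j ≠ 0 := by
      intro j hj
      have : ∏ j, d j = 0 := Finset.prod_eq_zero (mem_univ j) hj
      rw [hd2] at this
      exact ha 0 this
    have hb' : ∀ j, d j * (b j / d j) = b j := fun j => Nat.mul_div_cancel' (hd j)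
    have hprod : ∏ i : Fin m, a i.succ = ∏ j, b j / d j := by
      have h0 : 0 < a 0 := Nat.pos_of_ne_zero (ha 0)
      apply Nat.eq_of_mul_eq_mul_left h0
      rw [h]
      rw [← hd2, ← Finset.prod_mul_distrib]
      exact (Finset.prod_congr rfl (fun j _ => hb' j)).symm
    obtain ⟨c, hc1, hc2⟩ := ih (fun i => a i.succ) (fun j => b j / d j)
      (fun i => ha i.succ) hprod
    refine ⟨Fin.cons d c, ?_, ?_⟩
    · intro i
      refine Fin.cases ?_ (fun i => ?_) i
      · simpa using hd2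
      · simpa using hc1 i
    · intro j
      rw [Fin.prod_univ_succ]
      simp only [Fin.cons_zero, Fin.cons_succ]
      rw [hc2 j, hb' j]

/-- Mass of pairs of smooth factorisations with equal products. -/
theorem sum_pairs_le {m n : ℕ} (s : Finset ℕ)
    (T : Finset ((Fin m → ℕ) × (Fin n → ℕ)))
    (hT : ∀ t ∈ T, (∏ i, t.1 i = ∏ j, t.2 j) ∧ (∀ i, t.1 i ≠ 0) ∧
      (∀ i, ∀ r ∈ (t.1 i).primeFactors, r ∈ s)) :
    ∑ t ∈ T, (1 : ℝ) / ((∏ i, t.1 i : ℕ) : ℝ)
      ≤ Real.exp (((m : ℝ) * n) * ∑ p ∈ s.filter Nat.Prime, 1 / ((p : ℝ) - 1)) := by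
  classical
  -- choose a matrix for each pair
  have hex : ∀ t ∈ T, ∃ c : Fin m → Fin n → ℕ,
      (∀ i, ∏ j, c i j = t.1 i) ∧ (∀ j, ∏ i, c i j = t.2 j) :=
    fun t ht => riesz_matrix t.1 t.2 (hT t ht).2.1 (hT t ht).1
  choose! c hc1 hc2 using hex
  -- the set of all entries
  let C : Finset ℕ := T.biUnion (fun t => univ.biUnion (fun i => univ.image (fun j => c t i j)))
  have hCmem : ∀ t ∈ T, ∀ i j, c t i j ∈ C := by
    intro t ht i j
    simp only [C, mem_biUnion, mem_image, mem_univ, true_and]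
    exact ⟨t, ht, i, j, rfl⟩
  have hCprop : ∀ x ∈ C, x ≠ 0 ∧ ∀ r ∈ x.primeFactors, r ∈ s := by
    intro x hx
    simp only [C, mem_biUnion, mem_image, mem_univ, true_and] at hx
    obtain ⟨t, ht, i, j, rfl⟩ := hx
    have hdvd : c t i j ∣ t.1 i := by
      rw [← hc1 t ht i]
      exact Finset.dvd_prod_of_mem _ (mem_univ j)
    have h0 := (hT t ht).2.1 i
    refine ⟨fun h => h0 (by rw [h] at hdvd; exact Nat.eq_zero_of_zero_dvd hdvd), ?_⟩
    intro r hr
    exact (hT t ht).2.2 i r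
      (Nat.primeFactors_mono hdvd h0 hr)
  have hC1 : ∑ x ∈ C, (1 : ℝ) / x ≤ Real.exp (∑ p ∈ s.filter Nat.Prime, 1 / ((p : ℝ) - 1)) := by
    have := RarityEuler.R0' (fun _ => 1) (fun _ => le_rfl) s C hCprop
    simpa using this
  have hC0 : 0 ≤ ∑ x ∈ C, (1 : ℝ) / x := sum_nonneg (fun x _ => by positivity)
  -- injectivity of `t ↦ c t` on `T`
  let Φ : ((Fin m → ℕ) × (Fin n → ℕ)) → (Fin m × Fin n → ℕ) := fun t p => c t p.1 p.2
  have hinj : Set.InjOn Φ (T : Set _) := by
    intro t ht t' ht' h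
    have h1 : ∀ i j, c t i j = c t' i j := fun i j => congrFun h (i, j)
    apply Prod.ext
    · funext i
      rw [← hc1 t ht i, ← hc1 t' ht' i]
      exact Finset.prod_congr rfl (fun j _ => h1 i j)
    · funext j
      rw [← hc2 t ht j, ← hc2 t' ht' j]
      exact Finset.prod_congr rfl (fun i _ => h1 i j)
  -- the sum over `T` is a sum over matrices
  have hterm : ∀ t ∈ T, (1 : ℝ) / ((∏ i, t.1 i : ℕ) : ℝ)
      = ∏ p : Fin m × Fin n, (1 : ℝ) / (Φ t p : ℝ) := by
    intro t ht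
    rw [Fintype.prod_prod_type]
    have : ((∏ i, t.1 i : ℕ) : ℝ) = ∏ i, ∏ j, (c t i j : ℝ) := by
      push_cast
      apply Finset.prod_congr rfl
      intro i _
      rw [← hc1 t ht i]
      push_cast
      rfl
    rw [this]
    simp only [Φ, one_div, Finset.prod_inv_distrib]
  rw [sum_congr rfl hterm]
  have himg : ∑ t ∈ T, ∏ p : Fin m × Fin n, (1 : ℝ) / (Φ t p : ℝ)
      = ∑ f ∈ T.image Φ, ∏ p : Fin m × Fin n, (1 : ℝ) / (f p : ℝ) := by
    rw [Finset.sum_image hinj]
  rw [himg]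
  have hsub : T.image Φ ⊆ Fintype.piFinset (fun _ : Fin m × Fin n => C) := by
    intro f hf
    obtain ⟨t, ht, rfl⟩ := mem_image.mp hf
    simp only [Fintype.mem_piFinset]
    intro p
    exact hCmem t ht p.1 p.2
  have hbig : ∑ f ∈ T.image Φ, ∏ p : Fin m × Fin n, (1 : ℝ) / (f p : ℝ)
      ≤ ∑ f ∈ Fintype.piFinset (fun _ : Fin m × Fin n => C),
          ∏ p : Fin m × Fin n, (1 : ℝ) / (f p : ℝ) :=
    sum_le_sum_of_subset_of_nonneg hsub
      (fun f _ _ => prod_nonneg (fun p _ => by positivity))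
  refine hbig.trans ?_
  have hpi := (Finset.prod_univ_sum (fun _ : Fin m × Fin n => C) (fun _ (x : ℕ) => (1 : ℝ) / (x : ℝ))).symm
  rw [hpi]
  simp only [Finset.prod_const, Finset.card_univ, Fintype.card_prod, Fintype.card_fin]
  set A := ∑ x ∈ C, (1 : ℝ) / x with hA
  set E := ∑ p ∈ s.filter Nat.Prime, 1 / ((p : ℝ) - 1) with hE
  calc A ^ (m * n) ≤ (Real.exp E) ^ (m * n) := pow_le_pow_left₀ hC0 hC1 _
    _ = Real.exp (((m : ℝ) * n) * E) := by
        rw [← Real.exp_nat_mul]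
        push_cast
        rfl

end Vale.Agent.Lib.P031V
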