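import Vale.Agent.Lib.P031V.Mertens2
import Vale.Agent.Lib.P031V.RieszLow

/-! # P031: the low parts, blueprint section 6 (Low parts): Riesz refinement. -/

namespace Vale.Agent.Lib.P031V
open Real Finset
open scoped Classical
noncomputable section

/-- Riesz refinement in `ℕ`: two factorisations with the same product come from a matrix. -/
theorem riesz {a b : ℕ} (f : Fin a → ℕ) (g : Fin b → ℕ) (hf : ∀ i, f i ≠ 0) (hg : ∀ j, g j ≠ 0)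
    (h : ∏ i, f i = ∏ j, g j) :
    ∃ c : Fin a → Fin b → ℕ, (∀ i, ∏ j, c i j = f i) ∧ (∀ j, ∏ i, c i j = g j) :=
  riesz_matrix f g hf h

/-- The primes of level below `t + 1`. -/
private def lowSet (t : ℝ) : Finset ℕ :=
  (Finset.range (⌈Real.exp (Real.exp (t + 1))⌉₊ + 1)).filter (fun p => p.Prime ∧ lev p < t + 1)

private theorem mem_lowSet {t : ℝ} {r : ℕ} (hr : r.Prime) (h : lev r ≤ t) : r ∈ lowSet t := by
  unfold lowSet
  have hlt : lev r < t + 1 := by linarith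
  refine mem_filter.2 ⟨mem_range.2 ?_, hr, hlt⟩
  have := Nat.lt_ceil.2 (lt_exp_exp_of_level hr hlt)
  omega

private theorem lowSet_mass : ∃ C : ℝ, 0 < C ∧ ∀ t : ℝ, 0 ≤ t →
    ∑ p ∈ (lowSet t).filter Nat.Prime, (1 : ℝ) / ((p : ℝ) - 1) ≤ t + C := by
  obtain ⟨C, hC0, hC⟩ := mert_low
  refine ⟨C + 1, by linarith, ?_⟩
  intro t ht
  have h := hC (t + 1) (by linarith)
  have hs : (lowSet t).filter Nat.Prime = lowSet t := by
    apply Finset.filter_true_of_mem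
    intro p hp
    exact (mem_filter.1 hp).2.1
  rw [hs]
  unfold lowSet
  linarith

/-- Mass of integers all of whose primes have level at most `t`. -/
theorem smooth_mass : ∃ C : ℝ, 0 < C ∧ ∀ (t : ℝ) (F : Finset ℕ), 0 ≤ t →
    (∀ c ∈ F, c ≠ 0 ∧ ∀ r : ℕ, r.Prime → r ∣ c → lev r ≤ t) →
    ∑ c ∈ F, (1 : ℝ) / c ≤ Real.exp (t + C) := by
  obtain ⟨C, hC0, hC⟩ := lowSet_mass
  refine ⟨C, hC0, ?_⟩
  intro t F ht hF
  have hF' : ∀ m ∈ F, m ≠ 0 ∧ ∀ r ∈ m.primeFactors, r ∈ lowSet t := by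
    intro m hm
    refine ⟨(hF m hm).1, ?_⟩
    intro r hr
    have hrp := Nat.prime_of_mem_primeFactors hr
    exact mem_lowSet hrp ((hF m hm).2 r hrp (Nat.dvd_of_mem_primeFactors hr))
  have h := RarityEuler.R0' (fun _ => 1) (fun _ => le_rfl) (lowSet t) F hF'
  simp only [Finset.prod_const_one] at h
  exact h.trans (Real.exp_le_exp.2 (hC t ht))

/-- The sum over pairs of factorisations. -/
theorem low_sum : ∃ C : ℝ, 0 < C ∧ ∀ (t : ℝ) (a a' : ℕ) (F : Finset ((Fin a → ℕ) × ℕ × (Fin a' → ℕ) × ℕ)), 0 ≤ t →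
    (∀ D ∈ F, (∀ i, D.1 i ≠ 0 ∧ ∀ r : ℕ, r.Prime → r ∣ D.1 i → lev r ≤ t) ∧
      (D.2.1 ≠ 0 ∧ ∀ r : ℕ, r.Prime → r ∣ D.2.1 → lev r ≤ t) ∧
      (∀ j, D.2.2.1 j ≠ 0 ∧ ∀ r : ℕ, r.Prime → r ∣ D.2.2.1 j → lev r ≤ t) ∧
      (D.2.2.2 ≠ 0 ∧ ∀ r : ℕ, r.Prime → r ∣ D.2.2.2 → lev r ≤ t) ∧
      (∏ i, D.1 i) * D.2.1 = (∏ j, D.2.2.1 j) * D.2.2.2) →
    ∑ D ∈ F, (1 : ℝ) / (((∏ i, D.1 i) * D.2.1 : ℕ) : ℝ)
      ≤ Real.exp (((a : ℝ) + 1) * ((a' : ℝ) + 1) * (t + C)) := by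
  obtain ⟨C, hC0, hC⟩ := lowSet_mass
  refine ⟨C, hC0, ?_⟩
  intro t a a' F ht hF
  -- encode a quadruple as a pair of factorisations of length `a + 1`, `a' + 1`
  let Ψ : ((Fin a → ℕ) × ℕ × (Fin a' → ℕ) × ℕ) → (Fin (a + 1) → ℕ) × (Fin (a' + 1) → ℕ) :=
    fun D => (Fin.cons D.2.1 D.1, Fin.cons D.2.2.2 D.2.2.1)
  have hΨinj : Function.Injective Ψ := by
    rintro ⟨f, x, g, y⟩ ⟨f', x', g', y'⟩ h
    have h1 : (Fin.cons x f : Fin (a + 1) → ℕ) = Fin.cons x' f' := congrArg Prod.fst h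
    have h2 : (Fin.cons y g : Fin (a' + 1) → ℕ) = Fin.cons y' g' := congrArg Prod.snd h
    obtain ⟨hx, hf⟩ := Fin.cons_injective2 h1
    obtain ⟨hy, hg⟩ := Fin.cons_injective2 h2
    subst hx hf hy hg
    rfl
  have hprod1 : ∀ D : (Fin a → ℕ) × ℕ × (Fin a' → ℕ) × ℕ,
      ∏ i, (Ψ D).1 i = (∏ i, D.1 i) * D.2.1 := by
    intro D
    simp only [Ψ]
    rw [Fin.prod_univ_succ]
    simp only [Fin.cons_zero, Fin.cons_succ]
    exact mul_comm _ _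
  have hprod2 : ∀ D : (Fin a → ℕ) × ℕ × (Fin a' → ℕ) × ℕ,
      ∏ j, (Ψ D).2 j = (∏ j, D.2.2.1 j) * D.2.2.2 := by
    intro D
    simp only [Ψ]
    rw [Fin.prod_univ_succ]
    simp only [Fin.cons_zero, Fin.cons_succ]
    exact mul_comm _ _
  have hT : ∀ u ∈ F.image Ψ, (∏ i, u.1 i = ∏ j, u.2 j) ∧ (∀ i, u.1 i ≠ 0) ∧
      (∀ i, ∀ r ∈ (u.1 i).primeFactors, r ∈ lowSet t) := by
    intro u hu
    obtain ⟨D, hD, rfl⟩ := mem_image.1 hu
    obtain ⟨h1, h2, -, -, h5⟩ := hF D hD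
    have hall : ∀ i, (Ψ D).1 i ≠ 0 ∧ ∀ r : ℕ, r.Prime → r ∣ (Ψ D).1 i → lev r ≤ t := by
      intro i
      refine Fin.cases ?_ (fun i => ?_) i
      · simpa [Ψ] using h2
      · simpa [Ψ] using h1 i
    refine ⟨?_, fun i => (hall i).1, ?_⟩
    · rw [hprod1, hprod2]
      exact h5
    · intro i r hr
      have hrp := Nat.prime_of_mem_primeFactors hr
      exact mem_lowSet hrp ((hall i).2 r hrp (Nat.dvd_of_mem_primeFactors hr))
  have hmain := sum_pairs_le (lowSet t) (F.image Ψ) hT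
  rw [Finset.sum_image (fun x _ y _ h => hΨinj h)] at hmain
  have hterm : ∑ D ∈ F, (1 : ℝ) / (((∏ i, D.1 i) * D.2.1 : ℕ) : ℝ)
      = ∑ D ∈ F, (1 : ℝ) / ((∏ i, (Ψ D).1 i : ℕ) : ℝ) := by
    apply Finset.sum_congr rfl
    intro D _
    rw [hprod1]
  rw [hterm]
  refine hmain.trans (Real.exp_le_exp.2 ?_)
  have hmass := hC t ht
  have hcast : ((a + 1 : ℕ) : ℝ) * ((a' + 1 : ℕ) : ℝ) = ((a : ℝ) + 1) * ((a' : ℝ) + 1) := by
    push_cast; ring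
  rw [hcast]
  exact mul_le_mul_of_nonneg_left hmass (by positivity)

end
end Vale.Agent.Lib.P031V
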