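import Vale.Agent.Lib.P031V.PairD1

/-! # P031: exponent bookkeeping for the pair sums (section 6). -/

namespace Vale.Agent.Lib.P031V
namespace PairCore
open Real Finset
open scoped Classical
noncomputable section

private theorem pd3_t0_nonneg (N : ℕ) : 0 ≤ t0 N := Real.rpow_nonneg (Nat.cast_nonneg _) _

/-- Contribution of a cell to the sum over active indices. -/
private def pd3G (N : ℕ) (c : ℕ) : ℝ := if t0 N + 3 * tauN N ≤ (c : ℝ) then lamL N c else 0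

private theorem pd3_act_sum (N : ℕ) (b : List ℕ) :
    ∑ i ∈ actI N b, lamL N (b.get i) = (b.map (pd3G N)).sum := by
  unfold actI
  rw [Finset.sum_filter, ← Fin.sum_univ_fun_getElem b (pd3G N)]
  apply Finset.sum_congr rfl
  intro i _
  simp [pd3G]

private theorem pd3_lam_ge (N c : ℕ) : (c : ℝ) - 3 * tauN N ≤ lamL N c := le_max_left _ _

private theorem pd3_col_one (N c : ℕ) (_hτ : 0 ≤ tauN N) :
    (c : ℝ) + 3 - t0 N - pd3G N c ≤ 3 * tauN N + 3 := by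
  have h0 := pd3_t0_nonneg N
  have h1 := pd3_lam_ge N c
  unfold pd3G
  split_ifs with h
  · linarith
  · push Not at h; linarith

private theorem pd3_row_one (N c : ℕ) (_hτ : 0 ≤ tauN N) :
    (c : ℝ) + 1 - t0 N - pd3G N c ≤ 3 * tauN N + 2 := by
  have h0 := pd3_t0_nonneg N
  have h1 := pd3_lam_ge N c
  unfold pd3G
  split_ifs with h
  · linarith
  · push Not at h; linarith

private theorem pd3_head_one (N c : ℕ) (_hτ : 0 ≤ tauN N) :
    - pd3G N c ≤ -(c : ℝ) + t0 N + 3 * tauN N := by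
  have h0 := pd3_t0_nonneg N
  have h1 := pd3_lam_ge N c
  unfold pd3G
  split_ifs with h
  · linarith
  · push Not at h; linarith

/-- Columns. -/
theorem col_exp (N : ℕ) (b' : List ℕ) (hτ : 0 ≤ tauN N) :
    (b'.map (fun c : ℕ => (c : ℝ) + 3 - t0 N)).sum - ∑ j ∈ actI N b', lamL N (b'.get j)
      ≤ (b'.length : ℝ) * (3 * tauN N + 3) := by
  rw [pd3_act_sum]
  induction b' with
  | nil => simp
  | cons c l ih =>
    have h1 := pd3_col_one N c hτ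
    have h2 : ((c :: l).map (fun c : ℕ => (c : ℝ) + 3 - t0 N)).sum
        = (c : ℝ) + 3 - t0 N + (l.map (fun c : ℕ => (c : ℝ) + 3 - t0 N)).sum := by simp
    rw [h2, List.map_cons, List.sum_cons, List.length_cons, Nat.cast_add, Nat.cast_one]
    linarith

private theorem pd3_row_aux (N : ℕ) (hN : 2 ≤ t0 N) (hτ : 0 ≤ tauN N) (l : List ℕ) (h : ℕ)
    (hl : ∀ p ∈ l, t0 N ≤ lev p) :
    ThT N h (l.map (fun p => ⌊lev p⌋₊)) - ((l.map (fun p => ⌊lev p⌋₊)).map (pd3G N)).sum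
      ≤ Th N h l + (l.length : ℝ) * (3 * tauN N + 2) := by
  induction l generalizing h with
  | nil => simp [ThT, Th]
  | cons p l ih =>
    have hp : t0 N ≤ lev p := hl p (by simp)
    have ih' := ih (h + 1) (fun q hq => hl q (by simp [hq]))
    have hlev0 : 0 ≤ lev p := (pd3_t0_nonneg N).trans hp
    have hfl : ((⌊lev p⌋₊ : ℕ) : ℝ) ≤ lev p := Nat.floor_le hlev0
    have hone := pd3_row_one N ⌊lev p⌋₊ hτ
    have haa : 0 ≤ aa (h + 1) := by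
      have := aa_nonneg_of_pos (l := h + 1) (by omega)
      linarith
    have hts : ts N = t0 N / 2 := rfl
    have hle : ((⌊lev p⌋₊ : ℕ) : ℝ) + 1 - t0 N ≤ lev p - ts N := by
      rw [hts]; linarith
    have hmul := mul_le_mul_of_nonneg_left hle haa
    simp only [List.map_cons, List.sum_cons, List.length_cons, ThT, Th]
    push_cast
    nlinarith

private theorem row_exp_aux (N : ℕ) (hN : 2 ≤ t0 N) (hτ : 0 ≤ tauN N) (I : List ℕ) (hI : I ≠ [])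
    (hp : ∀ p ∈ I, t0 N ≤ lev p) :
    ThT N 0 (I.map (fun p => ⌊lev p⌋₊)).tail - ∑ i ∈ actI N (I.map (fun p => ⌊lev p⌋₊)),
        lamL N ((I.map (fun p => ⌊lev p⌋₊)).get i)
      ≤ -(((I.map (fun p => ⌊lev p⌋₊)).headD 0 : ℕ) : ℝ) + Th N 0 I.tail
        + (I.length : ℝ) * (3 * tauN N + 2) + t0 N + 3 * tauN N := by
  rw [pd3_act_sum]
  cases I with
  | nil => exact absurd rfl hI
  | cons p l =>
    have h1 := pd3_row_aux N hN hτ l 0 (fun q hq => hp q (by simp [hq]))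
    have h2 := pd3_head_one N ⌊lev p⌋₊ hτ
    simp only [List.map_cons, List.sum_cons, List.length_cons, List.tail_cons, List.headD_cons]
    push_cast
    nlinarith


private theorem pd3_ts_nonneg (N : ℕ) : 0 ≤ ts N := by
  have := pd3_t0_nonneg N
  unfold ts; linarith

private theorem pd3_tau_nonneg (N : ℕ) : 0 ≤ tauN N := by
  unfold tauN tau
  exact Real.rpow_nonneg ((pd3_ts_nonneg N).trans (le_max_right _ _)) _

private theorem pd3_log_bound (A B : ℝ) :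
    ∃ N₀ : ℕ, ∀ N ≥ N₀, A + B * Real.log N ≤ (N : ℝ) ^ ((1 : ℝ) / 100) := by
  have hc : (0 : ℝ) < 1 / (2 * (|B| + 1)) := by positivity
  have h1 := (isLittleO_log_rpow_atTop (r := (1 : ℝ) / 100) (by norm_num)).def hc
  have h2 := (tendsto_rpow_atTop (y := (1 : ℝ) / 100) (by norm_num)).eventually_ge_atTop (2 * |A|)
  have h3 := Filter.eventually_gt_atTop (0 : ℝ)
  have h := tendsto_natCast_atTop_atTop (R := ℝ).eventually (h1.and (h2.and h3))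
  obtain ⟨N₀, hN₀⟩ := Filter.eventually_atTop.mp h
  refine ⟨N₀, fun N hN => ?_⟩
  obtain ⟨hl, hA, hx⟩ := hN₀ N hN
  have hxr : 0 < (N : ℝ) ^ ((1 : ℝ) / 100) := Real.rpow_pos_of_pos hx _
  rw [Real.norm_eq_abs, Real.norm_eq_abs, abs_of_pos hxr] at hl
  have hB : B * Real.log N ≤ |B| * |Real.log N| := by
    rw [← abs_mul]; exact le_abs_self _
  have hB2 : |B| * |Real.log N| ≤ |B| * (1 / (2 * (|B| + 1)) * (N : ℝ) ^ ((1 : ℝ) / 100)) :=
    mul_le_mul_of_nonneg_left hl (abs_nonneg _)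
  have hB3 : |B| * (1 / (2 * (|B| + 1)) * (N : ℝ) ^ ((1 : ℝ) / 100)) ≤ (N : ℝ) ^ ((1 : ℝ) / 100) / 2 := by
    have hb0 : 0 ≤ |B| := abs_nonneg _
    have : |B| * (1 / (2 * (|B| + 1))) ≤ 1 / 2 := by
      rw [mul_one_div, div_le_iff₀ (by positivity)]
      linarith
    calc |B| * (1 / (2 * (|B| + 1)) * (N : ℝ) ^ ((1 : ℝ) / 100))
        = (|B| * (1 / (2 * (|B| + 1)))) * (N : ℝ) ^ ((1 : ℝ) / 100) := by ring
      _ ≤ (1 / 2) * (N : ℝ) ^ ((1 : ℝ) / 100) := mul_le_mul_of_nonneg_right this hxr.le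
      _ = (N : ℝ) ^ ((1 : ℝ) / 100) / 2 := by ring
  have hA2 : A ≤ |A| := le_abs_self _
  linarith

private theorem pd3_y_large (Y : ℝ) : ∃ N₀ : ℕ, ∀ N ≥ N₀, Y ≤ (N : ℝ) ^ ((1 : ℝ) / 100) := by
  obtain ⟨N₀, h⟩ := pd3_log_bound Y 0
  refine ⟨N₀, fun N hN => ?_⟩
  have := h N hN
  simpa using this

private theorem pd3_pow (N k : ℕ) : ((N : ℝ) ^ ((1 : ℝ) / 100)) ^ k = (N : ℝ) ^ ((k : ℝ) / 100) := by
  rw [← Real.rpow_natCast, ← Real.rpow_mul (Nat.cast_nonneg N)]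
  congr 1
  ring

private theorem pd3_N_eq (N : ℕ) (_hN : 1 ≤ N) : (N : ℝ) = ((N : ℝ) ^ ((1 : ℝ) / 100)) ^ 100 := by
  rw [pd3_pow]
  norm_num

private theorem pd3_t0_eq (N : ℕ) : t0 N = ((N : ℝ) ^ ((1 : ℝ) / 100)) ^ 80 := by
  rw [pd3_pow]
  unfold t0
  norm_num

private theorem pd3_wd_eq (N : ℕ) : wd N = ((N : ℝ) ^ ((1 : ℝ) / 100)) ^ 85 := by
  rw [pd3_pow]
  unfold wd
  norm_num

private theorem pd3_tau_le (N : ℕ) (hN : 8 ≤ N) : tauN N ≤ 2 * ((N : ℝ) ^ ((1 : ℝ) / 100)) ^ 65 := by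
  have hN8 : (8 : ℝ) ≤ N := by exact_mod_cast hN
  have hN0 : (0 : ℝ) ≤ N := by linarith
  have hts := pd3_ts_nonneg N
  have ht0 : t0 N ≤ N := by
    unfold t0
    calc (N : ℝ) ^ ((4 : ℝ) / 5) ≤ (N : ℝ) ^ (1 : ℝ) :=
          Real.rpow_le_rpow_of_exponent_le (by linarith) (by norm_num)
      _ = N := Real.rpow_one _
  have hmax : max ((N : ℝ) + 6 - ts N) (ts N) ≤ 2 * N := by
    apply max_le
    · linarith
    · unfold ts; linarith [pd3_t0_nonneg N]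
  have hmax0 : 0 ≤ max ((N : ℝ) + 6 - ts N) (ts N) := hts.trans (le_max_right _ _)
  have h13 : (0 : ℝ) ≤ (13 : ℝ) / 20 := by norm_num
  unfold tauN tau
  calc (max ((N : ℝ) + 6 - ts N) (ts N)) ^ ((13 : ℝ) / 20)
      ≤ (2 * (N : ℝ)) ^ ((13 : ℝ) / 20) := Real.rpow_le_rpow hmax0 hmax h13
    _ = (2 : ℝ) ^ ((13 : ℝ) / 20) * (N : ℝ) ^ ((13 : ℝ) / 20) := Real.mul_rpow (by norm_num) hN0
    _ ≤ 2 * (N : ℝ) ^ ((13 : ℝ) / 20) := by
        apply mul_le_mul_of_nonneg_right _ (Real.rpow_nonneg hN0 _)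
        calc (2 : ℝ) ^ ((13 : ℝ) / 20) ≤ (2 : ℝ) ^ (1 : ℝ) :=
              Real.rpow_le_rpow_of_exponent_le (by norm_num) (by norm_num)
          _ = 2 := Real.rpow_one _
    _ = 2 * ((N : ℝ) ^ ((1 : ℝ) / 100)) ^ 65 := by
        rw [pd3_pow]; norm_num

/-- Also `t0 + 3 τ ≤ N - 6 - 3 τ - 1`, `0 ≤ τ`. -/
theorem small_vs_N : ∃ N₀ : ℕ, ∀ N ≥ N₀, 0 ≤ tauN N ∧ t0 N + 6 * tauN N + 8 ≤ (N : ℝ) ∧ t0 N + 3 * tauN N + 8 ≤ (N : ℝ) / 2 := by
  obtain ⟨N1, hN1⟩ := pd3_y_large 42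
  refine ⟨max N1 8, fun N hN => ?_⟩
  have hN1' : N1 ≤ N := le_trans (le_max_left _ _) hN
  have hN8 : 8 ≤ N := le_trans (le_max_right _ _) hN
  have hy42 := hN1 N hN1'
  have hτ0 := pd3_tau_nonneg N
  have hτ := pd3_tau_le N hN8
  have ht := pd3_t0_eq N
  have hNe := pd3_N_eq N (by omega)
  set y := (N : ℝ) ^ ((1 : ℝ) / 100) with hy
  have hy1 : (1 : ℝ) ≤ y := by linarith
  have h65 : y ^ 65 ≤ y ^ 80 := pow_le_pow_right₀ hy1 (by norm_num)
  have h1 : (1 : ℝ) ≤ y ^ 80 := one_le_pow₀ hy1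
  have h20 : y ≤ y ^ 20 := by
    calc y = y ^ 1 := (pow_one y).symm
      _ ≤ y ^ 20 := pow_le_pow_right₀ hy1 (by norm_num)
  have h100 : y ^ 100 = y ^ 80 * y ^ 20 := by ring
  have h80pos : (0 : ℝ) ≤ y ^ 80 := by positivity
  have hbig : 42 * y ^ 80 ≤ y ^ 100 := by
    rw [h100, mul_comm]
    exact mul_le_mul_of_nonneg_left (by linarith) h80pos
  refine ⟨hτ0, ?_, ?_⟩
  · rw [ht, hNe]; nlinarith
  · rw [ht, hNe]; nlinarith

/-- The total error is small. -/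
theorem err_small (C₁ C₂ : ℝ) (hC₁ : 0 ≤ C₁) (hC₂ : 0 ≤ C₂) : ∃ N₀ : ℕ, ∀ N ≥ N₀, ∀ a a' : ℕ, a ≤ U0 N + 1 → a' ≤ U0 N + 1 →
    ((a : ℝ) + 1) * ((a' : ℝ) + 1) * (t0 N + C₁) + errT N
      + ((a : ℝ) + a') * Real.log (C₂ * ((N : ℝ) + 8) ^ 6 * a * a' + 1)
      + (a : ℝ) * (3 * tauN N + 2) + (a' : ℝ) * (3 * tauN N + 3) + t0 N + 12 * tauN N + Real.log (C₂ * ((N : ℝ) + 8) ^ 6 * (a + 1) * (a' + 1)) + 20
      ≤ wd N / 4 := by
  obtain ⟨N1, hN1⟩ := pd3_log_bound 4 20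
  obtain ⟨N2, hN2⟩ := pd3_log_bound (Real.log ((C₂ + 1) * 64)) 7
  obtain ⟨N3, hN3⟩ := pd3_y_large (4 * (C₁ + 98) + 42)
  refine ⟨max (max N1 N2) (max N3 8), ?_⟩
  intro N hN a a' ha ha'
  have hN1' : N1 ≤ N := le_trans (le_trans (le_max_left _ _) (le_max_left _ _)) hN
  have hN2' : N2 ≤ N := le_trans (le_trans (le_max_right _ _) (le_max_left _ _)) hN
  have hN3' : N3 ≤ N := le_trans (le_trans (le_max_left _ _) (le_max_right _ _)) hN
  have hN8 : 8 ≤ N := le_trans (le_trans (le_max_right _ _) (le_max_right _ _)) hN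
  have h1 := hN1 N hN1'
  have h2 := hN2 N hN2'
  have h3 := hN3 N hN3'
  have hτ0 := pd3_tau_nonneg N
  have hτ := pd3_tau_le N hN8
  have ht := pd3_t0_eq N
  have hw := pd3_wd_eq N
  have hNe := pd3_N_eq N (by omega)
  have hN8r : (8 : ℝ) ≤ N := by exact_mod_cast hN8
  set y := (N : ℝ) ^ ((1 : ℝ) / 100) with hy
  have hy42 : (42 : ℝ) ≤ y := by nlinarith
  have hy1 : (1 : ℝ) ≤ y := by linarith
  have hlogN : 0 ≤ Real.log (N : ℝ) := Real.log_nonneg (by linarith)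
  -- U0
  have hU : (U0 N : ℝ) + 3 ≤ y := by
    have : (U0 N : ℝ) < 20 * Real.log N + 1 := Nat.ceil_lt_add_one (by positivity)
    linarith
  have haR : (a : ℝ) ≤ (U0 N : ℝ) + 1 := by exact_mod_cast ha
  have haR' : (a' : ℝ) ≤ (U0 N : ℝ) + 1 := by exact_mod_cast ha'
  have ha0 : (0 : ℝ) ≤ a := Nat.cast_nonneg _
  have ha0' : (0 : ℝ) ≤ a' := Nat.cast_nonneg _
  have hU0 : (0 : ℝ) ≤ U0 N := Nat.cast_nonneg _
  have hA : (a : ℝ) + 1 ≤ y := by linarith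
  have hA' : (a' : ℝ) + 1 ≤ y := by linarith
  -- powers
  have hp : ∀ k : ℕ, k ≤ 82 → y ^ k ≤ y ^ 82 := fun k hk => pow_le_pow_right₀ hy1 hk
  have hone : ∀ k : ℕ, (1 : ℝ) ≤ y ^ k := fun k => one_le_pow₀ hy1
  set P := y ^ 82 with hP
  have hP1 : 1 ≤ P := hone 82
  -- term 1
  have T1 : ((a : ℝ) + 1) * ((a' : ℝ) + 1) * (t0 N + C₁) ≤ (1 + C₁) * P := by
    have h80 : t0 N + C₁ ≤ (1 + C₁) * y ^ 80 := by
      rw [ht]; nlinarith [hone 80]
    calc ((a : ℝ) + 1) * ((a' : ℝ) + 1) * (t0 N + C₁)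
        ≤ y * y * ((1 + C₁) * y ^ 80) := by
          have hq : 0 ≤ t0 N + C₁ := add_nonneg (pd3_t0_nonneg N) hC₁
          have hq2 : ((a : ℝ) + 1) * ((a' : ℝ) + 1) ≤ y * y := by
            apply mul_le_mul hA hA' (by linarith) (by linarith)
          calc ((a : ℝ) + 1) * ((a' : ℝ) + 1) * (t0 N + C₁) ≤ (y * y) * (t0 N + C₁) :=
                mul_le_mul_of_nonneg_right hq2 hq
            _ ≤ y * y * ((1 + C₁) * y ^ 80) :=
                mul_le_mul_of_nonneg_left h80 (by positivity)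
      _ = (1 + C₁) * P := by rw [hP]; ring
  -- term 2
  have T2 : errT N ≤ 32 * P := by
    have hu2 : (U0 N : ℝ) + 2 ≤ y := by linarith
    have h3 : ((U0 N : ℝ) + 2) ^ 3 ≤ y ^ 3 := pow_le_pow_left₀ (by linarith) hu2 3
    have hτ2 : tau N ((N : ℝ) + 6) + 2 ≤ 4 * y ^ 65 := by
      have : tau N ((N : ℝ) + 6) = tauN N := rfl
      rw [this]; linarith [hone 65]
    have hτ20 : 0 ≤ tau N ((N : ℝ) + 6) + 2 := by
      have : tau N ((N : ℝ) + 6) = tauN N := rfl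
      rw [this]; linarith
    unfold errT
    calc 8 * ((U0 N : ℝ) + 2) ^ 3 * (tau N ((N : ℝ) + 6) + 2)
        ≤ 8 * y ^ 3 * (4 * y ^ 65) := by
          apply mul_le_mul _ hτ2 hτ20 (by positivity)
          linarith
      _ = 32 * y ^ 68 := by ring
      _ ≤ 32 * P := by linarith [hp 68 (by norm_num)]
  -- logarithms
  have hlogbd : ∀ X : ℝ, 0 ≤ X → X ≤ (C₂ + 1) * 64 * (N : ℝ) ^ 7 → Real.log X ≤ y := by
    intro X hX0 hX
    have hNpos : (0 : ℝ) < N := by linarith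
    have hZ1 : 1 ≤ (C₂ + 1) * 64 * (N : ℝ) ^ 7 := by
      have : (1 : ℝ) ≤ (N : ℝ) ^ 7 := one_le_pow₀ (by linarith)
      nlinarith
    have hlogZ : Real.log ((C₂ + 1) * 64 * (N : ℝ) ^ 7) = Real.log ((C₂ + 1) * 64) + 7 * Real.log N := by
      rw [Real.log_mul (by positivity) (by positivity), Real.log_pow]
      norm_num
    rcases hX0.eq_or_lt with h0 | h0
    · rw [← h0, Real.log_zero]; linarith
    · have := Real.log_le_log h0 hX
      rw [hlogZ] at this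
      linarith
  have hNy : y * y ≤ (N : ℝ) := by
    have : y * y ≤ y ^ 100 := by
      calc y * y = y ^ 2 := by ring
        _ ≤ y ^ 100 := pow_le_pow_right₀ hy1 (by norm_num)
    rw [hNe]; exact this
  have h8 : (N : ℝ) + 8 ≤ 2 * N := by linarith
  have h86 : ((N : ℝ) + 8) ^ 6 ≤ 64 * (N : ℝ) ^ 6 := by
    calc ((N : ℝ) + 8) ^ 6 ≤ (2 * N) ^ 6 := pow_le_pow_left₀ (by linarith) h8 6
      _ = 64 * (N : ℝ) ^ 6 := by ring
  have hprod : ∀ u v : ℝ, 0 ≤ u → 0 ≤ v → u ≤ y → v ≤ y →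
      C₂ * ((N : ℝ) + 8) ^ 6 * u * v + 1 ≤ (C₂ + 1) * 64 * (N : ℝ) ^ 7 := by
    intro u v hu hv huy hvy
    have huv : u * v ≤ N := (mul_le_mul huy hvy hv (by linarith)).trans hNy
    have hN6 : (1 : ℝ) ≤ (N : ℝ) ^ 6 := one_le_pow₀ (by linarith)
    have h1N : (1 : ℝ) ≤ N := by linarith
    have s1 : C₂ * ((N : ℝ) + 8) ^ 6 * u * v ≤ C₂ * (64 * (N : ℝ) ^ 6 * N) := by
      have : ((N : ℝ) + 8) ^ 6 * (u * v) ≤ 64 * (N : ℝ) ^ 6 * N :=
        mul_le_mul h86 huv (mul_nonneg hu hv) (by positivity)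
      calc C₂ * ((N : ℝ) + 8) ^ 6 * u * v = C₂ * (((N : ℝ) + 8) ^ 6 * (u * v)) := by ring
        _ ≤ _ := mul_le_mul_of_nonneg_left this hC₂
    have s2 : (1 : ℝ) ≤ 64 * (N : ℝ) ^ 7 := by
      have : (1 : ℝ) ≤ (N : ℝ) ^ 7 := one_le_pow₀ h1N
      linarith
    calc C₂ * ((N : ℝ) + 8) ^ 6 * u * v + 1 ≤ C₂ * (64 * (N : ℝ) ^ 6 * N) + 64 * (N : ℝ) ^ 7 := by
          linarith
      _ = (C₂ + 1) * 64 * (N : ℝ) ^ 7 := by ring
  have L1 : Real.log (C₂ * ((N : ℝ) + 8) ^ 6 * a * a' + 1) ≤ y := by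
    apply hlogbd _ (by positivity)
    exact hprod _ _ ha0 ha0' (by linarith) (by linarith)
  have L2 : Real.log (C₂ * ((N : ℝ) + 8) ^ 6 * (a + 1) * (a' + 1)) ≤ y := by
    apply hlogbd _ (by positivity)
    have := hprod _ _ (by linarith : (0 : ℝ) ≤ (a : ℝ) + 1) (by linarith : (0 : ℝ) ≤ (a' : ℝ) + 1) hA hA'
    linarith
  have T3 : ((a : ℝ) + a') * Real.log (C₂ * ((N : ℝ) + 8) ^ 6 * a * a' + 1) ≤ 2 * P := by
    have h2y : (a : ℝ) + a' ≤ 2 * y := by linarith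
    have hlog0 : 0 ≤ Real.log (C₂ * ((N : ℝ) + 8) ^ 6 * a * a' + 1) :=
      Real.log_nonneg (by
        have : 0 ≤ C₂ * ((N : ℝ) + 8) ^ 6 * a * a' := by positivity
        linarith)
    calc ((a : ℝ) + a') * Real.log (C₂ * ((N : ℝ) + 8) ^ 6 * a * a' + 1)
        ≤ (2 * y) * y := mul_le_mul h2y L1 hlog0 (by linarith)
      _ = 2 * y ^ 2 := by ring
      _ ≤ 2 * P := by linarith [hp 2 (by norm_num)]
  have hτ3 : 3 * tauN N ≤ 6 * y ^ 65 := by linarith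
  have T4 : (a : ℝ) * (3 * tauN N + 2) ≤ 8 * P := by
    calc (a : ℝ) * (3 * tauN N + 2) ≤ y * (8 * y ^ 65) := by
          apply mul_le_mul (by linarith) _ (by linarith) (by linarith)
          linarith [hone 65]
      _ = 8 * y ^ 66 := by ring
      _ ≤ 8 * P := by linarith [hp 66 (by norm_num)]
  have T5 : (a' : ℝ) * (3 * tauN N + 3) ≤ 9 * P := by
    calc (a' : ℝ) * (3 * tauN N + 3) ≤ y * (9 * y ^ 65) := by
          apply mul_le_mul (by linarith) _ (by linarith) (by linarith)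
          linarith [hone 65]
      _ = 9 * y ^ 66 := by ring
      _ ≤ 9 * P := by linarith [hp 66 (by norm_num)]
  have T6 : t0 N ≤ P := by rw [ht]; exact hp 80 (by norm_num)
  have T7 : 12 * tauN N ≤ 24 * P := by linarith [hp 65 (by norm_num)]
  have T8 : Real.log (C₂ * ((N : ℝ) + 8) ^ 6 * (a + 1) * (a' + 1)) ≤ P := by
    have : y ≤ P := by
      calc y = y ^ 1 := (pow_one y).symm
        _ ≤ P := hp 1 (by norm_num)
    linarith
  have hfin : (C₁ + 98) * P ≤ y ^ 85 / 4 := by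
    have hP0 : 0 ≤ P := by linarith
    have hy3 : y ≤ y ^ 3 := by
      calc y = y ^ 1 := (pow_one y).symm
        _ ≤ y ^ 3 := pow_le_pow_right₀ hy1 (by norm_num)
    have h85 : y ^ 85 = P * y ^ 3 := by rw [hP]; ring
    rw [h85]
    have : 4 * (C₁ + 98) ≤ y ^ 3 := by linarith
    have := mul_le_mul_of_nonneg_left this hP0
    linarith
  rw [hw]
  nlinarith


/-- Rows: `ThT(tail) - ∑_{active} lam ≤ -b₀ + Th(tail) + error`. -/
theorem row_exp : ∃ N₀ : ℕ, ∀ N ≥ N₀, ∀ (I : List ℕ), I ≠ [] → (∀ p ∈ I, t0 N ≤ lev p) →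
    ThT N 0 (I.map (fun p => ⌊lev p⌋₊)).tail - ∑ i ∈ actI N (I.map (fun p => ⌊lev p⌋₊)),
        lamL N ((I.map (fun p => ⌊lev p⌋₊)).get i)
      ≤ -(((I.map (fun p => ⌊lev p⌋₊)).headD 0 : ℕ) : ℝ) + Th N 0 I.tail
        + (I.length : ℝ) * (3 * tauN N + 2) + t0 N + 3 * tauN N := by
  obtain ⟨N1, hN1⟩ := pd3_y_large 2
  refine ⟨N1, fun N hN I hI hp => ?_⟩
  have hy2 := hN1 N hN
  have ht := pd3_t0_eq N
  have h2 : 2 ≤ t0 N := by
    rw [ht]
    set y := (N : ℝ) ^ ((1 : ℝ) / 100) with hy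
    calc (2 : ℝ) ≤ y := hy2
      _ = y ^ 1 := (pow_one y).symm
      _ ≤ y ^ 80 := pow_le_pow_right₀ (by linarith) (by norm_num)
  exact row_exp_aux N h2 (pd3_tau_nonneg N) I hI hp

end
end PairCore
end Vale.Agent.Lib.P031V
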