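import Vale.Agent.Lib.P031V.PairD2
import Vale.Agent.Lib.P031V.PairD3

/-! # P031: the pair sums in a fixed pair of cell vectors, blueprint section 6, (PM core), (PC core).
Assembly of PairA (peel), PairB (tilt), PairC (low parts), SieveV, through PairD1, PairD2, PairD3. -/

namespace Vale.Agent.Lib.P031V
open Real Finset PairCore
open scoped Classical
noncomputable section

/-- The low datum of a tuple. -/
def lowDatum (N a a' : ℕ) (τ : List ℕ × ℕ × List ℕ × ℕ) : (Fin a → ℕ) × ℕ × (Fin a' → ℕ) × ℕ :=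
  (fun i => sm N (τ.1.getD i 0 - 1), τ.2.1, fun j => sm N (τ.2.2.1.getD j 0 - 1), τ.2.2.2)

/-- The common value of the smooth part of a low datum. -/
def lowV {a a' : ℕ} (d : (Fin a → ℕ) × ℕ × (Fin a' → ℕ) × ℕ) : ℕ := (∏ i, d.1 i) * d.2.1

/-- The low sum over all low data of a finite family. -/
theorem low_data_sum (C₁ : ℝ)
    (hlow : ∀ (t : ℝ) (a a' : ℕ) (F : Finset ((Fin a → ℕ) × ℕ × (Fin a' → ℕ) × ℕ)), 0 ≤ t →
      (∀ D ∈ F, (∀ i, D.1 i ≠ 0 ∧ ∀ r : ℕ, r.Prime → r ∣ D.1 i → lev r ≤ t) ∧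
        (D.2.1 ≠ 0 ∧ ∀ r : ℕ, r.Prime → r ∣ D.2.1 → lev r ≤ t) ∧
        (∀ j, D.2.2.1 j ≠ 0 ∧ ∀ r : ℕ, r.Prime → r ∣ D.2.2.1 j → lev r ≤ t) ∧
        (D.2.2.2 ≠ 0 ∧ ∀ r : ℕ, r.Prime → r ∣ D.2.2.2 → lev r ≤ t) ∧
        (∏ i, D.1 i) * D.2.1 = (∏ j, D.2.2.1 j) * D.2.2.2) →
      ∑ D ∈ F, (1 : ℝ) / (((∏ i, D.1 i) * D.2.1 : ℕ) : ℝ)
        ≤ Real.exp (((a : ℝ) + 1) * ((a' : ℝ) + 1) * (t + C₁)))
    (N : ℕ) (b b' : List ℕ) (F : Finset (List ℕ × ℕ × List ℕ × ℕ))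
    (hF : ∀ τ ∈ F, PairOK N b b' τ.1 τ.2.1 τ.2.2.1 τ.2.2.2) :
    ∑ d ∈ F.image (lowDatum N b.length b'.length), (1 : ℝ) / (lowV d : ℝ)
      ≤ Real.exp (((b.length : ℝ) + 1) * ((b'.length : ℝ) + 1) * (t0 N + C₁)) := by
  apply hlow (t0 N) b.length b'.length (F.image (lowDatum N b.length b'.length))
  · unfold t0; positivity
  · intro D hD
    obtain ⟨τ, hτ, rfl⟩ := mem_image.mp hD
    obtain ⟨h1, -, h3, h4, h5, h6⟩ := decomp (hF τ hτ)
    exact ⟨h3, h5, h4, h6, h1⟩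

/-- The peeling bound for `pdata`. -/
theorem AA_pdata (C₂ : ℝ) (hC₂ : 1 ≤ C₂) (N : ℕ) (b b' : List ℕ) (f : Fin b.length → ℕ) (g : Fin b'.length → ℕ)
    (hf : ∀ i, 1 ≤ f i) (hg : ∀ j, 1 ≤ g j)
    (hS : Peel.SieveHyp (pdata N b b' f g) (C₂ * ((N : ℝ) + 8) ^ 6) (pdata N b b' f g).lamA (pdata N b b' f g).lamB)
    (hbase : ∑ r ∈ (pdata N b b' f g).P, ∑ c : Fin b.length × Fin b'.length,
        (if (pdata N b b' f g).alive r c.1 c.2 then (pdata N b b' f g).u r / (r : ℕ) else 0)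
      ≤ (b'.map (fun c : ℕ => (c : ℝ) + 3 - t0 N)).sum)
    (I : Finset (Fin b.length)) (J : Finset (Fin b'.length)) :
    Peel.AA (pdata N b b' f g) I J
      ≤ Real.exp (((b.length : ℝ) + b'.length) * Real.log (C₂ * ((N : ℝ) + 8) ^ 6 * b.length * b'.length + 1)
          - (∑ i ∈ I, lamL N (b.get i)) - (∑ j ∈ J, lamL N (b'.get j))
          + (b'.map (fun c : ℕ => (c : ℝ) + 3 - t0 N)).sum) := by
  have hM : (1 : ℝ) ≤ C₂ * ((N : ℝ) + 8) ^ 6 := by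
    have : (1 : ℝ) ≤ ((N : ℝ) + 8) ^ 6 := one_le_pow₀ (by
      have : (0 : ℝ) ≤ N := Nat.cast_nonneg N
      linarith)
    nlinarith
  have h1 := Peel.AA_le (pdata N b b' f g) ⟨hf, hg⟩ _ hM _ _ hS I J
  have h2 := Peel.AA_empty_le (pdata N b b' f g)
  have h3 : Peel.AA (pdata N b b' f g) ∅ ∅ ≤ Real.exp ((b'.map (fun c : ℕ => (c : ℝ) + 3 - t0 N)).sum) :=
    h2.trans (Real.exp_le_exp.mpr hbase)
  refine h1.trans ?_
  simp only [Fintype.card_fin] at *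
  set x : ℝ := C₂ * ((N : ℝ) + 8) ^ 6 * b.length * b'.length + 1 with hx
  have hx1 : 1 ≤ x := by
    have : 0 ≤ C₂ * ((N : ℝ) + 8) ^ 6 * b.length * b'.length := by
      have : (0:ℝ) ≤ N := Nat.cast_nonneg N
      positivity
    linarith
  have hx0 : 0 < x := by linarith
  have hk : (I.card + J.card : ℕ) ≤ b.length + b'.length := by
    have h1 := Finset.card_le_univ I
    have h2 := Finset.card_le_univ J
    simp only [Fintype.card_fin] at h1 h2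
    omega
  have hpow : x ^ (I.card + J.card) ≤ Real.exp (((b.length : ℝ) + b'.length) * Real.log x) := by
    have h4 : x ^ (I.card + J.card) ≤ x ^ (b.length + b'.length) := pow_le_pow_right₀ hx1 hk
    have h5 : x ^ (b.length + b'.length) = Real.exp (((b.length : ℝ) + b'.length) * Real.log x) := by
      have := Real.exp_nat_mul (Real.log x) (b.length + b'.length)
      rw [Real.exp_log hx0] at this
      rw [← this]
      push_cast
      rfl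
    linarith
  have hnn : 0 ≤ Peel.AA (pdata N b b' f g) ∅ ∅ := by
    unfold Peel.AA
    apply Finset.sum_nonneg
    intro κ _
    split_ifs
    · unfold Peel.wt
      apply Finset.prod_nonneg
      intro r _
      split
      · norm_num
      · split_ifs
        · apply div_nonneg ((pdata N b b' f g).u0 _)
          positivity
        · exact le_rfl
    · exact le_rfl
  calc x ^ (I.card + J.card) * Real.exp (-(∑ i ∈ I, (pdata N b b' f g).lamA i) - ∑ j ∈ J, (pdata N b b' f g).lamB j) * Peel.AA (pdata N b b' f g) ∅ ∅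
      ≤ Real.exp (((b.length : ℝ) + b'.length) * Real.log x) * Real.exp (-(∑ i ∈ I, (pdata N b b' f g).lamA i) - ∑ j ∈ J, (pdata N b b' f g).lamB j) * Real.exp ((b'.map (fun c : ℕ => (c : ℝ) + 3 - t0 N)).sum) := by
        apply mul_le_mul _ h3 hnn (by positivity)
        apply mul_le_mul_of_nonneg_right hpow (Real.exp_pos _).le
    _ = _ := by
        rw [← Real.exp_add, ← Real.exp_add]
        congr 1
        show _ + (-(∑ i ∈ I, lamL N (b.get i)) - ∑ j ∈ J, lamL N (b'.get j)) + _ = _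
        ring

/-- (PM core). -/
theorem pm_core : ∃ N₀ : ℕ, ∀ N ≥ N₀, ∀ (b b' : List ℕ) (Ψ : ℝ) (F : Finset (List ℕ × ℕ × List ℕ × ℕ)), b ≠ [] →
    (∀ τ ∈ F, PairOK N b b' τ.1 τ.2.1 τ.2.2.1 τ.2.2.2 ∧ Th N 0 τ.1.tail ≤ Ψ) →
    ∑ τ ∈ F, (1 : ℝ) / ((rowsProd τ.1 * τ.2.1 : ℕ) : ℝ)
      ≤ Real.exp (-((b.headD 0 : ℕ) : ℝ) + Ψ + wd N / 4) := by
  obtain ⟨C₁, hC₁, hlow⟩ := low_sum
  obtain ⟨C₂, N₂, hC₂, hsieve⟩ := sieve_hyp
  obtain ⟨N₃, hcore⟩ := core_fixed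
  obtain ⟨N₄, hbase⟩ := base_bound
  obtain ⟨N₅, hrow⟩ := row_exp
  obtain ⟨N₆, herr⟩ := err_small C₁ C₂ hC₁.le (by linarith)
  obtain ⟨N₇, hsm⟩ := small_vs_N
  refine ⟨max N₂ (max N₃ (max N₄ (max N₅ (max N₆ N₇)))), fun N hN b b' Ψ F hb hF => ?_⟩
  have hN₂ : N ≥ N₂ := le_trans (le_max_left _ _) hN
  have hN₃ : N ≥ N₃ := le_trans (le_trans (le_max_left _ _) (le_max_right _ _)) hN
  have hN₄ : N ≥ N₄ := le_trans (le_trans (le_trans (le_max_left _ _) (le_max_right _ _)) (le_max_right _ _)) hN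
  have hN₅ : N ≥ N₅ := le_trans (le_trans (le_trans (le_trans (le_max_left _ _) (le_max_right _ _)) (le_max_right _ _)) (le_max_right _ _)) hN
  have hN₆ : N ≥ N₆ := le_trans (le_trans (le_trans (le_trans (le_trans (le_max_left _ _) (le_max_right _ _)) (le_max_right _ _)) (le_max_right _ _)) (le_max_right _ _)) hN
  have hN₇ : N ≥ N₇ := le_trans (le_trans (le_trans (le_trans (le_trans (le_max_right _ _) (le_max_right _ _)) (le_max_right _ _)) (le_max_right _ _)) (le_max_right _ _)) hN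
  rcases F.eq_empty_or_nonempty with rfl | ⟨τ₀, hτ₀⟩
  · simpa using (Real.exp_pos _).le
  obtain ⟨hok₀, hΨ₀⟩ := hF τ₀ hτ₀
  have hcb : τ₀.1.map (fun p => ⌊lev p⌋₊) = b := hok₀.cellsI
  have hcb' : τ₀.2.2.1.map (fun p => ⌊lev p⌋₊) = b' := hok₀.cellsJ
  have hla : b.length = τ₀.1.length := by rw [← hcb]; simp
  have hla' : b'.length = τ₀.2.2.1.length := by rw [← hcb']; simp
  have hI0 : τ₀.1 ≠ [] := by
    intro h; rw [h] at hcb; simp at hcb; exact hb hcb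
  have hlevI : ∀ p ∈ τ₀.1, t0 N ≤ lev p := fun p hp => (hok₀.normalI p hp).2.1
  have hlevJ : ∀ p ∈ τ₀.2.2.1, t0 N ≤ lev p := fun p hp => (hok₀.normalJ p hp).2.1
  have ht0 : 0 ≤ t0 N := by unfold t0; positivity
  have hb'c : ∀ c ∈ b', t0 N ≤ (c : ℝ) + 1 := by
    intro c hc
    rw [← hcb'] at hc
    obtain ⟨q, hq, rfl⟩ := List.mem_map.mp hc
    have h1 := hlevJ q hq
    have h2 := (Nat.lt_floor_add_one (lev q)).le
    linarith
  set a := b.length with ha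
  set a' := b'.length with ha'
  set S₁ := ∑ i ∈ actI N b, lamL N (b.get i) with hS₁
  set S₂ := ∑ j ∈ actI N b', lamL N (b'.get j) with hS₂
  set base := (b'.map (fun c : ℕ => (c : ℝ) + 3 - t0 N)).sum with hbasedef
  set X : ℝ := ((a : ℝ) + a') * Real.log (C₂ * ((N : ℝ) + 8) ^ 6 * a * a' + 1) - S₁ - S₂ + base with hX
  -- bound in one fibre
  have hfib : ∀ d ∈ F.image (lowDatum N a a'),
      ∑ τ ∈ F.filter (fun τ => lowDatum N a a' τ = d), (1 : ℝ) / ((rowsProd τ.1 * τ.2.1 : ℕ) : ℝ)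
        ≤ (1 / (lowV d : ℝ)) * Real.exp (ThT N 0 b.tail + errT N + X) := by
    intro d hd
    obtain ⟨τd, hτd, hτdd⟩ := mem_image.mp hd
    have hdec := decomp (hF τd hτd).1
    have hf : ∀ i, 1 ≤ d.1 i := by
      intro i
      have := (hdec.2.2.1 i).1
      rw [← hτdd]
      exact Nat.one_le_iff_ne_zero.mpr this
    have hg : ∀ j, 1 ≤ d.2.2.1 j := by
      intro j
      have := (hdec.2.2.2.1 j).1
      rw [← hτdd]
      exact Nat.one_le_iff_ne_zero.mpr this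
    have hcore' := hcore N hN₃ b b' d.1 d.2.2.1 d.2.1 d.2.2.2 (F.filter (fun τ => lowDatum N a a' τ = d)) (by
      intro τ hτ
      obtain ⟨hτF, hτe⟩ := mem_filter.mp hτ
      refine ⟨(hF τ hτF).1, ?_, ?_, ?_, ?_⟩
      · rw [← hτe]; rfl
      · rw [← hτe]; rfl
      · intro i; rw [← hτe]; rfl
      · intro j; rw [← hτe]; rfl)
    have hAA := AA_pdata C₂ hC₂ N b b' d.1 d.2.2.1 hf hg (hsieve N hN₂ b b' _ _) (hbase N hN₄ b b' _ _ hb'c) (actI N b) (actI N b')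
    have hsplit : ∀ τ ∈ F.filter (fun τ => lowDatum N a a' τ = d),
        (1 : ℝ) / ((rowsProd τ.1 * τ.2.1 : ℕ) : ℝ) = (1 / (lowV d : ℝ)) * (1 / (rr N (rowsProd τ.1 * τ.2.1) : ℝ)) := by
      intro τ hτ
      obtain ⟨hτF, hτe⟩ := mem_filter.mp hτ
      have hdecτ := decomp (hF τ hτF).1
      have h2 := hdecτ.2.1
      have hV : lowV d = (∏ i : Fin b.length, sm N (τ.1.getD i 0 - 1)) * τ.2.1 := by
        rw [← hτe]; rfl
      rw [← hV] at h2
      have : ((rowsProd τ.1 * τ.2.1 : ℕ) : ℝ) = (lowV d : ℝ) * (rr N (rowsProd τ.1 * τ.2.1) : ℝ) := by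
        exact_mod_cast h2
      rw [this, one_div_mul_one_div]
    rw [sum_congr rfl hsplit, ← mul_sum]
    apply mul_le_mul_of_nonneg_left _ (by positivity)
    refine hcore'.trans ?_
    rw [Real.exp_add (ThT N 0 b.tail + errT N) X]
    exact mul_le_mul_of_nonneg_left hAA (Real.exp_pos _).le
  -- sum over fibres
  have hsumF : ∑ τ ∈ F, (1 : ℝ) / ((rowsProd τ.1 * τ.2.1 : ℕ) : ℝ)
      = ∑ d ∈ F.image (lowDatum N a a'), ∑ τ ∈ F.filter (fun τ => lowDatum N a a' τ = d),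
          (1 : ℝ) / ((rowsProd τ.1 * τ.2.1 : ℕ) : ℝ) :=
    (Finset.sum_fiberwise_of_maps_to (fun τ hτ => mem_image_of_mem _ hτ) _).symm
  rw [hsumF]
  refine (sum_le_sum hfib).trans ?_
  rw [← sum_mul]
  have hlowS := low_data_sum C₁ (fun t a a' F => hlow t a a' F) N b b' F (fun τ hτ => (hF τ hτ).1)
  have hla₁ : a ≤ U0 N + 1 := by rw [hla]; exact hok₀.lenI
  have hla₂ : a' ≤ U0 N + 1 := by rw [hla']; exact hok₀.lenJ
  have hE := herr N hN₆ a a' hla₁ hla₂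
  have hR := hrow N hN₅ τ₀.1 hI0 hlevI
  rw [hcb] at hR
  have hC := col_exp N b' (hsm N hN₇).1
  have hτ0 := (hsm N hN₇).1
  have hlogpos : 0 ≤ Real.log (C₂ * ((N : ℝ) + 8) ^ 6 * (a + 1) * (a' + 1)) := by
    apply Real.log_nonneg
    have h1 : (1 : ℝ) ≤ ((N : ℝ) + 8) ^ 6 := one_le_pow₀ (by
      have : (0 : ℝ) ≤ N := Nat.cast_nonneg N
      linarith)
    have h2 : (1 : ℝ) ≤ (a : ℝ) + 1 := by
      have : (0 : ℝ) ≤ a := Nat.cast_nonneg a
      linarith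
    have h3 : (1 : ℝ) ≤ (a' : ℝ) + 1 := by
      have : (0 : ℝ) ≤ a' := Nat.cast_nonneg a'
      linarith
    have h4 : (1:ℝ) ≤ C₂ * ((N : ℝ) + 8) ^ 6 := by nlinarith
    have h5 : (1:ℝ) ≤ C₂ * ((N : ℝ) + 8) ^ 6 * (a + 1) := by nlinarith
    nlinarith
  have hfinal : ((a : ℝ) + 1) * ((a' : ℝ) + 1) * (t0 N + C₁) + (ThT N 0 b.tail + errT N + X)
      ≤ -((b.headD 0 : ℕ) : ℝ) + Ψ + wd N / 4 := by
    rw [hX]
    have hla₃ : (τ₀.1.length : ℝ) = a := by rw [hla]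
    rw [hla₃] at hR
    nlinarith [hE, hR, hC, hΨ₀, hτ0, hlogpos]
  calc (∑ d ∈ F.image (lowDatum N a a'), 1 / (lowV d : ℝ)) * Real.exp (ThT N 0 b.tail + errT N + X)
      ≤ Real.exp (((a : ℝ) + 1) * ((a' : ℝ) + 1) * (t0 N + C₁)) * Real.exp (ThT N 0 b.tail + errT N + X) :=
        mul_le_mul_of_nonneg_right hlowS (Real.exp_pos _).le
    _ = Real.exp (((a : ℝ) + 1) * ((a' : ℝ) + 1) * (t0 N + C₁) + (ThT N 0 b.tail + errT N + X)) :=
        (Real.exp_add _ _).symm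
    _ ≤ _ := Real.exp_le_exp.mpr hfinal

/-- A member of a list divides the product of the rows. -/
theorem sub_one_dvd_rowsProd_D {l : List ℕ} {p : ℕ} (hp : p ∈ l) : p - 1 ∣ rowsProd l :=
  List.dvd_prod (List.mem_map.mpr ⟨p, hp, rfl⟩)

theorem rowsProd_ne_zero_D {l : List ℕ} (h : ∀ p ∈ l, 2 ≤ p) : rowsProd l ≠ 0 := by
  unfold rowsProd
  apply List.prod_ne_zero
  intro h0
  obtain ⟨p, hp, hp0⟩ := List.mem_map.mp h0
  have := h p hp
  omega

/-- The level of a row is controlled by `Y`. -/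
theorem lev_le_levR {p : ℕ} {Y : ℝ} (hp : 2 ≤ p) (hY : 1 ≤ Real.log Y) (hY0 : 0 < Y) (h : (p : ℝ) - 1 ≤ Y) :
    lev p ≤ levR Y + 1 := by
  have hY1 : 1 ≤ Y := by
    by_contra hlt
    push Not at hlt
    have : Real.log Y < 0 := Real.log_neg hY0 hlt
    linarith
  have hp2 : (2 : ℝ) ≤ p := by exact_mod_cast hp
  have hp0 : (0 : ℝ) < p := by linarith
  have h2Y : (p : ℝ) ≤ 2 * Y := by linarith
  have hlogp : Real.log p ≤ Real.log 2 + Real.log Y := by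
    have := Real.log_le_log hp0 h2Y
    rwa [Real.log_mul (by norm_num) (by linarith)] at this
  have hlog2 : Real.log 2 ≤ 1 := by
    have := Real.log_two_lt_d9
    linarith
  have hlogp2 : Real.log p ≤ Real.exp 1 * Real.log Y := by
    have h3 : (2 : ℝ) ≤ Real.exp 1 := by
      have := Real.add_one_le_exp (1 : ℝ)
      linarith
    nlinarith
  have hlogp0 : 0 < Real.log p := Real.log_pos (by linarith)
  have hlogY0 : 0 < Real.log Y := by linarith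
  unfold lev levR
  have h4 := Real.log_le_log hlogp0 hlogp2
  rw [Real.log_mul (Real.exp_pos 1).ne' hlogY0.ne', Real.log_exp] at h4
  linarith

/-- The head of a nonempty list as an entry. -/
theorem exists_get_head {b : List ℕ} (hb : b ≠ []) : ∃ i : Fin b.length, b.get i = b.headD 0 := by
  cases b with
  | nil => exact absurd rfl hb
  | cons c bs => exact ⟨⟨0, by simp⟩, by simp⟩

/-- The product of a tuple is at least one; `Y` is large. -/
theorem pc_Y_large {N : ℕ} {b b' I J : List ℕ} {l₁ l₂ : ℕ} {Y : ℝ} (hok : PairOK N b b' I l₁ J l₂)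
    (hle : ((rowsProd I * l₁ : ℕ) : ℝ) ≤ Y) (hpos : 0 < levR Y) :
    0 < rowsProd I * l₁ ∧ 1 ≤ Y ∧ 1 ≤ Real.log Y := by
  have hprodne : rowsProd I ≠ 0 := rowsProd_ne_zero_D (fun p hp => (hok.normalI p hp).1.two_le)
  have hl₁ne : l₁ ≠ 0 := (decomp hok).2.2.2.2.1.1
  have h0 : 0 < rowsProd I * l₁ := Nat.pos_of_ne_zero (mul_ne_zero hprodne hl₁ne)
  have hv1 : (1 : ℝ) ≤ Y := by
    have h1 : (1 : ℝ) ≤ ((rowsProd I * l₁ : ℕ) : ℝ) := by exact_mod_cast h0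
    linarith
  refine ⟨h0, hv1, ?_⟩
  have hne : Real.log Y ≠ 0 := by
    intro h0
    unfold levR at hpos
    rw [h0, Real.log_zero] at hpos
    exact lt_irrefl _ hpos
  have hlog0 : 0 < Real.log Y := lt_of_le_of_ne (Real.log_nonneg hv1) (Ne.symm hne)
  have h1 : Real.log Y = Real.exp (levR Y) := by
    unfold levR; rw [Real.exp_log hlog0]
  rw [h1]
  exact Real.one_le_exp hpos.le

/-- The cells are below `levR Y + 1`. -/
theorem pc_cells {N : ℕ} {b b' I J : List ℕ} {l₁ l₂ : ℕ} {Y : ℝ} (hok : PairOK N b b' I l₁ J l₂)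
    (hle : ((rowsProd I * l₁ : ℕ) : ℝ) ≤ Y) (hpos : 0 < levR Y) :
    (∀ c ∈ b, (c : ℝ) ≤ levR Y + 1) ∧ (∀ c ∈ b', (c : ℝ) ≤ levR Y + 1) := by
  obtain ⟨h0, hv1, hlogY⟩ := pc_Y_large hok hle hpos
  have hY0' : 0 < Y := by linarith
  have ht0 : 0 ≤ t0 N := by unfold t0; positivity
  have key : ∀ p : ℕ, 2 ≤ p → t0 N ≤ lev p → p - 1 ∣ rowsProd I * l₁ → ((⌊lev p⌋₊ : ℕ) : ℝ) ≤ levR Y + 1 := by
    intro p hp2 hlevp hd
    have hle' := Nat.le_of_dvd h0 hd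
    have hle2 : ((p - 1 : ℕ) : ℝ) ≤ ((rowsProd I * l₁ : ℕ) : ℝ) := by exact_mod_cast hle'
    rw [Nat.cast_sub (by omega), Nat.cast_one] at hle2
    have h1 := lev_le_levR hp2 hlogY hY0' (by linarith)
    have h2 : ((⌊lev p⌋₊ : ℕ) : ℝ) ≤ lev p := Nat.floor_le (le_trans ht0 hlevp)
    linarith
  constructor
  · intro c hc
    rw [← hok.cellsI] at hc
    obtain ⟨p, hp, rfl⟩ := List.mem_map.mp hc
    exact key p (hok.normalI p hp).1.two_le (hok.normalI p hp).2.1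
      (Dvd.dvd.mul_right (sub_one_dvd_rowsProd_D hp) _)
  · intro c hc
    rw [← hok.cellsJ] at hc
    obtain ⟨p, hp, rfl⟩ := List.mem_map.mp hc
    refine key p (hok.normalJ p hp).1.two_le (hok.normalJ p hp).2.1 ?_
    rw [hok.eq]
    exact Dvd.dvd.mul_right (sub_one_dvd_rowsProd_D hp) _

/-- The largest prime of a configuration lies in an active cell. -/
theorem pc_hI {N : ℕ} {b b' : List ℕ} {f : Fin b.length → ℕ} {g : Fin b'.length → ℕ} {i₀ : Fin b.length}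
    (hi₀ : i₀ ∈ actI N b) (lam : ℝ) (hlam1 : lam ≤ lamL N (b.get i₀)) (hlam2 : t0 N + 3 * tauN N + 1 ≤ lam) :
    ∀ κ : Peel.Conf (pdata N b b' f g), Peel.Ind (pdata N b b' f g) (actI N b) (actI N b') κ →
      (∀ r c, κ r = some c → (pdata N b b' f g).alive r c.1 c.2) →
      ∀ (r : {r // r ∈ (pdata N b b' f g).P}), (κ r).isSome →
      (∀ s : {r // r ∈ (pdata N b b' f g).P}, (κ s).isSome → (s : ℕ) ≤ r) → lam ≤ lev (r : ℕ) ∧
      ∃ i j, κ r = some (i, j) ∧ i ∈ actI N b ∧ j ∈ actI N b' := by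
  intro κ hInd halive r hr hmax
  obtain ⟨hrow', -, -⟩ := hInd
  obtain ⟨⟨r₀, j₀, hr₀, hl₀⟩, -, -⟩ := hrow' i₀ hi₀
  have hr₀some : (κ r₀).isSome := by rw [hr₀]; rfl
  have hr₀le := hmax r₀ hr₀some
  have hr₀prime : Nat.Prime (r₀ : ℕ) := (pdata N b b' f g).primeP _ r₀.2
  have hlamle : lam ≤ lev (r : ℕ) := by
    have h1 : lam ≤ (pdata N b b' f g).lamA i₀ := hlam1
    have h2 : lev (r₀ : ℕ) ≤ lev (r : ℕ) := lev_mono hr₀prime.two_le hr₀le
    linarith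
  refine ⟨hlamle, ?_⟩
  obtain ⟨c, hc⟩ := Option.isSome_iff_exists.mp hr
  obtain ⟨hal1, hal2⟩ := halive r c hc
  refine ⟨c.1, c.2, hc, ?_, ?_⟩
  · simp only [actI, mem_filter, mem_univ, true_and]
    linarith
  · simp only [actI, mem_filter, mem_univ, true_and]
    linarith

/-- The sum over the cells of the peeling sums with one row and column removed. -/
theorem pc_cells_sum (C₂ : ℝ) (hC₂ : 1 ≤ C₂) (N : ℕ) (b b' : List ℕ) (f : Fin b.length → ℕ) (g : Fin b'.length → ℕ)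
    (hf : ∀ i, 1 ≤ f i) (hg : ∀ j, 1 ≤ g j)
    (hS : Peel.SieveHyp (pdata N b b' f g) (C₂ * ((N : ℝ) + 8) ^ 6) (pdata N b b' f g).lamA (pdata N b b' f g).lamB)
    (hbase : ∑ r ∈ (pdata N b b' f g).P, ∑ c : Fin b.length × Fin b'.length,
        (if (pdata N b b' f g).alive r c.1 c.2 then (pdata N b b' f g).u r / (r : ℕ) else 0)
      ≤ (b'.map (fun c : ℕ => (c : ℝ) + 3 - t0 N)).sum)
    (L : ℝ) (hL : ∀ c ∈ b, lamL N c ≤ L) (hL' : ∀ c ∈ b', lamL N c ≤ L) :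
    ∑ c : Fin b.length × Fin b'.length, (if c.1 ∈ actI N b ∧ c.2 ∈ actI N b' then
        Peel.AA (pdata N b b' f g) ((actI N b).erase c.1) ((actI N b').erase c.2) else 0)
      ≤ ((b.length : ℝ) + 1) * ((b'.length : ℝ) + 1) *
        Real.exp (((b.length : ℝ) + b'.length) * Real.log (C₂ * ((N : ℝ) + 8) ^ 6 * b.length * b'.length + 1)
          - (∑ i ∈ actI N b, lamL N (b.get i)) - (∑ j ∈ actI N b', lamL N (b'.get j))
          + (b'.map (fun c : ℕ => (c : ℝ) + 3 - t0 N)).sum + 2 * L) := by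
  set Z₀ : ℝ := ((b.length : ℝ) + b'.length) * Real.log (C₂ * ((N : ℝ) + 8) ^ 6 * b.length * b'.length + 1)
          - (∑ i ∈ actI N b, lamL N (b.get i)) - (∑ j ∈ actI N b', lamL N (b'.get j))
          + (b'.map (fun c : ℕ => (c : ℝ) + 3 - t0 N)).sum + 2 * L with hZ₀
  have hcell : ∀ c : Fin b.length × Fin b'.length, (if c.1 ∈ actI N b ∧ c.2 ∈ actI N b' then
      Peel.AA (pdata N b b' f g) ((actI N b).erase c.1) ((actI N b').erase c.2) else 0) ≤ Real.exp Z₀ := by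
    intro c
    split_ifs with hcc
    · refine (AA_pdata C₂ hC₂ N b b' f g hf hg hS hbase _ _).trans ?_
      apply Real.exp_le_exp.mpr
      have h1 : ∑ i ∈ (actI N b).erase c.1, lamL N (b.get i)
          = (∑ i ∈ actI N b, lamL N (b.get i)) - lamL N (b.get c.1) := by
        rw [← Finset.sum_erase_add _ _ hcc.1]
        ring
      have h2 : ∑ j ∈ (actI N b').erase c.2, lamL N (b'.get j)
          = (∑ j ∈ actI N b', lamL N (b'.get j)) - lamL N (b'.get c.2) := by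
        rw [← Finset.sum_erase_add _ _ hcc.2]
        ring
      rw [h1, h2, hZ₀]
      have h3 := hL _ (List.get_mem b c.1)
      have h4 := hL' _ (List.get_mem b' c.2)
      linarith
    · exact (Real.exp_pos _).le
  refine (sum_le_sum (fun c _ => hcell c)).trans ?_
  rw [sum_const, card_univ, Fintype.card_prod, Fintype.card_fin, Fintype.card_fin, nsmul_eq_mul]
  push_cast
  apply mul_le_mul_of_nonneg_right _ (Real.exp_pos _).le
  have h1 : (0 : ℝ) ≤ b.length := Nat.cast_nonneg _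
  have h2 : (0 : ℝ) ≤ b'.length := Nat.cast_nonneg _
  nlinarith

/-- One fibre. -/
theorem pc_fibre (C₂ C₃ : ℝ) (hC₂ : 1 ≤ C₂) (hC₃ : 1 ≤ C₃) (N : ℕ) (hN : (20 : ℝ) ≤ N) (b b' : List ℕ)
    (f : Fin b.length → ℕ) (g : Fin b'.length → ℕ) (hf : ∀ i, 1 ≤ f i) (hg : ∀ j, 1 ≤ g j)
    (hS : Peel.SieveHyp (pdata N b b' f g) (C₂ * ((N : ℝ) + 8) ^ 6) (pdata N b b' f g).lamA (pdata N b b' f g).lamB)
    (hbase : ∑ r ∈ (pdata N b b' f g).P, ∑ c : Fin b.length × Fin b'.length,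
        (if (pdata N b b' f g).alive r c.1 c.2 then (pdata N b b' f g).u r / (r : ℕ) else 0)
      ≤ (b'.map (fun c : ℕ => (c : ℝ) + 3 - t0 N)).sum)
    (Y' lam L : ℝ) (hY'pos : 0 < Y')
    (hS3 : ∀ (Z : ℝ) (F F' : ℕ), 0 < Z → Z ≤ Y' → 1 ≤ F → 1 ≤ F' → F ≠ F' →
      F ≤ (pdata N b b' f g).Fm → F' ≤ (pdata N b b' f g).Fm →
      ((((pdata N b b' f g).P).filter (fun R : ℕ => (R : ℝ) ≤ Z ∧ lam ≤ lev R ∧ (1 + R * F).Prime ∧ (1 + R * F').Prime)).card : ℝ)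
        ≤ (C₃ * ((N : ℝ) + 8) ^ 6 * Real.exp (-(3 * lam))) * Z)
    {i₀ : Fin b.length} (hi₀ : i₀ ∈ actI N b) (hlam1 : lam ≤ lamL N (b.get i₀)) (hlam2 : t0 N + 3 * tauN N + 1 ≤ lam)
    (hL : ∀ c ∈ b, lamL N c ≤ L) (hL' : ∀ c ∈ b', lamL N c ≤ L) :
    ∑ κ : Peel.Conf (pdata N b b' f g), (if Peel.Ind (pdata N b b' f g) (actI N b) (actI N b') κ ∧
          (Peel.KK (pdata N b b' f g) κ : ℝ) ≤ Y' ∧ ∃ r, (κ r).isSome
        then Peel.wtU (pdata N b b' f g) κ else 0)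
      ≤ (C₃ * ((N : ℝ) + 8) ^ 6 * Real.exp (-(3 * lam))) * Y' * (((b.length : ℝ) + 1) * ((b'.length : ℝ) + 1) *
        Real.exp (((b.length : ℝ) + b'.length) * Real.log (C₂ * ((N : ℝ) + 8) ^ 6 * b.length * b'.length + 1)
          - (∑ i ∈ actI N b, lamL N (b.get i)) - (∑ j ∈ actI N b', lamL N (b'.get j))
          + (b'.map (fun c : ℕ => (c : ℝ) + 3 - t0 N)).sum + 2 * L)) := by
  have hN8 : (1 : ℝ) ≤ ((N : ℝ) + 8) ^ 6 := one_le_pow₀ (by linarith)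
  have hM₃0 : 0 ≤ C₃ * ((N : ℝ) + 8) ^ 6 * Real.exp (-(3 * lam)) := by
    have : 0 ≤ C₃ := by linarith
    positivity
  have hct := Peel.count_top (pdata N b b' f g) ⟨hf, hg⟩ _ Y' lam hY'pos hM₃0 (actI N b) (actI N b') hS3
    (pc_hI hi₀ lam hlam1 hlam2)
  refine hct.trans (mul_le_mul_of_nonneg_left ?_ (mul_nonneg hM₃0 hY'pos.le))
  refine le_trans (le_of_eq ?_) (pc_cells_sum C₂ hC₂ N b b' f g hf hg hS hbase L hL hL')
  apply Finset.sum_congr rfl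
  intro c _
  have he : ∀ {α : Type} (i1 i2 : DecidableEq α) (s : Finset α) (x : α),
      @Finset.erase α i1 s x = @Finset.erase α i2 s x := by
    intro α i1 i2 s x
    rw [Subsingleton.elim i1 i2]
  by_cases h : c.1 ∈ actI N b ∧ c.2 ∈ actI N b'
  · rw [if_pos h, if_pos h]
    exact congrArg₂ (Peel.AA (pdata N b b' f g)) (he _ _ _ _) (he _ _ _ _)
  · rw [if_neg h, if_neg h]

/-- Rearranging exponentials. -/
theorem exp_rearrange (X₁ T lam Z Y C d P : ℝ) (hP : P = C * d) (hP0 : 0 < P) :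
    Real.exp X₁ * (Y * (Real.exp T * ((C * Real.exp (-(3 * lam))) * (d * Real.exp Z))))
      = Y * Real.exp (X₁ + T + Real.log P - 3 * lam + Z) := by
  have h1 : X₁ + T + Real.log P - 3 * lam + Z = X₁ + T + Real.log P + (-(3 * lam)) + Z := by ring
  rw [h1, Real.exp_add, Real.exp_add, Real.exp_add, Real.exp_add, Real.exp_log hP0, hP]
  ring

/-- The final arithmetic of the count. -/
theorem pc_exponent (N : ℕ) (C₁ C₂ C₃ : ℝ) (hC₂ : 1 ≤ C₂) (hC₃ : 1 ≤ C₃) (hN : (20 : ℝ) ≤ N) (a a' : ℕ) (t S₁ S₂ base levY b₀ Th' ThT' Ψ w : ℝ)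
    (hE : ((a : ℝ) + 1) * ((a' : ℝ) + 1) * (t0 N + C₁) + errT N
      + ((a : ℝ) + a') * Real.log (C₂ * C₃ * ((N : ℝ) + 8) ^ 6 * a * a' + 1)
      + (a : ℝ) * (3 * t + 2) + (a' : ℝ) * (3 * t + 3) + t0 N + 12 * t + Real.log (C₂ * C₃ * ((N : ℝ) + 8) ^ 6 * (a + 1) * (a' + 1)) + 20
      ≤ w / 4)
    (hR : ThT' - S₁ ≤ -b₀ + Th' + (a : ℝ) * (3 * t + 2) + t0 N + 3 * t)
    (hC : base - S₂ ≤ (a' : ℝ) * (3 * t + 3))
    (hΨ : Th' ≤ Ψ) (hb₀ : levY - 2 ≤ b₀) :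
    ((a : ℝ) + 1) * ((a' : ℝ) + 1) * (t0 N + C₁) + (ThT' + errT N)
      + Real.log (C₃ * ((N : ℝ) + 8) ^ 6 * ((a : ℝ) + 1) * ((a' : ℝ) + 1)) - 3 * (b₀ - 3 * t)
      + (((a : ℝ) + a') * Real.log (C₂ * ((N : ℝ) + 8) ^ 6 * a * a' + 1) - S₁ - S₂ + base + 2 * (levY + 1))
      ≤ -(2 * levY) + Ψ + w / 4 := by
  have ha0 : (0 : ℝ) ≤ a := Nat.cast_nonneg a
  have ha0' : (0 : ℝ) ≤ a' := Nat.cast_nonneg a'
  have hN8 : (1 : ℝ) ≤ ((N : ℝ) + 8) ^ 6 := one_le_pow₀ (by linarith)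
  have hlog3 : Real.log (C₃ * ((N : ℝ) + 8) ^ 6 * ((a : ℝ) + 1) * ((a' : ℝ) + 1))
      ≤ Real.log (C₂ * C₃ * ((N : ℝ) + 8) ^ 6 * ((a : ℝ) + 1) * ((a' : ℝ) + 1)) := by
    have hC₃0 : 0 < C₃ := by linarith
    apply Real.log_le_log (by positivity)
    have h0 : 0 ≤ C₃ * ((N : ℝ) + 8) ^ 6 * ((a : ℝ) + 1) * ((a' : ℝ) + 1) := by positivity
    have h1 : C₂ * C₃ * ((N : ℝ) + 8) ^ 6 * ((a : ℝ) + 1) * ((a' : ℝ) + 1)
        = C₂ * (C₃ * ((N : ℝ) + 8) ^ 6 * ((a : ℝ) + 1) * ((a' : ℝ) + 1)) := by ring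
    rw [h1]
    nlinarith
  have hlogx : Real.log (C₂ * ((N : ℝ) + 8) ^ 6 * a * a' + 1) ≤ Real.log (C₂ * C₃ * ((N : ℝ) + 8) ^ 6 * a * a' + 1) := by
    have hC₂0 : 0 < C₂ := by linarith
    apply Real.log_le_log (by positivity)
    have h0 : 0 ≤ C₂ * ((N : ℝ) + 8) ^ 6 * a * a' := by positivity
    have h1 : C₂ * C₃ * ((N : ℝ) + 8) ^ 6 * a * a' = C₃ * (C₂ * ((N : ℝ) + 8) ^ 6 * a * a') := by ring
    rw [h1]
    nlinarith
  have hlogmul : ((a : ℝ) + a') * Real.log (C₂ * ((N : ℝ) + 8) ^ 6 * a * a' + 1)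
      ≤ ((a : ℝ) + a') * Real.log (C₂ * C₃ * ((N : ℝ) + 8) ^ 6 * a * a' + 1) :=
    mul_le_mul_of_nonneg_left hlogx (by positivity)
  linarith

/-- (PC core). -/
theorem pc_core : ∃ N₀ : ℕ, ∀ N ≥ N₀, ∀ (b b' : List ℕ) (Ψ Y : ℝ) (F : Finset (List ℕ × ℕ × List ℕ × ℕ)), b ≠ [] →
    0 ≤ Y → (N : ℝ) - 4 ≤ levR Y → levR Y ≤ (N : ℝ) + 4 → levR Y - 2 ≤ ((b.headD 0 : ℕ) : ℝ) →
    (∀ τ ∈ F, PairOK N b b' τ.1 τ.2.1 τ.2.2.1 τ.2.2.2 ∧ Th N 0 τ.1.tail ≤ Ψ ∧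
      ((rowsProd τ.1 * τ.2.1 : ℕ) : ℝ) ≤ Y) →
    (F.card : ℝ) ≤ Y * Real.exp (-(2 * levR Y) + Ψ + wd N / 4) := by
  obtain ⟨C₁, hC₁, hlow⟩ := low_sum
  obtain ⟨C₂, N₂, hC₂, hsieve⟩ := sieve_hyp
  obtain ⟨C₃, N₃', hC₃, htop⟩ := top_count
  obtain ⟨N₃, hcount⟩ := count_fixed
  obtain ⟨N₄, hbase⟩ := base_bound
  obtain ⟨N₅, hrow⟩ := row_exp
  obtain ⟨N₆, herr⟩ := err_small C₁ (C₂ * C₃) hC₁.le (by nlinarith)
  obtain ⟨N₇, hsm⟩ := small_vs_N
  refine ⟨max N₂ (max N₃ (max N₄ (max N₅ (max N₆ (max N₇ (max N₃' 20)))))),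
    fun N hN b b' Ψ Y F hb hY0 hY1 hY2 hY3 hF => ?_⟩
  have hN₂ : N ≥ N₂ := le_trans (le_max_left _ _) hN
  have hN' := le_trans (le_max_right _ _) hN
  have hN₃ : N ≥ N₃ := le_trans (le_max_left _ _) hN'
  have hN' := le_trans (le_max_right _ _) hN'
  have hN₄ : N ≥ N₄ := le_trans (le_max_left _ _) hN'
  have hN' := le_trans (le_max_right _ _) hN'
  have hN₅ : N ≥ N₅ := le_trans (le_max_left _ _) hN'
  have hN' := le_trans (le_max_right _ _) hN'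
  have hN₆ : N ≥ N₆ := le_trans (le_max_left _ _) hN'
  have hN' := le_trans (le_max_right _ _) hN'
  have hN₇ : N ≥ N₇ := le_trans (le_max_left _ _) hN'
  have hN' := le_trans (le_max_right _ _) hN'
  have hN₃' : N ≥ N₃' := le_trans (le_max_left _ _) hN'
  have hN20 : 20 ≤ N := le_trans (le_max_right _ _) hN'
  rcases F.eq_empty_or_nonempty with rfl | ⟨τ₀, hτ₀⟩
  · simpa using mul_nonneg hY0 (Real.exp_pos _).le
  obtain ⟨hok₀, hΨ₀, hle₀⟩ := hF τ₀ hτ₀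
  obtain ⟨hτ0, hsm1, hsm2⟩ := hsm N hN₇
  have hNR : (20 : ℝ) ≤ N := by exact_mod_cast hN20
  have ht0 : 0 ≤ t0 N := by unfold t0; positivity
  have hposY : 0 < levR Y := by linarith
  obtain ⟨-, hv1, hlogY⟩ := pc_Y_large hok₀ hle₀ hposY
  have hY0' : 0 < Y := by linarith
  obtain ⟨hcellI, hcellJ⟩ := pc_cells hok₀ hle₀ hposY
  have hcb : τ₀.1.map (fun p => ⌊lev p⌋₊) = b := hok₀.cellsI
  have hcb' : τ₀.2.2.1.map (fun p => ⌊lev p⌋₊) = b' := hok₀.cellsJ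
  have hla : b.length = τ₀.1.length := by rw [← hcb]; simp
  have hla' : b'.length = τ₀.2.2.1.length := by rw [← hcb']; simp
  have hI0 : τ₀.1 ≠ [] := by
    intro h; rw [h] at hcb; simp at hcb; exact hb hcb
  have hlevI : ∀ p ∈ τ₀.1, t0 N ≤ lev p := fun p hp => (hok₀.normalI p hp).2.1
  have hlevJ : ∀ p ∈ τ₀.2.2.1, t0 N ≤ lev p := fun p hp => (hok₀.normalJ p hp).2.1
  have hb'c : ∀ c ∈ b', t0 N ≤ (c : ℝ) + 1 := by
    intro c hc
    rw [← hcb'] at hc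
    obtain ⟨q, hq, rfl⟩ := List.mem_map.mp hc
    have h1 := hlevJ q hq
    have h2 := (Nat.lt_floor_add_one (lev q)).le
    linarith
  obtain ⟨i₀, hi₀⟩ := exists_get_head hb
  have hb₀N : (N : ℝ) - 6 ≤ ((b.headD 0 : ℕ) : ℝ) := by linarith
  have hi₀act : i₀ ∈ actI N b := by
    simp only [actI, mem_filter, mem_univ, true_and]
    rw [hi₀]
    linarith
  have hlam1 : ((b.headD 0 : ℕ) : ℝ) - 3 * tauN N ≤ lamL N (b.get i₀) := by
    rw [hi₀]
    exact le_max_left _ _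
  have hlam2 : t0 N + 3 * tauN N + 1 ≤ ((b.headD 0 : ℕ) : ℝ) - 3 * tauN N := by linarith
  have hlamN : (N : ℝ) / 2 ≤ ((b.headD 0 : ℕ) : ℝ) - 3 * tauN N := by linarith
  have hlamL : ∀ c ∈ b, lamL N c ≤ levR Y + 1 := by
    intro c hc
    apply max_le
    · have := hcellI c hc
      linarith
    · linarith
  have hlamL' : ∀ c ∈ b', lamL N c ≤ levR Y + 1 := by
    intro c hc
    apply max_le
    · have := hcellJ c hc
      linarith
    · linarith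
  -- bound in one fibre
  have hfib : ∀ d ∈ F.image (lowDatum N b.length b'.length),
      ((F.filter (fun τ => lowDatum N b.length b'.length τ = d)).card : ℝ)
        ≤ (1 / (lowV d : ℝ)) * (Y * (Real.exp (ThT N 0 b.tail + errT N) * ((C₃ * ((N : ℝ) + 8) ^ 6 * Real.exp (-(3 * (((b.headD 0 : ℕ) : ℝ) - 3 * tauN N)))) * (((b.length : ℝ) + 1) * ((b'.length : ℝ) + 1) *
        Real.exp (((b.length : ℝ) + b'.length) * Real.log (C₂ * ((N : ℝ) + 8) ^ 6 * b.length * b'.length + 1)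
          - (∑ i ∈ actI N b, lamL N (b.get i)) - (∑ j ∈ actI N b', lamL N (b'.get j))
          + (b'.map (fun c : ℕ => (c : ℝ) + 3 - t0 N)).sum + 2 * (levR Y + 1)))))) := by
    intro d hd
    obtain ⟨τd, hτd, hτdd⟩ := mem_image.mp hd
    have hdec := decomp (hF τd hτd).1
    have hf : ∀ i, 1 ≤ d.1 i := by
      intro i
      have := (hdec.2.2.1 i).1
      rw [← hτdd]
      exact Nat.one_le_iff_ne_zero.mpr this
    have hg : ∀ j, 1 ≤ d.2.2.1 j := by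
      intro j
      have := (hdec.2.2.2.1 j).1
      rw [← hτdd]
      exact Nat.one_le_iff_ne_zero.mpr this
    have hVd : lowV d = (∏ i : Fin b.length, sm N (τd.1.getD i 0 - 1)) * τd.2.1 := by
      rw [← hτdd]; rfl
    have hVpos : 0 < lowV d := by
      rw [hVd]
      apply Nat.mul_pos
      · exact Finset.prod_pos (fun i _ => Nat.pos_of_ne_zero (hdec.2.2.1 i).1)
      · exact Nat.pos_of_ne_zero hdec.2.2.2.2.1.1
    have hVposR : (0 : ℝ) < lowV d := by exact_mod_cast hVpos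
    have hV1 : (1 : ℝ) ≤ lowV d := by exact_mod_cast hVpos
    have hY'pos : 0 < Y / lowV d := div_pos hY0' hVposR
    have hY'le : Y / lowV d ≤ Y := div_le_self hY0'.le hV1
    -- the rough radicals are below `Y'`
    have hrr : ∀ τ ∈ F.filter (fun τ => lowDatum N b.length b'.length τ = d), (rr N (rowsProd τ.1 * τ.2.1) : ℝ) ≤ Y / lowV d := by
      intro τ hτ
      obtain ⟨hτF, hτe⟩ := mem_filter.mp hτ
      have hdecτ := decomp (hF τ hτF).1
      have h2 := hdecτ.2.1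
      have hV : lowV d = (∏ i : Fin b.length, sm N (τ.1.getD i 0 - 1)) * τ.2.1 := by
        rw [← hτe]; rfl
      rw [← hV] at h2
      have h3 : ((rowsProd τ.1 * τ.2.1 : ℕ) : ℝ) = (lowV d : ℝ) * (rr N (rowsProd τ.1 * τ.2.1) : ℝ) := by
        exact_mod_cast h2
      have h4 := (hF τ hτF).2.2
      rw [h3] at h4
      rw [le_div_iff₀ hVposR]
      linarith
    have hY'1 : 1 ≤ Y / lowV d := by
      have h1 := hrr τd (mem_filter.mpr ⟨hτd, hτdd⟩)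
      have h2 := hdec.2.1
      have hprodne' : rowsProd τd.1 ≠ 0 :=
        rowsProd_ne_zero_D (fun p hp => ((hF τd hτd).1.normalI p hp).1.two_le)
      have h3 : rr N (rowsProd τd.1 * τd.2.1) ≠ 0 := by
        intro h0
        rw [h0, mul_zero] at h2
        exact mul_ne_zero hprodne' hdec.2.2.2.2.1.1 h2
      have h4 : (1 : ℝ) ≤ (rr N (rowsProd τd.1 * τd.2.1) : ℝ) := by
        exact_mod_cast Nat.one_le_iff_ne_zero.mpr h3
      linarith
    have hlevY' : levR (Y / lowV d) ≤ (N : ℝ) + 4 := by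
      rcases (Real.log_nonneg hY'1).eq_or_lt with h0 | h0
      · unfold levR
        rw [← h0, Real.log_zero]
        linarith
      · have h1 : Real.log (Y / lowV d) ≤ Real.log Y := Real.log_le_log hY'pos hY'le
        have h2 : levR (Y / lowV d) ≤ levR Y := Real.log_le_log h0 h1
        linarith
    have hc := hcount N hN₃ b b' d.1 d.2.2.1 d.2.1 d.2.2.2 (Y / lowV d) (F.filter (fun τ => lowDatum N b.length b'.length τ = d))
      ⟨i₀, hi₀act⟩ (by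
        intro τ hτ
        obtain ⟨hτF, hτe⟩ := mem_filter.mp hτ
        refine ⟨(hF τ hτF).1, ⟨?_, ?_, ?_, ?_⟩, hrr τ hτ⟩
        · rw [← hτe]; rfl
        · rw [← hτe]; rfl
        · intro i; rw [← hτe]; rfl
        · intro j; rw [← hτe]; rfl)
    have hS3 := htop N hN₃' b b' d.1 d.2.2.1 _ (Y / lowV d) hlamN hlevY' hY'1
    have hfb := pc_fibre C₂ C₃ hC₂ hC₃ N hNR b b' d.1 d.2.2.1 hf hg (hsieve N hN₂ b b' _ _) (hbase N hN₄ b b' _ _ hb'c)
      (Y / lowV d) _ (levR Y + 1) hY'pos hS3 hi₀act hlam1 hlam2 hlamL hlamL'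
    refine hc.trans ?_
    refine (mul_le_mul_of_nonneg_left hfb (Real.exp_pos _).le).trans (le_of_eq ?_)
    field_simp
  -- sum over fibres
  have hsumF : (F.card : ℝ) = ∑ d ∈ F.image (lowDatum N b.length b'.length),
      ((F.filter (fun τ => lowDatum N b.length b'.length τ = d)).card : ℝ) := by
    have h1 : ∑ τ ∈ F, (1 : ℝ) = ∑ d ∈ F.image (lowDatum N b.length b'.length),
        ∑ τ ∈ F.filter (fun τ => lowDatum N b.length b'.length τ = d), (1 : ℝ) :=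
      (Finset.sum_fiberwise_of_maps_to (fun τ hτ => mem_image_of_mem _ hτ) _).symm
    simpa using h1
  rw [hsumF]
  refine (sum_le_sum hfib).trans ?_
  rw [← sum_mul]
  have hlowS := low_data_sum C₁ (fun t a a' F => hlow t a a' F) N b b' F (fun τ hτ => (hF τ hτ).1)
  have hla₁ : b.length ≤ U0 N + 1 := by rw [hla]; exact hok₀.lenI
  have hla₂ : b'.length ≤ U0 N + 1 := by rw [hla']; exact hok₀.lenJ
  have hE := herr N hN₆ b.length b'.length hla₁ hla₂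
  have hR := hrow N hN₅ τ₀.1 hI0 hlevI
  rw [hcb] at hR
  have hC := col_exp N b' hτ0
  have hla₃ : (τ₀.1.length : ℝ) = b.length := by rw [hla]
  rw [hla₃] at hR
  have hfinal := pc_exponent N C₁ C₂ C₃ hC₂ hC₃ hNR b.length b'.length (tauN N) _ _ _ (levR Y) _ _ _ Ψ (wd N) hE hR hC hΨ₀ hY3
  have hN8 : (1 : ℝ) ≤ ((N : ℝ) + 8) ^ 6 := one_le_pow₀ (by linarith)
  have hpos3 : 0 < C₃ * ((N : ℝ) + 8) ^ 6 * ((b.length : ℝ) + 1) * ((b'.length : ℝ) + 1) := by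
    have : 0 < C₃ := by linarith
    positivity
  have hposB : 0 ≤ Y * (Real.exp (ThT N 0 b.tail + errT N) * ((C₃ * ((N : ℝ) + 8) ^ 6 * Real.exp (-(3 * (((b.headD 0 : ℕ) : ℝ) - 3 * tauN N)))) * (((b.length : ℝ) + 1) * ((b'.length : ℝ) + 1) *
        Real.exp (((b.length : ℝ) + b'.length) * Real.log (C₂ * ((N : ℝ) + 8) ^ 6 * b.length * b'.length + 1)
          - (∑ i ∈ actI N b, lamL N (b.get i)) - (∑ j ∈ actI N b', lamL N (b'.get j))
          + (b'.map (fun c : ℕ => (c : ℝ) + 3 - t0 N)).sum + 2 * (levR Y + 1))))) := by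
    have : 0 ≤ C₃ := by linarith
    positivity
  refine (mul_le_mul_of_nonneg_right hlowS hposB).trans ?_
  refine le_trans (le_of_eq ?_) (mul_le_mul_of_nonneg_left (Real.exp_le_exp.mpr hfinal) hY0)
  exact exp_rearrange _ _ _ _ _ _ _ _ (by ring) hpos3

end
end Vale.Agent.Lib.P031V
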