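import Vale.Agent.Lib.P031V.PairA
import Vale.Agent.Lib.P031V.PairB
import Vale.Agent.Lib.P031V.PairC
import Vale.Agent.Lib.P031V.SieveV

/-! # P031: reduction of the pair sums to the peeling sums, for a fixed low datum (section 6).
The rough radical, the data of the peeling, the configuration of a tuple. -/

namespace Vale.Agent.Lib.P031V
namespace PairCore
open Real Finset
open scoped Classical
noncomputable section

/-- The rough radical: the product of the primes of `n` above level `t0`. -/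
def rr (N n : ℕ) : ℕ := ∏ r ∈ n.primeFactors.filter (fun r => t0 N < lev r), r

/-- The smooth cofactor. -/
def sm (N n : ℕ) : ℕ := n / rr N n

/-- The range of the primes. -/
def Bd (N : ℕ) : ℕ := ⌈Real.exp (Real.exp ((N : ℝ) + 6))⌉₊ + 1

/-- `τ(N+6)`. -/
def tauN (N : ℕ) : ℝ := tau N ((N : ℝ) + 6)

/-- The threshold of a cell. -/
def lamL (N c : ℕ) : ℝ := max ((c : ℝ) - 3 * tauN N) (t0 N)

/-- The data of the peeling for a fixed low datum. -/
def pdata (N : ℕ) (b b' : List ℕ) (f : Fin b.length → ℕ) (g : Fin b'.length → ℕ) :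
    Peel.Data (Fin b.length) (Fin b'.length) where
  P := (Finset.range (Bd N)).filter (fun r => r.Prime ∧ t0 N < lev r ∧ lev r ≤ (N : ℝ) + 6)
  primeP := fun r hr => (Finset.mem_filter.mp hr).2.1
  f := f
  g := g
  u := fun r => 1 / (nb b (lev r) : ℝ)
  u0 := fun r => by positivity
  u1 := fun r => by
    rcases Nat.eq_zero_or_pos (nb b (lev r)) with h | h
    · simp [h]
    · rw [div_le_one (by exact_mod_cast h)]
      exact_mod_cast h
  alive := fun r i j => lev r ≤ (b.get i : ℝ) + 1 ∧ lev r ≤ (b'.get j : ℝ) + 1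
  lamA := fun i => lamL N (b.get i)
  lamB := fun j => lamL N (b'.get j)
  Fm := Bd N

/-- Active rows. -/
def actI (N : ℕ) (b : List ℕ) : Finset (Fin b.length) :=
  Finset.univ.filter (fun i => t0 N + 3 * tauN N ≤ (b.get i : ℝ))

/-- The data of a tuple `τ`: same low datum. -/
def SameLow (N : ℕ) (b b' : List ℕ) (f : Fin b.length → ℕ) (g : Fin b'.length → ℕ) (l₁ l₂ : ℕ)
    (τ : List ℕ × ℕ × List ℕ × ℕ) : Prop :=
  τ.2.1 = l₁ ∧ τ.2.2.2 = l₂ ∧ (∀ i : Fin b.length, sm N (τ.1.getD i 0 - 1) = f i) ∧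
    ∀ j : Fin b'.length, sm N (τ.2.2.1.getD j 0 - 1) = g j

lemma dc_rr_dvd (N : ℕ) {n : ℕ} (hn : n ≠ 0) : rr N n ∣ n := by
  unfold rr
  refine dvd_trans ?_ (Nat.prod_primeFactors_dvd n)
  exact Finset.prod_dvd_prod_of_subset _ _ _ (Finset.filter_subset _ _)

lemma dc_sm_mul_rr (N : ℕ) {n : ℕ} (hn : n ≠ 0) : sm N n * rr N n = n := by
  unfold sm
  exact Nat.div_mul_cancel (dc_rr_dvd N hn)

lemma dc_rr_pos (N n : ℕ) : 0 < rr N n := by
  unfold rr
  refine Finset.prod_pos ?_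
  intro r hr
  exact (Nat.prime_of_mem_primeFactors (Finset.mem_filter.mp hr).1).pos

lemma dc_rr_ne_zero (N n : ℕ) : rr N n ≠ 0 := (dc_rr_pos N n).ne'

lemma dc_sm_ne_zero (N : ℕ) {n : ℕ} (hn : n ≠ 0) : sm N n ≠ 0 := by
  intro h
  have := dc_sm_mul_rr N hn
  rw [h, zero_mul] at this
  exact hn this.symm

lemma dc_rr_mul (N : ℕ) {m k : ℕ} (hm : m ≠ 0) (hk : k ≠ 0)
    (h : ∀ r : ℕ, r.Prime → t0 N < lev r → r ∣ m → ¬ r ∣ k) :
    rr N (m * k) = rr N m * rr N k := by
  unfold rr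
  rw [Nat.primeFactors_mul hm hk, Finset.filter_union, Finset.prod_union]
  rw [Finset.disjoint_left]
  intro r hr1 hr2
  have h1 := Finset.mem_filter.mp hr1
  have h2 := Finset.mem_filter.mp hr2
  exact h r (Nat.prime_of_mem_primeFactors h1.1) h1.2 (Nat.dvd_of_mem_primeFactors h1.1)
    (Nat.dvd_of_mem_primeFactors h2.1)

lemma dc_rr_eq_one (N : ℕ) {l : ℕ} (h : ∀ r : ℕ, r.Prime → r ∣ l → lev r ≤ t0 N) : rr N l = 1 := by
  unfold rr
  rw [Finset.filter_false_of_mem, Finset.prod_empty]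
  intro r hr
  exact not_lt.mpr (h r (Nat.prime_of_mem_primeFactors hr) (Nat.dvd_of_mem_primeFactors hr))

lemma dc_clean_no_common (N : ℕ) {v m k : ℕ} (hc : Clean N v) (hd : m * k ∣ v) :
    ∀ r : ℕ, r.Prime → t0 N < lev r → r ∣ m → ¬ r ∣ k := by
  intro r hr hl hm hk
  have hts : ts N < lev r := lt_of_le_of_lt (ts_le_t0 N) hl
  exact hc r hr hts (dvd_trans (by rw [pow_two]; exact mul_dvd_mul hm hk) hd)

lemma dc_rowsProd_cons (p : ℕ) (L : List ℕ) : rowsProd (p :: L) = (p - 1) * rowsProd L := by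
  simp [rowsProd]

lemma dc_rr_rows (N : ℕ) {l : ℕ} (hl : l ≠ 0) (hl2 : ∀ r : ℕ, r.Prime → r ∣ l → lev r ≤ t0 N) :
    ∀ L : List ℕ, (∀ p ∈ L, p - 1 ≠ 0) → Clean N (rowsProd L * l) →
      rowsProd L * l = ((L.map (fun p => sm N (p - 1))).prod * l) * rr N (rowsProd L * l) := by
  intro L
  induction L with
  | nil =>
    intro _ _
    simp [rowsProd, dc_rr_eq_one N hl2]
  | cons p L ih =>
    intro h hc
    have hp : p - 1 ≠ 0 := h p (by simp)
    have hL : ∀ q ∈ L, q - 1 ≠ 0 := fun q hq => h q (by simp [hq])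
    have hcL : Clean N (rowsProd L * l) := by
      intro r hr hlev hd
      exact hc r hr hlev (by
        rw [dc_rowsProd_cons, mul_assoc]
        exact dvd_mul_of_dvd_right hd _)
    have hih := ih hL hcL
    have hne : rowsProd L * l ≠ 0 := by
      intro h0
      rw [h0] at hih
      have h1 := dc_rr_pos N (0 : ℕ)
      have : ((L.map (fun p => sm N (p - 1))).prod * l) * rr N 0 = 0 := hih.symm
      have h2 : (L.map (fun p => sm N (p - 1))).prod * l = 0 := by
        rcases Nat.mul_eq_zero.mp this with h | h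
        · exact h
        · exact absurd h h1.ne'
      have hz := Nat.mul_eq_zero.mp h0
      rcases hz with hz | hz
      · have : rowsProd L ≠ 0 := by
          unfold rowsProd
          rw [Ne, List.prod_eq_zero_iff]
          simp only [List.mem_map, not_exists, not_and]
          intro q hq
          exact hL q hq
        exact this hz
      · exact hl hz
    have hmul : rr N ((p - 1) * (rowsProd L * l)) = rr N (p - 1) * rr N (rowsProd L * l) := by
      apply dc_rr_mul N hp hne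
      apply dc_clean_no_common N hc
      rw [dc_rowsProd_cons, mul_assoc]
    have hsm := dc_sm_mul_rr N hp
    rw [dc_rowsProd_cons, mul_assoc, hmul, List.map_cons, List.prod_cons]
    calc (p - 1) * (rowsProd L * l)
        = (sm N (p - 1) * rr N (p - 1)) * (((L.map (fun p => sm N (p - 1))).prod * l) * rr N (rowsProd L * l)) := by
          rw [hsm, ← hih]
      _ = _ := by ring

lemma dc_prod_fin_eq (g : ℕ → ℕ) (I : List ℕ) (n : ℕ) (hn : n = I.length) :
    (∏ i : Fin n, g (I.getD i 0)) = (I.map g).prod := by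
  subst hn
  induction I with
  | nil => simp
  | cons p L ih =>
    rw [List.length_cons, Fin.prod_univ_succ]
    simp only [Fin.val_zero, List.getD_cons_zero, Fin.val_succ, List.getD_cons_succ, List.map_cons, List.prod_cons]
    rw [ih]

lemma dc_sm_smooth (N : ℕ) {v : ℕ} (hc : Clean N v) {q : ℕ} (hq : q ≠ 0) (hd : q ∣ v) :
    ∀ r : ℕ, r.Prime → r ∣ sm N q → lev r ≤ t0 N := by
  intro r hr hrd
  by_contra hlev
  push Not at hlev
  have hr2 : r ∣ rr N q := by
    unfold rr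
    exact Finset.dvd_prod_of_mem _ (Finset.mem_filter.mpr
      ⟨Nat.mem_primeFactors.mpr ⟨hr, dvd_trans hrd (Nat.div_dvd_of_dvd (dc_rr_dvd N hq)), hq⟩, hlev⟩)
  have h3 : r ^ 2 ∣ q := by
    rw [← dc_sm_mul_rr N hq, pow_two]
    exact mul_dvd_mul hrd hr2
  exact hc r hr (lt_of_le_of_lt (ts_le_t0 N) hlev) (dvd_trans h3 hd)

lemma dc_row_dvd {p : ℕ} {L : List ℕ} (hp : p ∈ L) (l : ℕ) : p - 1 ∣ rowsProd L * l := by
  apply dvd_mul_of_dvd_left
  unfold rowsProd
  exact List.dvd_prod (List.mem_map.mpr ⟨p, hp, rfl⟩)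

lemma dc_lowval_ne_zero {N l : ℕ} (h : LowVal N l) : l ≠ 0 := by
  obtain ⟨n, hn, _, rfl, _⟩ := h
  exact (Nat.totient_pos.mpr (Nat.pos_of_ne_zero hn)).ne'

/-- Decomposition of the integer of a tuple: smooth part times rough radical; the smooth part does
not depend on the side; the smooth factors are smooth. -/
theorem decomp {N : ℕ} {b b' I J : List ℕ} {l₁ l₂ : ℕ} (h : PairOK N b b' I l₁ J l₂) :
    (∏ i : Fin b.length, sm N (I.getD i 0 - 1)) * l₁ = (∏ j : Fin b'.length, sm N (J.getD j 0 - 1)) * l₂ ∧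
    rowsProd I * l₁ = ((∏ i : Fin b.length, sm N (I.getD i 0 - 1)) * l₁) * rr N (rowsProd I * l₁) ∧
    (∀ i : Fin b.length, sm N (I.getD i 0 - 1) ≠ 0 ∧ ∀ r : ℕ, r.Prime → r ∣ sm N (I.getD i 0 - 1) → lev r ≤ t0 N) ∧
    (∀ j : Fin b'.length, sm N (J.getD j 0 - 1) ≠ 0 ∧ ∀ r : ℕ, r.Prime → r ∣ sm N (J.getD j 0 - 1) → lev r ≤ t0 N) ∧
    (l₁ ≠ 0 ∧ ∀ r : ℕ, r.Prime → r ∣ l₁ → lev r ≤ t0 N) ∧ (l₂ ≠ 0 ∧ ∀ r : ℕ, r.Prime → r ∣ l₂ → lev r ≤ t0 N) := by
  have hlenI : b.length = I.length := by rw [← h.cellsI, List.length_map]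
  have hlenJ : b'.length = J.length := by rw [← h.cellsJ, List.length_map]
  have hPI : ∀ p ∈ I, p - 1 ≠ 0 := fun p hp => by
    have := (h.normalI p hp).1.one_lt
    omega
  have hPJ : ∀ p ∈ J, p - 1 ≠ 0 := fun p hp => by
    have := (h.normalJ p hp).1.one_lt
    omega
  have hl1 : l₁ ≠ 0 := dc_lowval_ne_zero h.lowI
  have hl2 : l₂ ≠ 0 := dc_lowval_ne_zero h.lowJ
  have hs1 : ∀ r : ℕ, r.Prime → r ∣ l₁ → lev r ≤ t0 N := fun r hr hd => (h.lowI.smooth r hr hd).le
  have hs2 : ∀ r : ℕ, r.Prime → r ∣ l₂ → lev r ≤ t0 N := fun r hr hd => (h.lowJ.smooth r hr hd).le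
  have hcJ : Clean N (rowsProd J * l₂) := by rw [← h.eq]; exact h.clean
  have hI := dc_rr_rows N hl1 hs1 I hPI h.clean
  have hJ := dc_rr_rows N hl2 hs2 J hPJ hcJ
  have hprodI : (∏ i : Fin b.length, sm N (I.getD i 0 - 1)) = (I.map (fun p => sm N (p - 1))).prod := dc_prod_fin_eq (fun p => sm N (p - 1)) I b.length hlenI
  have hprodJ : (∏ j : Fin b'.length, sm N (J.getD j 0 - 1)) = (J.map (fun p => sm N (p - 1))).prod := dc_prod_fin_eq (fun p => sm N (p - 1)) J b'.length hlenJ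
  rw [hprodI, hprodJ]
  refine ⟨?_, hI, ?_, ?_, ⟨hl1, hs1⟩, ⟨hl2, hs2⟩⟩
  · have hrr := dc_rr_pos N (rowsProd I * l₁)
    apply Nat.eq_of_mul_eq_mul_right hrr
    rw [← hI]
    conv_rhs => rw [h.eq]
    rw [h.eq]
    exact hJ
  · intro i
    have hi : I.getD i 0 ∈ I := by
      rw [List.getD_eq_getElem _ _ (by rw [← hlenI]; exact i.2)]
      exact List.getElem_mem _
    have hne := hPI _ hi
    exact ⟨dc_sm_ne_zero N hne, dc_sm_smooth N h.clean hne (dc_row_dvd hi l₁)⟩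
  · intro j
    have hi : J.getD j 0 ∈ J := by
      rw [List.getD_eq_getElem _ _ (by rw [← hlenJ]; exact j.2)]
      exact List.getElem_mem _
    have hne := hPJ _ hi
    exact ⟨dc_sm_ne_zero N hne, dc_sm_smooth N hcJ hne (dc_row_dvd hi l₂)⟩

/-! ### Lists -/

lemma sub_one_dvd_rowsProd (L : List ℕ) {x : ℕ} (hx : x ∈ L) : x - 1 ∣ rowsProd L :=
  List.dvd_prod (List.mem_map.mpr ⟨x, hx, rfl⟩)

lemma mul_dvd_rowsProd (L : List ℕ) {x y : ℕ} (hx : x ∈ L) (hy : y ∈ L) (hxy : x ≠ y) :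
    (x - 1) * (y - 1) ∣ rowsProd L := by
  induction L with
  | nil => simp at hx
  | cons p L ih =>
    have h1 : rowsProd (p :: L) = (p - 1) * rowsProd L := by simp [rowsProd]
    rw [h1]
    rcases List.mem_cons.mp hx with rfl | hx'
    · rcases List.mem_cons.mp hy with rfl | hy'
      · exact absurd rfl hxy
      · exact mul_dvd_mul_left _ (sub_one_dvd_rowsProd L hy')
    · rcases List.mem_cons.mp hy with rfl | hy'
      · rw [mul_comm]
        exact mul_dvd_mul_left _ (sub_one_dvd_rowsProd L hx')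
      · exact dvd_mul_of_dvd_right (ih hx' hy') _

lemma elt_unique {N v r : ℕ} {L : List ℕ} (hc : Clean N v) (hd : rowsProd L ∣ v) (hr : r.Prime)
    (hlev : ts N < lev r) {x y : ℕ} (hx : x ∈ L) (hy : y ∈ L) (h1 : r ∣ x - 1) (h2 : r ∣ y - 1) :
    x = y := by
  by_contra hne
  apply hc r hr hlev
  rw [pow_two]
  exact (mul_dvd_mul h1 h2).trans ((mul_dvd_rowsProd L hx hy hne).trans hd)

lemma exists_elt {r : ℕ} {L : List ℕ} (hr : r.Prime) (h : r ∣ rowsProd L) : ∃ x ∈ L, r ∣ x - 1 := by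
  have := (Prime.dvd_prod_iff hr.prime).mp h
  obtain ⟨a, ha, hra⟩ := this
  obtain ⟨x, hx, rfl⟩ := List.mem_map.mp ha
  exact ⟨x, hx, hra⟩

lemma getD_mem' (L : List ℕ) {i : ℕ} (hi : i < L.length) : L.getD i 0 ∈ L := by
  rw [List.getD_eq_getElem _ _ hi]
  exact List.getElem_mem hi

lemma exists_idx {L : List ℕ} {x : ℕ} (hx : x ∈ L) : ∃ i, i < L.length ∧ L.getD i 0 = x := by
  obtain ⟨i, hi, h⟩ := List.mem_iff_getElem.mp hx
  exact ⟨i, hi, by rw [List.getD_eq_getElem _ _ hi, h]⟩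

lemma idx_inj {L : List ℕ} (hL : L.Pairwise (· > ·)) {i j : ℕ} (hi : i < L.length) (hj : j < L.length)
    (h : L.getD i 0 = L.getD j 0) : i = j := by
  rw [List.getD_eq_getElem _ _ hi, List.getD_eq_getElem _ _ hj] at h
  have hnd : L.Nodup := hL.imp (fun {a b} hab => (ne_of_gt hab))
  exact (List.Nodup.getElem_inj_iff hnd).mp h

lemma get_map_getD (φ : ℕ → ℕ) (I : List ℕ) (i : Fin (I.map φ).length) :
    (I.map φ).get i = φ (I.getD i 0) := by
  have hi : (i : ℕ) < I.length := by simpa using i.isLt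
  rw [List.getD_eq_getElem _ _ hi]
  simp

/-! ### Levels -/

lemma lev_le_of_dvd {r x : ℕ} (hr : r.Prime) (hx : 2 ≤ x) (h : r ∣ x - 1) : lev r ≤ lev x := by
  have h1 : r ≤ x - 1 := Nat.le_of_dvd (by omega) h
  exact lev_mono hr.two_le (by omega)

lemma mem_pP {N : ℕ} {b b' : List ℕ} {f : Fin b.length → ℕ} {g : Fin b'.length → ℕ} {r : ℕ} :
    r ∈ (pdata N b b' f g).P ↔ r ∈ Finset.range (Bd N) ∧ r.Prime ∧ t0 N < lev r ∧ lev r ≤ (N : ℝ) + 6 := by
  simp only [pdata, mem_filter]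

lemma lt_Bd {N r : ℕ} (hr : r.Prime) (h : lev r ≤ (N : ℝ) + 6) : r < Bd N := by
  have h1 : (1 : ℝ) < r := by exact_mod_cast hr.one_lt
  have h2 : 0 < Real.log r := Real.log_pos h1
  have h3 : Real.log r ≤ Real.exp ((N : ℝ) + 6) := (Real.log_le_iff_le_exp h2).mp h
  have h4 : (r : ℝ) ≤ Real.exp (Real.exp ((N : ℝ) + 6)) := (Real.log_le_iff_le_exp (by linarith)).mp h3
  have h5 : (r : ℝ) ≤ (⌈Real.exp (Real.exp ((N : ℝ) + 6))⌉₊ : ℝ) := h4.trans (Nat.le_ceil _)
  have h6 : r ≤ ⌈Real.exp (Real.exp ((N : ℝ) + 6))⌉₊ := by exact_mod_cast h5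
  unfold Bd
  omega

lemma mem_pP_of {N : ℕ} {b b' : List ℕ} {f : Fin b.length → ℕ} {g : Fin b'.length → ℕ} {r : ℕ}
    (hr : r.Prime) (h1 : t0 N < lev r) (h2 : lev r ≤ (N : ℝ) + 6) : r ∈ (pdata N b b' f g).P :=
  mem_pP.mpr ⟨mem_range.mpr (lt_Bd hr h2), hr, h1, h2⟩

lemma ts_le_t0 (N : ℕ) : ts N ≤ t0 N := by
  have : 0 ≤ t0 N := by unfold t0; positivity
  unfold ts
  linarith

/-! ### Rough radical -/

lemma rr_dvd (N n : ℕ) : rr N n ∣ n := by
  unfold rr
  refine dvd_trans ?_ (Nat.prod_primeFactors_dvd n)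
  exact Finset.prod_dvd_prod_of_subset _ _ _ (filter_subset _ _)

lemma sm_mul_rr (N n : ℕ) : sm N n * rr N n = n := by
  unfold sm
  exact Nat.div_mul_cancel (rr_dvd N n)

/-! ### Facts about a pair -/

section Facts

variable {N : ℕ} {b b' I J : List ℕ} {l₁ l₂ : ℕ}

lemma lenI' (h : PairOK N b b' I l₁ J l₂) : I.length = b.length := by
  rw [← h.cellsI, List.length_map]

lemma lenJ' (h : PairOK N b b' I l₁ J l₂) : J.length = b'.length := by
  rw [← h.cellsJ, List.length_map]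

lemma two_leI (h : PairOK N b b' I l₁ J l₂) {x : ℕ} (hx : x ∈ I) : 2 ≤ x :=
  (h.normalI x hx).1.two_le

lemma two_leJ (h : PairOK N b b' I l₁ J l₂) {x : ℕ} (hx : x ∈ J) : 2 ≤ x :=
  (h.normalJ x hx).1.two_le

lemma clean_J (h : PairOK N b b' I l₁ J l₂) : Clean N (rowsProd J * l₂) := by
  rw [← h.eq]
  exact h.clean

/-- A prime above level `t0` dividing the integer lies in some row. -/
lemma in_row (h : PairOK N b b' I l₁ J l₂) {r : ℕ} (hr : r.Prime) (hl : t0 N < lev r)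
    (hd : r ∣ rowsProd I * l₁) : ∃ x ∈ I, r ∣ x - 1 := by
  rcases (Nat.Prime.dvd_mul hr).mp hd with h1 | h1
  · exact exists_elt hr h1
  · exact absurd (LowVal.smooth h.lowI r hr h1) (not_lt.mpr hl.le)

lemma in_col (h : PairOK N b b' I l₁ J l₂) {r : ℕ} (hr : r.Prime) (hl : t0 N < lev r)
    (hd : r ∣ rowsProd I * l₁) : ∃ y ∈ J, r ∣ y - 1 := by
  rw [h.eq] at hd
  rcases (Nat.Prime.dvd_mul hr).mp hd with h1 | h1
  · exact exists_elt hr h1
  · exact absurd (LowVal.smooth h.lowJ r hr h1) (not_lt.mpr hl.le)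

lemma dvd_of_row (h : PairOK N b b' I l₁ J l₂) {r x : ℕ} (hx : x ∈ I) (hd : r ∣ x - 1) :
    r ∣ rowsProd I * l₁ :=
  (hd.trans (sub_one_dvd_rowsProd I hx)).trans (dvd_mul_right _ _)

lemma dvd_of_col (h : PairOK N b b' I l₁ J l₂) {r y : ℕ} (hy : y ∈ J) (hd : r ∣ y - 1) :
    r ∣ rowsProd I * l₁ := by
  rw [h.eq]
  exact (hd.trans (sub_one_dvd_rowsProd J hy)).trans (dvd_mul_right _ _)

lemma val_ne_zero (h : PairOK N b b' I l₁ J l₂) : rowsProd I * l₁ ≠ 0 := by
  have h1 : rowsProd I ≠ 0 := by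
    unfold rowsProd
    intro h0
    have := List.prod_eq_zero_iff.mp h0
    obtain ⟨x, hx, hx0⟩ := List.mem_map.mp this
    have := two_leI h hx
    omega
  obtain ⟨n, hn0, _, hl, _⟩ := h.lowI
  have h2 : l₁ ≠ 0 := by
    rw [hl]
    exact (Nat.totient_pos.mpr (Nat.pos_of_ne_zero hn0)).ne'
  exact mul_ne_zero h1 h2

/-- The levels of all the primes above `t0` of the integer. -/
lemma lev_le_of_val (h : PairOK N b b' I l₁ J l₂) {r : ℕ} (hr : r.Prime) (hl : t0 N < lev r)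
    (hd : r ∣ rowsProd I * l₁) : lev r ≤ (N : ℝ) + 5 := by
  obtain ⟨x, hx, hrx⟩ := in_row h hr hl hd
  exact (lev_le_of_dvd hr (two_leI h hx) hrx).trans (h.topI x hx)


lemma idxI (h : PairOK N b b' I l₁ J l₂) (i : Fin b.length) : (i : ℕ) < I.length := by
  rw [lenI' h]
  exact i.isLt

lemma idxJ (h : PairOK N b b' I l₁ J l₂) (j : Fin b'.length) : (j : ℕ) < J.length := by
  rw [lenJ' h]
  exact j.isLt

lemma memI (h : PairOK N b b' I l₁ J l₂) (i : Fin b.length) : I.getD i 0 ∈ I :=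
  getD_mem' I (idxI h i)

lemma memJ (h : PairOK N b b' I l₁ J l₂) (j : Fin b'.length) : J.getD j 0 ∈ J :=
  getD_mem' J (idxJ h j)

lemma cellI (h : PairOK N b b' I l₁ J l₂) (i : Fin b.length) :
    b.get i = ⌊lev (I.getD i 0)⌋₊ := by
  have h1 := h.cellsI
  subst h1
  exact get_map_getD _ _ _

lemma cellJ (h : PairOK N b b' I l₁ J l₂) (j : Fin b'.length) :
    b'.get j = ⌊lev (J.getD j 0)⌋₊ := by
  have h1 := h.cellsJ
  subst h1
  exact get_map_getD _ _ _

lemma lev_lt_cellI (h : PairOK N b b' I l₁ J l₂) (i : Fin b.length) :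
    lev (I.getD i 0) < (b.get i : ℝ) + 1 := by
  rw [cellI h i]
  exact Nat.lt_floor_add_one _

lemma lev_lt_cellJ (h : PairOK N b b' I l₁ J l₂) (j : Fin b'.length) :
    lev (J.getD j 0) < (b'.get j : ℝ) + 1 := by
  rw [cellJ h j]
  exact Nat.lt_floor_add_one _

lemma normal_lev_nonneg' {p : ℕ} (hp : Normal N p) : 0 ≤ lev p := by
  have : 0 ≤ t0 N := by unfold t0; positivity
  linarith [hp.2.1]

lemma cell_leI (h : PairOK N b b' I l₁ J l₂) (i : Fin b.length) :
    (b.get i : ℝ) ≤ lev (I.getD i 0) := by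
  rw [cellI h i]
  exact Nat.floor_le (normal_lev_nonneg' (h.normalI _ (memI h i)))

lemma cell_leJ (h : PairOK N b b' I l₁ J l₂) (j : Fin b'.length) :
    (b'.get j : ℝ) ≤ lev (J.getD j 0) := by
  rw [cellJ h j]
  exact Nat.floor_le (normal_lev_nonneg' (h.normalJ _ (memJ h j)))

/-- A prime above level `t0` lies in at most one cell. -/
lemma cell_unique (h : PairOK N b b' I l₁ J l₂) {r : ℕ} (hr : r.Prime) (hl : t0 N < lev r)
    {c c' : Fin b.length × Fin b'.length}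
    (h1 : r ∣ I.getD c.1 0 - 1 ∧ r ∣ J.getD c.2 0 - 1)
    (h2 : r ∣ I.getD c'.1 0 - 1 ∧ r ∣ J.getD c'.2 0 - 1) : c = c' := by
  have hts : ts N < lev r := lt_of_le_of_lt (ts_le_t0 N) hl
  have e1 : I.getD c.1 0 = I.getD c'.1 0 :=
    elt_unique h.clean (dvd_mul_right _ _) hr hts (memI h _) (memI h _) h1.1 h2.1
  have e2 : J.getD c.2 0 = J.getD c'.2 0 :=
    elt_unique (clean_J h) (dvd_mul_right _ _) hr hts (memJ h _) (memJ h _) h1.2 h2.2
  exact Prod.ext (Fin.ext (idx_inj h.sortedI (idxI h _) (idxI h _) e1))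
    (Fin.ext (idx_inj h.sortedJ (idxJ h _) (idxJ h _) e2))

end Facts

/-! ### The configuration of a tuple -/

/-- The configuration of a tuple: each prime of the integer sits in its row and its column. -/
def kap (N : ℕ) (b b' : List ℕ) (f : Fin b.length → ℕ) (g : Fin b'.length → ℕ) (I J : List ℕ) :
    Peel.Conf (pdata N b b' f g) := fun r =>
  if hx : ∃ c : Fin b.length × Fin b'.length,
      (r : ℕ) ∣ I.getD c.1 0 - 1 ∧ (r : ℕ) ∣ J.getD c.2 0 - 1
  then some hx.choose else none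

section Kap

variable {N : ℕ} {b b' I J : List ℕ} {l₁ l₂ : ℕ} {f : Fin b.length → ℕ} {g : Fin b'.length → ℕ}

lemma kap_some_iff (h : PairOK N b b' I l₁ J l₂) (r : {r // r ∈ (pdata N b b' f g).P})
    (c : Fin b.length × Fin b'.length) :
    kap N b b' f g I J r = some c ↔ (r : ℕ) ∣ I.getD c.1 0 - 1 ∧ (r : ℕ) ∣ J.getD c.2 0 - 1 := by
  have hr := mem_pP.mp r.2
  constructor
  · intro hk
    unfold kap at hk
    split_ifs at hk with hx
    · have := Option.some.inj hk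
      rw [← this]
      exact hx.choose_spec
  · intro hc
    have hx : ∃ c : Fin b.length × Fin b'.length,
      (r : ℕ) ∣ I.getD c.1 0 - 1 ∧ (r : ℕ) ∣ J.getD c.2 0 - 1 := ⟨c, hc⟩
    unfold kap
    rw [dif_pos hx]
    exact congrArg some (cell_unique h hr.2.1 hr.2.2.1 hx.choose_spec hc)

lemma kap_row_iff (h : PairOK N b b' I l₁ J l₂) (r : {r // r ∈ (pdata N b b' f g).P})
    (i : Fin b.length) :
    (∃ j, kap N b b' f g I J r = some (i, j)) ↔ (r : ℕ) ∣ I.getD i 0 - 1 := by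
  have hr := mem_pP.mp r.2
  constructor
  · rintro ⟨j, hj⟩
    exact ((kap_some_iff h r _).mp hj).1
  · intro hd
    obtain ⟨y, hy, hry⟩ := in_col h hr.2.1 hr.2.2.1 (dvd_of_row h (memI h i) hd)
    obtain ⟨j, hj, rfl⟩ := exists_idx hy
    have hj' : j < b'.length := by rw [← lenJ' h]; exact hj
    exact ⟨⟨j, hj'⟩, (kap_some_iff h r _).mpr ⟨hd, hry⟩⟩

lemma kap_col_iff (h : PairOK N b b' I l₁ J l₂) (r : {r // r ∈ (pdata N b b' f g).P})
    (j : Fin b'.length) :
    (∃ i, kap N b b' f g I J r = some (i, j)) ↔ (r : ℕ) ∣ J.getD j 0 - 1 := by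
  have hr := mem_pP.mp r.2
  constructor
  · rintro ⟨i, hi⟩
    exact ((kap_some_iff h r _).mp hi).2
  · intro hd
    obtain ⟨x, hx, hrx⟩ := in_row h hr.2.1 hr.2.2.1 (dvd_of_col h (memJ h j) hd)
    obtain ⟨i, hi, rfl⟩ := exists_idx hx
    have hi' : i < b.length := by rw [← lenI' h]; exact hi
    exact ⟨⟨i, hi'⟩, (kap_some_iff h r _).mpr ⟨hrx, hd⟩⟩

lemma kap_isSome_iff (h : PairOK N b b' I l₁ J l₂) (r : {r // r ∈ (pdata N b b' f g).P}) :
    (kap N b b' f g I J r).isSome ↔ (r : ℕ) ∣ rowsProd I * l₁ := by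
  have hr := mem_pP.mp r.2
  constructor
  · intro hs
    obtain ⟨c, hc⟩ := Option.isSome_iff_exists.mp hs
    exact dvd_of_row h (memI h c.1) ((kap_some_iff h r c).mp hc).1
  · intro hd
    obtain ⟨x, hx, hrx⟩ := in_row h hr.2.1 hr.2.2.1 hd
    obtain ⟨i, hi, rfl⟩ := exists_idx hx
    have hi' : i < b.length := by rw [← lenI' h]; exact hi
    obtain ⟨j, hj⟩ := (kap_row_iff h r ⟨i, hi'⟩).mpr hrx
    rw [hj]
    rfl

lemma kap_alive (h : PairOK N b b' I l₁ J l₂) (r : {r // r ∈ (pdata N b b' f g).P})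
    {c : Fin b.length × Fin b'.length} (hk : kap N b b' f g I J r = some c) :
    (pdata N b b' f g).alive r c.1 c.2 := by
  have hr := mem_pP.mp r.2
  have hc := (kap_some_iff h r c).mp hk
  have h1 := lev_le_of_dvd hr.2.1 (two_leI h (memI h c.1)) hc.1
  have h2 := lev_le_of_dvd hr.2.1 (two_leJ h (memJ h c.2)) hc.2
  exact ⟨h1.trans (lev_lt_cellI h c.1).le, h2.trans (lev_lt_cellJ h c.2).le⟩

/-- Filtering `P` by divisibility. -/
lemma P_filter_dvd {n : ℕ} (hn : n ≠ 0)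
    (hl : ∀ r : ℕ, r.Prime → r ∣ n → t0 N < lev r → lev r ≤ (N : ℝ) + 6) :
    (pdata N b b' f g).P.filter (fun r => r ∣ n) = n.primeFactors.filter (fun r => t0 N < lev r) := by
  ext r
  simp only [mem_filter, Nat.mem_primeFactors]
  constructor
  · rintro ⟨hr, hd⟩
    have hr' := mem_pP.mp hr
    exact ⟨⟨hr'.2.1, hd, hn⟩, hr'.2.2.1⟩
  · rintro ⟨⟨hr, hd, _⟩, h1⟩
    exact ⟨mem_pP_of hr h1 (hl r hr hd h1), hd⟩

lemma prod_subtype_dvd (n : ℕ) (F : ℕ → ℕ) (hn : n ≠ 0)
    (hl : ∀ r : ℕ, r.Prime → r ∣ n → t0 N < lev r → lev r ≤ (N : ℝ) + 6) :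
    ∏ r : {r // r ∈ (pdata N b b' f g).P}, (if (r : ℕ) ∣ n then F r else 1)
      = ∏ r ∈ n.primeFactors.filter (fun r => t0 N < lev r), F r := by
  rw [← P_filter_dvd (b := b) (b' := b') (f := f) (g := g) hn hl, prod_filter]
  exact Finset.prod_coe_sort (pdata N b b' f g).P (fun r => if r ∣ n then F r else 1)

lemma prod_subtype_dvdR (n : ℕ) (F : ℕ → ℝ) (hn : n ≠ 0)
    (hl : ∀ r : ℕ, r.Prime → r ∣ n → t0 N < lev r → lev r ≤ (N : ℝ) + 6) :
    ∏ r : {r // r ∈ (pdata N b b' f g).P}, (if (r : ℕ) ∣ n then F r else 1)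
      = ∏ r ∈ n.primeFactors.filter (fun r => t0 N < lev r), F r := by
  rw [← P_filter_dvd (b := b) (b' := b') (f := f) (g := g) hn hl, prod_filter]
  exact Finset.prod_coe_sort (pdata N b b' f g).P (fun r => if r ∣ n then F r else 1)

lemma rowP_kap (h : PairOK N b b' I l₁ J l₂) (i : Fin b.length) :
    Peel.rowP (pdata N b b' f g) (kap N b b' f g I J) i = rr N (I.getD i 0 - 1) := by
  have hx := memI h i
  have hn : I.getD i 0 - 1 ≠ 0 := by
    have := two_leI h hx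
    omega
  unfold Peel.rowP rr
  rw [← prod_subtype_dvd (b := b) (b' := b') (f := f) (g := g) _ (fun r => r) hn]
  · apply Finset.prod_congr rfl
    intro r _
    simp only [kap_row_iff h r i]
  · intro r hr hd _
    have := lev_le_of_dvd hr (two_leI h hx) hd
    linarith [h.topI _ hx]

lemma colP_kap (h : PairOK N b b' I l₁ J l₂) (j : Fin b'.length) :
    Peel.colP (pdata N b b' f g) (kap N b b' f g I J) j = rr N (J.getD j 0 - 1) := by
  have hx := memJ h j
  have hn : J.getD j 0 - 1 ≠ 0 := by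
    have := two_leJ h hx
    omega
  unfold Peel.colP rr
  rw [← prod_subtype_dvd (b := b) (b' := b') (f := f) (g := g) _ (fun r => r) hn]
  · apply Finset.prod_congr rfl
    intro r _
    simp only [kap_col_iff h r j]
  · intro r hr hd _
    have := lev_le_of_dvd hr (two_leJ h hx) hd
    linarith [h.topJ _ hx]

lemma val_lev (h : PairOK N b b' I l₁ J l₂) :
    ∀ r : ℕ, r.Prime → r ∣ rowsProd I * l₁ → t0 N < lev r → lev r ≤ (N : ℝ) + 6 := by
  intro r hr hd hl
  linarith [lev_le_of_val h hr hl hd]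

lemma KK_kap (h : PairOK N b b' I l₁ J l₂) :
    Peel.KK (pdata N b b' f g) (kap N b b' f g I J) = rr N (rowsProd I * l₁) := by
  unfold Peel.KK rr
  rw [← prod_subtype_dvd (b := b) (b' := b') (f := f) (g := g) _ (fun r => r) (val_ne_zero h) (val_lev h)]
  apply Finset.prod_congr rfl
  intro r _
  simp only [kap_isSome_iff h r]

lemma wtU_kap (h : PairOK N b b' I l₁ J l₂) :
    Peel.wtU (pdata N b b' f g) (kap N b b' f g I J)
      = ∏ r ∈ (rowsProd I * l₁).primeFactors.filter (fun r => t0 N < lev r), (pdata N b b' f g).u r := by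
  rw [← prod_subtype_dvdR (b := b) (b' := b') (f := f) (g := g) _ _ (val_ne_zero h) (val_lev h)]
  unfold Peel.wtU
  apply Finset.prod_congr rfl
  intro r _
  rcases hk : kap N b b' f g I J r with _ | c
  · have : ¬ (r : ℕ) ∣ rowsProd I * l₁ := by
      rw [← kap_isSome_iff h r, hk]
      simp
    simp [this]
  · have h1 : (r : ℕ) ∣ rowsProd I * l₁ := by
      rw [← kap_isSome_iff h r, hk]
      rfl
    simp only [if_pos h1, if_pos (kap_alive h r hk)]

lemma wt_kap (h : PairOK N b b' I l₁ J l₂) :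
    Peel.wt (pdata N b b' f g) (kap N b b' f g I J)
      = ∏ r ∈ (rowsProd I * l₁).primeFactors.filter (fun r => t0 N < lev r),
          ((pdata N b b' f g).u r / (r : ℕ)) := by
  rw [← prod_subtype_dvdR (b := b) (b' := b') (f := f) (g := g) _ _ (val_ne_zero h) (val_lev h)]
  unfold Peel.wt
  apply Finset.prod_congr rfl
  intro r _
  rcases hk : kap N b b' f g I J r with _ | c
  · have : ¬ (r : ℕ) ∣ rowsProd I * l₁ := by
      rw [← kap_isSome_iff h r, hk]
      simp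
    simp [this]
  · have h1 : (r : ℕ) ∣ rowsProd I * l₁ := by
      rw [← kap_isSome_iff h r, hk]
      rfl
    simp only [if_pos h1, if_pos (kap_alive h r hk)]

lemma wt_eq_div (h : PairOK N b b' I l₁ J l₂) :
    Peel.wt (pdata N b b' f g) (kap N b b' f g I J)
      = Peel.wtU (pdata N b b' f g) (kap N b b' f g I J) / (rr N (rowsProd I * l₁) : ℝ) := by
  rw [wt_kap h, wtU_kap h, prod_div_distrib]
  unfold rr
  push_cast
  rfl

/-- The tilt: `1 ≤ exp E * wtU`. -/
lemma one_le_tilt (h : PairOK N b b' I l₁ J l₂) {E : ℝ}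
    (hE : ∑ r ∈ (rowsProd I * l₁).primeFactors.filter (fun r => t0 N < lev r),
        Real.log (nb b (lev r)) ≤ E) :
    1 ≤ Real.exp E * Peel.wtU (pdata N b b' f g) (kap N b b' f g I J) := by
  rw [wtU_kap h]
  have hterm : ∀ r ∈ (rowsProd I * l₁).primeFactors.filter (fun r => t0 N < lev r),
      (pdata N b b' f g).u r = Real.exp (-Real.log (nb b (lev r))) := by
    intro r hr
    have hr' := mem_filter.mp hr
    have hrp := Nat.prime_of_mem_primeFactors hr'.1
    have hrd := Nat.dvd_of_mem_primeFactors hr'.1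
    obtain ⟨x, hx, hrx⟩ := in_row h hrp hr'.2 hrd
    obtain ⟨i, hi, rfl⟩ := exists_idx hx
    have hi' : i < b.length := by rw [← lenI' h]; exact hi
    have hlv := (lev_le_of_dvd hrp (two_leI h hx) hrx).trans
      (lev_lt_cellI h (⟨i, hi'⟩ : Fin b.length)).le
    have hnb : 0 < nb b (lev r) := by
      unfold nb
      apply List.length_pos_of_mem (a := ((b.get ⟨i, hi'⟩ : ℕ) : ℝ))
      rw [List.mem_filter]
      refine ⟨?_, by simpa using hlv⟩
      simp only [List.bind_eq_flatMap, List.pure_def, List.mem_flatMap, List.mem_singleton]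
      exact ⟨_, List.get_mem _ _, rfl⟩
    have hnb' : (0 : ℝ) < nb b (lev r) := by exact_mod_cast hnb
    rw [Real.exp_neg, Real.exp_log hnb']
    simp [pdata, one_div]
  rw [prod_congr rfl hterm, ← Real.exp_sum, ← Real.exp_add]
  rw [sum_neg_distrib]
  exact Real.one_le_exp (by linarith)


lemma kap_ind (h : PairOK N b b' I l₁ J l₂)
    (hf : ∀ i : Fin b.length, sm N (I.getD i 0 - 1) = f i)
    (hg : ∀ j : Fin b'.length, sm N (J.getD j 0 - 1) = g j)
    (hlead : ∀ p : ℕ, Normal N p → lev p ≤ (N : ℝ) + 6 → t0 N + 3 * tau N ((N : ℝ) + 6) ≤ lev p →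
      ∃ r ∈ (p - 1).primeFactors, lev p - 3 * tau N ((N : ℝ) + 6) ≤ lev r ∧ t0 N < lev r) :
    Peel.Ind (pdata N b b' f g) (actI N b) (actI N b') (kap N b b' f g I J) := by
  have hform : ∀ i, 1 + (pdata N b b' f g).f i * Peel.rowP (pdata N b b' f g) (kap N b b' f g I J) i
      = I.getD i 0 := by
    intro i
    rw [rowP_kap h i]
    show 1 + f i * rr N (I.getD i 0 - 1) = I.getD i 0
    rw [← hf i, sm_mul_rr]
    have := two_leI h (memI h i)
    omega
  have hform' : ∀ j, 1 + (pdata N b b' f g).g j * Peel.colP (pdata N b b' f g) (kap N b b' f g I J) j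
      = J.getD j 0 := by
    intro j
    rw [colP_kap h j]
    show 1 + g j * rr N (J.getD j 0 - 1) = J.getD j 0
    rw [← hg j, sm_mul_rr]
    have := two_leJ h (memJ h j)
    omega
  refine ⟨?_, ?_, ?_⟩
  · intro i hi
    have hact : t0 N + 3 * tauN N ≤ (b.get i : ℝ) := (mem_filter.mp hi).2
    have hxm := memI h i
    have hcell := cell_leI h i
    have hnorm := h.normalI _ hxm
    have htop := h.topI _ hxm
    refine ⟨?_, ?_, ?_⟩
    · unfold tauN at hact
      obtain ⟨r, hr, h1, h2⟩ := hlead _ hnorm (by linarith) (by linarith)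
      have hrp := Nat.prime_of_mem_primeFactors hr
      have hrd := Nat.dvd_of_mem_primeFactors hr
      have hlr := lev_le_of_dvd hrp (two_leI h hxm) hrd
      have hmem : r ∈ (pdata N b b' f g).P := mem_pP_of hrp h2 (by linarith)
      obtain ⟨j, hj⟩ := (kap_row_iff h ⟨r, hmem⟩ i).mpr hrd
      refine ⟨⟨r, hmem⟩, j, hj, ?_⟩
      show lamL N (b.get i) ≤ lev r
      unfold lamL tauN
      exact max_le (by linarith) h2.le
    · rw [hform i]
      exact hnorm.1
    · rw [hform i]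
      exact (lt_Bd hnorm.1 (by linarith)).le
  · intro j hj
    have hact : t0 N + 3 * tauN N ≤ (b'.get j : ℝ) := (mem_filter.mp hj).2
    have hxm := memJ h j
    have hcell := cell_leJ h j
    have hnorm := h.normalJ _ hxm
    have htop := h.topJ _ hxm
    refine ⟨?_, ?_, ?_⟩
    · unfold tauN at hact
      obtain ⟨r, hr, h1, h2⟩ := hlead _ hnorm (by linarith) (by linarith)
      have hrp := Nat.prime_of_mem_primeFactors hr
      have hrd := Nat.dvd_of_mem_primeFactors hr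
      have hlr := lev_le_of_dvd hrp (two_leJ h hxm) hrd
      have hmem : r ∈ (pdata N b b' f g).P := mem_pP_of hrp h2 (by linarith)
      obtain ⟨i, hi⟩ := (kap_col_iff h ⟨r, hmem⟩ j).mpr hrd
      refine ⟨⟨r, hmem⟩, i, hi, ?_⟩
      show lamL N (b'.get j) ≤ lev r
      unfold lamL tauN
      exact max_le (by linarith) h2.le
    · rw [hform' j]
      exact hnorm.1
    · rw [hform' j]
      exact (lt_Bd hnorm.1 (by linarith)).le
  · intro i _ j _
    rw [hform i, hform' j]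
    intro he
    exact h.disj _ (memI h i) (he ▸ memJ h j)

lemma eq_of_getD {L L' : List ℕ} (hlen : L.length = L'.length)
    (h : ∀ n, n < L.length → L.getD n 0 = L'.getD n 0) : L = L' := by
  apply List.ext_getElem hlen
  intro n h1 h2
  have := h n h1
  rwa [List.getD_eq_getElem _ _ h1, List.getD_eq_getElem _ _ h2] at this

lemma kap_inj {I' J' : List ℕ} {l₁' l₂' : ℕ} (h : PairOK N b b' I l₁ J l₂)
    (h' : PairOK N b b' I' l₁' J' l₂')
    (hf : ∀ i : Fin b.length, sm N (I.getD i 0 - 1) = f i)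
    (hg : ∀ j : Fin b'.length, sm N (J.getD j 0 - 1) = g j)
    (hf' : ∀ i : Fin b.length, sm N (I'.getD i 0 - 1) = f i)
    (hg' : ∀ j : Fin b'.length, sm N (J'.getD j 0 - 1) = g j)
    (hk : kap N b b' f g I J = kap N b b' f g I' J') : I = I' ∧ J = J' := by
  constructor
  · apply eq_of_getD ((lenI' h).trans (lenI' h').symm)
    intro n hn
    have hn' : n < b.length := by rw [← lenI' h]; exact hn
    have e1 := rowP_kap (f := f) (g := g) h (⟨n, hn'⟩ : Fin b.length)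
    have e2 := rowP_kap (f := f) (g := g) h' (⟨n, hn'⟩ : Fin b.length)
    rw [hk, e2] at e1
    have e3 := sm_mul_rr N (I.getD n 0 - 1)
    have e4 := sm_mul_rr N (I'.getD n 0 - 1)
    have e5 := hf ⟨n, hn'⟩
    have e6 := hf' ⟨n, hn'⟩
    simp only at e1 e5 e6
    rw [e5, ← e1] at e3
    rw [e6] at e4
    have e7 := two_leI h (memI h (⟨n, hn'⟩ : Fin b.length))
    have e8 := two_leI h' (memI h' (⟨n, hn'⟩ : Fin b.length))
    simp only at e7 e8
    omega
  · apply eq_of_getD ((lenJ' h).trans (lenJ' h').symm)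
    intro n hn
    have hn' : n < b'.length := by rw [← lenJ' h]; exact hn
    have e1 := colP_kap (f := f) (g := g) h (⟨n, hn'⟩ : Fin b'.length)
    have e2 := colP_kap (f := f) (g := g) h' (⟨n, hn'⟩ : Fin b'.length)
    rw [hk, e2] at e1
    have e3 := sm_mul_rr N (J.getD n 0 - 1)
    have e4 := sm_mul_rr N (J'.getD n 0 - 1)
    have e5 := hg ⟨n, hn'⟩
    have e6 := hg' ⟨n, hn'⟩
    simp only at e1 e5 e6
    rw [e5, ← e1] at e3
    rw [e6] at e4
    have e7 := two_leJ h (memJ h (⟨n, hn'⟩ : Fin b'.length))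
    have e8 := two_leJ h' (memJ h' (⟨n, hn'⟩ : Fin b'.length))
    simp only at e7 e8
    omega

lemma wt_nonneg' (κ : Peel.Conf (pdata N b b' f g)) : 0 ≤ Peel.wt (pdata N b b' f g) κ := by
  unfold Peel.wt
  apply prod_nonneg
  intro r _
  rcases hk : κ r with _ | c
  · simp
  · simp only
    split_ifs
    · exact div_nonneg ((pdata N b b' f g).u0 _) (by positivity)
    · exact le_rfl

lemma wtU_nonneg' (κ : Peel.Conf (pdata N b b' f g)) : 0 ≤ Peel.wtU (pdata N b b' f g) κ := by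
  unfold Peel.wtU
  apply prod_nonneg
  intro r _
  rcases hk : κ r with _ | c
  · simp
  · simp only
    split_ifs
    · exact (pdata N b b' f g).u0 _
    · exact le_rfl

end Kap

/-- For a fixed low datum: the reciprocal sum of rough radicals is bounded by the peeling sum, times the tilt. -/
theorem core_fixed : ∃ N₀ : ℕ, ∀ N ≥ N₀, ∀ (b b' : List ℕ) (f : Fin b.length → ℕ) (g : Fin b'.length → ℕ) (l₁ l₂ : ℕ)
    (F : Finset (List ℕ × ℕ × List ℕ × ℕ)),
    (∀ τ ∈ F, PairOK N b b' τ.1 τ.2.1 τ.2.2.1 τ.2.2.2 ∧ SameLow N b b' f g l₁ l₂ τ) →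
    ∑ τ ∈ F, (1 : ℝ) / (rr N (rowsProd τ.1 * τ.2.1) : ℝ)
      ≤ Real.exp (ThT N 0 b.tail + errT N) * Peel.AA (pdata N b b' f g) (actI N b) (actI N b') := by
  obtain ⟨N₁, htilt⟩ := tilt_bound
  obtain ⟨N₂, hlead⟩ := leader_exists
  refine ⟨max N₁ N₂, fun N hN b b' f g l₁ l₂ F hF => ?_⟩
  have hN1 : N ≥ N₁ := (le_max_left _ _).trans hN
  have hN2 : N ≥ N₂ := (le_max_right _ _).trans hN
  set E := ThT N 0 b.tail + errT N with hE
  set κ : List ℕ × ℕ × List ℕ × ℕ → Peel.Conf (pdata N b b' f g) :=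
    fun τ => kap N b b' f g τ.1 τ.2.2.1 with hκ
  have hterm : ∀ τ ∈ F, (1 : ℝ) / (rr N (rowsProd τ.1 * τ.2.1) : ℝ)
      ≤ Real.exp E * Peel.wt (pdata N b b' f g) (κ τ) := by
    intro τ hτ
    obtain ⟨hO, _⟩ := hF τ hτ
    have h1 := one_le_tilt (f := f) (g := g) hO (htilt N hN1 _ _ _ _ _ _ hO)
    simp only [hκ]
    rw [wt_eq_div hO]
    have hR : (0 : ℝ) ≤ 1 / (rr N (rowsProd τ.1 * τ.2.1) : ℝ) := by positivity
    calc (1 : ℝ) / (rr N (rowsProd τ.1 * τ.2.1) : ℝ)
        = 1 * (1 / (rr N (rowsProd τ.1 * τ.2.1) : ℝ)) := by ring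
      _ ≤ (Real.exp E * Peel.wtU (pdata N b b' f g) (kap N b b' f g τ.1 τ.2.2.1))
            * (1 / (rr N (rowsProd τ.1 * τ.2.1) : ℝ)) := mul_le_mul_of_nonneg_right h1 hR
      _ = _ := by ring
  have hinj : Set.InjOn κ (F : Set (List ℕ × ℕ × List ℕ × ℕ)) := by
    intro τ hτ τ' hτ' hk
    obtain ⟨hO, h1, h2, h3, h4⟩ := hF τ hτ
    obtain ⟨hO', h1', h2', h3', h4'⟩ := hF τ' hτ'
    obtain ⟨e1, e2⟩ := kap_inj hO hO' h3 h4 h3' h4' hk
    exact Prod.ext e1 (Prod.ext (h1.trans h1'.symm) (Prod.ext e2 (h2.trans h2'.symm)))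
  calc ∑ τ ∈ F, (1 : ℝ) / (rr N (rowsProd τ.1 * τ.2.1) : ℝ)
      ≤ ∑ τ ∈ F, Real.exp E * Peel.wt (pdata N b b' f g) (κ τ) := sum_le_sum hterm
    _ = Real.exp E * ∑ τ ∈ F, Peel.wt (pdata N b b' f g) (κ τ) := (mul_sum _ _ _).symm
    _ = Real.exp E * ∑ k ∈ F.image κ, Peel.wt (pdata N b b' f g) k := by rw [sum_image hinj]
    _ ≤ _ := by
      apply mul_le_mul_of_nonneg_left _ (Real.exp_pos _).le
      unfold Peel.AA
      calc ∑ k ∈ F.image κ, Peel.wt (pdata N b b' f g) k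
          = ∑ k ∈ F.image κ, (if Peel.Ind (pdata N b b' f g) (actI N b) (actI N b') k
              then Peel.wt (pdata N b b' f g) k else 0) := by
            apply sum_congr rfl
            intro k hk
            obtain ⟨τ, hτ, rfl⟩ := mem_image.mp hk
            obtain ⟨hO, _, _, h3, h4⟩ := hF τ hτ
            rw [if_pos (kap_ind hO h3 h4 (hlead N hN2))]
        _ ≤ _ := by
            apply sum_le_sum_of_subset_of_nonneg (subset_univ _)
            intro k _ _
            split_ifs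
            · exact wt_nonneg' k
            · exact le_rfl

/-- Same, for the count. -/
theorem count_fixed : ∃ N₀ : ℕ, ∀ N ≥ N₀, ∀ (b b' : List ℕ) (f : Fin b.length → ℕ) (g : Fin b'.length → ℕ) (l₁ l₂ : ℕ)
    (Y : ℝ) (F : Finset (List ℕ × ℕ × List ℕ × ℕ)), (actI N b).Nonempty →
    (∀ τ ∈ F, PairOK N b b' τ.1 τ.2.1 τ.2.2.1 τ.2.2.2 ∧ SameLow N b b' f g l₁ l₂ τ ∧
      (rr N (rowsProd τ.1 * τ.2.1) : ℝ) ≤ Y) →
    (F.card : ℝ) ≤ Real.exp (ThT N 0 b.tail + errT N) *
      ∑ κ : Peel.Conf (pdata N b b' f g), (if Peel.Ind (pdata N b b' f g) (actI N b) (actI N b') κ ∧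
          (Peel.KK (pdata N b b' f g) κ : ℝ) ≤ Y ∧ ∃ r, (κ r).isSome
        then Peel.wtU (pdata N b b' f g) κ else 0) := by
  obtain ⟨N₁, htilt⟩ := tilt_bound
  obtain ⟨N₂, hlead⟩ := leader_exists
  refine ⟨max N₁ N₂, fun N hN b b' f g l₁ l₂ Y F hne hF => ?_⟩
  have hN1 : N ≥ N₁ := (le_max_left _ _).trans hN
  have hN2 : N ≥ N₂ := (le_max_right _ _).trans hN
  set E := ThT N 0 b.tail + errT N with hE
  set κ : List ℕ × ℕ × List ℕ × ℕ → Peel.Conf (pdata N b b' f g) :=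
    fun τ => kap N b b' f g τ.1 τ.2.2.1 with hκ
  have hterm : ∀ τ ∈ F, (1 : ℝ) ≤ Real.exp E * Peel.wtU (pdata N b b' f g) (κ τ) := by
    intro τ hτ
    obtain ⟨hO, _⟩ := hF τ hτ
    exact one_le_tilt (f := f) (g := g) hO (htilt N hN1 _ _ _ _ _ _ hO)
  have hinj : Set.InjOn κ (F : Set (List ℕ × ℕ × List ℕ × ℕ)) := by
    intro τ hτ τ' hτ' hk
    obtain ⟨hO, ⟨h1, h2, h3, h4⟩, _⟩ := hF τ hτ
    obtain ⟨hO', ⟨h1', h2', h3', h4'⟩, _⟩ := hF τ' hτ'
    obtain ⟨e1, e2⟩ := kap_inj hO hO' h3 h4 h3' h4' hk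
    exact Prod.ext e1 (Prod.ext (h1.trans h1'.symm) (Prod.ext e2 (h2.trans h2'.symm)))
  calc (F.card : ℝ) = ∑ τ ∈ F, (1 : ℝ) := by simp
    _ ≤ ∑ τ ∈ F, Real.exp E * Peel.wtU (pdata N b b' f g) (κ τ) := sum_le_sum hterm
    _ = Real.exp E * ∑ τ ∈ F, Peel.wtU (pdata N b b' f g) (κ τ) := (mul_sum _ _ _).symm
    _ = Real.exp E * ∑ k ∈ F.image κ, Peel.wtU (pdata N b b' f g) k := by rw [sum_image hinj]
    _ ≤ _ := by
      apply mul_le_mul_of_nonneg_left _ (Real.exp_pos _).le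
      calc ∑ k ∈ F.image κ, Peel.wtU (pdata N b b' f g) k
          = ∑ k ∈ F.image κ, (if Peel.Ind (pdata N b b' f g) (actI N b) (actI N b') k ∧
              (Peel.KK (pdata N b b' f g) k : ℝ) ≤ Y ∧ ∃ r, (k r).isSome
              then Peel.wtU (pdata N b b' f g) k else 0) := by
            apply sum_congr rfl
            intro k hk
            obtain ⟨τ, hτ, rfl⟩ := mem_image.mp hk
            obtain ⟨hO, ⟨_, _, h3, h4⟩, hY⟩ := hF τ hτ
            have hI := kap_ind hO h3 h4 (hlead N hN2)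
            obtain ⟨i, hi⟩ := hne
            obtain ⟨r, j, hj, _⟩ := (hI.1 i hi).1
            have hc : Peel.Ind (pdata N b b' f g) (actI N b) (actI N b') (κ τ) ∧
                (Peel.KK (pdata N b b' f g) (κ τ) : ℝ) ≤ Y ∧ ∃ r, (κ τ r).isSome := by
              refine ⟨hI, ?_, r, ?_⟩
              · simp only [hκ]
                rw [KK_kap hO]
                exact hY
              · simp only [hκ]
                rw [hj]
                rfl
            rw [if_pos hc]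
        _ ≤ _ := by
            apply sum_le_sum_of_subset_of_nonneg (subset_univ _)
            intro k _ _
            split_ifs
            · exact wtU_nonneg' k
            · exact le_rfl

end
end PairCore
end Vale.Agent.Lib.P031V
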