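import Vale.Agent.Lib.P031V.PairD1

/-! # P031: proof of `top_count` (helper77). -/

namespace Vale.Agent.Lib.P031V
namespace PairCore
open Real Finset
open scoped Classical
noncomputable section

private lemma exp_exp_ge (x : ℝ) : x + 2 ≤ Real.exp (Real.exp x) := by
  have h1 := Real.add_one_le_exp x
  have h2 := Real.add_one_le_exp (Real.exp x)
  linarith

/-- Bound on `Bd`. -/
private lemma Bd_le (N : ℕ) : (Bd N : ℝ) ≤ 2 * Real.exp (Real.exp ((N : ℝ) + 6)) + 2 := by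
  unfold Bd
  push_cast
  have h := Nat.ceil_lt_add_one (Real.exp_pos (Real.exp ((N : ℝ) + 6))).le
  have h0 := Real.exp_pos (Real.exp ((N : ℝ) + 6))
  linarith

private lemma levR_coeff_le (N F F' : ℕ) (h1 : 1 ≤ F) (h1' : 1 ≤ F') (hne : F ≠ F') (hF : F ≤ Bd N) (hF' : F' ≤ Bd N) :
    levR ((F : ℝ) * F' * |(F : ℝ) - F'|) ≤ (N : ℝ) + 8 := by
  set E : ℝ := Real.exp ((N : ℝ) + 6) with hE
  have hE1 : 1 ≤ E := by
    rw [hE]; exact Real.one_le_exp (by positivity)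
  set x : ℝ := (F : ℝ) * F' * |(F : ℝ) - F'| with hx
  have hFr : (1 : ℝ) ≤ F := by exact_mod_cast h1
  have hFr' : (1 : ℝ) ≤ F' := by exact_mod_cast h1'
  have hB := Bd_le N
  have hB' : (Bd N : ℝ) ≤ Real.exp (E + 2) := by
    rw [Real.exp_add]
    have h2 : (4 : ℝ) ≤ Real.exp 2 := by
      have := Real.add_one_le_exp (1 : ℝ)
      have h3 : Real.exp 2 = Real.exp 1 * Real.exp 1 := by rw [← Real.exp_add]; norm_num
      have h4 : (2 : ℝ) ≤ Real.exp 1 := by linarith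
      rw [h3]; nlinarith
    have h5 : 1 ≤ Real.exp E := Real.one_le_exp (by linarith)
    nlinarith
  have hFb : (F : ℝ) ≤ Bd N := by exact_mod_cast hF
  have hFb' : (F' : ℝ) ≤ Bd N := by exact_mod_cast hF'
  have hdiff1 : (1 : ℝ) ≤ |(F : ℝ) - F'| := by
    have hne' : (F : ℤ) - F' ≠ 0 := by
      intro h; apply hne; have : (F : ℤ) = F' := by linarith
      exact_mod_cast this
    have : (1 : ℤ) ≤ |(F : ℤ) - F'| := Int.one_le_abs hne'
    exact_mod_cast this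
  have hdiffb : |(F : ℝ) - F'| ≤ Bd N := by
    rw [abs_le]; constructor <;> linarith
  have hx1 : 1 ≤ x := by
    rw [hx]
    have : (1 : ℝ) ≤ (F : ℝ) * F' := by nlinarith
    nlinarith
  have hxle : x ≤ Real.exp (3 * (E + 2)) := by
    have h3 : Real.exp (3 * (E + 2)) = Real.exp (E + 2) * Real.exp (E + 2) * Real.exp (E + 2) := by
      rw [← Real.exp_add, ← Real.exp_add]; congr 1; ring
    rw [h3, hx]
    have ha : (F : ℝ) ≤ Real.exp (E + 2) := le_trans hFb hB'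
    have hb : (F' : ℝ) ≤ Real.exp (E + 2) := le_trans hFb' hB'
    have hc : |(F : ℝ) - F'| ≤ Real.exp (E + 2) := le_trans hdiffb hB'
    have hab : (F : ℝ) * F' ≤ Real.exp (E + 2) * Real.exp (E + 2) :=
      mul_le_mul ha hb (by positivity) (by positivity)
    exact mul_le_mul hab hc (abs_nonneg _) (by positivity)
  have hlog : Real.log x ≤ 3 * (E + 2) := by
    have := Real.log_le_log (by linarith) hxle
    rwa [Real.log_exp] at this
  have hlog0 : 0 ≤ Real.log x := Real.log_nonneg hx1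
  unfold levR
  rcases hlog0.eq_or_lt with h0 | hpos
  · rw [← h0, Real.log_zero]; positivity
  · have h7 : (7 : ℝ) ≤ Real.exp 2 := by
      have := Real.exp_one_gt_d9
      have h3 : Real.exp 2 = Real.exp 1 * Real.exp 1 := by rw [← Real.exp_add]; norm_num
      rw [h3]; nlinarith
    have : Real.log x ≤ Real.exp ((N : ℝ) + 8) := by
      have h8 : Real.exp ((N : ℝ) + 8) = E * Real.exp 2 := by
        rw [hE, ← Real.exp_add]; congr 1; ring
      have hE7 : (7 : ℝ) ≤ E := by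
        have h9 := Real.add_one_le_exp ((N : ℝ) + 6)
        have h10 : (0 : ℝ) ≤ N := Nat.cast_nonneg _
        rw [hE]; linarith
      have h11 : E * 7 ≤ E * Real.exp 2 := mul_le_mul_of_nonneg_left h7 (by linarith)
      rw [h8]; linarith
    exact (Real.log_le_iff_le_exp hpos).2 this

/-- The three form count for the largest prime, from `S3_count` (proof of `top_count`). -/
theorem top_count_aux : ∃ (C : ℝ) (N₀ : ℕ), 1 ≤ C ∧ ∀ N ≥ N₀, ∀ (b b' : List ℕ) (f : Fin b.length → ℕ) (g : Fin b'.length → ℕ)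
    (lam Y : ℝ), (N : ℝ) / 2 ≤ lam → levR Y ≤ (N : ℝ) + 4 → 1 ≤ Y →
    ∀ (Z : ℝ) (F F' : ℕ), 0 < Z → Z ≤ Y → 1 ≤ F → 1 ≤ F' → F ≠ F' →
      F ≤ (pdata N b b' f g).Fm → F' ≤ (pdata N b b' f g).Fm →
      ((((pdata N b b' f g).P).filter (fun R : ℕ => (R : ℝ) ≤ Z ∧ lam ≤ lev R ∧ (1 + R * F).Prime ∧ (1 + R * F').Prime)).card : ℝ)
        ≤ (C * ((N : ℝ) + 8) ^ 6 * Real.exp (-(3 * lam))) * Z := by
  obtain ⟨C, Y₀, hC, hS3⟩ := S3_count
  refine ⟨max C 1, ⌈2 * |Y₀|⌉₊ + 6, le_max_right _ _, ?_⟩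
  intro N hN b b' f g lam Y hlam hY hY1 Z F F' hZ hZY h1 h1' hne hF hF'
  set A := ((pdata N b b' f g).P).filter (fun R : ℕ => (R : ℝ) ≤ Z ∧ lam ≤ lev R ∧ (1 + R * F).Prime ∧ (1 + R * F').Prime) with hA
  have hCpos : 0 < max C 1 := lt_of_lt_of_le hC (le_max_left _ _)
  have hRHS0 : 0 ≤ (max C 1 * ((N : ℝ) + 8) ^ 6 * Real.exp (-(3 * lam))) * Z := by positivity
  rcases A.eq_empty_or_nonempty with hAe | ⟨R, hR⟩
  · rw [hAe]; simpa using hRHS0
  -- a witness `R`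
  have hR' := Finset.mem_filter.mp hR
  obtain ⟨hRP, hRZ, hRlam, -, -⟩ := hR'
  have hRprime : R.Prime := (pdata N b b' f g).primeP R hRP
  have hR2 : (2 : ℝ) ≤ R := by exact_mod_cast hRprime.two_le
  have hlogR : 0 < Real.log R := Real.log_pos (by linarith)
  have hexp_lam : Real.exp lam ≤ Real.log R := by
    have : lam ≤ Real.log (Real.log R) := hRlam
    exact (Real.le_log_iff_exp_le hlogR).1 this
  have hlogZ : Real.exp lam ≤ Real.log Z := by
    have := Real.log_le_log (by linarith) hRZ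
    linarith
  have hZlarge : Real.exp (Real.exp lam) ≤ Z := by
    have : Real.exp (Real.exp lam) ≤ Real.exp (Real.log Z) := Real.exp_le_exp.2 hlogZ
    rwa [Real.exp_log hZ] at this
  have hNr : (⌈2 * |Y₀|⌉₊ : ℝ) + 6 ≤ N := by exact_mod_cast hN
  have hceil : 2 * |Y₀| ≤ (⌈2 * |Y₀|⌉₊ : ℝ) := Nat.le_ceil _
  have hY0 : Y₀ ≤ Z := by
    have h1 := exp_exp_ge lam
    have h2 := le_abs_self Y₀
    have h3 : 0 ≤ |Y₀| := abs_nonneg _
    have hN3 : (3 : ℝ) ≤ (N : ℝ) / 2 := by linarith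
    linarith
  have hZ3 : (3 : ℝ) ≤ Z := by
    have h1 := exp_exp_ge lam
    have h3 : 0 ≤ |Y₀| := abs_nonneg _
    have hN3 : (3 : ℝ) ≤ (N : ℝ) / 2 := by linarith
    linarith
  have hQ1 : (1 : ℝ) ≤ (N : ℝ) + 8 := by
    have : (0 : ℝ) ≤ N := Nat.cast_nonneg _
    linarith
  have hlevZ : levR Z ≤ (N : ℝ) + 8 := by
    have hlogZ0 : 0 < Real.log Z := Real.log_pos (by linarith)
    have h1 : Real.log Z ≤ Real.log Y := Real.log_le_log hZ hZY
    have h2 : levR Z ≤ levR Y := Real.log_le_log hlogZ0 h1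
    linarith
  have hcoef := levR_coeff_le N F F' h1 h1' hne hF hF'
  have hmain := hS3 Z ((N : ℝ) + 8) F F' hY0 h1 h1' hne hQ1 hcoef hlevZ
  have hsub : A ⊆ (Finset.Icc 1 ⌊Z⌋₊).filter (fun R => R.Prime ∧ (1 + R * F).Prime ∧ (1 + R * F').Prime) := by
    intro r hr
    have hr' := Finset.mem_filter.mp hr
    obtain ⟨hrP, hrZ, -, hr1, hr2⟩ := hr'
    have hrp : r.Prime := (pdata N b b' f g).primeP r hrP
    refine Finset.mem_filter.mpr ⟨Finset.mem_Icc.mpr ⟨hrp.one_le, Nat.le_floor hrZ⟩, hrp, hr1, hr2⟩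
  have hcard : (A.card : ℝ) ≤ (((Finset.Icc 1 ⌊Z⌋₊).filter (fun R => R.Prime ∧ (1 + R * F).Prime ∧ (1 + R * F').Prime)).card : ℝ) := by
    exact_mod_cast Finset.card_le_card hsub
  refine le_trans hcard (le_trans hmain ?_)
  -- `(log Z)^3 ≥ exp (3 lam)`
  have hpow : Real.exp (3 * lam) ≤ (Real.log Z) ^ 3 := by
    have h3 : Real.exp (3 * lam) = (Real.exp lam) ^ 3 := by
      rw [← Real.exp_nat_mul]; norm_num
    rw [h3]
    exact pow_le_pow_left₀ (Real.exp_pos _).le hlogZ 3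
  have hlogZ3 : 0 < (Real.log Z) ^ 3 := lt_of_lt_of_le (Real.exp_pos _) hpow
  rw [div_le_iff₀ hlogZ3]
  have hQ6 : 0 ≤ ((N : ℝ) + 8) ^ 6 := by positivity
  have hee : Real.exp (-(3 * lam)) * Real.exp (3 * lam) = 1 := by
    rw [← Real.exp_add]; simp
  have hee' : 1 ≤ Real.exp (-(3 * lam)) * (Real.log Z) ^ 3 := by
    have := mul_le_mul_of_nonneg_left hpow (Real.exp_pos (-(3 * lam))).le
    linarith
  have hC' : C ≤ max C 1 := le_max_left _ _
  have hb0 : 0 ≤ Z * ((N : ℝ) + 8) ^ 6 := by positivity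
  calc C * Z * ((N : ℝ) + 8) ^ 6 = C * (Z * ((N : ℝ) + 8) ^ 6) := by ring
    _ ≤ max C 1 * (Z * ((N : ℝ) + 8) ^ 6) := mul_le_mul_of_nonneg_right hC' hb0
    _ = max C 1 * (Z * ((N : ℝ) + 8) ^ 6) * 1 := by ring
    _ ≤ max C 1 * (Z * ((N : ℝ) + 8) ^ 6) * (Real.exp (-(3 * lam)) * (Real.log Z) ^ 3) :=
        mul_le_mul_of_nonneg_left hee' (by positivity)
    _ = max C 1 * ((N : ℝ) + 8) ^ 6 * Real.exp (-(3 * lam)) * Z * (Real.log Z) ^ 3 := by ring

end
end PairCore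
end Vale.Agent.Lib.P031V
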