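import Vale.Agent.Lib.P031V.PairD2Sieve
import Vale.Agent.Lib.P031V.PairD2Top

/-! # P031: the sieve hypotheses and the base of the peeling for the data `pdata` (section 6). -/

namespace Vale.Agent.Lib.P031V
namespace PairCore
open Real Finset
open scoped Classical
noncomputable section

/-- The sieve hypotheses of the peeling, from `S3_mass`, `S2_mass`. -/
theorem sieve_hyp : ∃ (C : ℝ) (N₀ : ℕ), 1 ≤ C ∧ ∀ N ≥ N₀, ∀ (b b' : List ℕ) (f : Fin b.length → ℕ) (g : Fin b'.length → ℕ),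
    Peel.SieveHyp (pdata N b b' f g) (C * ((N : ℝ) + 8) ^ 6) (pdata N b b' f g).lamA (pdata N b b' f g).lamB :=
  sieve_hyp_aux

/-- The number of indices of `b` with `t ≤ b_i + 1` is `nb b t`. -/
private theorem sum_ite_eq_nb (b : List ℕ) (t : ℝ) :
    (∑ i : Fin b.length, (if t ≤ (b.get i : ℝ) + 1 then (1 : ℝ) else 0)) = (nb b t : ℝ) := by
  have h : ∀ l : List ℕ, (∑ i : Fin l.length, (if t ≤ (l.get i : ℝ) + 1 then (1 : ℝ) else 0))
      = (((l.filter (fun c => t ≤ (c : ℝ) + 1)).length : ℕ) : ℝ) := by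
    intro l
    have := Fin.sum_univ_fun_getElem l (fun c : ℕ => (if t ≤ (c : ℝ) + 1 then (1 : ℝ) else 0))
    simp only [List.get_eq_getElem]
    rw [this]
    induction l with
    | nil => simp
    | cons a l ih =>
      have h2 := Fin.sum_univ_fun_getElem l (fun c : ℕ => (if t ≤ (c : ℝ) + 1 then (1 : ℝ) else 0))
      simp only [List.map_cons, List.sum_cons]
      rw [ih h2]
      by_cases hc : t ≤ (a : ℝ) + 1
      · simp [hc]; ring
      · simp [hc]
  exact h b

/-- The base of the peeling: the mass of alive cells, after the tilt weight, from `mert_interval`. -/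
theorem base_bound : ∃ N₀ : ℕ, ∀ N ≥ N₀, ∀ (b b' : List ℕ) (f : Fin b.length → ℕ) (g : Fin b'.length → ℕ),
    (∀ c ∈ b', t0 N ≤ (c : ℝ) + 1) →
    ∑ r ∈ (pdata N b b' f g).P, ∑ c : Fin b.length × Fin b'.length,
        (if (pdata N b b' f g).alive r c.1 c.2 then (pdata N b b' f g).u r / (r : ℕ) else 0)
      ≤ (b'.map (fun c : ℕ => (c : ℝ) + 3 - t0 N)).sum := by
  obtain ⟨C, a₀, hC0, hC⟩ := mert_interval
  have ht : Filter.Tendsto (fun N : ℕ => (N : ℝ) ^ ((4 : ℝ) / 5)) Filter.atTop Filter.atTop :=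
    (tendsto_rpow_atTop (by norm_num : (0 : ℝ) < 4 / 5)).comp tendsto_natCast_atTop_atTop
  obtain ⟨N₀, hN₀⟩ := Filter.eventually_atTop.1
    (ht.eventually_ge_atTop (max a₀ (Real.log C)))
  refine ⟨N₀, fun N hN b b' f g hb' => ?_⟩
  have ht0 : max a₀ (Real.log C) ≤ t0 N := hN₀ N hN
  have ha : a₀ ≤ t0 N := le_trans (le_max_left _ _) ht0
  have hlog : Real.log C ≤ t0 N := le_trans (le_max_right _ _) ht0
  have hCe : C * Real.exp (-(t0 N)) ≤ 1 := by
    have : C = Real.exp (Real.log C) := (Real.exp_log hC0).symm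
    calc C * Real.exp (-(t0 N)) = Real.exp (Real.log C + -(t0 N)) := by
          rw [Real.exp_add, Real.exp_log hC0]
      _ ≤ Real.exp 0 := Real.exp_le_exp.2 (by linarith)
      _ = 1 := Real.exp_zero
  -- terms for a fixed prime
  have hterm : ∀ r ∈ (pdata N b b' f g).P,
      ∑ c : Fin b.length × Fin b'.length,
        (if (pdata N b b' f g).alive r c.1 c.2 then (pdata N b b' f g).u r / (r : ℕ) else 0)
      ≤ ∑ j : Fin b'.length, (if lev r ≤ (b'.get j : ℝ) + 1 then (1 : ℝ) / (r : ℕ) else 0) := by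
    intro r hr
    rw [Fintype.sum_prod_type_right]
    refine Finset.sum_le_sum fun j _ => ?_
    have hr0 : (0 : ℝ) ≤ 1 / (r : ℝ) := by positivity
    by_cases hj : lev r ≤ (b'.get j : ℝ) + 1
    · rw [if_pos hj]
      have : ∀ i : Fin b.length, (if (pdata N b b' f g).alive r i j then (pdata N b b' f g).u r / (r : ℕ) else 0)
          = (if lev r ≤ (b.get i : ℝ) + 1 then (1 : ℝ) else 0) * ((1 / (nb b (lev r) : ℝ)) * (1 / (r : ℝ))) := by
        intro i
        by_cases hi : lev r ≤ (b.get i : ℝ) + 1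
        · have ha : (pdata N b b' f g).alive r i j := ⟨hi, hj⟩
          rw [if_pos ha, if_pos hi]
          show 1 / (nb b (lev r) : ℝ) / (r : ℝ) = _
          ring
        · have ha : ¬ (pdata N b b' f g).alive r i j := fun h => hi h.1
          rw [if_neg ha, if_neg hi, zero_mul]
      simp_rw [this]
      rw [← Finset.sum_mul, sum_ite_eq_nb]
      rcases Nat.eq_zero_or_pos (nb b (lev r)) with h0 | h0
      · simp [h0]
      · have : ((nb b (lev r) : ℕ) : ℝ) ≠ 0 := by positivity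
        rw [← mul_assoc, mul_one_div_cancel this, one_mul]
    · rw [if_neg hj]
      refine le_of_eq (Finset.sum_eq_zero fun i _ => ?_)
      have ha : ¬ (pdata N b b' f g).alive r i j := fun h => hj h.2
      rw [if_neg ha]
  -- bound for a fixed column
  have hcol : ∀ j : Fin b'.length,
      ∑ r ∈ (pdata N b b' f g).P, (if lev r ≤ (b'.get j : ℝ) + 1 then (1 : ℝ) / (r : ℕ) else 0)
      ≤ (b'.get j : ℝ) + 3 - t0 N := by
    intro j
    have hj : t0 N ≤ (b'.get j : ℝ) + 1 := hb' _ (List.get_mem _ _)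
    have hle : t0 N ≤ (b'.get j : ℝ) + 2 := by linarith
    have hm := hC (t0 N) ((b'.get j : ℝ) + 2) ha hle
    have hm' := (abs_le.1 hm).2
    have hsub : (pdata N b b' f g).P.filter (fun r => lev r ≤ (b'.get j : ℝ) + 1)
        ⊆ primesLev (t0 N) ((b'.get j : ℝ) + 2) := by
      intro r hr
      obtain ⟨hrP, hrl⟩ := Finset.mem_filter.1 hr
      obtain ⟨-, hrp, hrt, -⟩ := Finset.mem_filter.1 hrP
      have hlt : lev r < (b'.get j : ℝ) + 2 := by linarith
      refine Finset.mem_filter.2 ⟨?_, hrp, hrt.le, hlt⟩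
      have h1 := lt_exp_exp_of_level hrp hlt
      have := Nat.lt_ceil.2 h1
      exact Finset.mem_range.2 (by omega)
    have hfil : ∑ r ∈ (pdata N b b' f g).P, (if lev r ≤ (b'.get j : ℝ) + 1 then (1 : ℝ) / (r : ℕ) else 0)
        = ∑ r ∈ (pdata N b b' f g).P.filter (fun r => lev r ≤ (b'.get j : ℝ) + 1), (1 : ℝ) / (r : ℕ) :=
      (Finset.sum_filter _ _).symm
    rw [hfil]
    have hmass : ∑ r ∈ (pdata N b b' f g).P.filter (fun r => lev r ≤ (b'.get j : ℝ) + 1), (1 : ℝ) / (r : ℕ)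
        ≤ massI (t0 N) ((b'.get j : ℝ) + 2) := by
      unfold massI
      calc _ ≤ ∑ r ∈ (pdata N b b' f g).P.filter (fun r => lev r ≤ (b'.get j : ℝ) + 1), (1 : ℝ) / ((r : ℝ) - 1) := by
            refine Finset.sum_le_sum fun r hr => ?_
            obtain ⟨hrP, -⟩ := Finset.mem_filter.1 hr
            obtain ⟨-, hrp, -, -⟩ := Finset.mem_filter.1 hrP
            have h2 : (2 : ℝ) ≤ r := by exact_mod_cast hrp.two_le
            exact one_div_le_one_div_of_le (by linarith) (by linarith)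
        _ ≤ _ := by
            refine Finset.sum_le_sum_of_subset_of_nonneg hsub fun r hr _ => ?_
            obtain ⟨-, hrp, -, -⟩ := Finset.mem_filter.1 hr
            have h2 : (2 : ℝ) ≤ r := by exact_mod_cast hrp.two_le
            have : 0 < (r : ℝ) - 1 := by linarith
            positivity
    linarith
  calc ∑ r ∈ (pdata N b b' f g).P, ∑ c : Fin b.length × Fin b'.length,
        (if (pdata N b b' f g).alive r c.1 c.2 then (pdata N b b' f g).u r / (r : ℕ) else 0)
      ≤ ∑ r ∈ (pdata N b b' f g).P, ∑ j : Fin b'.length, (if lev r ≤ (b'.get j : ℝ) + 1 then (1 : ℝ) / (r : ℕ) else 0) :=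
        Finset.sum_le_sum hterm
    _ = ∑ j : Fin b'.length, ∑ r ∈ (pdata N b b' f g).P, (if lev r ≤ (b'.get j : ℝ) + 1 then (1 : ℝ) / (r : ℕ) else 0) :=
        Finset.sum_comm
    _ ≤ ∑ j : Fin b'.length, ((b'.get j : ℝ) + 3 - t0 N) := Finset.sum_le_sum fun j _ => hcol j
    _ = (b'.map (fun c : ℕ => (c : ℝ) + 3 - t0 N)).sum := by
        have h1 := Fin.sum_univ_fun_getElem b' (fun c : ℕ => (c : ℝ) + 3 - t0 N)
        simpa only [List.get_eq_getElem] using h1

/-- The three form count for the largest prime, from `S3_count`. -/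
theorem top_count : ∃ (C : ℝ) (N₀ : ℕ), 1 ≤ C ∧ ∀ N ≥ N₀, ∀ (b b' : List ℕ) (f : Fin b.length → ℕ) (g : Fin b'.length → ℕ)
    (lam Y : ℝ), (N : ℝ) / 2 ≤ lam → levR Y ≤ (N : ℝ) + 4 → 1 ≤ Y →
    ∀ (Z : ℝ) (F F' : ℕ), 0 < Z → Z ≤ Y → 1 ≤ F → 1 ≤ F' → F ≠ F' →
      F ≤ (pdata N b b' f g).Fm → F' ≤ (pdata N b b' f g).Fm →
      ((((pdata N b b' f g).P).filter (fun R : ℕ => (R : ℝ) ≤ Z ∧ lam ≤ lev R ∧ (1 + R * F).Prime ∧ (1 + R * F').Prime)).card : ℝ)
        ≤ (C * ((N : ℝ) + 8) ^ 6 * Real.exp (-(3 * lam))) * Z := by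
  exact top_count_aux

end
end PairCore
end Vale.Agent.Lib.P031V
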