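import Vale.Agent.Lib.P031V.PairD1

/-! # P031: the sieve hypotheses of the peeling for `pdata`, from `S3_mass`, `S2_mass`. -/

namespace Vale.Agent.Lib.P031V
namespace PairCore
open Real Finset
open scoped Classical
noncomputable section

lemma Bd_bound (N : ℕ) : Real.log (Bd N) ≤ Real.exp ((N : ℝ) + 6) + 1 := by
  set E : ℝ := Real.exp (Real.exp ((N : ℝ) + 6)) with hE
  have hE1 : 2 ≤ E := by
    have h0 : (1 : ℝ) ≤ Real.exp ((N : ℝ) + 6) := Real.one_le_exp (by positivity)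
    have h1 : Real.exp 1 ≤ E := Real.exp_le_exp.2 h0
    have := Real.exp_one_gt_d9
    linarith
  have h1 : (Bd N : ℝ) ≤ E + 2 := by
    unfold Bd
    push_cast
    have := Nat.ceil_lt_add_one (show 0 ≤ E by linarith)
    linarith
  have hBpos : (0 : ℝ) < (Bd N : ℝ) := by
    unfold Bd
    positivity
  have h2 : E + 2 ≤ Real.exp 1 * E := by
    have := Real.exp_one_gt_d9
    nlinarith
  have h3 : Real.log (Bd N) ≤ Real.log (Real.exp 1 * E) :=
    Real.log_le_log hBpos (le_trans h1 h2)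
  rw [Real.log_mul (Real.exp_pos _).ne' (by linarith), Real.log_exp, hE, Real.log_exp] at h3
  linarith

/-- Anything below `(Bd N)^3` and at least one has level at most `N + 8`. -/
lemma levR_le_of_le_cube {N : ℕ} {x : ℝ} (h1 : 1 ≤ x) (h2 : x ≤ (Bd N : ℝ) ^ 3) :
    levR x ≤ (N : ℝ) + 8 := by
  unfold levR
  have hN : (0 : ℝ) ≤ (N : ℝ) + 8 := by positivity
  have hlognn : 0 ≤ Real.log x := Real.log_nonneg h1
  rcases hlognn.eq_or_lt with h0 | h0
  · rw [← h0, Real.log_zero]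
    exact hN
  have hBpos : (0 : ℝ) < (Bd N : ℝ) := by
    unfold Bd
    positivity
  have h3 : Real.log x ≤ 3 * Real.log (Bd N) := by
    have := Real.log_le_log (by linarith) h2
    rwa [Real.log_pow, Nat.cast_ofNat] at this
  have h4 := Bd_bound N
  have h5 : (1 : ℝ) ≤ Real.exp ((N : ℝ) + 6) := Real.one_le_exp (by positivity)
  have h6 : Real.log x ≤ Real.exp ((N : ℝ) + 8) := by
    have e : Real.exp ((N : ℝ) + 8) = Real.exp ((N : ℝ) + 6) * Real.exp 2 := by
      rw [← Real.exp_add]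
      ring_nf
    rw [e]
    have h7 : (7 : ℝ) ≤ Real.exp 2 := by
      have e2 : Real.exp 2 = Real.exp 1 ^ (2 : ℕ) := by
        rw [← Real.exp_nat_mul]
        norm_num
      rw [e2]
      have := Real.exp_one_gt_d9
      nlinarith
    nlinarith
  exact (Real.log_le_iff_le_exp h0).2 h6

lemma natcast_mul_abs_bounds {F F' B : ℕ} (hF : 1 ≤ F) (hF' : 1 ≤ F') (hne : F ≠ F') (h1 : F ≤ B) (h2 : F' ≤ B) :
    1 ≤ (F : ℝ) * F' * |(F : ℝ) - F'| ∧ (F : ℝ) * F' * |(F : ℝ) - F'| ≤ (B : ℝ) ^ 3 := by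
  have hFr : (1 : ℝ) ≤ F := by exact_mod_cast hF
  have hFr' : (1 : ℝ) ≤ F' := by exact_mod_cast hF'
  have hBr : (F : ℝ) ≤ B := by exact_mod_cast h1
  have hBr' : (F' : ℝ) ≤ B := by exact_mod_cast h2
  have habs1 : 1 ≤ |(F : ℝ) - F'| := by
    have h3 : ((F : ℤ) - F' : ℤ) ≠ 0 := by
      intro h
      apply hne
      omega
    have h4 : (1 : ℤ) ≤ |(F : ℤ) - F'| := Int.one_le_abs h3
    have h5 : ((|(F : ℤ) - F'| : ℤ) : ℝ) = |(F : ℝ) - F'| := by
      push_cast
      rfl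
    rw [← h5]
    exact_mod_cast h4
  have habs2 : |(F : ℝ) - F'| ≤ B := by
    rw [abs_le]
    constructor <;> linarith
  constructor
  · have : 1 ≤ (F : ℝ) * F' := by nlinarith
    nlinarith
  · have h3 : (F : ℝ) * F' ≤ B * B := by nlinarith
    have h4 : (0 : ℝ) ≤ F * F' := by positivity
    calc (F : ℝ) * F' * |(F : ℝ) - F'| ≤ (B * B) * B :=
          mul_le_mul h3 habs2 (abs_nonneg _) (by positivity)
      _ = (B : ℝ) ^ 3 := by ring

/-- The sieve hypotheses of the peeling, from `S3_mass`, `S2_mass`. -/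
theorem sieve_hyp_aux : ∃ (C : ℝ) (N₀ : ℕ), 1 ≤ C ∧ ∀ N ≥ N₀, ∀ (b b' : List ℕ) (f : Fin b.length → ℕ) (g : Fin b'.length → ℕ),
    Peel.SieveHyp (pdata N b b' f g) (C * ((N : ℝ) + 8) ^ 6) (pdata N b b' f g).lamA (pdata N b b' f g).lamB := by
  obtain ⟨C3, l3, hC3, h3⟩ := S3_mass
  obtain ⟨C2, l2, hC2, h2⟩ := S2_mass
  have hev : ∀ᶠ n : ℕ in Filter.atTop, max l3 l2 ≤ (n : ℝ) ^ ((4 : ℝ) / 5) :=
    ((tendsto_rpow_atTop (by norm_num : (0 : ℝ) < 4 / 5)).comp
      tendsto_natCast_atTop_atTop).eventually_ge_atTop _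
  obtain ⟨N₀, hN₀⟩ := Filter.eventually_atTop.1 hev
  refine ⟨C3 + C2 + 1, N₀, by linarith, ?_⟩
  intro N hN b b' f g
  have hQ1 : (1 : ℝ) ≤ (N : ℝ) + 8 := by
    have : (0 : ℝ) ≤ N := Nat.cast_nonneg N
    linarith
  set Q : ℝ := (N : ℝ) + 8 with hQ
  have hlam : ∀ c : ℕ, max l3 l2 ≤ lamL N c := by
    intro c
    exact le_trans (hN₀ N hN) (le_trans (le_of_eq rfl) (le_max_right _ _))
  have hPlev : ∀ r ∈ (pdata N b b' f g).P, r.Prime ∧ lev r ≤ Q := by
    intro r hr
    obtain ⟨_, h4, _, h5⟩ := Finset.mem_filter.1 hr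
    exact ⟨h4, by rw [hQ]; linarith⟩
  have hpowle : Q ^ 4 ≤ Q ^ 6 := pow_le_pow_right₀ hQ1 (by norm_num)
  have hQ6 : 0 < Q ^ 6 := by positivity
  refine ⟨?_, ?_, ?_⟩
  · intro i j F F' hF hF' hne hFm hFm'
    set lam : ℝ := max (pdata N b b' f g).lamA i |> fun _ => max ((pdata N b b' f g).lamA i) ((pdata N b b' f g).lamB j) with hlamdef
    have hlam1 : l3 ≤ lam := by
      refine le_trans (le_trans (le_max_left l3 l2) (hlam (b.get i))) ?_
      exact le_max_left _ _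
    obtain ⟨hB1, hB2⟩ := natcast_mul_abs_bounds hF hF' hne hFm hFm'
    have hlev := levR_le_of_le_cube (N := N) hB1 hB2
    have hm := h3 lam Q F F' ((pdata N b b' f g).P.filter (fun R => lam ≤ lev R)) hlam1 hF hF' hne hQ1 hlev
      (by
        intro R hR
        obtain ⟨h4, h5⟩ := Finset.mem_filter.1 hR
        exact ⟨(hPlev R h4).1, h5, (hPlev R h4).2⟩)
    have e : ∑ R ∈ (pdata N b b' f g).P, (if (pdata N b b' f g).lamA i ≤ lev (R : ℕ) ∧ (pdata N b b' f g).lamB j ≤ lev (R : ℕ) ∧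
          (1 + (R : ℕ) * F).Prime ∧ (1 + (R : ℕ) * F').Prime then (1 : ℝ) / (R : ℕ) else 0) =
        ∑ R ∈ (pdata N b b' f g).P.filter (fun R => lam ≤ lev R),
          (if (1 + R * F).Prime ∧ (1 + R * F').Prime then (1 : ℝ) / R else 0) := by
      rw [Finset.sum_filter]
      apply Finset.sum_congr rfl
      intro R _
      by_cases hl : lam ≤ lev R
      · obtain ⟨hl1, hl2⟩ := max_le_iff.1 hl
        rw [if_pos hl]
        by_cases hp : (1 + R * F).Prime ∧ (1 + R * F').Prime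
        · rw [if_pos hp, if_pos ⟨hl1, hl2, hp.1, hp.2⟩]
        · rw [if_neg hp, if_neg]
          rintro ⟨_, _, h6, h7⟩
          exact hp ⟨h6, h7⟩
      · rw [if_neg hl, if_neg]
        rintro ⟨h6, h7, _⟩
        exact hl (max_le h6 h7)
    rw [e]
    refine le_trans hm ?_
    have hexp : Real.exp (-(2 * lam)) ≤ Real.exp (-(pdata N b b' f g).lamA i - (pdata N b b' f g).lamB j) := by
      apply Real.exp_le_exp.2
      have h8 : (pdata N b b' f g).lamA i ≤ lam := le_max_left _ _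
      have h9 : (pdata N b b' f g).lamB j ≤ lam := le_max_right _ _
      linarith
    have hC : C3 * Q ^ 6 ≤ (C3 + C2 + 1) * Q ^ 6 :=
      mul_le_mul_of_nonneg_right (by linarith) hQ6.le
    calc C3 * Q ^ 6 * Real.exp (-(2 * lam))
        ≤ (C3 + C2 + 1) * Q ^ 6 * Real.exp (-(pdata N b b' f g).lamA i - (pdata N b b' f g).lamB j) :=
          mul_le_mul hC hexp (Real.exp_pos _).le (by positivity)
      _ = _ := rfl
  · intro i F hF hFm
    set lam : ℝ := (pdata N b b' f g).lamA i with hlamdef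
    have hlam1 : l2 ≤ lam := le_trans (le_max_right l3 l2) (hlam (b.get i))
    have hlev : levR F ≤ Q := by
      apply levR_le_of_le_cube (N := N) (by exact_mod_cast hF)
      have h4 : (F : ℝ) ≤ (Bd N : ℝ) := by exact_mod_cast hFm
      have h5 : (1 : ℝ) ≤ (Bd N : ℝ) := by
        have : 1 ≤ Bd N := by unfold Bd; omega
        exact_mod_cast this
      nlinarith [sq_nonneg ((Bd N : ℝ)), pow_le_pow_right₀ h5 (show 1 ≤ 3 by norm_num)]
    have hm := h2 lam Q F ((pdata N b b' f g).P.filter (fun R => lam ≤ lev R)) hlam1 hF hQ1 hlev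
      (by
        intro R hR
        obtain ⟨h4, h5⟩ := Finset.mem_filter.1 hR
        exact ⟨(hPlev R h4).1, h5, (hPlev R h4).2⟩)
    have e : ∑ R ∈ (pdata N b b' f g).P, (if lam ≤ lev (R : ℕ) ∧ (1 + (R : ℕ) * F).Prime then (1 : ℝ) / (R : ℕ) else 0) =
        ∑ R ∈ (pdata N b b' f g).P.filter (fun R => lam ≤ lev R),
          (if (1 + R * F).Prime then (1 : ℝ) / R else 0) := by
      rw [Finset.sum_filter]
      apply Finset.sum_congr rfl
      intro R _
      by_cases hl : lam ≤ lev R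
      · rw [if_pos hl]
        by_cases hp : (1 + R * F).Prime
        · rw [if_pos hp, if_pos ⟨hl, hp⟩]
        · rw [if_neg hp, if_neg]
          rintro ⟨_, h7⟩
          exact hp h7
      · rw [if_neg hl, if_neg]
        rintro ⟨h6, _⟩
        exact hl h6
    rw [e]
    refine le_trans hm ?_
    have hC : C2 * Q ^ 4 ≤ (C3 + C2 + 1) * Q ^ 6 := by
      have h4 : C2 * Q ^ 4 ≤ C2 * Q ^ 6 := mul_le_mul_of_nonneg_left hpowle hC2.le
      have h5 : C2 * Q ^ 6 ≤ (C3 + C2 + 1) * Q ^ 6 := mul_le_mul_of_nonneg_right (by linarith) hQ6.le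
      linarith
    exact mul_le_mul_of_nonneg_right hC (Real.exp_pos _).le
  · intro j F hF hFm
    set lam : ℝ := (pdata N b b' f g).lamB j with hlamdef
    have hlam1 : l2 ≤ lam := le_trans (le_max_right l3 l2) (hlam (b'.get j))
    have hlev : levR F ≤ Q := by
      apply levR_le_of_le_cube (N := N) (by exact_mod_cast hF)
      have h4 : (F : ℝ) ≤ (Bd N : ℝ) := by exact_mod_cast hFm
      have h5 : (1 : ℝ) ≤ (Bd N : ℝ) := by
        have : 1 ≤ Bd N := by unfold Bd; omega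
        exact_mod_cast this
      nlinarith [sq_nonneg ((Bd N : ℝ)), pow_le_pow_right₀ h5 (show 1 ≤ 3 by norm_num)]
    have hm := h2 lam Q F ((pdata N b b' f g).P.filter (fun R => lam ≤ lev R)) hlam1 hF hQ1 hlev
      (by
        intro R hR
        obtain ⟨h4, h5⟩ := Finset.mem_filter.1 hR
        exact ⟨(hPlev R h4).1, h5, (hPlev R h4).2⟩)
    have e : ∑ R ∈ (pdata N b b' f g).P, (if lam ≤ lev (R : ℕ) ∧ (1 + (R : ℕ) * F).Prime then (1 : ℝ) / (R : ℕ) else 0) =
        ∑ R ∈ (pdata N b b' f g).P.filter (fun R => lam ≤ lev R),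
          (if (1 + R * F).Prime then (1 : ℝ) / R else 0) := by
      rw [Finset.sum_filter]
      apply Finset.sum_congr rfl
      intro R _
      by_cases hl : lam ≤ lev R
      · rw [if_pos hl]
        by_cases hp : (1 + R * F).Prime
        · rw [if_pos hp, if_pos ⟨hl, hp⟩]
        · rw [if_neg hp, if_neg]
          rintro ⟨_, h7⟩
          exact hp h7
      · rw [if_neg hl, if_neg]
        rintro ⟨h6, _⟩
        exact hl h6
    rw [e]
    refine le_trans hm ?_
    have hC : C2 * Q ^ 4 ≤ (C3 + C2 + 1) * Q ^ 6 := by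
      have h4 : C2 * Q ^ 4 ≤ C2 * Q ^ 6 := mul_le_mul_of_nonneg_left hpowle hC2.le
      have h5 : C2 * Q ^ 6 ≤ (C3 + C2 + 1) * Q ^ 6 := mul_le_mul_of_nonneg_right (by linarith) hQ6.le
      linarith
    exact mul_le_mul_of_nonneg_right hC (Real.exp_pos _).le

end
end PairCore
end Vale.Agent.Lib.P031V
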