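import Vale.Agent.Lib.P031V.PairD
import Vale.Agent.Lib.P031V.ChainA
import Vale.Agent.Lib.P031V.Mertens2

/-! # P031: the count form of the collision bound, blueprint (PairCount). -/

namespace Vale.Agent.Lib.P031V
open Real Finset
open scoped Classical
noncomputable section

namespace PairCount

/-- Lists of bounded length with bounded entries are few. -/
theorem lists_card_le (U M : ℕ) (B : Finset (List ℕ))
    (h : ∀ b ∈ B, b.length ≤ U ∧ ∀ c ∈ b, c ≤ M) :
    (B.card : ℝ) ≤ ((M : ℝ) + 2) ^ (U + 1) := by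
  let enc : List ℕ → (Fin (U + 1) → Fin (M + 2)) := fun b i =>
    ⟨min (b.getD i (M + 1)) (M + 1), by omega⟩
  have hinj : Set.InjOn enc B := by
    intro b hb b' hb' he
    have hb0 := h b hb
    have hb0' := h b' hb'
    have key : ∀ (a : List ℕ), (a.length ≤ U ∧ ∀ c ∈ a, c ≤ M) → ∀ i : Fin (U + 1),
        ((enc a i : Fin (M + 2)) : ℕ) = a.getD i (M + 1) := by
      intro a ha i
      have : a.getD i (M + 1) ≤ M + 1 := by
        by_cases hi : (i : ℕ) < a.length
        · rw [List.getD_eq_getElem _ _ hi]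
          have := ha.2 _ (List.getElem_mem hi)
          omega
        · rw [List.getD_eq_default _ _ (by omega)]
      simp only [enc]
      omega
    apply List.ext_getElem?
    intro i
    by_cases hi : i < U + 1
    · have h1 : ((enc b ⟨i, hi⟩ : Fin (M + 2)) : ℕ) = ((enc b' ⟨i, hi⟩ : Fin (M + 2)) : ℕ) := by
        rw [he]
      rw [key b hb0, key b' hb0'] at h1
      simp only at h1
      by_cases h2 : i < b.length
      · by_cases h3 : i < b'.length
        · rw [List.getD_eq_getElem _ _ h2, List.getD_eq_getElem _ _ h3] at h1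
          rw [List.getElem?_eq_getElem h2, List.getElem?_eq_getElem h3, h1]
        · rw [List.getD_eq_getElem _ _ h2, List.getD_eq_default _ _ (by omega)] at h1
          have := hb0.2 _ (List.getElem_mem h2)
          omega
      · by_cases h3 : i < b'.length
        · rw [List.getD_eq_default _ _ (by omega), List.getD_eq_getElem _ _ h3] at h1
          have := hb0'.2 _ (List.getElem_mem h3)
          omega
        · rw [List.getElem?_eq_none (by omega), List.getElem?_eq_none (by omega)]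
    · rw [List.getElem?_eq_none (by omega), List.getElem?_eq_none (by omega)]
  have hcard : B.card ≤ (Finset.univ : Finset (Fin (U + 1) → Fin (M + 2))).card :=
    Finset.card_le_card_of_injOn enc (fun _ _ => Finset.mem_univ _) hinj
  rw [Finset.card_univ, Fintype.card_fun, Fintype.card_fin, Fintype.card_fin] at hcard
  have : (B.card : ℝ) ≤ (((M + 2) ^ (U + 1) : ℕ) : ℝ) := by exact_mod_cast hcard
  simpa using this

/-- Sum over small subsets. -/
theorem subsets_sum_le (P : Finset ℕ) (a : ℕ → ℝ) (ha : ∀ p ∈ P, 0 ≤ a p) (S : ℝ) (hS1 : 1 ≤ S)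
    (hS : ∑ p ∈ P, a p ≤ S) (U : ℕ) (CC : Finset (Finset ℕ)) (hCC : ∀ C ∈ CC, C ⊆ P ∧ C.card ≤ U) :
    ∑ C ∈ CC, ∏ p ∈ C, a p ≤ Real.exp 1 * S ^ U := by
  have hS0 : 0 < S := by linarith
  have h1 : ∀ C ∈ CC, ∏ p ∈ C, a p ≤ S ^ U * ∏ p ∈ C, (a p / S) := by
    intro C hC
    obtain ⟨hCP, hCU⟩ := hCC C hC
    have h2 : ∏ p ∈ C, a p = S ^ C.card * ∏ p ∈ C, (a p / S) := by
      rw [Finset.prod_div_distrib, Finset.prod_const]
      field_simp
    rw [h2]
    have h3 : 0 ≤ ∏ p ∈ C, (a p / S) :=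
      Finset.prod_nonneg (fun p hp => div_nonneg (ha p (hCP hp)) hS0.le)
    exact mul_le_mul_of_nonneg_right (pow_le_pow_right₀ hS1 hCU) h3
  have h4 : ∑ C ∈ CC, ∏ p ∈ C, (a p / S) ≤ ∑ C ∈ P.powerset, ∏ p ∈ C, (a p / S) := by
    apply Finset.sum_le_sum_of_subset_of_nonneg
    · intro C hC
      exact Finset.mem_powerset.2 (hCC C hC).1
    · intro C hC _
      exact Finset.prod_nonneg (fun p hp => div_nonneg (ha p (Finset.mem_powerset.1 hC hp)) hS0.le)
  have h5 : ∑ C ∈ P.powerset, ∏ p ∈ C, (a p / S) = ∏ p ∈ P, (1 + a p / S) :=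
    (Finset.prod_one_add P).symm
  have h6 : ∏ p ∈ P, (1 + a p / S) ≤ ∏ p ∈ P, Real.exp (a p / S) := by
    apply Finset.prod_le_prod
    · intro p hp
      have := div_nonneg (ha p hp) hS0.le
      linarith
    · intro p _
      have := Real.add_one_le_exp (a p / S)
      linarith
  have h7 : ∏ p ∈ P, Real.exp (a p / S) ≤ Real.exp 1 := by
    rw [← Real.exp_sum]
    apply Real.exp_le_exp.2
    rw [← Finset.sum_div]
    rw [div_le_one hS0]
    exact hS
  calc ∑ C ∈ CC, ∏ p ∈ C, a p ≤ ∑ C ∈ CC, S ^ U * ∏ p ∈ C, (a p / S) :=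
        Finset.sum_le_sum h1
    _ = S ^ U * ∑ C ∈ CC, ∏ p ∈ C, (a p / S) := by rw [Finset.mul_sum]
    _ ≤ S ^ U * Real.exp 1 := by
        apply mul_le_mul_of_nonneg_left _ (by positivity)
        calc _ ≤ _ := h4
          _ = _ := h5
          _ ≤ _ := h6
          _ ≤ _ := h7
    _ = Real.exp 1 * S ^ U := by ring

/-- `rowsProd` of a nodup list as a product over the finset. -/
theorem rowsProd_eq_prod {l : List ℕ} (hl : l.Nodup) : rowsProd l = ∏ r ∈ l.toFinset, (r - 1) := by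
  unfold rowsProd
  rw [List.prod_toFinset _ hl]

/-- Splitting off the common rows. -/
theorem rowsProd_split {l l' : List ℕ} (hl : l.Nodup) :
    rowsProd l = (∏ r ∈ l.toFinset ∩ l'.toFinset, (r - 1)) * rowsProd (l.filter (fun r => r ∉ l')) := by
  have hl2 : (l.filter (fun r => r ∉ l')).Nodup := hl.filter _
  rw [rowsProd_eq_prod hl, rowsProd_eq_prod hl2]
  have : (l.filter (fun r => r ∉ l')).toFinset = l.toFinset \ l'.toFinset := by
    ext r
    simp
  rw [this, Finset.prod_inter_mul_prod_sdiff]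


/-- The final numerical inequality. -/
theorem numeric (c C' : ℝ) (hc : 1 < c) (hC' : 0 < C') : ∃ N₀ : ℕ, ∀ N ≥ N₀,
    (16 * c / 9) * (((N : ℝ) + 7) ^ (U0 N + 2)) ^ 2 * Real.exp 1 * ((N : ℝ) + 1 + C') ^ (U0 N)
      ≤ Real.exp (wd N / 4) := by
  set K : ℝ := Real.log (16 * c / 9 * Real.exp 1) with hK
  have hev1 : ∀ᶠ n : ℕ in Filter.atTop, (8 * 13400 : ℝ) ≤ (n : ℝ) ^ ((13 : ℝ) / 20) :=
    ((tendsto_rpow_atTop (by norm_num : (0 : ℝ) < 13 / 20)).comp
      tendsto_natCast_atTop_atTop).eventually_ge_atTop _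
  have hev2 : ∀ᶠ n : ℕ in Filter.atTop, 8 * K ≤ (n : ℝ) ^ ((17 : ℝ) / 20) :=
    ((tendsto_rpow_atTop (by norm_num : (0 : ℝ) < 17 / 20)).comp
      tendsto_natCast_atTop_atTop).eventually_ge_atTop _
  obtain ⟨N1, h1⟩ := Filter.eventually_atTop.1 hev1
  obtain ⟨N2, h2⟩ := Filter.eventually_atTop.1 hev2
  refine ⟨max (max N1 N2) (max 3 (⌈7 + C'⌉₊)), ?_⟩
  intro N hN
  have hN1 : N1 ≤ N := le_trans (le_trans (le_max_left _ _) (le_max_left _ _)) hN
  have hN2 : N2 ≤ N := le_trans (le_trans (le_max_right _ _) (le_max_left _ _)) hN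
  have hN3 : 3 ≤ N := le_trans (le_trans (le_max_left _ _) (le_max_right _ _)) hN
  have hN4 : ⌈7 + C'⌉₊ ≤ N := le_trans (le_trans (le_max_right _ _) (le_max_right _ _)) hN
  have hNr : (3 : ℝ) ≤ N := by exact_mod_cast hN3
  have hN7 : 7 + C' ≤ N := (Nat.le_ceil _).trans (by exact_mod_cast hN4)
  have hNpos : (0 : ℝ) < N := by linarith
  -- logs
  have hlog1 : 1 ≤ Real.log N := by
    rw [Real.le_log_iff_exp_le hNpos]
    have := Real.exp_one_lt_d9
    linarith
  have hA : (N : ℝ) + 7 + C' ≤ 2 * N := by linarith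
  have hAlog : Real.log ((N : ℝ) + 7 + C') ≤ 2 * Real.log N := by
    have h2 : Real.log ((N : ℝ) + 7 + C') ≤ Real.log (2 * N) :=
      Real.log_le_log (by linarith) hA
    rw [Real.log_mul (by norm_num) hNpos.ne'] at h2
    have : Real.log 2 ≤ 1 := by
      have := Real.log_two_lt_d9
      linarith
    linarith
  have hU : (U0 N : ℝ) ≤ 20 * Real.log N + 1 := by
    unfold U0
    have := Nat.ceil_lt_add_one (by positivity : (0 : ℝ) ≤ 20 * Real.log N)
    linarith
  have hlogpow : Real.log N ≤ 10 * (N : ℝ) ^ ((1 : ℝ) / 10) := by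
    have := Real.log_le_rpow_div hNpos.le (by norm_num : (0 : ℝ) < 1 / 10)
    calc Real.log N ≤ (N : ℝ) ^ ((1 : ℝ) / 10) / (1 / 10) := this
      _ = 10 * (N : ℝ) ^ ((1 : ℝ) / 10) := by ring
  have hpow2 : ((N : ℝ) ^ ((1 : ℝ) / 10)) ^ 2 = (N : ℝ) ^ ((1 : ℝ) / 5) := by
    rw [← Real.rpow_natCast, ← Real.rpow_mul hNpos.le]
    norm_num
  have hsq : (Real.log N) ^ 2 ≤ 100 * (N : ℝ) ^ ((1 : ℝ) / 5) := by
    rw [← hpow2]
    have h0 : 0 ≤ Real.log N := by linarith
    nlinarith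
  set A : ℝ := (N : ℝ) + 7 + C' with hAdef
  have hA1 : 1 ≤ A := by rw [hAdef]; linarith
  have hApos : 0 < A := by linarith
  have hbase : (((N : ℝ) + 7) ^ (U0 N + 2)) ^ 2 * ((N : ℝ) + 1 + C') ^ (U0 N) ≤ A ^ (3 * U0 N + 4) := by
    have h1' : ((N : ℝ) + 7) ^ (U0 N + 2) ≤ A ^ (U0 N + 2) :=
      pow_le_pow_left₀ (by linarith) (by rw [hAdef]; linarith) _
    have h2' : ((N : ℝ) + 1 + C') ^ (U0 N) ≤ A ^ (U0 N) :=
      pow_le_pow_left₀ (by linarith) (by rw [hAdef]; linarith) _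
    calc _ ≤ (A ^ (U0 N + 2)) ^ 2 * A ^ (U0 N) := by
          apply mul_le_mul (pow_le_pow_left₀ (by positivity) h1' 2) h2' (by positivity) (by positivity)
      _ = A ^ (3 * U0 N + 4) := by ring
  have hlogA : ((3 * U0 N + 4 : ℕ) : ℝ) * Real.log A ≤ 13400 * (N : ℝ) ^ ((1 : ℝ) / 5) := by
    have h3 : ((3 * U0 N + 4 : ℕ) : ℝ) ≤ 67 * Real.log N := by
      push_cast
      nlinarith
    have h4 : 0 ≤ Real.log A := Real.log_nonneg hA1
    have h5 : 0 ≤ Real.log N := by linarith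
    calc ((3 * U0 N + 4 : ℕ) : ℝ) * Real.log A ≤ (67 * Real.log N) * (2 * Real.log N) :=
          mul_le_mul h3 hAlog h4 (by positivity)
      _ = 134 * (Real.log N) ^ 2 := by ring
      _ ≤ 13400 * (N : ℝ) ^ ((1 : ℝ) / 5) := by nlinarith
  have hw : wd N = (N : ℝ) ^ ((1 : ℝ) / 5) * (N : ℝ) ^ ((13 : ℝ) / 20) := by
    unfold wd
    rw [← Real.rpow_add hNpos]
    norm_num
  have hwpos : 0 ≤ (N : ℝ) ^ ((1 : ℝ) / 5) := by positivity
  have hw1 : 8 * (13400 * (N : ℝ) ^ ((1 : ℝ) / 5)) ≤ wd N := by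
    rw [hw]
    have := h1 N hN1
    nlinarith
  have hw2 : 8 * K ≤ wd N := h2 N hN2
  have hpos0 : 0 < 16 * c / 9 * Real.exp 1 := by
    have := Real.exp_pos 1
    have : 0 < c := by linarith
    positivity
  calc (16 * c / 9) * (((N : ℝ) + 7) ^ (U0 N + 2)) ^ 2 * Real.exp 1 * ((N : ℝ) + 1 + C') ^ (U0 N)
      = (16 * c / 9 * Real.exp 1) * ((((N : ℝ) + 7) ^ (U0 N + 2)) ^ 2 * ((N : ℝ) + 1 + C') ^ (U0 N)) := by ring
    _ ≤ (16 * c / 9 * Real.exp 1) * A ^ (3 * U0 N + 4) :=
        mul_le_mul_of_nonneg_left hbase hpos0.le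
    _ = Real.exp (K + ((3 * U0 N + 4 : ℕ) : ℝ) * Real.log A) := by
        rw [Real.exp_add, Real.exp_log hpos0, mul_comm ((3 * U0 N + 4 : ℕ) : ℝ), Real.exp_mul,
          Real.exp_log hApos, Real.rpow_natCast]
    _ ≤ Real.exp (wd N / 4) := by
        apply Real.exp_le_exp.2
        linarith

/-- Facts on the scale for large `N`. -/
theorem big_facts (c : ℝ) (hc : 1 < c) : ∃ N₀ : ℕ, ∀ N ≥ N₀, ∀ x : ℝ, 1 < x → |levR x - N| ≤ 2 →
    0 < Real.log x ∧ Real.exp (levR x) = Real.log x ∧ Real.exp N / (N : ℝ) ^ 3 ≤ Real.log x / 16 ∧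
    Real.log (Bnd N) ≤ Real.log x / 4 ∧ Real.log c + Real.log 2 ≤ Real.log x / 4 ∧ 3 ≤ Dc N := by
  have hlc : 0 < Real.log c := Real.log_pos hc
  refine ⟨max 18 (⌈4 * (Real.log c + Real.log 2) + 2⌉₊), ?_⟩
  intro N hN x hx hxN
  have hN1 : 18 ≤ N := le_trans (le_max_left _ _) hN
  have hN2 : ⌈4 * (Real.log c + Real.log 2) + 2⌉₊ ≤ N := le_trans (le_max_right _ _) hN
  have hNr : (18 : ℝ) ≤ N := by exact_mod_cast hN1
  have hN2r : 4 * (Real.log c + Real.log 2) + 2 ≤ N :=
    (Nat.le_ceil _).trans (by exact_mod_cast hN2)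
  have hΛ : 0 < Real.log x := Real.log_pos hx
  have hexp : Real.exp (levR x) = Real.log x := by
    unfold levR
    exact Real.exp_log hΛ
  have hL := abs_le.1 hxN
  have hΛ1 : Real.exp ((N : ℝ) - 2) ≤ Real.log x := by
    rw [← hexp]
    apply Real.exp_le_exp.2
    linarith
  have hΛ2 : (N : ℝ) - 1 ≤ Real.log x := by
    have := Real.add_one_le_exp ((N : ℝ) - 2)
    linarith
  have hNpos : (0 : ℝ) < N := by linarith
  have hcube : (128 : ℝ) ≤ (N : ℝ) ^ 3 := by
    have : (18 : ℝ) ^ 3 ≤ (N : ℝ) ^ 3 := pow_le_pow_left₀ (by norm_num) hNr 3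
    norm_num at this
    linarith
  have hE : Real.exp N ≤ 8 * Real.log x := by
    have h1 : Real.exp N = Real.exp 2 * Real.exp ((N : ℝ) - 2) := by
      rw [← Real.exp_add]
      ring_nf
    have h2 : Real.exp 2 ≤ 8 := by
      have h3 : Real.exp 2 = Real.exp 1 * Real.exp 1 := by
        rw [← Real.exp_add]
        norm_num
      have := Real.exp_one_lt_d9
      have h4 := Real.exp_pos 1
      rw [h3]
      nlinarith
    rw [h1]
    have := Real.exp_pos ((N : ℝ) - 2)
    nlinarith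
  have hE2 : Real.exp N / (N : ℝ) ^ 3 ≤ Real.log x / 16 := by
    rw [div_le_div_iff₀ (by linarith) (by norm_num)]
    nlinarith
  have hBnd : Real.log (Bnd N) ≤ Real.log x / 4 := by
    set E : ℝ := Real.exp N / (N : ℝ) ^ 3 with hEdef
    have hEpos : 0 < E := by positivity
    have hY : Ymax N = Real.exp E := rfl
    have hY2 : (Ymax N) ^ 2 = Real.exp (2 * E) := by
      rw [hY, ← Real.exp_nat_mul]
      norm_num
    have hY1 : 1 ≤ Real.exp (2 * E) := Real.one_le_exp (by positivity)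
    have hB : ((Bnd N : ℕ) : ℝ) ≤ 3 * Real.exp (2 * E) := by
      unfold Bnd
      push_cast
      have := Nat.ceil_lt_add_one (by positivity : (0 : ℝ) ≤ (Ymax N) ^ 2)
      rw [hY2] at this ⊢
      linarith
    have hB0 : (0 : ℝ) < (Bnd N : ℕ) := by
      unfold Bnd
      positivity
    have h1 : Real.log (Bnd N) ≤ Real.log (3 * Real.exp (2 * E)) := Real.log_le_log hB0 hB
    rw [Real.log_mul (by norm_num) (Real.exp_pos _).ne', Real.log_exp] at h1
    have h3 : Real.log 3 ≤ 2 := by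
      have := Real.log_le_sub_one_of_pos (by norm_num : (0 : ℝ) < 3)
      linarith
    have h4 : (16 : ℝ) ≤ Real.log x := by linarith
    linarith
  have hc2 : Real.log c + Real.log 2 ≤ Real.log x / 4 := by linarith
  have hDc : 3 ≤ Dc N := by
    unfold Dc
    rw [← Real.sqrt_eq_rpow]
    apply Real.le_sqrt_of_sq_le
    linarith
  exact ⟨hΛ, hexp, hE2, hBnd, hc2, hDc⟩

/-- The level of the top prime. -/
theorem top_level {c x : ℝ} (hc : 1 < c) (hx : 1 < x) {N p m : ℕ} (hp : p.Prime)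
    (hB : Real.log (Bnd N) ≤ Real.log x / 4) (hcc : Real.log c + Real.log 2 ≤ Real.log x / 4)
    (hm : m < Bnd N) (hv : (p - 1) * m ∈ Win x c) :
    levR x - 1 / 2 ≤ lev p ∧ lev p ≤ levR x + 1 / 2 := by
  have hΛ : 0 < Real.log x := Real.log_pos hx
  have hcx : 0 ≤ c * x := by positivity
  obtain ⟨hv1, hv2⟩ := Finset.mem_Ioc.1 hv
  have hv3 : x < (((p - 1) * m : ℕ) : ℝ) := Nat.lt_of_floor_lt hv1
  have hv4 : (((p - 1) * m : ℕ) : ℝ) ≤ c * x := (Nat.le_floor_iff hcx).1 hv2
  have hp2 : (2 : ℝ) ≤ p := by exact_mod_cast hp.two_le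
  have hP : ((p - 1 : ℕ) : ℝ) = (p : ℝ) - 1 := by
    rw [Nat.cast_sub hp.one_le]
    simp
  have hvpos : 0 < (p - 1) * m := by
    have : (0 : ℝ) < (((p - 1) * m : ℕ) : ℝ) := by linarith
    exact_mod_cast this
  have hm1 : 1 ≤ m := Nat.pos_of_mul_pos_left hvpos |> fun h => by
    rcases Nat.eq_zero_or_pos m with h0 | h0
    · subst h0
      simp at hvpos
    · exact h0
  have hP1 : (1 : ℝ) ≤ (p : ℝ) - 1 := by linarith
  have hmB : (m : ℝ) ≤ (Bnd N : ℕ) := by exact_mod_cast hm.le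
  have hmr : (1 : ℝ) ≤ m := by exact_mod_cast hm1
  rw [Nat.cast_mul, hP] at hv3 hv4
  have hBpos : (0 : ℝ) < (Bnd N : ℕ) := by linarith
  -- lower bound on log p
  have h1 : x ≤ ((p : ℝ) - 1) * (Bnd N : ℕ) := by
    have : ((p : ℝ) - 1) * m ≤ ((p : ℝ) - 1) * (Bnd N : ℕ) :=
      mul_le_mul_of_nonneg_left hmB (by linarith)
    linarith
  have h2 : Real.log x ≤ Real.log ((p : ℝ) - 1) + Real.log (Bnd N) := by
    rw [← Real.log_mul (by linarith) hBpos.ne']
    exact Real.log_le_log (by linarith) h1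
  have h3 : Real.log ((p : ℝ) - 1) ≤ Real.log p := Real.log_le_log (by linarith) (by linarith)
  have h4 : 3 / 4 * Real.log x ≤ Real.log p := by linarith
  have h5 : 0 < 3 / 4 * Real.log x := by positivity
  -- upper bound on log p
  have h6 : (p : ℝ) ≤ 2 * c * x := by
    have h7 : (p : ℝ) - 1 ≤ ((p : ℝ) - 1) * m := by nlinarith
    have h8 : 1 < c * x := by nlinarith
    nlinarith
  have h9 : Real.log p ≤ Real.log 2 + Real.log c + Real.log x := by
    have hc0 : c ≠ 0 := by linarith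
    rw [← Real.log_mul (by norm_num) hc0, ← Real.log_mul (by positivity) (by linarith)]
    exact Real.log_le_log (by linarith) h6
  have h10 : Real.log p ≤ 5 / 4 * Real.log x := by linarith
  have h11 : 0 < Real.log p := by linarith
  unfold lev levR
  constructor
  · have h12 : Real.log (3 / 4 * Real.log x) ≤ Real.log (Real.log p) := Real.log_le_log h5 h4
    rw [Real.log_mul (by norm_num) hΛ.ne'] at h12
    have h13 : -(1 / 2 : ℝ) ≤ Real.log (3 / 4) := by
      have := Real.one_sub_inv_le_log_of_pos (by norm_num : (0 : ℝ) < 3 / 4)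
      norm_num at this ⊢
      linarith
    linarith
  · have h12 : Real.log (Real.log p) ≤ Real.log (5 / 4 * Real.log x) := Real.log_le_log h11 h10
    rw [Real.log_mul (by norm_num) hΛ.ne'] at h12
    have h13 : Real.log (5 / 4) ≤ (1 / 2 : ℝ) := by
      have := Real.log_le_sub_one_of_pos (by norm_num : (0 : ℝ) < 5 / 4)
      norm_num at this ⊢
      linarith
    linarith

/-- Clean passes to divisors. -/
theorem clean_of_dvd {N a b : ℕ} (h : Clean N b) (hab : a ∣ b) : Clean N a :=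
  fun r hr hlev hd => h r hr hlev (hd.trans hab)

/-- The reduced pair. -/
theorem reduced {N : ℕ} {T : ℝ} {l l' : List ℕ} {low low' m m' p q : ℕ}
    (hrep : IsRep N l low m) (hrep' : IsRep N l' low' m') (hT : Th N 0 l ≤ T)
    (hlen : l.length ≤ U0 N) (hlen' : l'.length ≤ U0 N)
    (hp : Normal N p) (hq : Normal N q) (hpq : p ≠ q) (hDc : 3 ≤ Dc N)
    (hlp1 : (N : ℝ) - 3 < lev p) (hlp2 : lev p ≤ (N : ℝ) + 5)
    (hlq1 : (N : ℝ) - 3 < lev q) (hlq2 : lev q ≤ (N : ℝ) + 5)
    (heq : (p - 1) * m = (q - 1) * m') (hcl : Clean N ((p - 1) * m)) :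
    PairOK N ((p :: l.filter (fun r => r ∉ l')).map (fun r => ⌊lev r⌋₊))
      ((q :: l'.filter (fun r => r ∉ l)).map (fun r => ⌊lev r⌋₊))
      (p :: l.filter (fun r => r ∉ l')) low (q :: l'.filter (fun r => r ∉ l)) low' ∧
    Th N 0 (l.filter (fun r => r ∉ l')) ≤ T ∧
    rowsProd (p :: l.filter (fun r => r ∉ l')) * low * (∏ r ∈ l.toFinset ∩ l'.toFinset, (r - 1))
      = (p - 1) * m := by
  have hnd : l.Nodup := hrep.sorted.imp (fun h => (ne_of_gt h))
  have hnd' : l'.Nodup := hrep'.sorted.imp (fun h => (ne_of_gt h))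
  have hts : 0 ≤ ts N := by
    unfold ts t0
    positivity
  have hlow : ∀ r ∈ l, lev r ≤ (N : ℝ) - 3 := fun r hr => by
    have := hrep.cut r hr
    linarith
  have hlow' : ∀ r ∈ l', lev r ≤ (N : ℝ) - 3 := fun r hr => by
    have := hrep'.cut r hr
    linarith
  have hpl : p ∉ l := fun h => by have := hlow p h; linarith
  have hpl' : p ∉ l' := fun h => by have := hlow' p h; linarith
  have hql : q ∉ l := fun h => by have := hlow q h; linarith
  have hql' : q ∉ l' := fun h => by have := hlow' q h; linarith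
  have hlt : ∀ {t r : ℕ}, t.Prime → (N : ℝ) - 3 < lev t → lev r ≤ (N : ℝ) - 3 → t > r := by
    intro t r ht h1 h2
    by_contra hcon
    have : t ≤ r := by omega
    have := lev_mono ht.two_le this
    linarith
  have hu : ∀ (A : Finset ℕ), (∀ r ∈ A, r.Prime) → 0 < ∏ r ∈ A, (r - 1) := by
    intro A hA
    apply Finset.prod_pos
    intro r hr
    have := (hA r hr).two_le
    omega
  have hCprime : ∀ r ∈ l.toFinset ∩ l'.toFinset, r.Prime := by
    intro r hr
    have : r ∈ l := by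
      have := (Finset.mem_inter.1 hr).1
      simpa using this
    exact (hrep.normal r this).1
  have hsplit := PairCount.rowsProd_split (l' := l') hnd
  have hsplit' := PairCount.rowsProd_split (l' := l) hnd'
  rw [Finset.inter_comm] at hsplit'
  set u := ∏ r ∈ l.toFinset ∩ l'.toFinset, (r - 1) with hudef
  have hupos : 0 < u := hu _ hCprime
  set R := rowsProd (l.filter (fun r => r ∉ l')) with hR
  set R' := rowsProd (l'.filter (fun r => r ∉ l)) with hR'
  have hmeq : m = u * R * low := by rw [hrep.eq, hsplit]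
  have hmeq' : m' = u * R' * low' := by rw [hrep'.eq, hsplit']
  have hI : rowsProd (p :: l.filter (fun r => r ∉ l')) = (p - 1) * R := by
    simp [rowsProd, hR]
  have hJ : rowsProd (q :: l'.filter (fun r => r ∉ l)) = (q - 1) * R' := by
    simp [rowsProd, hR']
  have htriple : rowsProd (p :: l.filter (fun r => r ∉ l')) * low * u = (p - 1) * m := by
    rw [hI, hmeq]
    ring
  have hbig : BigList N l := by
    intro r hr
    have := (hrep.normal r hr).2.1
    unfold ts
    unfold ts at *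
    linarith
  refine ⟨?_, ?_, htriple⟩
  · refine
      { sortedI := ?_, sortedJ := ?_, normalI := ?_, normalJ := ?_, cellsI := rfl, cellsJ := rfl,
        lenI := ?_, lenJ := ?_, topI := ?_, topJ := ?_, disj := ?_, lowI := hrep.lowv, lowJ := hrep'.lowv,
        eq := ?_, clean := ?_ }
    · refine List.pairwise_cons.2 ⟨?_, hrep.sorted.filter _⟩
      intro r hr
      exact hlt hp.1 hlp1 (hlow r (List.mem_filter.1 hr).1)
    · refine List.pairwise_cons.2 ⟨?_, hrep'.sorted.filter _⟩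
      intro r hr
      exact hlt hq.1 hlq1 (hlow' r (List.mem_filter.1 hr).1)
    · intro r hr
      rcases List.mem_cons.1 hr with h | h
      · rw [h]; exact hp
      · exact hrep.normal r (List.mem_filter.1 h).1
    · intro r hr
      rcases List.mem_cons.1 hr with h | h
      · rw [h]; exact hq
      · exact hrep'.normal r (List.mem_filter.1 h).1
    · have := List.length_filter_le (fun r => decide (r ∉ l')) l
      simp only [List.length_cons]
      omega
    · have := List.length_filter_le (fun r => decide (r ∉ l)) l'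
      simp only [List.length_cons]
      omega
    · intro r hr
      rcases List.mem_cons.1 hr with h | h
      · rw [h]; exact hlp2
      · have := hlow r (List.mem_filter.1 h).1
        linarith
    · intro r hr
      rcases List.mem_cons.1 hr with h | h
      · rw [h]; exact hlq2
      · have := hlow' r (List.mem_filter.1 h).1
        linarith
    · intro r hr hrJ
      rcases List.mem_cons.1 hr with h | h
      · subst h
        rcases List.mem_cons.1 hrJ with h2 | h2
        · exact hpq h2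
        · exact hpl' (List.mem_filter.1 h2).1
      · have h1 := List.mem_filter.1 h
        rcases List.mem_cons.1 hrJ with h2 | h2
        · subst h2
          exact hql h1.1
        · have := (List.mem_filter.1 h2).1
          have h3 := h1.2
          simp only [decide_eq_true_eq] at h3
          exact h3 this
    · rw [hI, hJ]
      have h5 : u * ((p - 1) * R * low) = u * ((q - 1) * R' * low') := by
        calc u * ((p - 1) * R * low) = (p - 1) * m := by rw [hmeq]; ring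
          _ = (q - 1) * m' := heq
          _ = u * ((q - 1) * R' * low') := by rw [hmeq']; ring
      exact Nat.eq_of_mul_eq_mul_left hupos h5
    · exact clean_of_dvd hcl ⟨u, htriple.symm⟩
  · exact (Th_sublist N 0 List.filter_sublist hbig hts).trans hT


/-- The rows of the first side. -/
def Iof (ls : ℕ → List ℕ) (τ : ℕ × ℕ × ℕ × ℕ) : List ℕ :=
  τ.1 :: (ls τ.2.1).filter (fun r => r ∉ ls τ.2.2.2)

/-- The rows of the second side. -/
def Jof (ls : ℕ → List ℕ) (τ : ℕ × ℕ × ℕ × ℕ) : List ℕ :=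
  τ.2.2.1 :: (ls τ.2.2.2).filter (fun r => r ∉ ls τ.2.1)

/-- The common rows. -/
def Cof (ls : ℕ → List ℕ) (τ : ℕ × ℕ × ℕ × ℕ) : Finset ℕ :=
  (ls τ.2.1).toFinset ∩ (ls τ.2.2.2).toFinset

/-- Integer part of the level. -/
def fl (r : ℕ) : ℕ := ⌊lev r⌋₊

/-- The product of the common rows. -/
def uu (C : Finset ℕ) : ℕ := ∏ r ∈ C, (r - 1)

/-- All the data attached to a tuple. -/
theorem tuple_facts {c x : ℝ} (hc : 1 < c) (hx : 1 < x) {N : ℕ} {T : ℝ} {ls : ℕ → List ℕ} {lw : ℕ → ℕ}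
    (hsel : ∀ m, m ∈ Aset N T → IsRep N (ls m) (lw m) m ∧ Th N 0 (ls m) ≤ T)
    (hlenU : ∀ l low m, IsRep N l low m → l.length ≤ U0 N)
    (hBndm : ∀ l low m, IsRep N l low m → m < Bnd N)
    (hL : |levR x - N| ≤ 2) (hB : Real.log (Bnd N) ≤ Real.log x / 4)
    (hcc : Real.log c + Real.log 2 ≤ Real.log x / 4) (hDc : 3 ≤ Dc N)
    {τ : ℕ × ℕ × ℕ × ℕ}
    (hτ : τ.1 ≠ τ.2.2.1 ∧ Normal N τ.1 ∧ Normal N τ.2.2.1 ∧
      τ.2.1 ∈ Aset N T ∧ τ.2.2.2 ∈ Aset N T ∧
      (τ.1 - 1) * τ.2.1 = (τ.2.2.1 - 1) * τ.2.2.2 ∧ (τ.1 - 1) * τ.2.1 ∈ Win x c ∧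
      Clean N ((τ.1 - 1) * τ.2.1)) :
    PairOK N ((Iof ls τ).map fl) ((Jof ls τ).map fl) (Iof ls τ) (lw τ.2.1) (Jof ls τ) (lw τ.2.2.2) ∧
    Th N 0 (Iof ls τ).tail ≤ T ∧
    rowsProd (Iof ls τ) * lw τ.2.1 * uu (Cof ls τ) = (τ.1 - 1) * τ.2.1 ∧
    levR x - 1 / 2 ≤ lev τ.1 ∧
    uu (Cof ls τ) ∣ rowsProd (ls τ.2.1) ∧ Cof ls τ ⊆ (ls τ.2.1).toFinset := by
  obtain ⟨hpq, hp, hq, hm, hm', heq, hwin, hcl⟩ := hτ
  obtain ⟨hrep, hT⟩ := hsel _ hm
  obtain ⟨hrep', hT'⟩ := hsel _ hm'
  have hL' := abs_le.1 hL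
  have hlp := top_level hc hx hp.1 hB hcc (hBndm _ _ _ hrep) hwin
  have hlq := top_level hc hx hq.1 hB hcc (hBndm _ _ _ hrep') (by rw [← heq]; exact hwin)
  have hred := reduced hrep hrep' hT (hlenU _ _ _ hrep) (hlenU _ _ _ hrep') hp hq hpq hDc
    (by linarith [hlp.1]) (by linarith [hlp.2]) (by linarith [hlq.1]) (by linarith [hlq.2]) heq hcl
  refine ⟨hred.1, hred.2.1, hred.2.2, hlp.1, ?_, ?_⟩
  · have hnd : (ls τ.2.1).Nodup := hrep.sorted.imp (fun h => (ne_of_gt h))
    exact ⟨_, PairCount.rowsProd_split (l' := ls τ.2.2.2) hnd⟩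
  · exact Finset.inter_subset_left

theorem pair_count_core (c : ℝ) (hc : 1 < c) : ∃ N₀ : ℕ, ∀ N ≥ N₀, ∀ x : ℝ, 1 < x → |levR x - N| ≤ 2 →
    ∀ F : Finset (ℕ × ℕ × ℕ × ℕ),
    (∀ τ ∈ F, τ.1 ≠ τ.2.2.1 ∧ Normal N τ.1 ∧ Normal N τ.2.2.1 ∧
      τ.2.1 ∈ Aset N (levR x - wd N) ∧ τ.2.2.2 ∈ Aset N (levR x - wd N) ∧
      (τ.1 - 1) * τ.2.1 = (τ.2.2.1 - 1) * τ.2.2.2 ∧ (τ.1 - 1) * τ.2.1 ∈ Win x c ∧
      Clean N ((τ.1 - 1) * τ.2.1)) →
    (F.card : ℝ) ≤ (x / Real.log x) * Real.exp (-(wd N / 2)) := by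
  obtain ⟨N1, h1⟩ := pc_core
  obtain ⟨N2, h2⟩ := length_le_U0
  obtain ⟨N3, h3⟩ := rowsProd_le
  obtain ⟨N4, h4⟩ := rep_lt_Bnd
  obtain ⟨C', hC', hmert⟩ := mert_low
  obtain ⟨N5, h5⟩ := big_facts c hc
  obtain ⟨N6, h6⟩ := numeric c C' hc hC'
  refine ⟨N1 + N2 + N3 + N4 + N5 + N6, ?_⟩
  intro N hN x hx hxN F hF
  have hN1 : N1 ≤ N := by omega
  have hN2 : N2 ≤ N := by omega
  have hN3 : N3 ≤ N := by omega
  have hN4 : N4 ≤ N := by omega
  have hN5 : N5 ≤ N := by omega
  have hN6 : N6 ≤ N := by omega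
  obtain ⟨hΛ, hexp, hE, hB, hcc, hDc⟩ := h5 N hN5 x hx hxN
  have hLabs := abs_le.1 hxN
  set T := levR x - wd N with hT
  have hch : ∀ m, ∃ l low, m ∈ Aset N T → IsRep N l low m ∧ Th N 0 l ≤ T := by
    intro m
    by_cases hm : m ∈ Aset N T
    · obtain ⟨l, low, h⟩ := (Finset.mem_filter.1 hm).2
      exact ⟨l, low, fun _ => h⟩
    · exact ⟨[], 0, fun h => absurd h hm⟩
  choose ls lw hsel using hch
  have hrepprops : ∀ l low m, IsRep N l low m → l.Pairwise (· > ·) ∧ (∀ p ∈ l, p.Prime) ∧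
      (∀ p ∈ l, t0 N ≤ lev p ∧ lev p ≤ (N : ℝ) - Dc N) ∧ Adm N l := by
    intro l low m h
    exact ⟨h.sorted, fun p hp => (h.normal p hp).1, fun p hp => ⟨(h.normal p hp).2.1, h.cut p hp⟩, h.adm⟩
  have hlenU : ∀ l low m, IsRep N l low m → l.length ≤ U0 N := by
    intro l low m h
    obtain ⟨h1', h2', h3', h4'⟩ := hrepprops l low m h
    exact h2 N hN2 l h1' h2' (fun p hp => ⟨(h3' p hp).1, by linarith [(h3' p hp).2]⟩) h4'
  have hBndm : ∀ l low m, IsRep N l low m → m < Bnd N := fun l low m h => h4 N hN4 l low m h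
  have hfacts := fun τ (hτ : τ ∈ F) =>
    tuple_facts hc hx hsel hlenU hBndm hxN hB hcc hDc (hF τ hτ)
  -- the classes
  let G : ℕ × ℕ × ℕ × ℕ → Finset ℕ × List ℕ × List ℕ :=
    fun τ => (Cof ls τ, (Iof ls τ).map fl, (Jof ls τ).map fl)
  let hh : ℕ × ℕ × ℕ × ℕ → List ℕ × ℕ × List ℕ × ℕ :=
    fun τ => (Iof ls τ, lw τ.2.1, Jof ls τ, lw τ.2.2.2)
  set E : ℝ := Real.exp (-(3 / 4 * wd N)) with hEdef
  have hEpos : 0 < E := Real.exp_pos _
  have hcpos : 0 < c := by linarith
  have hxpos : 0 < x := by linarith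
  set Kx : ℝ := (16 * c / 9) * (x / Real.log x) * E with hKx
  have hKxpos : 0 < Kx := by positivity
  -- the bound for one class
  have hfiber : ∀ t ∈ F.image G, (((F.filter (fun τ => G τ = t)).card : ℕ) : ℝ) ≤ Kx / uu t.1 := by
    intro t ht
    obtain ⟨τ₀, hτ₀, hGτ₀⟩ := Finset.mem_image.1 ht
    obtain ⟨hP0, hTh0, htr0, hlev0, hdvd0, hsub0⟩ := hfacts τ₀ hτ₀
    have hwin0 := (hF τ₀ hτ₀).2.2.2.2.2.2.1
    have hu_eq : uu t.1 = uu (Cof ls τ₀) := by rw [← hGτ₀]
    have hvpos : 0 < (τ₀.1 - 1) * τ₀.2.1 := by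
      have := (Finset.mem_Ioc.1 hwin0).1
      omega
    have hupos : 0 < uu t.1 := by
      rw [hu_eq]
      rcases Nat.eq_zero_or_pos (uu (Cof ls τ₀)) with h0 | h0
      · rw [h0] at htr0
        omega
      · exact h0
    have hupos' : (1 : ℝ) ≤ uu t.1 := by exact_mod_cast hupos
    have hrep0 := (hsel _ (hF τ₀ hτ₀).2.2.2.1).1
    have hrows0 : (rowsProd (ls τ₀.2.1) : ℝ) ≤ Real.exp (Real.exp N / (N : ℝ) ^ 3) := by
      obtain ⟨h1', h2', h3', h4'⟩ := hrepprops _ _ _ hrep0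
      exact h3 N hN3 _ h1' h2' h3' h4'
    have hrowspos : 0 < rowsProd (ls τ₀.2.1) := by
      have h0 := hrep0.eq
      have hm0 : 0 < τ₀.2.1 := by
        rcases Nat.eq_zero_or_pos τ₀.2.1 with h00 | h00
        · rw [h00] at hvpos
          simp at hvpos
        · exact h00
      rcases Nat.eq_zero_or_pos (rowsProd (ls τ₀.2.1)) with h00 | h00
      · rw [h00] at h0
        simp at h0
        omega
      · exact h00
    have hu_le : (uu t.1 : ℝ) ≤ Real.exp (Real.exp N / (N : ℝ) ^ 3) := by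
      rw [hu_eq]
      have : uu (Cof ls τ₀) ≤ rowsProd (ls τ₀.2.1) := Nat.le_of_dvd hrowspos hdvd0
      have h' : (uu (Cof ls τ₀) : ℝ) ≤ rowsProd (ls τ₀.2.1) := by exact_mod_cast this
      linarith
    have hupos'' : (0 : ℝ) < uu t.1 := by linarith
    set Y : ℝ := c * x / uu t.1 with hY
    have hYpos : 0 < Y := by positivity
    have hlogY : Real.log Y = Real.log c + Real.log x - Real.log (uu t.1) := by
      rw [hY, Real.log_div (by positivity) hupos''.ne', Real.log_mul hcpos.ne' hxpos.ne']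
    have hlogu0 : 0 ≤ Real.log (uu t.1) := Real.log_nonneg hupos'
    have hlogu1 : Real.log (uu t.1) ≤ Real.log x / 16 := by
      have := Real.log_le_log hupos'' hu_le
      rw [Real.log_exp] at this
      linarith
    have hlogc : 0 < Real.log c := Real.log_pos hc
    have hlog2 : 0 < Real.log 2 := Real.log_pos (by norm_num)
    have hlogY1 : 3 / 4 * Real.log x ≤ Real.log Y := by rw [hlogY]; linarith
    have hlogY2 : Real.log Y ≤ 5 / 4 * Real.log x := by rw [hlogY]; linarith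
    have hlogYpos : 0 < Real.log Y := by
      have : 0 < 3 / 4 * Real.log x := by positivity
      linarith
    have hlevY1 : levR x - 1 / 2 ≤ levR Y := by
      have h12 : Real.log (3 / 4 * Real.log x) ≤ Real.log (Real.log Y) :=
        Real.log_le_log (by positivity) hlogY1
      rw [Real.log_mul (by norm_num) hΛ.ne'] at h12
      have h13 : -(1 / 2 : ℝ) ≤ Real.log (3 / 4) := by
        have := Real.one_sub_inv_le_log_of_pos (by norm_num : (0 : ℝ) < 3 / 4)
        norm_num at this ⊢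
        linarith
      unfold levR
      linarith
    have hlevY2 : levR Y ≤ levR x + 1 / 2 := by
      have h12 : Real.log (Real.log Y) ≤ Real.log (5 / 4 * Real.log x) :=
        Real.log_le_log hlogYpos hlogY2
      rw [Real.log_mul (by norm_num) hΛ.ne'] at h12
      have h13 : Real.log (5 / 4) ≤ (1 / 2 : ℝ) := by
        have := Real.log_le_sub_one_of_pos (by norm_num : (0 : ℝ) < 5 / 4)
        norm_num at this ⊢
        linarith
      unfold levR
      linarith
    -- apply the core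
    have hbne : t.2.1 ≠ [] := by
      rw [← hGτ₀]
      simp [G, Iof]
    have hhead : ((t.2.1.headD 0 : ℕ) : ℝ) = (⌊lev τ₀.1⌋₊ : ℝ) := by
      rw [← hGτ₀]
      simp [G, Iof, fl]
    have hfloor : lev τ₀.1 < (⌊lev τ₀.1⌋₊ : ℝ) + 1 := Nat.lt_floor_add_one _
    have hcore := h1 N hN1 t.2.1 t.2.2 T Y ((F.filter (fun τ => G τ = t)).image hh) hbne
      hYpos.le (by linarith) (by linarith) (by rw [hhead]; linarith) (by
        intro τ' hτ'
        obtain ⟨τ, hτm, rfl⟩ := Finset.mem_image.1 hτ'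
        obtain ⟨hτF, hGτ⟩ := Finset.mem_filter.1 hτm
        obtain ⟨hP, hTh, htr, _, _, _⟩ := hfacts τ hτF
        have h21 : t.2.1 = (Iof ls τ).map fl := by rw [← hGτ]
        have h22 : t.2.2 = (Jof ls τ).map fl := by rw [← hGτ]
        have h20 : t.1 = Cof ls τ := by rw [← hGτ]
        refine ⟨?_, hTh, ?_⟩
        · rw [h21, h22]
          exact hP
        · have hwin := (hF τ hτF).2.2.2.2.2.2.1
          have hv4 : (((τ.1 - 1) * τ.2.1 : ℕ) : ℝ) ≤ c * x :=
            (Nat.le_floor_iff (by positivity)).1 (Finset.mem_Ioc.1 hwin).2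
          rw [← htr] at hv4
          rw [hY, le_div_iff₀ hupos'', h20]
          rw [h20] at hupos''
          push_cast at hv4 ⊢
          exact hv4)
    have hcard : ((F.filter (fun τ => G τ = t)).image hh).card = (F.filter (fun τ => G τ = t)).card := by
      apply Finset.card_image_of_injOn
      intro τ hτ τ' hτ' heq
      have hτ1 := Finset.mem_filter.1 (Finset.mem_coe.1 hτ)
      have hτ2 := Finset.mem_filter.1 (Finset.mem_coe.1 hτ')
      obtain ⟨_, _, htr, _, _, _⟩ := hfacts τ hτ1.1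
      obtain ⟨_, _, htr', _, _, _⟩ := hfacts τ' hτ2.1
      have heqI : Iof ls τ = Iof ls τ' := congrArg (fun a => a.1) heq
      have heqw : lw τ.2.1 = lw τ'.2.1 := congrArg (fun a => a.2.1) heq
      have heqJ : Jof ls τ = Jof ls τ' := congrArg (fun a => a.2.2.1) heq
      have heqw' : lw τ.2.2.2 = lw τ'.2.2.2 := congrArg (fun a => a.2.2.2) heq
      have hC : Cof ls τ = Cof ls τ' := by
        have e1 : (G τ).1 = t.1 := by rw [hτ1.2]
        have e2 : (G τ').1 = t.1 := by rw [hτ2.2]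
        exact e1.trans e2.symm
      have hp1 : τ.1 = τ'.1 := by
        have := congrArg List.head? heqI
        simpa [Iof] using this
      have hq1 : τ.2.2.1 = τ'.2.2.1 := by
        have := congrArg List.head? heqJ
        simpa [Jof] using this
      have hv : (τ.1 - 1) * τ.2.1 = (τ'.1 - 1) * τ'.2.1 := by
        rw [← htr, ← htr', heqI, heqw, hC]
      have hp2 := (hF τ hτ1.1).2.1.1.two_le
      have hq2 := (hF τ hτ1.1).2.2.1.1.two_le
      have hm1 : τ.2.1 = τ'.2.1 := by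
        rw [← hp1] at hv
        exact Nat.eq_of_mul_eq_mul_left (by omega) hv
      have hv' : (τ.2.2.1 - 1) * τ.2.2.2 = (τ'.2.2.1 - 1) * τ'.2.2.2 := by
        rw [← (hF τ hτ1.1).2.2.2.2.2.1, ← (hF τ' hτ2.1).2.2.2.2.2.1]
        exact hv
      have hm2 : τ.2.2.2 = τ'.2.2.2 := by
        rw [← hq1] at hv'
        exact Nat.eq_of_mul_eq_mul_left (by omega) hv'
      exact Prod.ext hp1 (Prod.ext hm1 (Prod.ext hq1 hm2))
    rw [hcard] at hcore
    refine hcore.trans ?_
    -- numerics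
    have hexpY : Real.exp (levR Y) = Real.log Y := by
      unfold levR
      exact Real.exp_log hlogYpos
    have hsplitexp : Real.exp (-(2 * levR Y) + T + wd N / 4)
        = (Real.log Y)⁻¹ ^ 2 * Real.log x * E := by
      have : -(2 * levR Y) + T + wd N / 4 = -(levR Y) + -(levR Y) + levR x + -(3 / 4 * wd N) := by
        rw [hT]
        ring
      rw [this, Real.exp_add, Real.exp_add, Real.exp_add, Real.exp_neg, hexpY, hexp]
      ring
    rw [hsplitexp]
    have hinv : (Real.log Y)⁻¹ ^ 2 ≤ (16 / 9) * (Real.log x)⁻¹ ^ 2 := by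
      have h1' : (Real.log Y)⁻¹ ≤ (4 / 3) * (Real.log x)⁻¹ := by
        have h2' : (Real.log Y)⁻¹ ≤ (3 / 4 * Real.log x)⁻¹ :=
          inv_anti₀ (by positivity) hlogY1
        have h3' : (3 / 4 * Real.log x)⁻¹ = (4 / 3) * (Real.log x)⁻¹ := by
          field_simp
        linarith
      have h2' : 0 ≤ (Real.log Y)⁻¹ := by positivity
      calc (Real.log Y)⁻¹ ^ 2 ≤ ((4 / 3) * (Real.log x)⁻¹) ^ 2 := pow_le_pow_left₀ h2' h1' 2
        _ = _ := by ring
    calc Y * ((Real.log Y)⁻¹ ^ 2 * Real.log x * E)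
        ≤ Y * (((16 / 9) * (Real.log x)⁻¹ ^ 2) * Real.log x * E) := by
          apply mul_le_mul_of_nonneg_left _ hYpos.le
          apply mul_le_mul_of_nonneg_right _ hEpos.le
          exact mul_le_mul_of_nonneg_right hinv hΛ.le
      _ = Kx / uu t.1 := by
          rw [hY, hKx]
          field_simp
  -- summing up
  have hcardF : (F.card : ℝ) = ∑ t ∈ F.image G, (((F.filter (fun τ => G τ = t)).card : ℕ) : ℝ) := by
    have := Finset.card_eq_sum_card_image G F
    rw [this]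
    push_cast
    rfl
  set CC : Finset (Finset ℕ) := F.image (Cof ls) with hCC
  set BB : Finset (List ℕ) := F.image (fun τ => (Iof ls τ).map fl) ∪ F.image (fun τ => (Jof ls τ).map fl) with hBB
  have hsub : F.image G ⊆ CC ×ˢ (BB ×ˢ BB) := by
    intro t ht
    obtain ⟨τ, hτ, rfl⟩ := Finset.mem_image.1 ht
    simp only [Finset.mem_product]
    refine ⟨Finset.mem_image_of_mem _ hτ, ?_, ?_⟩
    · exact Finset.mem_union_left _ (Finset.mem_image_of_mem (fun τ => (Iof ls τ).map fl) hτ)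
    · exact Finset.mem_union_right _ (Finset.mem_image_of_mem (fun τ => (Jof ls τ).map fl) hτ)
  have hsum1 : (F.card : ℝ) ≤ ∑ t ∈ CC ×ˢ (BB ×ˢ BB), Kx / uu t.1 := by
    rw [hcardF]
    refine (Finset.sum_le_sum hfiber).trans ?_
    apply Finset.sum_le_sum_of_subset_of_nonneg hsub
    intro t _ _
    positivity
  have hsum2 : ∑ t ∈ CC ×ˢ (BB ×ˢ BB), Kx / (uu t.1 : ℝ)
      = (BB.card : ℝ) ^ 2 * Kx * ∑ C ∈ CC, (1 : ℝ) / uu C := by
    rw [Finset.sum_product]
    simp only [Finset.sum_const, Finset.card_product, nsmul_eq_mul]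
    rw [Finset.mul_sum]
    apply Finset.sum_congr rfl
    intro C _
    push_cast
    ring
  -- the number of cells
  have hBBcard : (BB.card : ℝ) ≤ ((N : ℝ) + 7) ^ (U0 N + 2) := by
    have := lists_card_le (U0 N + 1) (N + 5) BB (by
      have hmapfl : ∀ (l : List ℕ), (∀ r ∈ l, lev r ≤ (N : ℝ) + 5) → ∀ c ∈ l.map fl, c ≤ N + 5 := by
        intro l hl c hc'
        obtain ⟨r, hr, rfl⟩ := List.mem_map.1 hc'
        apply Nat.floor_le_of_le
        push_cast
        exact hl r hr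
      intro b hb
      rcases Finset.mem_union.1 hb with hb1 | hb1
      · obtain ⟨τ, hτ, rfl⟩ := Finset.mem_image.1 hb1
        obtain ⟨hP, _⟩ := hfacts τ hτ
        refine ⟨?_, hmapfl _ hP.topI⟩
        rw [List.length_map]
        exact hP.lenI
      · obtain ⟨τ, hτ, rfl⟩ := Finset.mem_image.1 hb1
        obtain ⟨hP, _⟩ := hfacts τ hτ
        refine ⟨?_, hmapfl _ hP.topJ⟩
        rw [List.length_map]
        exact hP.lenJ)
    have h7 : ((N + 5 : ℕ) : ℝ) + 2 = (N : ℝ) + 7 := by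
      push_cast
      ring
    rw [h7] at this
    exact this
  -- the sum over common rows
  set P : Finset ℕ := (Finset.range (⌈Real.exp (Real.exp ((N : ℝ) + 1))⌉₊ + 1)).filter
    (fun p => p.Prime ∧ lev p < (N : ℝ) + 1) with hP
  have hNn : (0 : ℝ) ≤ N := Nat.cast_nonneg N
  have hmertN := hmert ((N : ℝ) + 1) (by linarith)
  have hCsum : ∑ C ∈ CC, (1 : ℝ) / uu C ≤ Real.exp 1 * ((N : ℝ) + 1 + C') ^ (U0 N) := by
    have hCprops : ∀ C ∈ CC, C ⊆ P ∧ C.card ≤ U0 N := by
      intro C hC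
      obtain ⟨τ, hτ, rfl⟩ := Finset.mem_image.1 hC
      obtain ⟨_, _, _, _, _, hsubC⟩ := hfacts τ hτ
      have hrep := (hsel _ (hF τ hτ).2.2.2.1).1
      constructor
      · intro r hr
        have hrl : r ∈ ls τ.2.1 := by
          have := hsubC hr
          simpa using this
        have hprime := (hrep.normal r hrl).1
        have hlevr : lev r < (N : ℝ) + 1 := by
          have := hrep.cut r hrl
          linarith
        refine Finset.mem_filter.2 ⟨?_, hprime, hlevr⟩
        have h8 := lt_exp_exp_of_level hprime hlevr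
        have h9 := Nat.lt_ceil.2 h8
        exact Finset.mem_range.2 (by omega)
      · calc (Cof ls τ).card ≤ (ls τ.2.1).toFinset.card := Finset.card_le_card hsubC
          _ ≤ (ls τ.2.1).length := List.toFinset_card_le _
          _ ≤ U0 N := hlenU _ _ _ hrep
    have hrew : ∑ C ∈ CC, (1 : ℝ) / uu C = ∑ C ∈ CC, ∏ r ∈ C, ((1 : ℝ) / ((r : ℝ) - 1)) := by
      apply Finset.sum_congr rfl
      intro C hC
      have hCP := (hCprops C hC).1
      unfold uu
      push_cast
      rw [Finset.prod_div_distrib, Finset.prod_const_one]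
      congr 1
      apply Finset.prod_congr rfl
      intro r hr
      have hprime : r.Prime := (Finset.mem_filter.1 (hCP hr)).2.1
      rw [Nat.cast_sub hprime.one_le]
      simp
    rw [hrew]
    apply subsets_sum_le P (fun r => (1 : ℝ) / ((r : ℝ) - 1)) _ _ (by linarith) hmertN _ _ hCprops
    intro p hp
    have hprime : p.Prime := (Finset.mem_filter.1 hp).2.1
    have : (2 : ℝ) ≤ p := by exact_mod_cast hprime.two_le
    apply div_nonneg (by norm_num)
    linarith
  have hCnn : 0 ≤ ∑ C ∈ CC, (1 : ℝ) / uu C := by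
    apply Finset.sum_nonneg
    intro C _
    positivity
  have hfinal := h6 N hN6
  calc (F.card : ℝ) ≤ (BB.card : ℝ) ^ 2 * Kx * ∑ C ∈ CC, (1 : ℝ) / uu C := by
        rw [← hsum2]
        exact hsum1
    _ ≤ (((N : ℝ) + 7) ^ (U0 N + 2)) ^ 2 * Kx * (Real.exp 1 * ((N : ℝ) + 1 + C') ^ (U0 N)) := by
        apply mul_le_mul _ hCsum hCnn (by positivity)
        apply mul_le_mul_of_nonneg_right _ hKxpos.le
        exact pow_le_pow_left₀ (by positivity) hBBcard 2
    _ = (x / Real.log x) * E * ((16 * c / 9) * (((N : ℝ) + 7) ^ (U0 N + 2)) ^ 2 * Real.exp 1 * ((N : ℝ) + 1 + C') ^ (U0 N)) := by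
        rw [hKx]
        ring
    _ ≤ (x / Real.log x) * E * Real.exp (wd N / 4) := by
        apply mul_le_mul_of_nonneg_left hfinal
        positivity
    _ = (x / Real.log x) * Real.exp (-(wd N / 2)) := by
        rw [mul_assoc, hEdef, ← Real.exp_add]
        congr 2
        ring

end PairCount

end

end Vale.Agent.Lib.P031V
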