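import Vale.Agent.Lib.P031V.PairD
import Vale.Agent.Lib.P031V.MertensLev

/-! # P031: (PairMass) from (PM core): common rows, cells, and the mass of short lists. -/

namespace Vale.Agent.Lib.P031V
namespace PairEMass

open Real Finset

noncomputable section

/-- The mass of a finite family of short lists with entries in `P`. -/
theorem sum_lists_le {P : Finset ℕ} (w : ℕ → ℝ) (hw : ∀ p ∈ P, 0 ≤ w p) :
    ∀ (U : ℕ) (A : Finset (List ℕ)), (∀ c ∈ A, (∀ p ∈ c, p ∈ P) ∧ c.length ≤ U) →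
    ∑ c ∈ A, (c.map w).prod ≤ (1 + ∑ p ∈ P, w p) ^ U := by
  classical
  have hS : 0 ≤ ∑ p ∈ P, w p := sum_nonneg hw
  have hnonneg : ∀ c : List ℕ, (∀ p ∈ c, p ∈ P) → 0 ≤ (c.map w).prod := by
    intro c hc
    induction c with
    | nil => simp
    | cons a l ih =>
      simp only [List.map_cons, List.prod_cons]
      exact mul_nonneg (hw a (hc a (by simp))) (ih (fun p hp => hc p (by simp [hp])))
  intro U
  induction U with
  | zero =>
    intro A hA
    have hsub : A ⊆ {[]} := by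
      intro c hc
      have := (hA c hc).2
      have hc' : c = [] := List.length_eq_zero_iff.mp (by omega)
      simp [hc']
    calc ∑ c ∈ A, (c.map w).prod ≤ ∑ c ∈ ({[]} : Finset (List ℕ)), (c.map w).prod := by
          apply sum_le_sum_of_subset_of_nonneg hsub
          intro c hc _
          have : c = [] := by simpa using hc
          subst this
          simp
      _ = _ := by simp
  | succ U ih =>
    intro A hA
    have hsplit := Finset.sum_filter_add_sum_filter_not A (fun c => c = [])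
      (fun c => (c.map w).prod)
    rw [← hsplit]
    have h1 : ∑ c ∈ A.filter (fun c => c = []), (c.map w).prod ≤ 1 := by
      calc ∑ c ∈ A.filter (fun c => c = []), (c.map w).prod
          ≤ ∑ c ∈ ({[]} : Finset (List ℕ)), (c.map w).prod := by
            apply sum_le_sum_of_subset_of_nonneg
            · intro c hc
              simp [(mem_filter.mp hc).2]
            · intro c hc _
              have : c = [] := by simpa using hc
              subst this
              simp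
        _ = 1 := by simp
    have hmaps : ∀ c ∈ A.filter (fun c => ¬ c = []), c.headD 0 ∈ P := by
      intro c hc
      obtain ⟨hc1, hc2⟩ := mem_filter.mp hc
      cases c with
      | nil => exact absurd rfl hc2
      | cons a l => exact (hA _ hc1).1 a (by simp)
    have h2 : ∑ c ∈ A.filter (fun c => ¬ c = []), (c.map w).prod
        ≤ ∑ p ∈ P, w p * (1 + ∑ p ∈ P, w p) ^ U := by
      rw [← Finset.sum_fiberwise_of_maps_to hmaps]
      apply sum_le_sum
      intro p hp
      set fib := (A.filter (fun c => ¬ c = [])).filter (fun c => c.headD 0 = p) with hfib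
      have hfibmem : ∀ c ∈ fib, c ∈ A ∧ ∃ t, c = p :: t := by
        intro c hc
        obtain ⟨hc1, hc2⟩ := mem_filter.mp hc
        obtain ⟨hc3, hc4⟩ := mem_filter.mp hc1
        cases c with
        | nil => exact absurd rfl hc4
        | cons a l =>
          refine ⟨hc3, l, ?_⟩
          simp only [List.headD_cons] at hc2
          rw [hc2]
      have htail : Set.InjOn List.tail (fib : Set (List ℕ)) := by
        intro c hc d hd h
        obtain ⟨_, t, rfl⟩ := hfibmem c hc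
        obtain ⟨_, s, rfl⟩ := hfibmem d hd
        simp only [List.tail_cons] at h
        rw [h]
      have heq : ∑ c ∈ fib, (c.map w).prod = w p * ∑ t ∈ fib.image List.tail, (t.map w).prod := by
        rw [Finset.sum_image htail, mul_sum]
        apply sum_congr rfl
        intro c hc
        obtain ⟨_, t, rfl⟩ := hfibmem c hc
        simp
      rw [heq]
      apply mul_le_mul_of_nonneg_left _ (hw p hp)
      apply ih
      intro t ht
      obtain ⟨c, hc, rfl⟩ := mem_image.mp ht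
      obtain ⟨hcA, t, rfl⟩ := hfibmem c hc
      obtain ⟨h3, h4⟩ := hA _ hcA
      simp only [List.tail_cons]
      refine ⟨fun q hq => h3 q (by simp [hq]), ?_⟩
      simp only [List.length_cons] at h4
      omega
    rw [← sum_mul] at h2
    have h3 : (1 : ℝ) ≤ (1 + ∑ p ∈ P, w p) ^ U := one_le_pow₀ (by linarith)
    rw [pow_succ]
    nlinarith

/-- Common rows. -/
def Cm (l l' : List ℕ) : List ℕ := l.filter (fun x => decide (x ∈ l'))

/-- Rows of `l` not in `l'`. -/
def Df (l l' : List ℕ) : List ℕ := l.filter (fun x => !decide (x ∈ l'))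

lemma mem_Cm {l l' : List ℕ} {x : ℕ} : x ∈ Cm l l' ↔ x ∈ l ∧ x ∈ l' := by
  simp [Cm]

lemma mem_Df {l l' : List ℕ} {x : ℕ} : x ∈ Df l l' ↔ x ∈ l ∧ x ∉ l' := by
  simp [Df]

lemma rowsProd_split (l l' : List ℕ) : rowsProd l = rowsProd (Cm l l') * rowsProd (Df l l') := by
  have h := List.filter_append_perm (fun x => decide (x ∈ l')) l
  have h2 := (h.map (fun p => p - 1)).prod_eq
  unfold rowsProd Cm Df
  rw [← h2, List.map_append, List.prod_append]

lemma rowsProd_perm {l l' : List ℕ} (h : l.Perm l') : rowsProd l = rowsProd l' :=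
  (h.map (fun p => p - 1)).prod_eq

lemma nodup_of_sorted {l : List ℕ} (h : l.Pairwise (· > ·)) : l.Nodup :=
  h.imp (fun h => (Nat.ne_of_gt h))

lemma Cm_perm {l l' : List ℕ} (h : l.Nodup) (h' : l'.Nodup) : (Cm l l').Perm (Cm l' l) := by
  refine (List.perm_ext_iff_of_nodup (h.filter _) (h'.filter _)).mpr ?_
  intro a
  rw [← Cm, ← Cm, mem_Cm, mem_Cm]
  tauto

/-- Strictly decreasing lists with the same members are equal. -/
lemma sorted_ext {l l' : List ℕ} (h : l.Pairwise (· > ·)) (h' : l'.Pairwise (· > ·))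
    (hm : ∀ a, a ∈ l ↔ a ∈ l') : l = l' := by
  have hp : l.Perm l' := (List.perm_ext_iff_of_nodup (nodup_of_sorted h) (nodup_of_sorted h')).mpr hm
  refine List.Perm.eq_of_pairwise (le := (· > ·)) ?_ h h' hp
  intro a b _ _ h1 h2
  omega

lemma rowsProd_ne_zero {l : List ℕ} (h : ∀ p ∈ l, p.Prime) : rowsProd l ≠ 0 := by
  unfold rowsProd
  apply List.prod_ne_zero
  intro h0
  obtain ⟨p, hp, hp0⟩ := List.mem_map.mp h0
  have := (h p hp).two_le
  omega

/-- The weight of a list. -/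
def wP (p : ℕ) : ℝ := 1 / ((p : ℝ) - 1)

lemma prod_wP {l : List ℕ} (h : ∀ p ∈ l, p.Prime) :
    (l.map wP).prod = 1 / (rowsProd l : ℝ) := by
  induction l with
  | nil => simp [rowsProd]
  | cons a l ih =>
    have ha := (h a (by simp)).two_le
    have hc : ((a - 1 : ℕ) : ℝ) = (a : ℝ) - 1 := by
      rw [Nat.cast_sub (by omega)]
      simp
    have e : rowsProd (a :: l) = (a - 1) * rowsProd l := by
      simp [rowsProd]
    simp only [List.map_cons, List.prod_cons]
    rw [ih (fun p hp => h p (by simp [hp])), e]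
    push_cast
    rw [hc]
    unfold wP
    rw [one_div_mul_one_div]

/-- The top of the symmetric difference lies in the first list and has slack. -/
def SlackL (N : ℕ) (l l' : List ℕ) : Prop :=
  ∃ t : ℕ, (∀ s : ℕ, (s ∈ l ∧ s ∉ l') ∨ (s ∈ l' ∧ s ∉ l) → s ≤ t) ∧
    t ∈ l ∧ t ∉ l' ∧ ∃ l₁ l₂, l = l₁ ++ t :: l₂ ∧ 3 * wd N ≤ lev t - Th N 0 l₂

lemma slackOK_split {N : ℕ} {l l' : List ℕ} (h : SlackOK N l l') :
    SlackL N l l' ∨ SlackL N l' l := by
  obtain ⟨t, ht, h1 | h2⟩ := h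
  · left
    exact ⟨t, ht, h1.1, h1.2.1, h1.2.2⟩
  · right
    refine ⟨t, ?_, h2.1, h2.2.1, h2.2.2⟩
    intro s hs
    exact ht s hs.symm

/-- The reduced list starts with the top, and its tail is a sublist of the suffix. -/
lemma df_head {N : ℕ} {l l' : List ℕ} (hl : l.Pairwise (· > ·)) (h : SlackL N l l') :
    ∃ t l₂, Df l l' = t :: Df l₂ l' ∧ 3 * wd N ≤ lev t - Th N 0 l₂ ∧ l₂.Sublist l := by
  obtain ⟨t, ht, _, htl', l₁, l₂, rfl, hs⟩ := h
  refine ⟨t, l₂, ?_, hs, ?_⟩
  · have hl1 : Df l₁ l' = [] := by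
      unfold Df
      rw [List.filter_eq_nil_iff]
      intro x hx
      have hgt : x > t := by
        have := List.pairwise_append.mp hl
        exact this.2.2 x hx t (by simp)
      have hnot : x ∈ l' := by
        by_contra hn
        have := ht x (Or.inl ⟨by simp [hx], hn⟩)
        omega
      simp [hnot]
    unfold Df at hl1 ⊢
    rw [List.filter_append, hl1, List.nil_append, List.filter_cons_of_pos (by simp [htl'])]
  · exact (List.sublist_cons_self t l₂).trans (List.sublist_append_right l₁ (t :: l₂))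

/-- The pair of reduced rows. -/
lemma pairOK_of {N : ℕ} {l l' : List ℕ} {low low' m : ℕ}
    (hlen : ∀ l low m, IsRep N l low m → l.length ≤ U0 N)
    (hDc : 0 ≤ Dc N)
    (h : IsRep N l low m) (h' : IsRep N l' low' m) :
    PairOK N ((Df l l').map (fun p => ⌊lev p⌋₊)) ((Df l' l).map (fun p => ⌊lev p⌋₊))
      (Df l l') low (Df l' l) low' := by
  have hp : ∀ p ∈ l, p.Prime := fun p hp => (h.normal p hp).1
  have hp' : ∀ p ∈ l', p.Prime := fun p hp => (h'.normal p hp).1
  have hCne : rowsProd (Cm l l') ≠ 0 :=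
    rowsProd_ne_zero (fun p hp1 => hp p (mem_Cm.mp hp1).1)
  have hCeq : rowsProd (Cm l l') = rowsProd (Cm l' l) :=
    rowsProd_perm (Cm_perm (nodup_of_sorted h.sorted) (nodup_of_sorted h'.sorted))
  have hm1 : m = rowsProd (Cm l l') * (rowsProd (Df l l') * low) := by
    rw [h.eq, rowsProd_split l l', mul_assoc]
  have hm2 : m = rowsProd (Cm l l') * (rowsProd (Df l' l) * low') := by
    rw [h'.eq, rowsProd_split l' l, mul_assoc, hCeq]
  have heq : rowsProd (Df l l') * low = rowsProd (Df l' l) * low' :=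
    Nat.eq_of_mul_eq_mul_left (Nat.pos_of_ne_zero hCne) (hm1.symm.trans hm2)
  refine
    { sortedI := h.sorted.sublist List.filter_sublist
      sortedJ := h'.sorted.sublist List.filter_sublist
      normalI := fun p hp1 => h.normal p (mem_Df.mp hp1).1
      normalJ := fun p hp1 => h'.normal p (mem_Df.mp hp1).1
      cellsI := rfl
      cellsJ := rfl
      lenI := ?_
      lenJ := ?_
      topI := ?_
      topJ := ?_
      disj := ?_
      lowI := h.lowv
      lowJ := h'.lowv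
      eq := heq
      clean := ?_ }
  · have h1 := List.length_filter_le (fun x => !decide (x ∈ l')) l
    have h2 := hlen l low m h
    unfold Df
    omega
  · have h1 := List.length_filter_le (fun x => !decide (x ∈ l)) l'
    have h2 := hlen l' low' m h'
    unfold Df
    omega
  · intro p hp1
    have := h.cut p (mem_Df.mp hp1).1
    linarith
  · intro p hp1
    have := h'.cut p (mem_Df.mp hp1).1
    linarith
  · intro p hp1 hp2
    exact (mem_Df.mp hp1).2 (mem_Df.mp hp2).1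
  · intro r hr hlev hdvd
    apply h.clean r hr hlev
    rw [hm1]
    exact hdvd.trans (Nat.dvd_mul_left _ _)

/-- The numeric comparison. -/
theorem numeric (C : ℝ) (hC : 0 ≤ C) : ∃ N₁ : ℕ, ∀ N ≥ N₁,
    2 * (1 + ((N : ℝ) + 1 + C)) ^ U0 N * ((N : ℝ) + 9) ^ (2 * U0 N)
      * Real.exp (1 - 3 * wd N + wd N / 4) ≤ Real.exp (-wd N) := by
  have h1 : Filter.Tendsto (fun n : ℕ => (n : ℝ) ^ ((13 : ℝ) / 20)) Filter.atTop Filter.atTop :=
    (tendsto_rpow_atTop (by norm_num)).comp tendsto_natCast_atTop_atTop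
  obtain ⟨N₂, hN₂⟩ := Filter.eventually_atTop.mp (h1.eventually_ge_atTop (100000 : ℝ))
  obtain ⟨N₃, hN₃⟩ := exists_nat_ge (C + 10)
  refine ⟨max N₂ N₃, ?_⟩
  intro N hN
  have hN2 : N ≥ N₂ := le_trans (le_max_left _ _) hN
  have hN3 : N ≥ N₃ := le_trans (le_max_right _ _) hN
  have hNr : (N₃ : ℝ) ≤ N := by exact_mod_cast hN3
  have hNC : C + 10 ≤ (N : ℝ) := hN₃.trans hNr
  have hN10 : (10 : ℝ) ≤ N := by linarith
  have hNpos : (0 : ℝ) < N := by linarith
  have hbig := hN₂ N hN2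
  set U := U0 N with hU
  have hb1 : 1 + ((N : ℝ) + 1 + C) ≤ 2 * N := by linarith
  have hb2 : (N : ℝ) + 9 ≤ 2 * N := by linarith
  set L := Real.log (2 * (N : ℝ)) with hL
  have hLpos : 0 < L := Real.log_pos (by linarith)
  have h2N : Real.exp L = 2 * (N : ℝ) := Real.exp_log (by linarith)
  have hUle : (U : ℝ) ≤ 20 * Real.log N + 1 := by
    have := Nat.ceil_lt_add_one (show 0 ≤ 20 * Real.log (N : ℝ) by
      have := Real.log_nonneg (show (1 : ℝ) ≤ N by linarith)
      positivity)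
    rw [hU]
    unfold U0
    linarith
  have hlog1 : Real.log N ≤ 10 * (N : ℝ) ^ ((1 : ℝ) / 10) := by
    have := Real.log_le_rpow_div (show (0 : ℝ) ≤ N by linarith) (show (0 : ℝ) < 1 / 10 by norm_num)
    have e : (N : ℝ) ^ ((1 : ℝ) / 10) / (1 / 10) = 10 * (N : ℝ) ^ ((1 : ℝ) / 10) := by ring
    linarith
  set x := (N : ℝ) ^ ((1 : ℝ) / 10) with hx
  have hx1 : 1 ≤ x := Real.one_le_rpow (by linarith) (by norm_num)
  have hL2 : L ≤ 10 * x + 1 := by
    have : L = Real.log 2 + Real.log N := by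
      rw [hL, Real.log_mul (by norm_num) hNpos.ne']
    have h2 := Real.log_two_lt_d9
    linarith
  have hwd : wd N = x ^ 2 * (N : ℝ) ^ ((13 : ℝ) / 20) := by
    unfold wd
    rw [hx, ← Real.rpow_natCast, ← Real.rpow_mul hNpos.le, ← Real.rpow_add hNpos]
    norm_num
  have hwd2 : 100000 * x ^ 2 ≤ wd N := by
    rw [hwd]
    have : 0 ≤ x ^ 2 := by positivity
    nlinarith
  have hkey : (3 * (U : ℝ) * L + 3) ≤ (7 / 4) * wd N := by
    have hU1 : (U : ℝ) ≤ 201 * x := by nlinarith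
    have hL3 : L ≤ 11 * x := by nlinarith
    have : (U : ℝ) * L ≤ 201 * x * (11 * x) := mul_le_mul hU1 hL3 hLpos.le (by positivity)
    nlinarith
  have hA : (1 + ((N : ℝ) + 1 + C)) ^ U ≤ Real.exp ((U : ℝ) * L) := by
    rw [Real.exp_nat_mul, h2N]
    exact pow_le_pow_left₀ (by linarith) hb1 _
  have hB : ((N : ℝ) + 9) ^ (2 * U) ≤ Real.exp (((2 * U : ℕ) : ℝ) * L) := by
    rw [Real.exp_nat_mul, h2N]
    exact pow_le_pow_left₀ (by linarith) hb2 _
  have h2e : (2 : ℝ) ≤ Real.exp 1 := by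
    have := Real.add_one_le_exp (1 : ℝ)
    linarith
  have hall : 2 * (1 + ((N : ℝ) + 1 + C)) ^ U * ((N : ℝ) + 9) ^ (2 * U)
      * Real.exp (1 - 3 * wd N + wd N / 4)
      ≤ Real.exp 1 * Real.exp ((U : ℝ) * L) * Real.exp (((2 * U : ℕ) : ℝ) * L)
        * Real.exp (1 - 3 * wd N + wd N / 4) := by
    gcongr
  refine hall.trans ?_
  rw [← Real.exp_add, ← Real.exp_add, ← Real.exp_add]
  apply Real.exp_le_exp.mpr
  push_cast
  nlinarith

/-- Reduction to collisions. -/
theorem sum_le_image_add_coll {α : Type} [DecidableEq α] (T : Finset α) (μ : α → ℕ) :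
    ∑ τ ∈ T, (1 : ℝ) / (μ τ : ℝ) ≤ ∑ m ∈ T.image μ, (1 : ℝ) / (m : ℝ)
      + ∑ x ∈ (T ×ˢ T).filter (fun x => x.1 ≠ x.2 ∧ μ x.1 = μ x.2), (1 : ℝ) / (μ x.1 : ℝ) := by
  classical
  set n : ℕ → ℕ := fun m => (T.filter (fun a => μ a = m)).card with hn
  have h1 : ∑ τ ∈ T, (1 : ℝ) / (μ τ : ℝ) = ∑ m ∈ T.image μ, (n m : ℝ) * ((1 : ℝ) / (m : ℝ)) := by
    have := Finset.sum_comp (s := T) (fun m : ℕ => (1 : ℝ) / (m : ℝ)) μ
    rw [this]
    apply sum_congr rfl
    intro m _
    rw [nsmul_eq_mul]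
  have h2 : ∑ x ∈ (T ×ˢ T).filter (fun x => x.1 ≠ x.2 ∧ μ x.1 = μ x.2), (1 : ℝ) / (μ x.1 : ℝ)
      = ∑ τ ∈ T, ((n (μ τ) : ℝ) - 1) * ((1 : ℝ) / (μ τ : ℝ)) := by
    rw [sum_filter, sum_product]
    apply sum_congr rfl
    intro τ hτ
    simp only
    rw [← sum_filter]
    have hfil : T.filter (fun y => τ ≠ y ∧ μ τ = μ y)
        = (T.filter (fun a => μ a = μ τ)).erase τ := by
      ext y
      simp only [mem_filter, mem_erase]
      constructor
      · rintro ⟨hy, h1, h2⟩
        exact ⟨Ne.symm h1, hy, h2.symm⟩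
      · rintro ⟨h1, hy, h2⟩
        exact ⟨hy, Ne.symm h1, h2.symm⟩
    have hcard := card_erase_of_mem (s := T.filter (fun a => μ a = μ τ)) (a := τ)
      (mem_filter.mpr ⟨hτ, rfl⟩)
    rw [hfil, sum_const, nsmul_eq_mul, hcard]
    have hpos : 1 ≤ (T.filter (fun a => μ a = μ τ)).card :=
      Finset.card_pos.mpr ⟨τ, mem_filter.mpr ⟨hτ, rfl⟩⟩
    rw [Nat.cast_sub hpos]
    simp [hn]
  have h3 : ∑ τ ∈ T, ((n (μ τ) : ℝ) - 1) * ((1 : ℝ) / (μ τ : ℝ))
      = ∑ m ∈ T.image μ, (n m : ℝ) * (((n m : ℝ) - 1) * ((1 : ℝ) / (m : ℝ))) := by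
    have := Finset.sum_comp (s := T) (fun m : ℕ => ((n m : ℝ) - 1) * ((1 : ℝ) / (m : ℝ))) μ
    rw [this]
    apply sum_congr rfl
    intro m _
    rw [nsmul_eq_mul]
  rw [h1, h2, h3, ← sum_add_distrib]
  apply sum_le_sum
  intro m hm
  obtain ⟨a, ha, rfl⟩ := mem_image.mp hm
  have hpos : (1 : ℝ) ≤ n (μ a) := by
    have : 1 ≤ n (μ a) := Finset.card_pos.mpr ⟨a, mem_filter.mpr ⟨ha, rfl⟩⟩
    exact_mod_cast this
  have hf : 0 ≤ (1 : ℝ) / (μ a : ℝ) := by positivity
  nlinarith [mul_nonneg (sub_nonneg.mpr hpos) hf, mul_nonneg (mul_nonneg (sub_nonneg.mpr hpos) (sub_nonneg.mpr hpos)) hf]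

/-- Collisions in a fixed direction. -/
theorem coll_le : ∃ N₀ : ℕ, ∃ C : ℝ, 0 ≤ C ∧ ∀ N ≥ N₀, ∀ A : Finset ((List ℕ × ℕ) × (List ℕ × ℕ)),
    (∀ x ∈ A, IsRep N x.1.1 x.1.2 (rowsProd x.1.1 * x.1.2) ∧
      IsRep N x.2.1 x.2.2 (rowsProd x.1.1 * x.1.2) ∧
      SlackL N x.1.1 x.2.1) →
    ∑ x ∈ A, (1 : ℝ) / ((rowsProd x.1.1 * x.1.2 : ℕ) : ℝ)
      ≤ (1 + ((N : ℝ) + 1 + C)) ^ U0 N * ((N : ℝ) + 9) ^ (2 * U0 N)
        * Real.exp (1 - 3 * wd N + wd N / 4) := by
  classical
  obtain ⟨N₁, hN₁⟩ := pm_core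
  obtain ⟨N₂, hN₂⟩ := length_le_U0
  obtain ⟨C, hC0, hC⟩ := mass_le_of_level
  refine ⟨max (max N₁ N₂) 1, C, hC0, ?_⟩
  intro N hN A hA
  have hN1 : N ≥ N₁ := le_trans (le_trans (le_max_left _ _) (le_max_left _ _)) hN
  have hN2 : N ≥ N₂ := le_trans (le_trans (le_max_right _ _) (le_max_left _ _)) hN
  have hN3 : N ≥ 1 := le_trans (le_max_right _ _) hN
  have hNr : (1 : ℝ) ≤ N := by exact_mod_cast hN3
  have hDc : 0 ≤ Dc N := by unfold Dc; positivity
  have hwd : 0 ≤ wd N := by unfold wd; positivity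
  have ht01 : 1 ≤ t0 N := by unfold t0; exact Real.one_le_rpow hNr (by norm_num)
  have ht0N : t0 N ≤ (N : ℝ) + 1 := by
    unfold t0
    have : (N : ℝ) ^ ((4 : ℝ) / 5) ≤ (N : ℝ) ^ (1 : ℝ) :=
      Real.rpow_le_rpow_of_exponent_le hNr (by norm_num)
    rw [Real.rpow_one] at this
    linarith
  have hts0 : 0 ≤ ts N := by unfold ts; linarith
  have hlen : ∀ l low m, IsRep N l low m → l.length ≤ U0 N := by
    intro l low m h
    apply hN₂ N hN2 l h.sorted (fun p hp => (h.normal p hp).1) _ h.adm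
    intro p hp
    refine ⟨(h.normal p hp).2.1, ?_⟩
    have := h.cut p hp
    linarith
  -- the maps
  set Cx : (List ℕ × ℕ) × (List ℕ × ℕ) → List ℕ := fun x => Cm x.1.1 x.2.1 with hCx
  set Rx : (List ℕ × ℕ) × (List ℕ × ℕ) → List ℕ × ℕ × List ℕ × ℕ :=
    fun x => (Df x.1.1 x.2.1, x.1.2, Df x.2.1 x.1.1, x.2.2) with hRx
  set cell : List ℕ → List ℕ := fun I => I.map (fun p => ⌊lev p⌋₊) with hcell
  set key : (List ℕ × ℕ) × (List ℕ × ℕ) → List ℕ × List ℕ × List ℕ :=
    fun x => (Cx x, cell (Rx x).1, cell (Rx x).2.2.1) with hkey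
  set CC : Finset (List ℕ) := A.image Cx with hCC
  set BB : Finset (List ℕ) := A.image (fun x => cell (Rx x).1) ∪ A.image (fun x => cell (Rx x).2.2.1)
    with hBB
  set E : ℝ := Real.exp (1 - 3 * wd N + wd N / 4) with hE
  have hEpos : 0 < E := Real.exp_pos _
  -- the term
  have hprime : ∀ x ∈ A, ∀ p ∈ Cx x, p.Prime := by
    intro x hx p hp
    exact ((hA x hx).1.normal p (mem_Cm.mp hp).1).1
  have hm : ∀ x ∈ A, (1 : ℝ) / ((rowsProd x.1.1 * x.1.2 : ℕ) : ℝ)
      = ((Cx x).map wP).prod * ((1 : ℝ) / ((rowsProd (Rx x).1 * (Rx x).2.1 : ℕ) : ℝ)) := by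
    intro x hx
    rw [prod_wP (hprime x hx), one_div_mul_one_div]
    congr 1
    have : rowsProd x.1.1 * x.1.2 = rowsProd (Cx x) * (rowsProd (Rx x).1 * (Rx x).2.1) := by
      simp only [hCx, hRx]
      rw [rowsProd_split x.1.1 x.2.1, mul_assoc]
    rw [this]
    push_cast
    ring
  -- fibres
  have hfib : ∀ k ∈ CC ×ˢ BB ×ˢ BB, ∑ x ∈ A.filter (fun x => key x = k),
      (1 : ℝ) / ((rowsProd (Rx x).1 * (Rx x).2.1 : ℕ) : ℝ) ≤ E := by
    rintro ⟨c, β, β'⟩ _
    set fib := A.filter (fun x => key x = (c, β, β')) with hfibdef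
    rcases fib.eq_empty_or_nonempty with hempty | ⟨x₀, hx₀⟩
    · rw [hempty, sum_empty]
      exact hEpos.le
    -- `Rx` is injective on the fibre
    have hinj : Set.InjOn Rx (fib : Set _) := by
      intro x hx y hy hxy
      have hx' := mem_filter.mp (mem_coe.mp hx)
      have hy' := mem_filter.mp (mem_coe.mp hy)
      have hkx : Cx x = c := congrArg Prod.fst hx'.2
      have hky : Cx y = c := congrArg Prod.fst hy'.2
      have h1 : Df x.1.1 x.2.1 = Df y.1.1 y.2.1 := congrArg Prod.fst hxy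
      have h2 : x.1.2 = y.1.2 := congrArg (fun z => z.2.1) hxy
      have h3 : Df x.2.1 x.1.1 = Df y.2.1 y.1.1 := congrArg (fun z => z.2.2.1) hxy
      have h4 : x.2.2 = y.2.2 := congrArg (fun z => z.2.2.2) hxy
      have hCm : Cm x.1.1 x.2.1 = Cm y.1.1 y.2.1 := hkx.trans hky.symm
      have hl : x.1.1 = y.1.1 := by
        apply sorted_ext (hA x hx'.1).1.sorted (hA y hy'.1).1.sorted
        intro a
        have ha1 : a ∈ Cm x.1.1 x.2.1 ↔ a ∈ Cm y.1.1 y.2.1 := by rw [hCm]
        have ha2 : a ∈ Df x.1.1 x.2.1 ↔ a ∈ Df y.1.1 y.2.1 := by rw [h1]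
        rw [mem_Cm, mem_Cm] at ha1
        rw [mem_Df, mem_Df] at ha2
        tauto
      have hl' : x.2.1 = y.2.1 := by
        apply sorted_ext (hA x hx'.1).2.1.sorted (hA y hy'.1).2.1.sorted
        intro a
        have ha1 : a ∈ Cm x.1.1 x.2.1 ↔ a ∈ Cm y.1.1 y.2.1 := by rw [hCm]
        have ha2 : a ∈ Df x.2.1 x.1.1 ↔ a ∈ Df y.2.1 y.1.1 := by rw [h3]
        rw [mem_Cm, mem_Cm] at ha1
        rw [mem_Df, mem_Df] at ha2
        tauto
      apply Prod.ext
      · exact Prod.ext hl h2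
      · exact Prod.ext hl' h4
    have hsum : ∑ x ∈ fib, (1 : ℝ) / ((rowsProd (Rx x).1 * (Rx x).2.1 : ℕ) : ℝ)
        = ∑ τ ∈ fib.image Rx, (1 : ℝ) / ((rowsProd τ.1 * τ.2.1 : ℕ) : ℝ) :=
      (Finset.sum_image (f := fun τ : List ℕ × ℕ × List ℕ × ℕ =>
        (1 : ℝ) / ((rowsProd τ.1 * τ.2.1 : ℕ) : ℝ)) hinj).symm
    rw [hsum]
    -- the cell head
    have hx₀' := mem_filter.mp hx₀
    have hk1 : cell (Rx x₀).1 = β := congrArg (fun z => z.2.1) hx₀'.2
    obtain ⟨t₀, l₂₀, hd₀, _, _⟩ := df_head (hA x₀ hx₀'.1).1.sorted (hA x₀ hx₀'.1).2.2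
    have hβ : β ≠ [] := by
      rw [← hk1]
      simp only [hRx, hcell]
      rw [hd₀]
      simp
    -- apply the core
    have hcore := hN₁ N hN1 β β' (((β.headD 0 : ℕ) : ℝ) + 1 - 3 * wd N) (fib.image Rx) hβ (by
      intro τ hτ
      obtain ⟨x, hx, rfl⟩ := mem_image.mp hτ
      have hx' := mem_filter.mp hx
      have hb1 : cell (Rx x).1 = β := congrArg (fun z => z.2.1) hx'.2
      have hb2 : cell (Rx x).2.2.1 = β' := congrArg (fun z => z.2.2) hx'.2
      obtain ⟨h1, h2, h3⟩ := hA x hx'.1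
      have hok := pairOK_of hlen hDc h1 h2
      refine ⟨?_, ?_⟩
      · simp only [hcell] at hb1 hb2
        rw [← hb1, ← hb2]
        exact hok
      · obtain ⟨t, l₂, hd, hslack, hsub⟩ := df_head h1.sorted h3
        simp only [hRx]
        rw [hd]
        simp only [List.tail_cons]
        have hbig : BigList N x.1.1 := by
          intro p hp
          have := (h1.normal p hp).2.1
          unfold ts
          linarith
        have hs : (Df l₂ x.2.1).Sublist l₂ := List.filter_sublist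
        have hbig2 : BigList N l₂ := fun p hp => hbig p (hsub.subset hp)
        have hth := Th_sublist N 0 hs hbig2 hts0
        -- the head of the cell is the floor of the level of `t`
        have hhead : β.headD 0 = ⌊lev t⌋₊ := by
          rw [← hb1]
          simp only [hcell, hRx]
          rw [hd]
          simp
        rw [hhead]
        have hfl := Nat.lt_floor_add_one (lev t)
        linarith)
    refine hcore.trans ?_
    apply Real.exp_le_exp.mpr
    ring_nf
    exact le_rfl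
  -- assemble
  have hmaps : ∀ x ∈ A, key x ∈ CC ×ˢ BB ×ˢ BB := by
    intro x hx
    simp only [mem_product]
    refine ⟨mem_image_of_mem _ hx, ?_, ?_⟩
    · exact mem_union_left _ (mem_image_of_mem (fun x => cell (Rx x).1) hx)
    · exact mem_union_right _ (mem_image_of_mem (fun x => cell (Rx x).2.2.1) hx)
  rw [sum_congr rfl hm, ← Finset.sum_fiberwise_of_maps_to hmaps]
  have hw : ∀ c ∈ CC, 0 ≤ (c.map wP).prod := by
    intro c hc
    obtain ⟨x, hx, rfl⟩ := mem_image.mp hc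
    rw [prod_wP (hprime x hx)]
    positivity
  have hstep : ∀ k ∈ CC ×ˢ BB ×ˢ BB,
      ∑ x ∈ A.filter (fun x => key x = k),
        ((Cx x).map wP).prod * ((1 : ℝ) / ((rowsProd (Rx x).1 * (Rx x).2.1 : ℕ) : ℝ))
      ≤ (k.1.map wP).prod * E := by
    intro k hk
    have : ∀ x ∈ A.filter (fun x => key x = k),
        ((Cx x).map wP).prod * ((1 : ℝ) / ((rowsProd (Rx x).1 * (Rx x).2.1 : ℕ) : ℝ))
        = (k.1.map wP).prod * ((1 : ℝ) / ((rowsProd (Rx x).1 * (Rx x).2.1 : ℕ) : ℝ)) := by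
      intro x hx
      have := (mem_filter.mp hx).2
      rw [← this]
    rw [sum_congr rfl this, ← mul_sum]
    apply mul_le_mul_of_nonneg_left (hfib k hk)
    exact hw _ (mem_product.mp hk).1
  refine (sum_le_sum hstep).trans ?_
  rw [sum_product]
  -- the sum over common rows
  set P : Finset ℕ := levPrimes (t0 N) ((N : ℝ) + 1) with hP
  have hS : ∑ p ∈ P, wP p ≤ (N : ℝ) + 1 + C := by
    have := hC (t0 N) ((N : ℝ) + 1) ht01 ht0N P (fun p hp => mem_levPrimes.mp hp)
    have hexp : Real.exp (-t0 N) ≤ 1 := Real.exp_le_one_iff.mpr (by linarith)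
    have h2 : C * Real.exp (-t0 N) ≤ C := by nlinarith
    unfold wP
    linarith
  have hP0 : ∀ p ∈ P, 0 ≤ wP p := by
    intro p hp
    have hp' := (mem_levPrimes.mp hp).1
    have hp1 : (1 : ℝ) < p := by exact_mod_cast hp'.one_lt
    unfold wP
    exact div_nonneg zero_le_one (by linarith)
  have hS0 : 0 ≤ ∑ p ∈ P, wP p := sum_nonneg hP0
  have hCsum : ∑ c ∈ CC, (c.map wP).prod ≤ (1 + ((N : ℝ) + 1 + C)) ^ U0 N := by
    refine (sum_lists_le (P := P) wP hP0 (U0 N) CC ?_).trans ?_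
    · intro c hc
      obtain ⟨x, hx, rfl⟩ := mem_image.mp hc
      obtain ⟨h1, h2, h3⟩ := hA x hx
      refine ⟨?_, ?_⟩
      · intro p hp
        have hp1 := (mem_Cm.mp hp).1
        have hn := h1.normal p hp1
        refine mem_levPrimes.mpr ⟨hn.1, hn.2.1, ?_⟩
        have := h1.cut p hp1
        unfold lev at this
        linarith
      · have := hlen _ _ _ h1
        have h4 := List.length_filter_le (fun y => decide (y ∈ x.2.1)) x.1.1
        simp only [hCx, Cm]
        omega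
    · exact pow_le_pow_left₀ (by linarith) (by linarith) _
  have hBcard : ((BB.card : ℕ) : ℝ) ≤ ((N : ℝ) + 9) ^ U0 N := by
    have hbase := sum_lists_le (P := range (N + 8)) (fun _ => (1 : ℝ)) (fun _ _ => zero_le_one) (U0 N) BB ?_
    · have h1 : ∑ c ∈ BB, (c.map (fun _ => (1 : ℝ))).prod = (BB.card : ℝ) := by
        have : ∀ c ∈ BB, (c.map (fun _ => (1 : ℝ))).prod = 1 := by
          intro c _
          simp
        rw [sum_congr rfl this]
        simp
      rw [h1] at hbase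
      refine hbase.trans (le_of_eq ?_)
      congr 1
      simp
      ring
    · intro β hβ
      have hgen : ∀ I : List ℕ, (∀ p ∈ I, Normal N p ∧ lev p ≤ (N : ℝ) + 6) → I.length ≤ U0 N →
          (∀ p ∈ cell I, p ∈ range (N + 8)) ∧ (cell I).length ≤ U0 N := by
        intro I hI hIl
        refine ⟨?_, by simpa [hcell] using hIl⟩
        intro q hq
        obtain ⟨p, hp, rfl⟩ := List.mem_map.mp hq
        obtain ⟨hn, hle⟩ := hI p hp
        have hlev0 : 0 ≤ lev p := by linarith [hn.2.1]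
        have hfl : (⌊lev p⌋₊ : ℝ) ≤ (N : ℝ) + 6 := (Nat.floor_le hlev0).trans hle
        have : ⌊lev p⌋₊ ≤ N + 6 := by exact_mod_cast hfl
        exact mem_range.mpr (by omega)
      rcases mem_union.mp hβ with hb | hb
      · obtain ⟨x, hx, rfl⟩ := mem_image.mp hb
        obtain ⟨h1, h2, h3⟩ := hA x hx
        apply hgen
        · intro p hp
          have hp1 := (mem_Df.mp hp).1
          refine ⟨h1.normal p hp1, ?_⟩
          have := h1.cut p hp1
          linarith
        · have := hlen _ _ _ h1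
          have h4 := List.length_filter_le (fun y => !decide (y ∈ x.2.1)) x.1.1
          simp only [hRx, Df]
          omega
      · obtain ⟨x, hx, rfl⟩ := mem_image.mp hb
        obtain ⟨h1, h2, h3⟩ := hA x hx
        apply hgen
        · intro p hp
          have hp1 := (mem_Df.mp hp).1
          refine ⟨h2.normal p hp1, ?_⟩
          have := h2.cut p hp1
          linarith
        · have := hlen _ _ _ h2
          have h4 := List.length_filter_le (fun y => !decide (y ∈ x.1.1)) x.2.1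
          simp only [hRx, Df]
          omega
  have hinner : ∀ c ∈ CC, ∑ k ∈ BB ×ˢ BB, ((c, k).1.map wP).prod * E
      ≤ (c.map wP).prod * (((N : ℝ) + 9) ^ (2 * U0 N) * E) := by
    intro c hc
    simp only
    rw [sum_const, nsmul_eq_mul, card_product]
    push_cast
    have h9 : (BB.card : ℝ) * BB.card ≤ ((N : ℝ) + 9) ^ (2 * U0 N) := by
      rw [two_mul, pow_add]
      exact mul_le_mul hBcard hBcard (Nat.cast_nonneg _) (by positivity)
    have hw' := hw c hc
    nlinarith [mul_le_mul_of_nonneg_right h9 (mul_nonneg hw' hEpos.le), mul_nonneg hw' hEpos.le]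
  refine (sum_le_sum hinner).trans ?_
  rw [← sum_mul]
  rw [mul_assoc]
  exact mul_le_mul_of_nonneg_right hCsum (by positivity)

/-- (PairMass). -/
theorem distinct_mass_core : ∃ N₀ : ℕ, ∀ N ≥ N₀, ∀ T : Finset (List ℕ × ℕ),
    (∀ τ ∈ T, IsRep N τ.1 τ.2 (rowsProd τ.1 * τ.2)) →
    (∀ τ ∈ T, ∀ τ' ∈ T, τ ≠ τ' → rowsProd τ.1 * τ.2 = rowsProd τ'.1 * τ'.2 →
      SlackOK N τ.1 τ'.1) →
    ∑ τ ∈ T, (1 : ℝ) / ((rowsProd τ.1 * τ.2 : ℕ) : ℝ)
      ≤ ∑ m ∈ T.image (fun τ => rowsProd τ.1 * τ.2), (1 : ℝ) / (m : ℝ) + Real.exp (-wd N) := by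
  classical
  obtain ⟨N₁, C, hC0, hN₁⟩ := coll_le
  obtain ⟨N₂, hN₂⟩ := numeric C hC0
  refine ⟨max N₁ N₂, ?_⟩
  intro N hN T hrep hslack
  have hN1 : N ≥ N₁ := le_trans (le_max_left _ _) hN
  have hN2 : N ≥ N₂ := le_trans (le_max_right _ _) hN
  set μ : List ℕ × ℕ → ℕ := fun τ => rowsProd τ.1 * τ.2 with hμ
  set Coll := (T ×ˢ T).filter (fun x => x.1 ≠ x.2 ∧ μ x.1 = μ x.2) with hColl
  have h0 := sum_le_image_add_coll T μ
  refine h0.trans ?_
  apply add_le_add_right
  -- split the collisions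
  set A₁ := Coll.filter (fun x => SlackL N x.1.1 x.2.1) with hA₁
  set A₂ := Coll.filter (fun x => ¬ SlackL N x.1.1 x.2.1) with hA₂
  have hsplit := Finset.sum_filter_add_sum_filter_not Coll (fun x => SlackL N x.1.1 x.2.1)
    (fun x => (1 : ℝ) / ((μ x.1 : ℕ) : ℝ))
  rw [← hsplit]
  have hbound := hN₂ N hN2
  set B := (1 + ((N : ℝ) + 1 + C)) ^ U0 N * ((N : ℝ) + 9) ^ (2 * U0 N)
        * Real.exp (1 - 3 * wd N + wd N / 4) with hB
  have hB2 : 2 * B ≤ Real.exp (-wd N) := by
    rw [hB]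
    linarith
  have hmemColl : ∀ x ∈ Coll, x.1 ∈ T ∧ x.2 ∈ T ∧ x.1 ≠ x.2 ∧ μ x.1 = μ x.2 := by
    intro x hx
    obtain ⟨h1, h2, h3⟩ := mem_filter.mp hx
    obtain ⟨h4, h5⟩ := mem_product.mp h1
    exact ⟨h4, h5, h2, h3⟩
  have h1 : ∑ x ∈ A₁, (1 : ℝ) / ((μ x.1 : ℕ) : ℝ) ≤ B := by
    apply hN₁ N hN1 A₁
    intro x hx
    obtain ⟨hx1, hx2⟩ := mem_filter.mp hx
    obtain ⟨h1, h2, h3, h4⟩ := hmemColl x hx1
    refine ⟨hrep _ h1, ?_, hx2⟩
    have := hrep _ h2
    have e : μ x.1 = rowsProd x.1.1 * x.1.2 := rfl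
    have e2 : μ x.2 = rowsProd x.2.1 * x.2.2 := rfl
    rw [← e, h4, e2]
    exact this
  have h2 : ∑ x ∈ A₂, (1 : ℝ) / ((μ x.1 : ℕ) : ℝ) ≤ B := by
    have hinj : Set.InjOn Prod.swap (A₂ : Set ((List ℕ × ℕ) × (List ℕ × ℕ))) :=
      Prod.swap_injective.injOn
    have hsw : ∑ x ∈ A₂, (1 : ℝ) / ((μ x.1 : ℕ) : ℝ)
        = ∑ y ∈ A₂.image Prod.swap, (1 : ℝ) / ((μ y.1 : ℕ) : ℝ) := by
      rw [Finset.sum_image hinj]
      apply sum_congr rfl
      intro x hx
      obtain ⟨h1, h2, h3, h4⟩ := hmemColl x (mem_filter.mp hx).1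
      simp only [Prod.fst_swap]
      rw [h4]
    rw [hsw]
    apply hN₁ N hN1
    intro y hy
    obtain ⟨x, hx, rfl⟩ := mem_image.mp hy
    obtain ⟨hx1, hx2⟩ := mem_filter.mp hx
    obtain ⟨h1, h2, h3, h4⟩ := hmemColl x hx1
    simp only [Prod.fst_swap, Prod.snd_swap]
    have hs := hslack x.1 h1 x.2 h2 h3 h4
    have hs2 : SlackL N x.2.1 x.1.1 := by
      rcases slackOK_split hs with h | h
      · exact absurd h hx2
      · exact h
    refine ⟨hrep _ h2, ?_, hs2⟩
    have := hrep _ h1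
    have e : μ x.1 = rowsProd x.1.1 * x.1.2 := rfl
    have e2 : μ x.2 = rowsProd x.2.1 * x.2.2 := rfl
    rw [← e2, ← h4, e]
    exact this
  linarith

end

end PairEMass
end Vale.Agent.Lib.P031V
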