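import Vale.Agent.Lib.P031V.PairD
import Vale.Agent.Lib.P031V.PairEMass
import Vale.Agent.Lib.P031V.PairECount

/-! # P031: the two final forms of the collision bound: (PairMass) = `distinct_mass`, (PairCount) = `pair_count`. -/

namespace Vale.Agent.Lib.P031V
open Real Finset
open scoped Classical
noncomputable section

/-- The integer of a representation datum. -/
def mOf (τ : List ℕ × ℕ) : ℕ := rowsProd τ.1 * τ.2

/-- Mass of a finite family of representations whose collisions all have slack is the mass of the image,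
up to `exp (-w)`. Blueprint (PairMass). -/
theorem distinct_mass : ∃ N₀ : ℕ, ∀ N ≥ N₀, ∀ T : Finset (List ℕ × ℕ),
    (∀ τ ∈ T, IsRep N τ.1 τ.2 (mOf τ)) →
    (∀ τ ∈ T, ∀ τ' ∈ T, τ ≠ τ' → mOf τ = mOf τ' → SlackOK N τ.1 τ'.1) →
    ∑ τ ∈ T, (1 : ℝ) / mOf τ ≤ ∑ m ∈ T.image mOf, (1 : ℝ) / m + Real.exp (-wd N) :=
  PairEMass.distinct_mass_core

/-- Blueprint (PairCount). -/
theorem pair_count (c : ℝ) (hc : 1 < c) : ∃ N₀ : ℕ, ∀ N ≥ N₀, ∀ x : ℝ, 1 < x → |levR x - N| ≤ 2 →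
    ∀ F : Finset (ℕ × ℕ × ℕ × ℕ),
    (∀ τ ∈ F, τ.1 ≠ τ.2.2.1 ∧ Normal N τ.1 ∧ Normal N τ.2.2.1 ∧
      τ.2.1 ∈ Aset N (levR x - wd N) ∧ τ.2.2.2 ∈ Aset N (levR x - wd N) ∧
      (τ.1 - 1) * τ.2.1 = (τ.2.2.1 - 1) * τ.2.2.2 ∧ (τ.1 - 1) * τ.2.1 ∈ Win x c ∧
      Clean N ((τ.1 - 1) * τ.2.1)) →
    (F.card : ℝ) ≤ (x / Real.log x) * Real.exp (-(wd N / 2)) :=
  PairCount.pair_count_core c hc

end
end Vale.Agent.Lib.P031V
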