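import Vale.Agent.Lib.P031V.ChainA
import Vale.Agent.Lib.P031V.Mertens2
import Vale.Agent.Lib.P031V.RarityEuler

/-! # P031: rarity, blueprint section 2. -/

namespace Vale.Agent.Lib.P031V
open Real Finset
open scoped Classical
noncomputable section

/-- (R0). -/
theorem euler_count (g : ℕ → ℝ) (hg : ∀ r, 1 ≤ g r) (x : ℝ) (hx : 1 ≤ x) :
    ∑ v ∈ Finset.Icc 1 ⌊x⌋₊, ∏ r ∈ v.primeFactors, g r
      ≤ x * Real.exp (∑ r ∈ (Finset.range (⌊x⌋₊ + 1)).filter Nat.Prime, (g r - 1) / r) := by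
  have h := RarityEuler.R0 g hg ⌊x⌋₊
  have hset : (Finset.Icc 1 ⌊x⌋₊).filter Nat.Prime = (Finset.range (⌊x⌋₊ + 1)).filter Nat.Prime := by
    ext r
    simp only [mem_filter, mem_Icc, mem_range]
    constructor
    · rintro ⟨⟨h1, h2⟩, h3⟩
      exact ⟨by omega, h3⟩
    · rintro ⟨h1, h3⟩
      exact ⟨⟨h3.one_lt.le, by omega⟩, h3⟩
  rw [hset] at h
  refine h.trans ?_
  exact mul_le_mul_of_nonneg_right (Nat.floor_le (by linarith)) (exp_pos _).le

/-- (R0'). -/
theorem euler_mass (g : ℕ → ℝ) (hg : ∀ r, 1 ≤ g r) (Z : ℕ) (F : Finset ℕ)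
    (hF : ∀ m ∈ F, m ≠ 0 ∧ ∀ r : ℕ, r.Prime → r ∣ m → r ≤ Z) :
    ∑ m ∈ F, (∏ r ∈ m.primeFactors, g r) / m
      ≤ Real.exp (∑ r ∈ (Finset.range (Z + 1)).filter Nat.Prime, g r / ((r : ℝ) - 1)) := by
  apply RarityEuler.R0' g hg (Finset.range (Z + 1)) F
  intro m hm
  refine ⟨(hF m hm).1, fun r hr => ?_⟩
  have := (hF m hm).2 r (Nat.prime_of_mem_primeFactors hr) (Nat.dvd_of_mem_primeFactors hr)
  exact mem_range.mpr (by omega)

/-- Cell version of `Th`. -/
def ThB (N : ℕ) : ℕ → List ℕ → ℝ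
  | _, [] => 0
  | h, b :: bs => aa (h + 1) * ((b : ℝ) - ts N) + ThB N (h + 1) bs

/-- `l` is a decreasing list of normal primes in the cells `b`. -/
def RowsIn (N : ℕ) (b l : List ℕ) : Prop :=
  l.Pairwise (· > ·) ∧ (∀ p ∈ l, Normal N p) ∧ l.map (fun p => ⌊lev p⌋₊) = b

/-! ### The weight -/

/-- Entry `s` of a cell vector. -/
def cb (b : List ℕ) (s : ℕ) : ℝ := ((b.getD s 0 : ℕ) : ℝ)

/-- The event that `r` is counted by the row index `s`. -/
def ind (N : ℕ) (b : List ℕ) (r s : ℕ) : Prop := ts N < lev r ∧ lev r ≤ cb b s + 1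

/-- The weight: one plus the number of `s ≥ 1` with `lev r` in `(ts, b_s + 1]`. -/
def gf (N : ℕ) (b : List ℕ) (r : ℕ) : ℝ :=
  1 + ∑ s ∈ Icc 1 (b.length - 1), if ind N b r s then (1 : ℝ) else 0

lemma gf_ge (N : ℕ) (b : List ℕ) (r : ℕ) : 1 ≤ gf N b r := by
  unfold gf
  have : 0 ≤ ∑ s ∈ Icc 1 (b.length - 1), if ind N b r s then (1 : ℝ) else 0 :=
    sum_nonneg (fun s _ => by split_ifs <;> norm_num)
  linarith

/-- `log n = ∑_{s=1}^{n-1} c_s`. -/
lemma log_eq_sum_cc (n : ℕ) (hn : 1 ≤ n) : Real.log n = ∑ s ∈ Finset.Icc 1 (n - 1), cs s := by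
  have h := sum_cs (n - 1)
  have h2 : ((n - 1 : ℕ) : ℝ) + 1 = n := by
    have : ((n - 1 + 1 : ℕ) : ℝ) = n := by rw [Nat.sub_add_cancel hn]
    push_cast at this
    exact this
  rw [h, h2]

lemma log_count (P : ℕ → Prop) (k : ℕ) (hP : ∀ i j, 1 ≤ i → i ≤ j → j ≤ k → P j → P i) :
    Real.log (1 + ∑ s ∈ Icc 1 k, if P s then (1 : ℝ) else 0)
      = ∑ s ∈ Icc 1 k, if P s then cs s else 0 := by
  induction k with
  | zero => simp
  | succ k ih =>
    by_cases hk : P (k + 1)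
    · have hall : ∀ s ∈ Icc 1 (k + 1), P s := fun s hs =>
        hP s (k + 1) (mem_Icc.mp hs).1 (mem_Icc.mp hs).2 le_rfl hk
      rw [sum_congr rfl (fun s hs => if_pos (hall s hs)),
        sum_congr rfl (fun s hs => if_pos (hall s hs))]
      have h := log_eq_sum_cc (k + 2) (by omega)
      have h2 : k + 2 - 1 = k + 1 := by omega
      rw [h2] at h
      rw [← h]
      simp only [sum_const, Nat.card_Icc, nsmul_eq_mul, mul_one]
      congr 1
      push_cast
      ring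
    · rw [sum_Icc_succ_top (by omega), sum_Icc_succ_top (by omega), if_neg hk, if_neg hk,
        add_zero, add_zero]
      exact ih (fun i j hi hij hj h => hP i j hi hij (by omega) h)

/-- The logarithm of the weight. -/
lemma log_gf (N : ℕ) (b : List ℕ) (r : ℕ)
    (hb : ∀ i j, 1 ≤ i → i ≤ j → j ≤ b.length - 1 → cb b j ≤ cb b i) :
    Real.log (gf N b r) = ∑ s ∈ Icc 1 (b.length - 1), if ind N b r s then cs s else 0 := by
  unfold gf
  apply log_count
  intro i j hi hij hj h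
  exact ⟨h.1, h.2.trans (by linarith [hb i j hi hij hj])⟩

lemma log_gf_nonneg (N : ℕ) (b : List ℕ) (r : ℕ) : 0 ≤ Real.log (gf N b r) :=
  Real.log_nonneg (gf_ge N b r)

/-! ### Rows have disjoint high primes -/

/-- High primes of `p - 1`. -/
def Hi (N : ℕ) (p : ℕ) : Finset ℕ := (p - 1).primeFactors.filter (fun r => ts N < lev r)

lemma Clean.of_dvd {N v d : ℕ} (h : Clean N v) (hd : d ∣ v) : Clean N d :=
  fun r hr hl hrd => h r hr hl (hrd.trans hd)

lemma rowsProd_ne_zero (l : List ℕ) (hl : ∀ p ∈ l, 2 ≤ p) : rowsProd l ≠ 0 := by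
  induction l with
  | nil => simp [rowsProd]
  | cons p l ih =>
    have h1 : rowsProd (p :: l) = (p - 1) * rowsProd l := by simp [rowsProd]
    rw [h1]
    have hp := hl p (by simp)
    exact mul_ne_zero (by omega) (ih (fun q hq => hl q (by simp [hq])))

lemma sum_rows_le (N : ℕ) (f : ℕ → ℝ) (hf : ∀ r, 0 ≤ f r) (l : List ℕ) (hl : ∀ p ∈ l, 2 ≤ p)
    (hc : Clean N (rowsProd l)) :
    (l.map (fun p => ∑ r ∈ Hi N p, f r)).sum
      ≤ ∑ r ∈ (rowsProd l).primeFactors.filter (fun r => ts N < lev r), f r := by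
  induction l with
  | nil => simp [rowsProd]
  | cons p l ih =>
    have h1 : rowsProd (p :: l) = (p - 1) * rowsProd l := by simp [rowsProd]
    have hp := hl p (by simp)
    have hl' : ∀ q ∈ l, 2 ≤ q := fun q hq => hl q (by simp [hq])
    have hd0 := rowsProd_ne_zero l hl'
    have hp0 : p - 1 ≠ 0 := by omega
    have hcd : Clean N (rowsProd l) := hc.of_dvd (by rw [h1]; exact dvd_mul_left _ _)
    have ih' := ih hl' hcd
    simp only [List.map_cons, List.sum_cons]
    have hdisj : Disjoint (Hi N p) ((rowsProd l).primeFactors.filter (fun r => ts N < lev r)) := by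
      rw [Finset.disjoint_left]
      intro r hr hr2
      have hr1 := mem_filter.mp hr
      have hr3 := mem_filter.mp hr2
      have hrp := Nat.prime_of_mem_primeFactors hr1.1
      have hrd1 := Nat.dvd_of_mem_primeFactors hr1.1
      have hrd2 := Nat.dvd_of_mem_primeFactors hr3.1
      apply hc r hrp hr1.2
      rw [h1, pow_two]
      exact mul_dvd_mul hrd1 hrd2
    calc ∑ r ∈ Hi N p, f r + (l.map (fun p => ∑ r ∈ Hi N p, f r)).sum
        ≤ ∑ r ∈ Hi N p, f r + ∑ r ∈ (rowsProd l).primeFactors.filter (fun r => ts N < lev r), f r := by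
          linarith
      _ = ∑ r ∈ Hi N p ∪ (rowsProd l).primeFactors.filter (fun r => ts N < lev r), f r :=
          (sum_union hdisj).symm
      _ ≤ _ := by
          apply sum_le_sum_of_subset_of_nonneg
          · intro r hr
            rcases mem_union.mp hr with hr | hr
            · have hr1 := mem_filter.mp hr
              refine mem_filter.mpr ⟨?_, hr1.2⟩
              rw [h1, Nat.primeFactors_mul hp0 hd0]
              exact mem_union_left _ hr1.1
            · have hr1 := mem_filter.mp hr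
              refine mem_filter.mpr ⟨?_, hr1.2⟩
              rw [h1, Nat.primeFactors_mul hp0 hd0]
              exact mem_union_right _ hr1.1
          · intro r _ _
            exact hf r

lemma list_sum_getD (F : ℕ → ℝ) (l : List ℕ) :
    (l.map F).sum = ∑ i ∈ range l.length, F (l.getD i 0) := by
  induction l with
  | nil => simp
  | cons p l ih =>
    simp only [List.map_cons, List.sum_cons, List.length_cons]
    rw [sum_range_succ', ih]
    simp [add_comm]

lemma sum_Icc_shift (F : ℕ → ℝ) (k : ℕ) : ∑ s ∈ Icc 1 k, F s = ∑ j ∈ range k, F (j + 1) := by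
  induction k with
  | zero => simp
  | succ k ih => rw [sum_Icc_succ_top (by omega), sum_range_succ, ih]

/-- `ThB` as a sum. -/
lemma ThB_eq (N : ℕ) (h : ℕ) (bs : List ℕ) :
    ThB N h bs = ∑ j ∈ range bs.length, aa (h + j + 1) * (((bs.getD j 0 : ℕ) : ℝ) - ts N) := by
  induction bs generalizing h with
  | nil => simp [ThB]
  | cons c bs ih =>
    simp only [ThB, List.length_cons]
    rw [sum_range_succ', ih]
    simp only [List.getD_cons_succ, List.getD_cons_zero, add_zero]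
    rw [add_comm]
    congr 1
    apply sum_congr rfl
    intro j _
    congr 2
    ring

lemma ThB_tail_eq (N : ℕ) (b : List ℕ) :
    ThB N 0 b.tail = ∑ s ∈ Icc 1 (b.length - 1), aa s * (cb b s - ts N) := by
  cases b with
  | nil => simp [ThB]
  | cons c bs =>
    simp only [List.tail_cons, List.length_cons, Nat.add_sub_cancel]
    rw [ThB_eq, sum_Icc_shift]
    apply sum_congr rfl
    intro j _
    simp only [cb, List.getD_cons_succ, zero_add]


/-! ### Consequences of the existence of rows -/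

lemma tau_mono_R (N : ℕ) (hts : 0 ≤ ts N) {y y' : ℝ} (h : y ≤ y') : tau N y ≤ tau N y' := by
  unfold tau
  apply Real.rpow_le_rpow
  · exact le_max_of_le_right hts
  · exact max_le_max (by linarith) le_rfl
  · norm_num

lemma tau_nonneg_R (N : ℕ) (hts : 0 ≤ ts N) (y : ℝ) : 0 ≤ tau N y := by
  unfold tau
  exact Real.rpow_nonneg (le_max_of_le_right hts) _

lemma tau_min (N : ℕ) (hts : 0 ≤ ts N) (y y' : ℝ) :
    tau N (min y y') = min (tau N y) (tau N y') := by
  rcases le_total y y' with h | h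
  · rw [min_eq_left h, min_eq_left (tau_mono_R N hts h)]
  · rw [min_eq_right h, min_eq_right (tau_mono_R N hts h)]

lemma tau_le (N : ℕ) (hts : 5 ≤ ts N) (y : ℝ) (hy : ts N - 1 ≤ y - ts N) :
    tau N y ≤ 5 / 4 * (ts N) ^ (-(7 : ℝ) / 20) * (y - ts N) := by
  have h0 : 0 < ts N := by linarith
  have hE : 0 < (ts N) ^ (-(7 : ℝ) / 20) := Real.rpow_pos_of_pos h0 _
  unfold tau
  rcases le_total (y - ts N) (ts N) with h | h
  · rw [max_eq_right h]
    have h1 : (ts N) ^ ((13 : ℝ) / 20) = ts N * (ts N) ^ (-(7 : ℝ) / 20) := by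
      have : ((13 : ℝ) / 20) = 1 + (-(7 : ℝ) / 20) := by norm_num
      rw [this, Real.rpow_add h0, Real.rpow_one]
    rw [h1]
    have h2 : ts N ≤ 5 / 4 * (y - ts N) := by linarith
    calc ts N * (ts N) ^ (-(7 : ℝ) / 20) ≤ (5 / 4 * (y - ts N)) * (ts N) ^ (-(7 : ℝ) / 20) :=
          mul_le_mul_of_nonneg_right h2 hE.le
      _ = _ := by ring
  · rw [max_eq_left h]
    have hz : 0 < y - ts N := by linarith
    have h1 : (y - ts N) ^ ((13 : ℝ) / 20) = (y - ts N) * (y - ts N) ^ (-(7 : ℝ) / 20) := by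
      have : ((13 : ℝ) / 20) = 1 + (-(7 : ℝ) / 20) := by norm_num
      rw [this, Real.rpow_add hz, Real.rpow_one]
    rw [h1]
    have h2 : (y - ts N) ^ (-(7 : ℝ) / 20) ≤ (ts N) ^ (-(7 : ℝ) / 20) :=
      Real.rpow_le_rpow_of_nonpos h0 h (by norm_num)
    calc (y - ts N) * (y - ts N) ^ (-(7 : ℝ) / 20) ≤ (y - ts N) * (ts N) ^ (-(7 : ℝ) / 20) :=
          mul_le_mul_of_nonneg_left h2 hz.le
      _ ≤ 5 / 4 * (ts N) ^ (-(7 : ℝ) / 20) * (y - ts N) := by nlinarith [mul_pos hz hE]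

lemma normal_lev_nonneg {N p : ℕ} (h : Normal N p) : 0 ≤ lev p := by
  have : 0 ≤ t0 N := by unfold t0; positivity
  linarith [h.2.1]

lemma RowsIn.len {N : ℕ} {b l : List ℕ} (h : RowsIn N b l) : l.length = b.length := by
  rw [← h.2.2, List.length_map]

lemma RowsIn.normal_get {N : ℕ} {b l : List ℕ} (h : RowsIn N b l) {i : ℕ} (hi : i < b.length) :
    Normal N (l.getD i 0) := by
  have hi' : i < l.length := by rw [h.len]; exact hi
  rw [List.getD_eq_getElem _ _ hi']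
  exact h.2.1 _ (List.getElem_mem hi')

lemma RowsIn.cell {N : ℕ} {b l : List ℕ} (h : RowsIn N b l) {i : ℕ} (hi : i < b.length) :
    cb b i = ((⌊lev (l.getD i 0)⌋₊ : ℕ) : ℝ) := by
  have hi' : i < l.length := by rw [h.len]; exact hi
  unfold cb
  rw [List.getD_eq_getElem _ _ hi', List.getD_eq_getElem _ _ hi]
  have : b[i] = (l.map (fun p => ⌊lev p⌋₊))[i]'(by simpa using hi') := by
    simp only [h.2.2]
  rw [this, List.getElem_map]

lemma RowsIn.cell_le {N : ℕ} {b l : List ℕ} (h : RowsIn N b l) {i : ℕ} (hi : i < b.length) :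
    cb b i ≤ lev (l.getD i 0) := by
  rw [h.cell hi]
  exact Nat.floor_le (normal_lev_nonneg (h.normal_get hi))

lemma RowsIn.lt_cell {N : ℕ} {b l : List ℕ} (h : RowsIn N b l) {i : ℕ} (hi : i < b.length) :
    lev (l.getD i 0) < cb b i + 1 := by
  rw [h.cell hi]
  exact Nat.lt_floor_add_one _

lemma RowsIn.anti {N : ℕ} {b l : List ℕ} (h : RowsIn N b l) {i j : ℕ} (hij : i ≤ j)
    (hj : j < b.length) : cb b j ≤ cb b i := by
  have hj' : j < l.length := by rw [h.len]; exact hj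
  have hi' : i < l.length := by omega
  have hi : i < b.length := by omega
  rw [h.cell hi, h.cell hj]
  have hle : l.getD j 0 ≤ l.getD i 0 := by
    rw [List.getD_eq_getElem _ _ hj', List.getD_eq_getElem _ _ hi']
    rcases hij.lt_or_eq with hlt | rfl
    · exact le_of_lt ((List.pairwise_iff_getElem.mp h.1) i j hi' hj' hlt)
    · exact le_rfl
  have hp2 : 2 ≤ l.getD j 0 := (h.normal_get hj).1.two_le
  exact_mod_cast Nat.floor_le_floor (lev_mono hp2 hle)

lemma RowsIn.two_le {N : ℕ} {b l : List ℕ} (h : RowsIn N b l) : ∀ p ∈ l, 2 ≤ p :=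
  fun p hp => (h.2.1 p hp).1.two_le

/-- `z_s ≥ ts - 1`. -/
lemma RowsIn.z_ge {N : ℕ} {b l : List ℕ} (h : RowsIn N b l) {i : ℕ} (hi : i < b.length) :
    ts N - 1 ≤ cb b i - ts N := by
  have h1 := h.lt_cell hi
  have h2 := (h.normal_get hi).2.1
  have h3 : t0 N = 2 * ts N := by unfold ts; ring
  linarith

/-- Row identity: the sum of the logarithm of the weight over the high primes of a row. -/
lemma sum_Hi_log (N : ℕ) (b : List ℕ) (p : ℕ)
    (hb : ∀ i j, 1 ≤ i → i ≤ j → j ≤ b.length - 1 → cb b j ≤ cb b i) :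
    ∑ r ∈ Hi N p, Real.log (gf N b r)
      = ∑ s ∈ Icc 1 (b.length - 1), cs s * (W N (p - 1) (cb b s + 1) : ℝ) := by
  rw [sum_congr rfl (fun r _ => log_gf N b r hb), sum_comm]
  apply sum_congr rfl
  intro s _
  rw [← sum_filter, sum_const, nsmul_eq_mul, mul_comm]
  congr 2
  unfold W
  congr 1
  ext r
  rw [mem_filter, mem_filter]
  simp only [Hi, ind, mem_filter]
  tauto

lemma W_mono (N k : ℕ) {y y' : ℝ} (h : y ≤ y') : W N k y ≤ W N k y' := by
  unfold W
  apply card_le_card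
  intro r hr
  have hr' := mem_filter.mp hr
  exact mem_filter.mpr ⟨hr'.1, hr'.2.1, hr'.2.2.trans h⟩

/-- The lower bound for the logarithm of the weight on the rare set. -/
theorem lower_log (N : ℕ) (hts : 5 ≤ ts N) (b l : List ℕ) (hR : RowsIn N b l) (v : ℕ) (hv : v ≠ 0)
    (hc : Clean N v) (hd : rowsProd l ∣ v) :
    ∑ s ∈ Icc 1 (b.length - 1), (aa s + 1) * (cb b s - ts N)
        - 5 * (ts N) ^ (-(7 : ℝ) / 20) * ThB N 0 b.tail
      ≤ ∑ r ∈ v.primeFactors, Real.log (gf N b r) := by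
  have hts0 : 0 ≤ ts N := by linarith
  set k := b.length - 1 with hk
  by_cases hb0 : b = []
  · subst hb0
    simp [ThB]
    exact sum_nonneg (fun r _ => log_gf_nonneg N [] r)
  have hblen : b.length = k + 1 := by
    have : 0 < b.length := List.length_pos_of_ne_nil hb0
    omega
  have hanti : ∀ i j, i ≤ j → j ≤ k → cb b j ≤ cb b i := fun i j hij hj =>
    hR.anti hij (by omega)
  have hanti1 : ∀ i j, 1 ≤ i → i ≤ j → j ≤ b.length - 1 → cb b j ≤ cb b i := fun i j _ hij hj =>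
    hR.anti hij (by omega)
  -- step 1
  have hprod0 : rowsProd l ≠ 0 := rowsProd_ne_zero l hR.two_le
  have h1 : ∑ r ∈ (rowsProd l).primeFactors.filter (fun r => ts N < lev r), Real.log (gf N b r)
      ≤ ∑ r ∈ v.primeFactors, Real.log (gf N b r) := by
    apply sum_le_sum_of_subset_of_nonneg
    · intro r hr
      exact Nat.primeFactors_mono hd hv (mem_filter.mp hr).1
    · intro r _ _
      exact log_gf_nonneg N b r
  have h2 := sum_rows_le N (fun r => Real.log (gf N b r)) (fun r => log_gf_nonneg N b r) l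
    hR.two_le (hc.of_dvd hd)
  rw [list_sum_getD (fun p => ∑ r ∈ Hi N p, Real.log (gf N b r)) l, hR.len, hblen] at h2
  rw [sum_congr rfl (fun i _ => sum_Hi_log N b (l.getD i 0) hanti1)] at h2
  -- step 3
  set z : ℕ → ℝ := fun s => cb b s - ts N with hz
  set T : ℕ → ℝ := fun s => tau N (cb b s) with hT
  have hW : ∀ i ∈ range (k + 1), ∀ s ∈ Icc 1 k,
      min (z s) (z i) - min (T s) (T i) ≤ (W N (l.getD i 0 - 1) (cb b s + 1) : ℝ) := by
    intro i hi s hs
    have hi' : i < b.length := by have := mem_range.mp hi; omega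
    have hs' : s < b.length := by have := (mem_Icc.mp hs).2; omega
    set y := min (cb b s) (cb b i) with hy
    have hyts : ts N ≤ y := by
      apply le_min
      · have := hR.z_ge hs'; linarith
      · have := hR.z_ge hi'; linarith
    have hyle : y ≤ lev (l.getD i 0) := (min_le_right _ _).trans (hR.cell_le hi')
    have hN := (hR.normal_get hi').2.2 y hyts hyle
    have hlow := (abs_le.mp hN).1
    have hmono : (W N (l.getD i 0 - 1) y : ℝ) ≤ (W N (l.getD i 0 - 1) (cb b s + 1) : ℝ) := by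
      exact_mod_cast W_mono N _ ((min_le_left _ _).trans (by linarith))
    have heq1 : min (z s) (z i) = y - ts N := by
      simp only [hz, hy]
      rcases le_total (cb b s) (cb b i) with h | h
      · rw [min_eq_left h, min_eq_left (by linarith)]
      · rw [min_eq_right h, min_eq_right (by linarith)]
    have heq2 : min (T s) (T i) = tau N y := by
      simp only [hT, hy]
      rw [tau_min N hts0]
    rw [heq1, heq2]
    linarith
  have h3 : ∑ i ∈ range (k + 1), ∑ s ∈ Icc 1 k, cs s * (min (z s) (z i) - min (T s) (T i))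
      ≤ ∑ i ∈ range (k + 1), ∑ s ∈ Icc 1 k, cs s * (W N (l.getD i 0 - 1) (cb b s + 1) : ℝ) := by
    apply sum_le_sum
    intro i hi
    apply sum_le_sum
    intro s hs
    exact mul_le_mul_of_nonneg_left (hW i hi s hs) (cs_nonneg s)
  -- step 4
  have hzanti : ∀ i j, i ≤ j → j ≤ k → z j ≤ z i := fun i j hij hj => by
    simp only [hz]
    linarith [hanti i j hij hj]
  have hTanti : ∀ i j, i ≤ j → j ≤ k → T j ≤ T i := fun i j hij hj =>
    tau_mono_R N hts0 (hanti i j hij hj)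
  have e1 := euler_identity k z hzanti
  have e2 := euler_identity k T hTanti
  have h4 : ∑ i ∈ range (k + 1), ∑ s ∈ Icc 1 k, cs s * (min (z s) (z i) - min (T s) (T i))
      = ∑ s ∈ Icc 1 k, (aa s + 1) * z s - ∑ s ∈ Icc 1 k, (aa s + 1) * T s := by
    rw [← e1, ← e2, ← sum_sub_distrib]
    apply sum_congr rfl
    intro i _
    rw [← sum_sub_distrib]
    apply sum_congr rfl
    intro s _
    ring
  -- step 5
  have h5 : ∑ s ∈ Icc 1 k, (aa s + 1) * T s ≤ 5 * (ts N) ^ (-(7 : ℝ) / 20) * ThB N 0 b.tail := by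
    rw [ThB_tail_eq, mul_sum]
    apply sum_le_sum
    intro s hs
    have hs1 := (mem_Icc.mp hs).1
    have hs' : s < b.length := by have := (mem_Icc.mp hs).2; omega
    have ha := aa_add_one_le_four hs1
    have ha0 : 0 ≤ aa s := by linarith
    have hTs : T s ≤ 5 / 4 * (ts N) ^ (-(7 : ℝ) / 20) * (cb b s - ts N) :=
      tau_le N hts _ (hR.z_ge hs')
    have hT0 : 0 ≤ T s := tau_nonneg_R N hts0 _
    have hE : 0 ≤ (ts N) ^ (-(7 : ℝ) / 20) := Real.rpow_nonneg hts0 _
    calc (aa s + 1) * T s ≤ (4 * aa s) * T s := mul_le_mul_of_nonneg_right ha hT0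
      _ ≤ (4 * aa s) * (5 / 4 * (ts N) ^ (-(7 : ℝ) / 20) * (cb b s - ts N)) :=
          mul_le_mul_of_nonneg_left hTs (by positivity)
      _ = _ := by ring
  have hfin : ∑ s ∈ Icc 1 k, (aa s + 1) * z s - 5 * (ts N) ^ (-(7 : ℝ) / 20) * ThB N 0 b.tail
      ≤ ∑ r ∈ v.primeFactors, Real.log (gf N b r) := by
    linarith
  exact hfin

/-- Exponential form. -/
theorem lower_exp (N : ℕ) (hts : 5 ≤ ts N) (b l : List ℕ) (hR : RowsIn N b l) (v : ℕ) (hv : v ≠ 0)
    (hc : Clean N v) (hd : rowsProd l ∣ v) :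
    Real.exp (∑ s ∈ Icc 1 (b.length - 1), (aa s + 1) * (cb b s - ts N)
        - 5 * (ts N) ^ (-(7 : ℝ) / 20) * ThB N 0 b.tail)
      ≤ ∏ r ∈ v.primeFactors, gf N b r := by
  have h := Real.exp_le_exp.mpr (lower_log N hts b l hR v hv hc hd)
  rw [Real.exp_sum] at h
  refine h.trans (le_of_eq ?_)
  apply prod_congr rfl
  intro r _
  exact Real.exp_log (by linarith [gf_ge N b r])


/-! ### The mass of the weight -/

lemma ts_tendsto : Filter.Tendsto (fun N : ℕ => ts N) Filter.atTop Filter.atTop := by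
  have h1 : Filter.Tendsto (fun N : ℕ => (N : ℝ) ^ ((4 : ℝ) / 5)) Filter.atTop Filter.atTop :=
    (tendsto_rpow_atTop (by norm_num : (0 : ℝ) < 4 / 5)).comp tendsto_natCast_atTop_atTop
  have h2 : (fun N : ℕ => ts N) = fun N : ℕ => (N : ℝ) ^ ((4 : ℝ) / 5) * (1 / 2) := by
    funext N
    unfold ts t0
    ring
  rw [h2]
  exact h1.atTop_mul_const (by norm_num)

lemma prime_lt_exp_exp {r : ℕ} (hr : r.Prime) {b : ℝ} (h : lev r < b) :
    (r : ℝ) < Real.exp (Real.exp b) := by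
  have h1 : (1 : ℝ) < r := by exact_mod_cast hr.one_lt
  have h2 : 0 < Real.log r := Real.log_pos h1
  have h3 : Real.log r < Real.exp b := (Real.log_lt_iff_lt_exp h2).mp h
  exact (Real.log_lt_iff_lt_exp (by linarith)).mp h3

lemma mem_primesLev_of {r : ℕ} (hr : r.Prime) {a b : ℝ} (h1 : a ≤ lev r) (h2 : lev r < b) :
    r ∈ primesLev a b := by
  unfold primesLev
  refine mem_filter.mpr ⟨mem_range.mpr ?_, hr, h1, h2⟩
  have h3 := prime_lt_exp_exp hr h2
  have h4 : (r : ℝ) < (⌈Real.exp (Real.exp b)⌉₊ : ℝ) := h3.trans_le (Nat.le_ceil _)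
  have h5 : r < ⌈Real.exp (Real.exp b)⌉₊ := by exact_mod_cast h4
  omega

lemma inv_sub_one_nonneg {p : ℕ} (hp : p.Prime) : 0 ≤ (1 : ℝ) / ((p : ℝ) - 1) := by
  have h1 : (1 : ℝ) < p := by exact_mod_cast hp.one_lt
  exact div_nonneg zero_le_one (by linarith)

/-- The mass of the weight. -/
theorem weight_mass : ∃ N₀ : ℕ, ∀ N ≥ N₀, 5 ≤ ts N ∧ ∀ (b l : List ℕ), RowsIn N b l →
    ∀ P : Finset ℕ, (∀ r ∈ P, r.Prime) →
      ∑ r ∈ P, (gf N b r - 1) / ((r : ℝ) - 1)
        ≤ ∑ s ∈ Icc 1 (b.length - 1), (cb b s - ts N + 3) := by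
  obtain ⟨C, a₀, hC, hm⟩ := mert_interval
  obtain ⟨N₀, hN₀⟩ := Filter.eventually_atTop.mp
    (Filter.tendsto_atTop.mp ts_tendsto (max 5 (max a₀ C)))
  refine ⟨N₀, fun N hN => ?_⟩
  have hN' := hN₀ N hN
  have h5 : 5 ≤ ts N := (le_max_left _ _).trans hN'
  have ha : a₀ ≤ ts N := ((le_max_left _ _).trans (le_max_right _ _)).trans hN'
  have hCt : C ≤ ts N := ((le_max_right _ _).trans (le_max_right _ _)).trans hN'
  refine ⟨h5, fun b l hR P hP => ?_⟩
  have hCexp : C * Real.exp (-ts N) ≤ 1 := by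
    have h1 : ts N + 1 ≤ Real.exp (ts N) := Real.add_one_le_exp _
    rw [Real.exp_neg, ← div_eq_mul_inv, div_le_one (Real.exp_pos _)]
    linarith
  have h1 : ∀ r ∈ P, (gf N b r - 1) / ((r : ℝ) - 1)
      = ∑ s ∈ Icc 1 (b.length - 1), if ind N b r s then (1 : ℝ) / ((r : ℝ) - 1) else 0 := by
    intro r _
    unfold gf
    rw [add_sub_cancel_left, sum_div]
    apply sum_congr rfl
    intro s _
    split_ifs <;> simp
  rw [sum_congr rfl h1, sum_comm]
  apply sum_le_sum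
  intro s hs
  have hs' : s < b.length := by
    have h2 := (mem_Icc.mp hs).2
    have h3 := (mem_Icc.mp hs).1
    omega
  have hz := hR.z_ge hs'
  have hab : ts N ≤ cb b s + 2 := by linarith
  have hbd := abs_le.mp (hm (ts N) (cb b s + 2) ha hab)
  have h2 : ∑ r ∈ P, (if ind N b r s then (1 : ℝ) / ((r : ℝ) - 1) else 0)
      ≤ massI (ts N) (cb b s + 2) := by
    rw [← sum_filter]
    unfold massI
    apply sum_le_sum_of_subset_of_nonneg
    · intro r hr
      have hr' := mem_filter.mp hr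
      have hrp := hP r hr'.1
      have hi : ind N b r s := hr'.2
      exact mem_primesLev_of hrp hi.1.le (by linarith [hi.2])
    · intro p hp _
      exact inv_sub_one_nonneg (mem_filter.mp hp).2.1
  linarith [hbd.2]

lemma sum_exponent (N : ℕ) (b : List ℕ) :
    ∑ s ∈ Icc 1 (b.length - 1), (cb b s - ts N + 3)
        - ∑ s ∈ Icc 1 (b.length - 1), (aa s + 1) * (cb b s - ts N)
      = 3 * ((b.length - 1 : ℕ) : ℝ) - ThB N 0 b.tail := by
  rw [ThB_tail_eq, ← sum_sub_distrib]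
  have h : ∀ s ∈ Icc 1 (b.length - 1),
      (cb b s - ts N + 3) - (aa s + 1) * (cb b s - ts N) = 3 - aa s * (cb b s - ts N) := by
    intro s _
    ring
  rw [sum_congr rfl h, sum_sub_distrib]
  simp
  ring

/-- (R1). -/
theorem rarity_count : ∃ N₀ : ℕ, ∀ N ≥ N₀, ∀ (b : List ℕ) (x : ℝ), b ≠ [] →
    ((b.headD 0 : ℕ) : ℝ) ≤ (N : ℝ) + 6 → 1 ≤ x →
    (((Finset.Icc 1 ⌊x⌋₊).filter (fun v => Clean N v ∧ ∃ l, RowsIn N b l ∧ rowsProd l ∣ v)).card : ℝ)
      ≤ x * Real.exp (-(1 - 5 * (ts N) ^ (-(7 : ℝ) / 20)) * ThB N 0 b.tail + 3 * (b.length : ℝ) + 1) := by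
  obtain ⟨N₀, hN₀⟩ := weight_mass
  refine ⟨N₀, fun N hN b x hb _ hx => ?_⟩
  obtain ⟨h5, hmass⟩ := hN₀ N hN
  have hx0 : 0 < x := by linarith
  by_cases hex : ∃ l, RowsIn N b l
  swap
  · have : (Finset.Icc 1 ⌊x⌋₊).filter (fun v => Clean N v ∧ ∃ l, RowsIn N b l ∧ rowsProd l ∣ v) = ∅ := by
      apply filter_eq_empty_iff.mpr
      rintro v _ ⟨_, l, hl, _⟩
      exact hex ⟨l, hl⟩
    rw [this]
    simp only [card_empty, Nat.cast_zero]
    positivity
  obtain ⟨l₀, hl₀⟩ := hex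
  set A := (Finset.Icc 1 ⌊x⌋₊).filter (fun v => Clean N v ∧ ∃ l, RowsIn N b l ∧ rowsProd l ∣ v) with hA
  set EG := ∑ s ∈ Icc 1 (b.length - 1), (aa s + 1) * (cb b s - ts N)
        - 5 * (ts N) ^ (-(7 : ℝ) / 20) * ThB N 0 b.tail with hEG
  have h1 : (A.card : ℝ) * Real.exp EG ≤ ∑ v ∈ A, ∏ r ∈ v.primeFactors, gf N b r := by
    rw [← nsmul_eq_mul, ← sum_const]
    apply sum_le_sum
    intro v hv
    have hv' := mem_filter.mp hv
    obtain ⟨hc, l, hl, hd⟩ := hv'.2
    have hv0 : v ≠ 0 := by have := (mem_Icc.mp hv'.1).1; omega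
    exact lower_exp N h5 b l hl v hv0 hc hd
  have hgpos : ∀ r, 0 < gf N b r := fun r => by linarith [gf_ge N b r]
  have h2 : ∑ v ∈ A, ∏ r ∈ v.primeFactors, gf N b r
      ≤ ∑ v ∈ Finset.Icc 1 ⌊x⌋₊, ∏ r ∈ v.primeFactors, gf N b r := by
    apply sum_le_sum_of_subset_of_nonneg (filter_subset _ _)
    intro v _ _
    exact prod_nonneg (fun r _ => (hgpos r).le)
  have h3 := euler_count (gf N b) (gf_ge N b) x hx
  have h4 : ∑ r ∈ (Finset.range (⌊x⌋₊ + 1)).filter Nat.Prime, (gf N b r - 1) / r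
      ≤ ∑ s ∈ Icc 1 (b.length - 1), (cb b s - ts N + 3) := by
    refine le_trans ?_ (hmass b l₀ hl₀ ((Finset.range (⌊x⌋₊ + 1)).filter Nat.Prime)
      (fun r hr => (mem_filter.mp hr).2))
    apply sum_le_sum
    intro r hr
    have hrp := (mem_filter.mp hr).2
    have hr1 : (1 : ℝ) < r := by exact_mod_cast hrp.one_lt
    apply div_le_div_of_nonneg_left (by linarith [gf_ge N b r]) (by linarith) (by linarith)
  have h6 : (A.card : ℝ) * Real.exp EG
      ≤ x * Real.exp (∑ s ∈ Icc 1 (b.length - 1), (cb b s - ts N + 3)) :=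
    (h1.trans h2).trans (h3.trans (mul_le_mul_of_nonneg_left (Real.exp_le_exp.mpr h4) hx0.le))
  have hexpEG := Real.exp_pos EG
  have h7 : (A.card : ℝ) ≤ x * Real.exp (∑ s ∈ Icc 1 (b.length - 1), (cb b s - ts N + 3) - EG) := by
    rw [Real.exp_sub, ← mul_div_assoc, le_div_iff₀ hexpEG]
    exact h6
  refine h7.trans (mul_le_mul_of_nonneg_left (Real.exp_le_exp.mpr ?_) hx0.le)
  have h8 := sum_exponent N b
  have h9 : ((b.length - 1 : ℕ) : ℝ) ≤ (b.length : ℝ) := by
    exact_mod_cast Nat.sub_le _ _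
  rw [hEG]
  linarith

/-- (R2). -/
theorem rarity_mass : ∃ (C : ℝ) (N₀ : ℕ), 0 < C ∧ ∀ N ≥ N₀, ∀ (b : List ℕ) (F : Finset ℕ), b ≠ [] →
    ((b.headD 0 : ℕ) : ℝ) ≤ (N : ℝ) + 6 →
    (∀ m ∈ F, m ≠ 0 ∧ Clean N m ∧ (∃ l, RowsIn N b l ∧ rowsProd l ∣ m) ∧
      ∀ r : ℕ, r.Prime → r ∣ m → lev r ≤ (b.headD 0 : ℕ) + 1) →
    ∑ m ∈ F, (1 : ℝ) / m
      ≤ Real.exp ((b.headD 0 : ℕ) + C - (1 - 5 * (ts N) ^ (-(7 : ℝ) / 20)) * ThB N 0 b.tail
          + 3 * (b.length : ℝ)) := by
  obtain ⟨N₀, hN₀⟩ := weight_mass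
  obtain ⟨Cm, hCm, hmert⟩ := mert_low
  refine ⟨Cm + 2, N₀, by linarith, fun N hN b F hb _ hF => ?_⟩
  obtain ⟨h5, hmass⟩ := hN₀ N hN
  rcases F.eq_empty_or_nonempty with rfl | ⟨m₀, hm₀⟩
  · simp only [sum_empty]
    exact (Real.exp_pos _).le
  obtain ⟨l₀, hl₀, _⟩ := (hF m₀ hm₀).2.2.1
  set bb : ℝ := ((b.headD 0 : ℕ) : ℝ) + 2 with hbb
  have hbb0 : 0 ≤ bb := by rw [hbb]; positivity
  set S := (Finset.range (⌈Real.exp (Real.exp bb)⌉₊ + 1)).filter (fun p => p.Prime ∧ lev p < bb) with hS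
  set EG := ∑ s ∈ Icc 1 (b.length - 1), (aa s + 1) * (cb b s - ts N)
        - 5 * (ts N) ^ (-(7 : ℝ) / 20) * ThB N 0 b.tail with hEG
  have hgpos : ∀ r, 0 < gf N b r := fun r => by linarith [gf_ge N b r]
  have h1 : (∑ m ∈ F, (1 : ℝ) / m) * Real.exp EG ≤ ∑ m ∈ F, (∏ r ∈ m.primeFactors, gf N b r) / m := by
    rw [sum_mul]
    apply sum_le_sum
    intro m hm
    obtain ⟨hm0, hc, ⟨l, hl, hd⟩, _⟩ := hF m hm
    have hm1 : (0 : ℝ) < m := by exact_mod_cast Nat.pos_of_ne_zero hm0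
    have := lower_exp N h5 b l hl m hm0 hc hd
    rw [one_div, inv_mul_eq_div]
    exact div_le_div_of_nonneg_right this hm1.le
  have h2 := RarityEuler.R0' (gf N b) (gf_ge N b) S F (by
    intro m hm
    obtain ⟨hm0, _, _, hlev⟩ := hF m hm
    refine ⟨hm0, fun r hr => ?_⟩
    have hrp := Nat.prime_of_mem_primeFactors hr
    have hrd := Nat.dvd_of_mem_primeFactors hr
    have hle := hlev r hrp hrd
    have hlt : lev r < bb := by rw [hbb]; linarith
    refine mem_filter.mpr ⟨mem_range.mpr ?_, hrp, hlt⟩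
    have h3 := prime_lt_exp_exp hrp hlt
    have h4 : (r : ℝ) < (⌈Real.exp (Real.exp bb)⌉₊ : ℝ) := h3.trans_le (Nat.le_ceil _)
    have h5 : r < ⌈Real.exp (Real.exp bb)⌉₊ := by exact_mod_cast h4
    omega)
  have hSf : S.filter Nat.Prime = S := by
    apply filter_true_of_mem
    intro r hr
    exact (mem_filter.mp hr).2.1
  rw [hSf] at h2
  have hSp : ∀ r ∈ S, r.Prime := fun r hr => (mem_filter.mp hr).2.1
  have h3 : ∑ p ∈ S, gf N b p / ((p : ℝ) - 1)
      = ∑ p ∈ S, (1 : ℝ) / ((p : ℝ) - 1) + ∑ p ∈ S, (gf N b p - 1) / ((p : ℝ) - 1) := by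
    rw [← sum_add_distrib]
    apply sum_congr rfl
    intro p _
    ring
  have h4 := hmert bb hbb0
  have h5' := hmass b l₀ hl₀ S hSp
  have h6 : ∑ p ∈ S, gf N b p / ((p : ℝ) - 1)
      ≤ bb + Cm + ∑ s ∈ Icc 1 (b.length - 1), (cb b s - ts N + 3) := by
    rw [h3]
    linarith
  have hexpEG := Real.exp_pos EG
  have h7 : ∑ m ∈ F, (1 : ℝ) / m
      ≤ Real.exp (bb + Cm + ∑ s ∈ Icc 1 (b.length - 1), (cb b s - ts N + 3) - EG) := by
    rw [Real.exp_sub, le_div_iff₀ hexpEG]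
    exact h1.trans (h2.trans (Real.exp_le_exp.mpr h6))
  refine h7.trans (Real.exp_le_exp.mpr ?_)
  have h8 := sum_exponent N b
  have h9 : ((b.length - 1 : ℕ) : ℝ) ≤ (b.length : ℝ) := by
    exact_mod_cast Nat.sub_le _ _
  rw [hEG, hbb]
  linarith

/-- Cells: the number of cell vectors of length `k` with entries `≤ N + 6` is at most `(N+7)^k`.
The set of all of them, to sum over. -/
def cellSet (N k : ℕ) : Finset (List ℕ) :=
  ((Finset.univ : Finset (Fin k → Fin (N + 7))).image (fun f => List.ofFn (fun i => ((f i : ℕ)))))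

theorem cellSet_card (N k : ℕ) : ((cellSet N k).card : ℝ) ≤ ((N : ℝ) + 7) ^ k := by
  have h : (cellSet N k).card ≤ (N + 7) ^ k := by
    unfold cellSet
    refine card_image_le.trans ?_
    simp
  calc ((cellSet N k).card : ℝ) ≤ (((N + 7) ^ k : ℕ) : ℝ) := by exact_mod_cast h
    _ = ((N : ℝ) + 7) ^ k := by push_cast; ring

theorem mem_cellSet {N : ℕ} {b : List ℕ} (h : ∀ c ∈ b, c ≤ N + 6) : b ∈ cellSet N b.length := by
  unfold cellSet
  refine mem_image.mpr ⟨fun i => ⟨b[(i : ℕ)], ?_⟩, mem_univ _, ?_⟩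
  · have := h _ (List.getElem_mem i.isLt)
    omega
  · simp only
    exact List.ofFn_getElem

lemma aa_succ_nonneg (h : ℕ) : 0 ≤ aa (h + 1) := by
  have := aa_nonneg_of_pos (Nat.succ_pos h)
  linarith

/-- Cells of actual rows differ little from the actual functional. -/
theorem Th_vs_ThB (N : ℕ) (h : ℕ) (l : List ℕ) (hl : ∀ p ∈ l, 0 ≤ lev p) :
    ThB N h (l.map (fun p => ⌊lev p⌋₊)) ≤ Th N h l ∧
    Th N h l ≤ ThB N h (l.map (fun p => ⌊lev p⌋₊)) + (l.length : ℝ) * aa (h + l.length + 1) := by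
  induction l generalizing h with
  | nil => simp [ThB, Th]
  | cons p l ih =>
    have hp := hl p (by simp)
    obtain ⟨h1, h2⟩ := ih (h + 1) (fun q hq => hl q (by simp [hq]))
    have hf1 : ((⌊lev p⌋₊ : ℕ) : ℝ) ≤ lev p := Nat.floor_le hp
    have hf2 : lev p < ((⌊lev p⌋₊ : ℕ) : ℝ) + 1 := Nat.lt_floor_add_one _
    have ha := aa_succ_nonneg h
    simp only [List.map_cons, ThB, Th, List.length_cons]
    constructor
    · have := mul_le_mul_of_nonneg_left (by linarith : ((⌊lev p⌋₊ : ℕ) : ℝ) - ts N ≤ lev p - ts N) ha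
      linarith
    · have h3 := mul_le_mul_of_nonneg_left (by linarith : lev p - ts N ≤ ((⌊lev p⌋₊ : ℕ) : ℝ) - ts N + 1) ha
      have h4 : aa (h + 1) ≤ aa (h + (l.length + 1) + 1) := aa_mono (by omega)
      have h5 : h + 1 + l.length + 1 = h + (l.length + 1) + 1 := by omega
      rw [h5] at h2
      push_cast
      nlinarith

end
end Vale.Agent.Lib.P031V
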