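import Mathlib
import Vale.Agent.Lib.P031V.AaFacts
import Vale.Agent.Lib.P031V.RarityEuler
import Vale.Agent.Lib.P031V.MertensLev

/-!
Rarity core (section 2 of the P031 blueprint), in generic form: a level parameter `ts`,
a monotone function `tau`, a cell vector `b 0 ≥ b 1 ≥ ... ≥ b k ≥ ts`.
`HasRows` says that `v` is clean at high primes and divisible by `∏ (P i - 1)`, where
the primes `P i` satisfy `b i ≤ lev (P i)` and the lower normal bound.
-/

namespace Vale.Agent.Lib.P031V.RarityCore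

open Finset Real
open scoped Classical

noncomputable section

/-- The level `log log n`. -/
def lev (n : ℕ) : ℝ := Real.log (Real.log n)

/-- Number of `r ∈ A` with `ts < lev r ≤ y`. -/
def Wc (ts : ℝ) (A : Finset ℕ) (y : ℝ) : ℕ := (A.filter (fun r => ts < lev r ∧ lev r ≤ y)).card

/-- Top of the cell `b s`. -/
def xb (b : ℕ → ℕ) (s : ℕ) : ℝ := (b s : ℝ) + 1

/-- `n(t)` = number of `s ≤ k` with `t ≤ xb s`. -/
def nn (k : ℕ) (b : ℕ → ℕ) (t : ℝ) : ℕ := ((range (k + 1)).filter (fun s => t ≤ xb b s)).card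

/-- The weight `g`. -/
def gg (ts : ℝ) (k : ℕ) (b : ℕ → ℕ) (r : ℕ) : ℝ :=
  if ts < lev r ∧ lev r ≤ xb b 0 then (nn k b (lev r) : ℝ) else 1

lemma nn_pos {k : ℕ} {b : ℕ → ℕ} {t : ℝ} (ht : t ≤ xb b 0) : 1 ≤ nn k b t := by
  unfold nn
  apply Finset.card_pos.mpr
  exact ⟨0, by simp [ht]⟩

lemma gg_ge_one (ts : ℝ) (k : ℕ) (b : ℕ → ℕ) (r : ℕ) : 1 ≤ gg ts k b r := by
  unfold gg
  split_ifs with h
  · exact_mod_cast nn_pos h.2
  · exact le_rfl

lemma gg_pos (ts : ℝ) (k : ℕ) (b : ℕ → ℕ) (r : ℕ) : 0 < gg ts k b r :=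
  lt_of_lt_of_le one_pos (gg_ge_one ts k b r)

lemma xb_anti {k : ℕ} {b : ℕ → ℕ} (hb : ∀ i j, i ≤ j → j ≤ k → b j ≤ b i) {i j : ℕ}
    (hij : i ≤ j) (hj : j ≤ k) : xb b j ≤ xb b i := by
  unfold xb
  have : (b j : ℝ) ≤ b i := by exact_mod_cast hb i j hij hj
  linarith

/-- `log n(t) = ∑_{s ≥ 1, t ≤ xb s} c_s`. -/
lemma log_nn (k : ℕ) (b : ℕ → ℕ) (hb : ∀ i j, i ≤ j → j ≤ k → b j ≤ b i) (t : ℝ)
    (ht : t ≤ xb b 0) :
    Real.log (nn k b t) = ∑ s ∈ Icc 1 k, if t ≤ xb b s then cs s else 0 := by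
  induction k with
  | zero =>
    have : nn 0 b t = 1 := by
      unfold nn
      rw [show range (0 + 1) = {0} from rfl, Finset.filter_singleton, if_pos ht, card_singleton]
    simp [this]
  | succ n ih =>
    by_cases h : t ≤ xb b (n + 1)
    · have hall : ∀ s ∈ range (n + 1 + 1), t ≤ xb b s := by
        intro s hs
        have hs' : s ≤ n + 1 := by have := mem_range.mp hs; omega
        exact h.trans (xb_anti hb hs' le_rfl)
      have h1 : nn (n + 1) b t = n + 2 := by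
        unfold nn
        rw [Finset.filter_true_of_mem hall, card_range]
      have h2 : ∑ s ∈ Icc 1 (n + 1), (if t ≤ xb b s then cs s else 0)
          = ∑ s ∈ Icc 1 (n + 1), cs s := by
        apply sum_congr rfl
        intro s hs
        have hs' : s ≤ n + 1 := (mem_Icc.mp hs).2
        rw [if_pos (h.trans (xb_anti hb hs' le_rfl))]
      rw [h1, h2, sum_cs]
      push_cast
      ring_nf
    · have h1 : nn (n + 1) b t = nn n b t := by
        unfold nn
        rw [Finset.range_add_one (n := n + 1), Finset.filter_insert, if_neg h]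
      rw [h1, Finset.sum_Icc_succ_top (by omega), if_neg h, add_zero]
      exact ih (fun i j hij hj => hb i j hij (by omega))

/-- `n(t) = 1 + #{s ≥ 1: t ≤ xb s}`. -/
lemma nn_eq (k : ℕ) (b : ℕ → ℕ) (t : ℝ) (ht : t ≤ xb b 0) :
    (nn k b t : ℝ) = 1 + ∑ s ∈ Icc 1 k, if t ≤ xb b s then (1 : ℝ) else 0 := by
  induction k with
  | zero =>
    have : nn 0 b t = 1 := by
      unfold nn
      rw [show range (0 + 1) = {0} from rfl, Finset.filter_singleton, if_pos ht, card_singleton]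
    simp [this]
  | succ n ih =>
    rw [Finset.sum_Icc_succ_top (by omega), ← add_assoc, ← ih]
    unfold nn
    rw [Finset.range_add_one (n := n + 1), Finset.filter_insert]
    by_cases h : t ≤ xb b (n + 1)
    · rw [if_pos h, if_pos h, card_insert_of_notMem (by simp)]
      push_cast
      ring
    · rw [if_neg h, if_neg h]
      ring

/-- `g r - 1` as a sum over cells. -/
lemma gg_sub_one (ts : ℝ) (k : ℕ) (b : ℕ → ℕ) (hb : ∀ i j, i ≤ j → j ≤ k → b j ≤ b i) (r : ℕ) :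
    gg ts k b r - 1 = ∑ s ∈ Icc 1 k, if ts < lev r ∧ lev r ≤ xb b s then (1 : ℝ) else 0 := by
  unfold gg
  by_cases h : ts < lev r ∧ lev r ≤ xb b 0
  · rw [if_pos h, nn_eq k b _ h.2, add_sub_cancel_left]
    apply sum_congr rfl
    intro s _
    by_cases h2 : lev r ≤ xb b s
    · rw [if_pos h2, if_pos ⟨h.1, h2⟩]
    · rw [if_neg h2, if_neg (fun h3 => h2 h3.2)]
  · rw [if_neg h, sub_self]
    symm
    apply sum_eq_zero
    intro s hs
    rw [if_neg]
    intro h2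
    exact h ⟨h2.1, h2.2.trans (xb_anti hb (Nat.zero_le s) (mem_Icc.mp hs).2)⟩

lemma log_gg (ts : ℝ) (k : ℕ) (b : ℕ → ℕ) (hb : ∀ i j, i ≤ j → j ≤ k → b j ≤ b i) (r : ℕ) :
    Real.log (gg ts k b r) = ∑ s ∈ Icc 1 k, if ts < lev r ∧ lev r ≤ xb b s then cs s else 0 := by
  unfold gg
  by_cases h : ts < lev r ∧ lev r ≤ xb b 0
  · rw [if_pos h, log_nn k b hb _ h.2]
    apply sum_congr rfl
    intro s _
    by_cases h2 : lev r ≤ xb b s
    · rw [if_pos h2, if_pos ⟨h.1, h2⟩]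
    · rw [if_neg h2, if_neg (fun h3 => h2 h3.2)]
  · rw [if_neg h, Real.log_one]
    symm
    apply sum_eq_zero
    intro s hs
    rw [if_neg]
    intro h2
    exact h ⟨h2.1, h2.2.trans (xb_anti hb (Nat.zero_le s) (mem_Icc.mp hs).2)⟩

lemma log_gg_nonneg (ts : ℝ) (k : ℕ) (b : ℕ → ℕ) (r : ℕ) : 0 ≤ Real.log (gg ts k b r) :=
  Real.log_nonneg (gg_ge_one ts k b r)

/-- Sum of `log g` over a set in terms of `Wc`. -/
lemma sum_log_gg (ts : ℝ) (k : ℕ) (b : ℕ → ℕ) (hb : ∀ i j, i ≤ j → j ≤ k → b j ≤ b i)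
    (A : Finset ℕ) :
    ∑ r ∈ A, Real.log (gg ts k b r) = ∑ s ∈ Icc 1 k, cs s * (Wc ts A (xb b s) : ℝ) := by
  simp_rw [log_gg ts k b hb]
  rw [sum_comm]
  apply sum_congr rfl
  intro s _
  unfold Wc
  rw [← sum_filter, sum_const, nsmul_eq_mul, mul_comm]

lemma Wc_mono (ts : ℝ) (A : Finset ℕ) {y z : ℝ} (h : y ≤ z) : Wc ts A y ≤ Wc ts A z := by
  unfold Wc
  apply card_le_card
  intro r hr
  simp only [mem_filter] at hr ⊢
  exact ⟨hr.1, hr.2.1, hr.2.2.trans h⟩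

/-- The witnesses for membership in the rare set `R(b)`. -/
def HasRows (ts : ℝ) (k : ℕ) (b : ℕ → ℕ) (tau : ℝ → ℝ) (v : ℕ) : Prop :=
  v ≠ 0 ∧ (∀ r : ℕ, r.Prime → ts < lev r → ¬ r * r ∣ v) ∧
  ∃ P : ℕ → ℕ, (∀ i ≤ k, (P i).Prime) ∧ (∏ i ∈ range (k + 1), (P i - 1)) ∣ v ∧
    (∀ i ≤ k, (b i : ℝ) ≤ lev (P i)) ∧
    ∀ i ≤ k, ∀ y : ℝ, ts ≤ y → y ≤ lev (P i) →
      y - ts - tau y ≤ (Wc ts (P i - 1).primeFactors y : ℝ)

/-- The lower bound for `log ∏_{r ∣ v} g r`. -/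
def LB (ts : ℝ) (k : ℕ) (b : ℕ → ℕ) (tau : ℝ → ℝ) : ℝ :=
  ∑ s ∈ Icc 1 k, (aa s + 1) * ((b s : ℝ) - ts) - ∑ s ∈ Icc 1 k, (aa s + 1) * tau (b s)

/-- Main lower bound. -/
theorem log_prod_ge (ts : ℝ) (k : ℕ) (b : ℕ → ℕ) (tau : ℝ → ℝ)
    (hb : ∀ i j, i ≤ j → j ≤ k → b j ≤ b i) (htau : Monotone tau) (hts : ts ≤ b k)
    (v : ℕ) (hv : HasRows ts k b tau v) :
    LB ts k b tau ≤ Real.log (∏ r ∈ v.primeFactors, gg ts k b r) := by
  obtain ⟨hv0, hclean, P, hP, hdiv, hlev, hnorm⟩ := hv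
  rw [Real.log_prod (fun r _ => (gg_pos ts k b r).ne')]
  -- the rows
  set H : ℕ → Finset ℕ := fun i => (P i - 1).primeFactors.filter (fun r => ts < lev r) with hH
  have hPne : ∀ i ≤ k, P i - 1 ≠ 0 := by
    intro i hi
    have := (hP i hi).two_le
    omega
  have hsub : ∀ i ∈ range (k + 1), H i ⊆ v.primeFactors := by
    intro i hi
    have hi' : i ≤ k := by have := mem_range.mp hi; omega
    intro r hr
    have hr1 := (mem_filter.mp hr).1
    have hd : P i - 1 ∣ v := (Finset.dvd_prod_of_mem (fun i => P i - 1) hi).trans hdiv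
    exact Nat.primeFactors_mono hd hv0 hr1
  have hdisj : (↑(range (k + 1)) : Set ℕ).PairwiseDisjoint H := by
    intro i hi j hj hij
    refine Finset.disjoint_left.mpr ?_
    intro r hri hrj
    have hr1 := mem_filter.mp hri
    have hr2 := mem_filter.mp hrj
    have hrp := Nat.prime_of_mem_primeFactors hr1.1
    apply hclean r hrp hr1.2
    have hd1 := Nat.dvd_of_mem_primeFactors hr1.1
    have hd2 := Nat.dvd_of_mem_primeFactors hr2.1
    have hpair : (P i - 1) * (P j - 1) ∣ ∏ i ∈ range (k + 1), (P i - 1) := by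
      have hs : ({i, j} : Finset ℕ) ⊆ range (k + 1) := by
        intro a ha
        simp only [mem_insert, mem_singleton] at ha
        rcases ha with rfl | rfl
        · exact hi
        · exact hj
      have := Finset.prod_dvd_prod_of_subset _ _ (fun i => P i - 1) hs
      rwa [Finset.prod_pair hij] at this
    exact (mul_dvd_mul hd1 hd2).trans (hpair.trans hdiv)
  have hU : (range (k + 1)).biUnion H ⊆ v.primeFactors := by
    intro r hr
    obtain ⟨i, hi, hr⟩ := mem_biUnion.mp hr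
    exact hsub i hi hr
  have h1 : ∑ i ∈ range (k + 1), ∑ r ∈ H i, Real.log (gg ts k b r)
      ≤ ∑ r ∈ v.primeFactors, Real.log (gg ts k b r) := by
    rw [← Finset.sum_biUnion hdisj]
    exact sum_le_sum_of_subset_of_nonneg hU (fun r _ _ => log_gg_nonneg ts k b r)
  refine le_trans ?_ h1
  -- bound row by row
  have hWH : ∀ i y, Wc ts (H i) y = Wc ts (P i - 1).primeFactors y := by
    intro i y
    unfold Wc
    simp only [hH]
    rw [Finset.filter_filter]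
    congr 1
    ext r
    simp only [mem_filter]
    tauto
  set z : ℕ → ℝ := fun j => (b j : ℝ) - ts with hz
  set τ : ℕ → ℝ := fun j => tau (b j) with hτ
  have hzanti : ∀ i j, i ≤ j → j ≤ k → z j ≤ z i := by
    intro i j hij hj
    have : (b j : ℝ) ≤ b i := by exact_mod_cast hb i j hij hj
    simp only [hz]
    linarith
  have hτanti : ∀ i j, i ≤ j → j ≤ k → τ j ≤ τ i := by
    intro i j hij hj
    have : (b j : ℝ) ≤ b i := by exact_mod_cast hb i j hij hj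
    exact htau this
  have hE1 := euler_identity k z hzanti
  have hE2 := euler_identity k τ hτanti
  have hterm : ∀ i ∈ range (k + 1), ∀ s ∈ Icc 1 k,
      cs s * (min (z s) (z i) - min (τ s) (τ i)) ≤ cs s * (Wc ts (H i) (xb b s) : ℝ) := by
    intro i hi s hs
    have hi' : i ≤ k := by have := mem_range.mp hi; omega
    have hs' : s ≤ k := (mem_Icc.mp hs).2
    apply mul_le_mul_of_nonneg_left _ (cs_nonneg s)
    rw [hWH]
    set y : ℝ := min (b s : ℝ) (b i : ℝ) with hy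
    have hbk1 : (b k : ℝ) ≤ b s := by exact_mod_cast hb s k hs' le_rfl
    have hbk2 : (b k : ℝ) ≤ b i := by exact_mod_cast hb i k hi' le_rfl
    have hy1 : ts ≤ y := le_min (hts.trans hbk1) (hts.trans hbk2)
    have hy2 : y ≤ lev (P i) := (min_le_right _ _).trans (hlev i hi')
    have hn := hnorm i hi' y hy1 hy2
    have hW := Wc_mono ts (P i - 1).primeFactors (show y ≤ xb b s by
      unfold xb
      have := min_le_left (b s : ℝ) (b i : ℝ)
      rw [hy]
      linarith)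
    have hW' : (Wc ts (P i - 1).primeFactors y : ℝ) ≤ Wc ts (P i - 1).primeFactors (xb b s) := by
      exact_mod_cast hW
    have he : min (z s) (z i) - min (τ s) (τ i) = y - ts - tau y := by
      simp only [hz, hτ, hy]
      rcases le_total (b s : ℝ) (b i : ℝ) with h | h
      · rw [min_eq_left h, min_eq_left (by linarith), min_eq_left (htau h)]
      · rw [min_eq_right h, min_eq_right (by linarith), min_eq_right (htau h)]
    rw [he]
    linarith
  have hrow : ∑ i ∈ range (k + 1), ∑ s ∈ Icc 1 k, cs s * (min (z s) (z i) - min (τ s) (τ i))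
      ≤ ∑ i ∈ range (k + 1), ∑ r ∈ H i, Real.log (gg ts k b r) := by
    apply sum_le_sum
    intro i hi
    rw [sum_log_gg ts k b hb]
    exact sum_le_sum (hterm i hi)
  refine le_trans ?_ hrow
  have hsplit : ∑ i ∈ range (k + 1), ∑ s ∈ Icc 1 k, cs s * (min (z s) (z i) - min (τ s) (τ i))
      = ∑ i ∈ range (k + 1), ∑ s ∈ Icc 1 k, cs s * min (z s) (z i)
        - ∑ i ∈ range (k + 1), ∑ s ∈ Icc 1 k, cs s * min (τ s) (τ i) := by
    rw [← sum_sub_distrib]
    apply sum_congr rfl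
    intro i _
    rw [← sum_sub_distrib]
    apply sum_congr rfl
    intro s _
    ring
  rw [hsplit, hE1, hE2]
  exact le_rfl

/-- Bound for `∑ (g r - 1) / r` over any finite set of primes. -/
theorem sum_gg_sub_one_le : ∃ C : ℝ, 0 ≤ C ∧ ∀ (ts : ℝ) (k : ℕ) (b : ℕ → ℕ),
    1 ≤ ts → (∀ i j, i ≤ j → j ≤ k → b j ≤ b i) → ts ≤ b k → ∀ Q : Finset ℕ,
    (∀ r ∈ Q, r.Prime) →
    ∑ r ∈ Q, (gg ts k b r - 1) / ((r : ℝ) - 1)
      ≤ ∑ s ∈ Icc 1 k, ((b s : ℝ) + 2 - ts + C * Real.exp (-ts)) := by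
  obtain ⟨C, hC0, hC⟩ := mass_le_of_level
  refine ⟨C, hC0, ?_⟩
  intro ts k b hts hb htsk Q hQ
  have h1 : ∀ r ∈ Q, (gg ts k b r - 1) / ((r : ℝ) - 1)
      = ∑ s ∈ Icc 1 k, if ts < lev r ∧ lev r ≤ xb b s then (1 : ℝ) / ((r : ℝ) - 1) else 0 := by
    intro r _
    rw [gg_sub_one ts k b hb, Finset.sum_div]
    apply sum_congr rfl
    intro s _
    split_ifs <;> simp
  rw [sum_congr rfl h1, sum_comm]
  apply sum_le_sum
  intro s hs
  have hs' : s ≤ k := (mem_Icc.mp hs).2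
  rw [← sum_filter]
  have hbk : (b k : ℝ) ≤ b s := by exact_mod_cast hb s k hs' le_rfl
  have := hC ts ((b s : ℝ) + 2) hts (by linarith) (Q.filter (fun r => ts < lev r ∧ lev r ≤ xb b s))
    (by
      intro p hp
      obtain ⟨hp1, hp2, hp3⟩ := mem_filter.mp hp
      refine ⟨hQ p hp1, hp2.le, ?_⟩
      have : lev p ≤ (b s : ℝ) + 1 := hp3
      unfold lev at this
      linarith)
  linarith

/-- (R1), count form. -/
theorem R1 : ∃ C : ℝ, 0 ≤ C ∧ ∀ (ts : ℝ) (k : ℕ) (b : ℕ → ℕ) (tau : ℝ → ℝ),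
    1 ≤ ts → (∀ i j, i ≤ j → j ≤ k → b j ≤ b i) → Monotone tau → ts ≤ b k →
    ∀ (x : ℕ) (R : Finset ℕ), (∀ v ∈ R, 1 ≤ v ∧ v ≤ x ∧ HasRows ts k b tau v) →
    (R.card : ℝ) ≤ (x : ℝ) * Real.exp (- ∑ s ∈ Icc 1 k, aa s * ((b s : ℝ) - ts)
      + ∑ s ∈ Icc 1 k, (aa s + 1) * tau (b s) + (k : ℝ) * (2 + C * Real.exp (-ts))) := by
  obtain ⟨C, hC0, hC⟩ := sum_gg_sub_one_le
  refine ⟨C, hC0, ?_⟩
  intro ts k b tau hts hb htau htsk x R hR
  set L := LB ts k b tau with hL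
  have h1 : ∀ v ∈ R, (1 : ℝ) ≤ Real.exp (-L) * ∏ r ∈ v.primeFactors, gg ts k b r := by
    intro v hv
    obtain ⟨_, _, hrows⟩ := hR v hv
    have hlog := log_prod_ge ts k b tau hb htau htsk v hrows
    have hpos : 0 < ∏ r ∈ v.primeFactors, gg ts k b r :=
      prod_pos (fun r _ => gg_pos ts k b r)
    have : Real.exp L ≤ ∏ r ∈ v.primeFactors, gg ts k b r :=
      (Real.le_log_iff_exp_le hpos).mp hlog
    calc (1 : ℝ) = Real.exp (-L) * Real.exp L := by
          rw [← Real.exp_add]; simp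
      _ ≤ _ := mul_le_mul_of_nonneg_left this (Real.exp_pos _).le
  have hsub : R ⊆ Icc 1 x := by
    intro v hv
    obtain ⟨h1, h2, _⟩ := hR v hv
    exact mem_Icc.mpr ⟨h1, h2⟩
  have h2 : (R.card : ℝ) ≤ Real.exp (-L) * ∑ v ∈ Icc 1 x, ∏ r ∈ v.primeFactors, gg ts k b r := by
    calc (R.card : ℝ) = ∑ v ∈ R, (1 : ℝ) := by simp
      _ ≤ ∑ v ∈ R, Real.exp (-L) * ∏ r ∈ v.primeFactors, gg ts k b r := sum_le_sum h1
      _ = Real.exp (-L) * ∑ v ∈ R, ∏ r ∈ v.primeFactors, gg ts k b r := by rw [mul_sum]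
      _ ≤ _ := by
        apply mul_le_mul_of_nonneg_left _ (Real.exp_pos _).le
        exact sum_le_sum_of_subset_of_nonneg hsub
          (fun v _ _ => (prod_pos (fun r _ => gg_pos ts k b r)).le)
  have h3 := RarityEuler.R0 (gg ts k b) (gg_ge_one ts k b) x
  have h4 : ∑ r ∈ (Icc 1 x).filter Nat.Prime, (gg ts k b r - 1) / (r : ℝ)
      ≤ ∑ s ∈ Icc 1 k, ((b s : ℝ) + 2 - ts + C * Real.exp (-ts)) := by
    refine le_trans ?_ (hC ts k b hts hb htsk ((Icc 1 x).filter Nat.Prime)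
      (fun r hr => (mem_filter.mp hr).2))
    apply sum_le_sum
    intro r hr
    have hrp := (mem_filter.mp hr).2
    have hr1 : (1 : ℝ) < r := by exact_mod_cast hrp.one_lt
    apply div_le_div_of_nonneg_left (by linarith [gg_ge_one ts k b r]) (by linarith) (by linarith)
  have h5 : Real.exp (-L) * ((x : ℝ) * Real.exp (∑ r ∈ (Icc 1 x).filter Nat.Prime,
      (gg ts k b r - 1) / (r : ℝ)))
      ≤ (x : ℝ) * Real.exp (-L + ∑ s ∈ Icc 1 k, ((b s : ℝ) + 2 - ts + C * Real.exp (-ts))) := by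
    rw [Real.exp_add, mul_left_comm]
    apply mul_le_mul_of_nonneg_left _ (Nat.cast_nonneg x)
    apply mul_le_mul_of_nonneg_left _ (Real.exp_pos _).le
    exact Real.exp_le_exp.mpr h4
  have hid : -L + ∑ s ∈ Icc 1 k, ((b s : ℝ) + 2 - ts + C * Real.exp (-ts))
      = - ∑ s ∈ Icc 1 k, aa s * ((b s : ℝ) - ts)
      + ∑ s ∈ Icc 1 k, (aa s + 1) * tau (b s) + (k : ℝ) * (2 + C * Real.exp (-ts)) := by
    rw [hL]
    unfold LB
    have hA : ∑ s ∈ Icc 1 k, ((b s : ℝ) + 2 - ts + C * Real.exp (-ts))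
        = ∑ s ∈ Icc 1 k, ((b s : ℝ) - ts) + (k : ℝ) * (2 + C * Real.exp (-ts)) := by
      have : ∀ s ∈ Icc 1 k, ((b s : ℝ) + 2 - ts + C * Real.exp (-ts))
          = ((b s : ℝ) - ts) + (2 + C * Real.exp (-ts)) := by intros; ring
      rw [sum_congr rfl this, sum_add_distrib, sum_const, Nat.card_Icc, nsmul_eq_mul]
      simp
    have hB : ∑ s ∈ Icc 1 k, (aa s + 1) * ((b s : ℝ) - ts)
        = ∑ s ∈ Icc 1 k, aa s * ((b s : ℝ) - ts) + ∑ s ∈ Icc 1 k, ((b s : ℝ) - ts) := by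
      rw [← sum_add_distrib]
      apply sum_congr rfl
      intros
      ring
    rw [hA, hB]
    ring
  rw [← hid]
  exact (h2.trans (mul_le_mul_of_nonneg_left h3 (Real.exp_pos _).le)).trans h5

/-- (R2), mass form: `F` is a finite set of elements of `R(b)` whose primes have level at most
`xb b 0`. -/
theorem R2 : ∃ C : ℝ, 0 ≤ C ∧ ∀ (ts : ℝ) (k : ℕ) (b : ℕ → ℕ) (tau : ℝ → ℝ),
    1 ≤ ts → (∀ i j, i ≤ j → j ≤ k → b j ≤ b i) → Monotone tau → ts ≤ b k →
    ∀ F : Finset ℕ, (∀ m ∈ F, (∀ r ∈ m.primeFactors, lev r ≤ xb b 0) ∧ HasRows ts k b tau m) →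
    ∑ m ∈ F, (1 : ℝ) / (m : ℝ) ≤ Real.exp ((b 0 : ℝ) + C - ∑ s ∈ Icc 1 k, aa s * ((b s : ℝ) - ts)
      + ∑ s ∈ Icc 1 k, (aa s + 1) * tau (b s) + (k : ℝ) * (2 + C * Real.exp (-ts))) := by
  obtain ⟨C1, hC10, hC1⟩ := sum_gg_sub_one_le
  obtain ⟨C2, hC20, hC2⟩ := mass_le_of_level
  -- the primes of level below one
  set Q0 : Finset ℕ := (range ⌈Real.exp (Real.exp 1)⌉₊).filter Nat.Prime with hQ0
  set C3 : ℝ := ∑ p ∈ Q0, (1 : ℝ) / ((p : ℝ) - 1) with hC3
  have hC30 : 0 ≤ C3 := by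
    apply sum_nonneg
    intro p hp
    have hp' := (mem_filter.mp hp).2
    have hp1 : (1 : ℝ) < p := by exact_mod_cast hp'.one_lt
    exact div_nonneg zero_le_one (by linarith)
  refine ⟨C1 + C2 + C3 + 2, by positivity, ?_⟩
  intro ts k b tau hts hb htau htsk F hF
  set L := LB ts k b tau with hL
  -- the ambient set of primes
  set s0 : Finset ℕ := F.biUnion (fun m => m.primeFactors) with hs0
  have hs0p : ∀ r ∈ s0, r.Prime ∧ lev r ≤ xb b 0 := by
    intro r hr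
    obtain ⟨m, hm, hr⟩ := mem_biUnion.mp hr
    exact ⟨Nat.prime_of_mem_primeFactors hr, (hF m hm).1 r hr⟩
  have hE := RarityEuler.R0' (gg ts k b) (gg_ge_one ts k b) s0 F
    (fun m hm => ⟨(hF m hm).2.1, fun r hr => mem_biUnion.mpr ⟨m, hm, hr⟩⟩)
  have hbase : ∑ p ∈ s0.filter Nat.Prime, (1 : ℝ) / ((p : ℝ) - 1)
      ≤ (b 0 : ℝ) + C2 + C3 + 2 := by
    -- split at level one
    have hb0 : (0 : ℝ) ≤ b 0 := Nat.cast_nonneg _
    have hsplit := Finset.sum_filter_add_sum_filter_not (s0.filter Nat.Prime)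
      (fun p : ℕ => Real.log (Real.log (p : ℝ)) < 1) (fun p : ℕ => (1 : ℝ) / ((p : ℝ) - 1))
    rw [← hsplit]
    have hlow : ∑ p ∈ (s0.filter Nat.Prime).filter (fun p : ℕ => Real.log (Real.log (p : ℝ)) < 1),
        (1 : ℝ) / ((p : ℝ) - 1) ≤ C3 := by
      apply sum_le_sum_of_subset_of_nonneg
      · intro p hp
        obtain ⟨hp1, hp2⟩ := mem_filter.mp hp
        have hpp := (mem_filter.mp hp1).2
        refine mem_filter.mpr ⟨?_, hpp⟩
        have := lt_exp_exp_of_level hpp hp2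
        exact mem_range.mpr (by exact_mod_cast Nat.lt_ceil.mpr this)
      · intro p hp _
        have hp' := (mem_filter.mp hp).2
        have hp1 : (1 : ℝ) < p := by exact_mod_cast hp'.one_lt
        exact div_nonneg zero_le_one (by linarith)
    have hhigh := hC2 1 ((b 0 : ℝ) + 2) le_rfl (by linarith)
      ((s0.filter Nat.Prime).filter (fun p : ℕ => ¬ Real.log (Real.log (p : ℝ)) < 1))
      (by
        intro p hp
        obtain ⟨hp1, hp2⟩ := mem_filter.mp hp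
        have hp3 := mem_filter.mp hp1
        refine ⟨hp3.2, not_lt.mp hp2, ?_⟩
        have := (hs0p p hp3.1).2
        unfold lev xb at this
        linarith)
    have hex : Real.exp (-1) ≤ 1 := by
      rw [Real.exp_le_one_iff]; norm_num
    have hC2e : C2 * Real.exp (-1) ≤ C2 := by nlinarith
    linarith
  have hextra : ∑ p ∈ s0.filter Nat.Prime, (gg ts k b p - 1) / ((p : ℝ) - 1)
      ≤ ∑ s ∈ Icc 1 k, ((b s : ℝ) + 2 - ts + C1 * Real.exp (-ts)) :=
    hC1 ts k b hts hb htsk _ (fun r hr => (mem_filter.mp hr).2)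
  have hgsum : ∑ p ∈ s0.filter Nat.Prime, gg ts k b p / ((p : ℝ) - 1)
      ≤ (b 0 : ℝ) + C2 + C3 + 2 + ∑ s ∈ Icc 1 k, ((b s : ℝ) + 2 - ts + C1 * Real.exp (-ts)) := by
    have : ∀ p ∈ s0.filter Nat.Prime, gg ts k b p / ((p : ℝ) - 1)
        = (1 : ℝ) / ((p : ℝ) - 1) + (gg ts k b p - 1) / ((p : ℝ) - 1) := by
      intro p _
      ring
    rw [sum_congr rfl this, sum_add_distrib]
    linarith
  have h1 : ∀ m ∈ F, (1 : ℝ) / (m : ℝ)
      ≤ Real.exp (-L) * ((∏ r ∈ m.primeFactors, gg ts k b r) / (m : ℝ)) := by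
    intro m hm
    have hrows := (hF m hm).2
    have hlog := log_prod_ge ts k b tau hb htau htsk m hrows
    have hpos : 0 < ∏ r ∈ m.primeFactors, gg ts k b r :=
      prod_pos (fun r _ => gg_pos ts k b r)
    have hle : Real.exp L ≤ ∏ r ∈ m.primeFactors, gg ts k b r :=
      (Real.le_log_iff_exp_le hpos).mp hlog
    have hm0 : (0 : ℝ) ≤ m := Nat.cast_nonneg m
    have h1' : (1 : ℝ) ≤ Real.exp (-L) * ∏ r ∈ m.primeFactors, gg ts k b r := by
      calc (1 : ℝ) = Real.exp (-L) * Real.exp L := by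
            rw [← Real.exp_add]; simp
        _ ≤ _ := mul_le_mul_of_nonneg_left hle (Real.exp_pos _).le
    calc (1 : ℝ) / (m : ℝ) ≤ (Real.exp (-L) * ∏ r ∈ m.primeFactors, gg ts k b r) / (m : ℝ) :=
          div_le_div_of_nonneg_right h1' hm0
      _ = _ := by ring
  have h2 : ∑ m ∈ F, (1 : ℝ) / (m : ℝ)
      ≤ Real.exp (-L) * Real.exp (∑ p ∈ s0.filter Nat.Prime, gg ts k b p / ((p : ℝ) - 1)) := by
    refine (sum_le_sum h1).trans ?_
    rw [← mul_sum]
    exact mul_le_mul_of_nonneg_left hE (Real.exp_pos _).le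
  refine h2.trans ?_
  rw [← Real.exp_add]
  apply Real.exp_le_exp.mpr
  have hid : ∑ s ∈ Icc 1 k, ((b s : ℝ) + 2 - ts + C1 * Real.exp (-ts))
      = ∑ s ∈ Icc 1 k, ((b s : ℝ) - ts) + (k : ℝ) * (2 + C1 * Real.exp (-ts)) := by
    have : ∀ s ∈ Icc 1 k, ((b s : ℝ) + 2 - ts + C1 * Real.exp (-ts))
        = ((b s : ℝ) - ts) + (2 + C1 * Real.exp (-ts)) := by intros; ring
    rw [sum_congr rfl this, sum_add_distrib, sum_const, Nat.card_Icc, nsmul_eq_mul]
    simp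
  have hB : ∑ s ∈ Icc 1 k, (aa s + 1) * ((b s : ℝ) - ts)
      = ∑ s ∈ Icc 1 k, aa s * ((b s : ℝ) - ts) + ∑ s ∈ Icc 1 k, ((b s : ℝ) - ts) := by
    rw [← sum_add_distrib]
    apply sum_congr rfl
    intros
    ring
  have hk : (k : ℝ) * (C1 * Real.exp (-ts)) ≤ (k : ℝ) * ((C1 + C2 + C3 + 2) * Real.exp (-ts)) := by
    apply mul_le_mul_of_nonneg_left _ (Nat.cast_nonneg k)
    apply mul_le_mul_of_nonneg_right _ (Real.exp_pos _).le
    linarith
  have hL' : L = ∑ s ∈ Icc 1 k, aa s * ((b s : ℝ) - ts) + ∑ s ∈ Icc 1 k, ((b s : ℝ) - ts)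
      - ∑ s ∈ Icc 1 k, (aa s + 1) * tau (b s) := by
    rw [hL]; unfold LB; rw [hB]
  rw [hL']
  rw [hid] at hgsum
  nlinarith

end

end Vale.Agent.Lib.P031V.RarityCore
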