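import Mathlib

/-!
Riesz refinement for two factorisations of the same integer, and the sum bound for pairs
of factorisations with equal product (low parts, section 6 of the P031 blueprint).
Generic statements: no primes or levels here.
-/

namespace Vale.Agent.Lib.P031V.Riesz

open Finset

/-- A divisor of a finite product splits along the factors. -/
theorem exists_split_of_dvd_prod {κ : Type*} [DecidableEq κ] (t : Finset κ) (b : κ → ℕ) (x : ℕ)
    (hx : x ∣ ∏ j ∈ t, b j) :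
    ∃ d : κ → ℕ, (∀ j ∈ t, d j ∣ b j) ∧ ∏ j ∈ t, d j = x := by
  induction t using Finset.induction_on generalizing x with
  | empty =>
    refine ⟨fun _ => 1, by simp, ?_⟩
    simp only [prod_empty, Nat.dvd_one] at hx ⊢
    exact hx.symm
  | insert j₀ t hj ih =>
    rw [prod_insert hj] at hx
    obtain ⟨x₁, x₂, h₁, h₂, hxx⟩ := exists_dvd_and_dvd_of_dvd_mul hx
    obtain ⟨d, hd, hdp⟩ := ih x₂ h₂
    refine ⟨Function.update d j₀ x₁, ?_, ?_⟩
    · intro j hjm
      rcases mem_insert.mp hjm with rfl | hjt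
      · simpa using h₁
      · have : j ≠ j₀ := fun h => hj (h ▸ hjt)
        simpa [Function.update_of_ne this] using hd j hjt
    · rw [prod_insert hj, Function.update_self, hxx, ← hdp]
      congr 1
      apply prod_congr rfl
      intro j hjt
      have : j ≠ j₀ := fun h => hj (h ▸ hjt)
      simp [Function.update_of_ne this]

/-- Riesz refinement on finite index sets. -/
theorem riesz_finset {ι κ : Type*} [DecidableEq ι] [DecidableEq κ] (s : Finset ι) (t : Finset κ)
    (a : ι → ℕ) (b : κ → ℕ) (hb : ∀ j ∈ t, 0 < b j)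
    (h : ∏ i ∈ s, a i = ∏ j ∈ t, b j) :
    ∃ c : ι → κ → ℕ, (∀ i ∈ s, ∏ j ∈ t, c i j = a i) ∧ (∀ j ∈ t, ∏ i ∈ s, c i j = b j) := by
  induction s using Finset.induction_on generalizing b with
  | empty =>
    refine ⟨fun _ _ => 1, by simp, ?_⟩
    intro j hj
    simp only [prod_empty] at h ⊢
    have h1 : b j ∣ ∏ j ∈ t, b j := dvd_prod_of_mem b hj
    rw [← h] at h1
    exact (Nat.dvd_one.mp h1).symm
  | insert i₀ s hi ih =>
    rw [prod_insert hi] at h
    have hdvd : a i₀ ∣ ∏ j ∈ t, b j := ⟨_, h.symm⟩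
    obtain ⟨d, hd, hdp⟩ := exists_split_of_dvd_prod t b (a i₀) hdvd
    -- the quotient of `b` by `d`
    have hdpos : ∀ j ∈ t, 0 < d j := fun j hj => Nat.pos_of_dvd_of_pos (hd j hj) (hb j hj)
    have hq : ∀ j ∈ t, d j * (b j / d j) = b j := fun j hj => Nat.mul_div_cancel' (hd j hj)
    have hqpos : ∀ j ∈ t, 0 < b j / d j := fun j hj =>
      Nat.div_pos (Nat.le_of_dvd (hb j hj) (hd j hj)) (hdpos j hj)
    have hprod : ∏ j ∈ t, b j = a i₀ * ∏ j ∈ t, (b j / d j) := by
      rw [← hdp, ← prod_mul_distrib]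
      exact prod_congr rfl (fun j hj => (hq j hj).symm)
    have hapos : 0 < a i₀ := by
      rw [← hdp]; exact prod_pos hdpos
    have hs : ∏ i ∈ s, a i = ∏ j ∈ t, (b j / d j) := by
      have := h.trans hprod
      exact Nat.eq_of_mul_eq_mul_left hapos this
    obtain ⟨c, hc1, hc2⟩ := ih (fun j => b j / d j) hqpos hs
    refine ⟨Function.update c i₀ d, ?_, ?_⟩
    · intro i him
      rcases mem_insert.mp him with rfl | his
      · simp only [Function.update_self]; exact hdp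
      · have hne : i ≠ i₀ := fun e => hi (e ▸ his)
        simp only [Function.update_of_ne hne]; exact hc1 i his
    · intro j hj
      rw [prod_insert hi, Function.update_self]
      have : ∏ i ∈ s, Function.update c i₀ d i j = ∏ i ∈ s, c i j := by
        apply prod_congr rfl
        intro i his
        have hne : i ≠ i₀ := fun e => hi (e ▸ his)
        simp only [Function.update_of_ne hne]
      rw [this, hc2 j hj]
      exact hq j hj

/-- Riesz refinement over finite types: two factorisations of the same integer come from a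
matrix. -/
theorem riesz_matrix {ι κ : Type*} [Fintype ι] [Fintype κ] [DecidableEq ι] [DecidableEq κ]
    (a : ι → ℕ) (b : κ → ℕ) (hb : ∀ j, 0 < b j) (h : ∏ i, a i = ∏ j, b j) :
    ∃ c : ι → κ → ℕ, (∀ i, ∏ j, c i j = a i) ∧ (∀ j, ∏ i, c i j = b j) := by
  obtain ⟨c, h1, h2⟩ := riesz_finset univ univ a b (fun j _ => hb j) h
  exact ⟨c, fun i => h1 i (mem_univ i), fun j => h2 j (mem_univ j)⟩

/-- Sum over pairs of factorisations with equal product. `Sm` is a divisor closed set (for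
example the smooth numbers), `B` bounds every finite sum of `1/c` over `c` in `Sm`. Then the
sum of `1/(common product)` over any finite set of pairs is at most `B ^ (|ι| |κ|)`. -/
theorem sum_pairs_le {ι κ : Type*} [Fintype ι] [Fintype κ] [DecidableEq ι] [DecidableEq κ]
    (Sm : ℕ → Prop) (hdvd : ∀ x y, Sm y → 0 < y → x ∣ y → Sm x)
    (B : ℝ) (hB : ∀ T : Finset ℕ, (∀ c ∈ T, Sm c ∧ 0 < c) → ∑ c ∈ T, (1 / (c : ℝ)) ≤ B)
    (F : Finset ((ι → ℕ) × (κ → ℕ)))
    (hF : ∀ p ∈ F, (∀ i, 0 < p.1 i ∧ Sm (p.1 i)) ∧ (∀ j, 0 < p.2 j) ∧ ∏ i, p.1 i = ∏ j, p.2 j) :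
    ∑ p ∈ F, (1 / ((∏ i, p.1 i : ℕ) : ℝ)) ≤ B ^ (Fintype.card ι * Fintype.card κ) := by
  classical
  have hB0 : 0 ≤ B := by simpa using hB ∅ (by simp)
  -- choose a matrix for every pair
  have hex : ∀ p : (ι → ℕ) × (κ → ℕ), ∃ c : ι × κ → ℕ,
      p ∈ F → (∀ i, ∏ j, c (i, j) = p.1 i) ∧ (∀ j, ∏ i, c (i, j) = p.2 j) := by
    intro p
    by_cases hp : p ∈ F
    · obtain ⟨h1, h2, h3⟩ := hF p hp
      obtain ⟨c, hc1, hc2⟩ := riesz_matrix p.1 p.2 h2 h3
      exact ⟨fun x => c x.1 x.2, fun _ => ⟨hc1, hc2⟩⟩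
    · exact ⟨fun _ => 1, fun h => absurd h hp⟩
  choose M hM using hex
  -- all entries
  set T : Finset ℕ := F.biUnion (fun p => univ.image (M p)) with hT
  have hTmem : ∀ p ∈ F, ∀ x, M p x ∈ T := by
    intro p hp x
    exact mem_biUnion.mpr ⟨p, hp, mem_image_of_mem _ (mem_univ x)⟩
  have hentry : ∀ p ∈ F, ∀ x, M p x ∣ p.1 x.1 := by
    intro p hp x
    have := (hM p hp).1 x.1
    rw [← this]
    exact dvd_prod_of_mem (fun j => M p (x.1, j)) (mem_univ x.2)
  have hTgood : ∀ c ∈ T, Sm c ∧ 0 < c := by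
    intro c hc
    obtain ⟨p, hp, hc'⟩ := mem_biUnion.mp hc
    obtain ⟨x, -, rfl⟩ := mem_image.mp hc'
    obtain ⟨h1, -, -⟩ := hF p hp
    exact ⟨hdvd _ _ (h1 x.1).2 (h1 x.1).1 (hentry p hp x),
      Nat.pos_of_dvd_of_pos (hentry p hp x) (h1 x.1).1⟩
  -- the sum of 1/c over T
  have hsumT : ∑ c ∈ T, (1 / (c : ℝ)) ≤ B := hB T hTgood
  have hsumT0 : 0 ≤ ∑ c ∈ T, (1 / (c : ℝ)) := sum_nonneg (fun _ _ => by positivity)
  -- injectivity of the matrix map
  have hinj : Set.InjOn M (F : Set ((ι → ℕ) × (κ → ℕ))) := by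
    intro p hp q hq hpq
    have hp' := hM p hp
    have hq' := hM q hq
    apply Prod.ext
    · funext i
      rw [← hp'.1 i, ← hq'.1 i, hpq]
    · funext j
      rw [← hp'.2 j, ← hq'.2 j, hpq]
  -- rewrite the summand
  have hterm : ∀ p ∈ F, (1 / ((∏ i, p.1 i : ℕ) : ℝ)) = ∏ x : ι × κ, (1 / ((M p x : ℕ) : ℝ)) := by
    intro p hp
    have h1 : ∏ i, p.1 i = ∏ x : ι × κ, M p x := by
      rw [Fintype.prod_prod_type]
      exact prod_congr rfl (fun i _ => ((hM p hp).1 i).symm)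
    rw [h1, Nat.cast_prod]
    simp only [one_div, prod_inv_distrib]
  have hmain : ∑ p ∈ F, (1 / ((∏ i, p.1 i : ℕ) : ℝ))
      ≤ ∑ M' ∈ Fintype.piFinset (fun _ : ι × κ => T), ∏ x : ι × κ, (1 / ((M' x : ℕ) : ℝ)) := by
    rw [sum_congr rfl hterm]
    have : ∑ p ∈ F, ∏ x : ι × κ, (1 / ((M p x : ℕ) : ℝ))
        = ∑ M' ∈ F.image M, ∏ x : ι × κ, (1 / ((M' x : ℕ) : ℝ)) := by
      rw [sum_image hinj]
    rw [this]
    apply sum_le_sum_of_subset_of_nonneg
    · intro M' hM'
      obtain ⟨p, hp, rfl⟩ := mem_image.mp hM'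
      exact Fintype.mem_piFinset.mpr (fun x => hTmem p hp x)
    · intro _ _ _
      exact prod_nonneg (fun _ _ => by positivity)
  have hprod : ∑ M' ∈ Fintype.piFinset (fun _ : ι × κ => T), ∏ x : ι × κ, (1 / ((M' x : ℕ) : ℝ))
      = (∑ c ∈ T, (1 / (c : ℝ))) ^ (Fintype.card ι * Fintype.card κ) := by
    have := (prod_univ_sum (fun _ : ι × κ => T) (fun _ c => (1 / (c : ℝ)))).symm
    rw [this, prod_const, card_univ, Fintype.card_prod]
  rw [hprod] at hmain
  exact hmain.trans (pow_le_pow_left₀ hsumT0 hsumT _)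

end Vale.Agent.Lib.P031V.Riesz
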