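import Vale.Agent.Lib.P031V.PairE
import Vale.Agent.Lib.P031V.NormalP

/-! # P031: the box bound (iii) of Theorem B, blueprint section 8, in a form generic in the constant `c`.
The final `box_bound` of `ThmB.lean` is the instance `c = cB`. -/

namespace Vale.Agent.Lib.P031V
namespace Box
open Real Finset
open scoped Classical
noncomputable section

/-- The witness vector, with a generic constant `c`. -/
structure BoxW (N : ℕ) (c : ℝ) (lh : List ℕ) (zt : ℕ → ℝ) : Prop where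
  sorted : ∀ i, i + 1 < JJ → zt (i + 1) ≤ zt i
  above : ∀ q ∈ lh.head?, lev q - ts N ≤ zt (JJ - 1)
  base : ts N ≤ zt (JJ - 1)
  top : zt 0 ≤ 0.9 * (N : ℝ)
  phi : ∑ l ∈ Finset.range JJ, aa (l + 1) * zt l + Th N JJ lh ≤ (N : ℝ) - c * N
  slack : ∀ i, i < JJ → c * N ≤
    zt i + ts N - ∑ l ∈ Finset.range (JJ - 1 - i), aa (l + 1) * zt (i + 1 + l) - Th N (JJ - 1 - i) lh

/-- Left end of the `i`-th box. -/
def Aof (N : ℕ) (δ : ℝ) (zt : ℕ → ℝ) (i : ℕ) : ℝ := zt i + ts N + 2 * δ * ((JJ - i : ℕ) : ℝ)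

/-- The entries of the list lie in the consecutive boxes, starting with box `i`. -/
def InB (N : ℕ) (δ : ℝ) (zt : ℕ → ℝ) : ℕ → List ℕ → Prop
  | _, [] => True
  | i, q :: r => Aof N δ zt i ≤ lev q ∧ lev q < Aof N δ zt i + δ ∧ InB N δ zt (i + 1) r

/-- The good primes of an interval, relative to `u`. -/
def goodP (N : ℕ) (a b : ℝ) (u : ℕ) : Finset ℕ :=
  (primesLev a b).filter (fun p => Normal N p ∧ Clean N ((p - 1) * u))

/-- The family of new rows: `k` rows, from box `i` on, clean with `u`. -/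
def rowsF (N : ℕ) (δ : ℝ) (zt : ℕ → ℝ) : ℕ → ℕ → ℕ → Finset (List ℕ)
  | 0, _, _ => {[]}
  | k + 1, i, u =>
    (goodP N (Aof N δ zt i) (Aof N δ zt i + δ) u).biUnion
      (fun q => (rowsF N δ zt k (i + 1) ((q - 1) * u)).image (fun r => q :: r))

/-- Slack at least `3 w` at each of the rows of `r`, above `h`. -/
def SlackRows (N : ℕ) (r h : List ℕ) : Prop :=
  ∀ l₁ t suf, r = l₁ ++ t :: suf → 3 * wd N ≤ lev t - Th N 0 (suf ++ h)

lemma log13 : Real.log 13 ≤ 2.6 := by
  have h1 : (371293 : ℝ) ≤ Real.exp 13 := by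
    have h := Real.exp_one_gt_d9
    have h2 : Real.exp 13 = Real.exp 1 ^ 13 := by
      rw [← Real.exp_nat_mul]; norm_num
    rw [h2]
    calc (371293 : ℝ) ≤ (2.7182818283 : ℝ) ^ 13 := by norm_num
      _ ≤ Real.exp 1 ^ 13 := pow_le_pow_left₀ (by norm_num) h.le 13
  have h2 : Real.log 371293 ≤ 13 := by
    rw [Real.log_le_iff_le_exp (by norm_num)]; exact h1
  have h3 : Real.log 371293 = 5 * Real.log 13 := by
    have : (371293 : ℝ) = 13 ^ 5 := by norm_num
    rw [this, Real.log_pow]; norm_num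
  linarith

lemma aa_succ_nonneg (l : ℕ) : 0 ≤ aa (l + 1) := by
  have := aa_nonneg_of_pos (l := l + 1) (by omega); linarith

lemma sum_aa_le (n : ℕ) (hn : n ≤ 12) : ∑ l ∈ Finset.range n, aa (l + 1) ≤ 22 := by
  have h1 : ∑ l ∈ Finset.range n, aa (l + 1) ≤ ∑ l ∈ Finset.range 12, aa (l + 1) :=
    Finset.sum_le_sum_of_subset_of_nonneg
      (by intro x; simp only [Finset.mem_range]; omega) (fun _ _ _ => aa_succ_nonneg _)
  refine h1.trans ?_
  have h2 := sum_aa_add_one 12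
  have h3 : ∑ l ∈ Finset.Icc 1 12, (aa l + 1) = ∑ l ∈ Finset.range 12, (aa (l + 1) + 1) := by
    rw [Finset.range_eq_Ico, Finset.sum_Ico_add' (fun l => aa l + 1) 0 12 1]
    rfl
  rw [h3, Finset.sum_add_distrib] at h2
  have h4 := log13
  norm_num at h2 ⊢
  nlinarith

variable {N : ℕ} {δ : ℝ} {zt : ℕ → ℝ}

lemma ts_nonneg (N : ℕ) : 0 ≤ ts N := by
  unfold ts t0; positivity

lemma Aof_step (hδ : 0 ≤ δ) (hz : ∀ i, i + 1 < JJ → zt (i + 1) ≤ zt i) {i : ℕ} (hi : i + 1 < JJ) :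
    Aof N δ zt (i + 1) + δ ≤ Aof N δ zt i := by
  unfold Aof
  have h1 := hz i hi
  have h2 : ((JJ - i : ℕ) : ℝ) = ((JJ - (i + 1) : ℕ) : ℝ) + 1 := by
    have : JJ - i = (JJ - (i + 1)) + 1 := by omega
    rw [this]; push_cast; ring_nf
  rw [h2]; nlinarith

lemma Aof_upper (hδ : 0 ≤ δ) (i : ℕ) : Aof N δ zt i + δ ≤ zt i + ts N + 25 * δ := by
  unfold Aof
  have : ((JJ - i : ℕ) : ℝ) ≤ 12 := by
    have : JJ - i ≤ 12 := by unfold JJ; omega
    exact_mod_cast this
  nlinarith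

lemma Aof_lower (hδ : 0 ≤ δ) (i : ℕ) : zt i + ts N ≤ Aof N δ zt i := by
  unfold Aof
  have : (0 : ℝ) ≤ 2 * δ * ((JJ - i : ℕ) : ℝ) := by positivity
  linarith

lemma zt_anti (hz : ∀ i, i + 1 < JJ → zt (i + 1) ≤ zt i) {i j : ℕ} (hij : i ≤ j) (hj : j < JJ) :
    zt j ≤ zt i := by
  induction j, hij using Nat.le_induction with
  | base => exact le_rfl
  | succ j hij ih => exact (hz j hj).trans (ih (by omega))

lemma InB_append {l₁ l₂ : List ℕ} {i : ℕ} (h : InB N δ zt i (l₁ ++ l₂)) :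
    InB N δ zt i l₁ ∧ InB N δ zt (i + l₁.length) l₂ := by
  induction l₁ generalizing i with
  | nil => exact ⟨trivial, by simpa using h⟩
  | cons a l ih =>
    obtain ⟨h1, h2, h3⟩ := h
    obtain ⟨h4, h5⟩ := ih h3
    refine ⟨⟨h1, h2, h4⟩, ?_⟩
    have : i + (a :: l).length = i + 1 + l.length := by simp; omega
    rw [this]; exact h5

/-- Upper bound for `Th` on boxes, with shift `h`. -/
lemma Th_InB (hδ : 0 ≤ δ) (r : List ℕ) : ∀ (h i : ℕ), InB N δ zt i r →
    Th N h r ≤ ∑ l ∈ Finset.range r.length, aa (h + l + 1) * (zt (i + l) + 25 * δ) := by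
  induction r with
  | nil => intro h i _; simp [Th]
  | cons q r ih =>
    intro h i hq
    obtain ⟨h1, h2, h3⟩ := hq
    have h4 := ih (h + 1) (i + 1) h3
    have h5 : lev q - ts N ≤ zt i + 25 * δ := by
      have := Aof_upper (N := N) (zt := zt) hδ i
      linarith
    have h6 := mul_le_mul_of_nonneg_left h5 (aa_succ_nonneg h)
    simp only [Th, List.length_cons]
    rw [Finset.sum_range_succ']
    have h7 : ∑ l ∈ Finset.range r.length, aa (h + (l + 1) + 1) * (zt (i + (l + 1)) + 25 * δ)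
        = ∑ l ∈ Finset.range r.length, aa (h + 1 + l + 1) * (zt (i + 1 + l) + 25 * δ) := by
      refine Finset.sum_congr rfl (fun l _ => ?_)
      rw [show h + (l + 1) + 1 = h + 1 + l + 1 by omega, show i + (l + 1) = i + 1 + l by omega]
    rw [h7]
    simp only [add_zero]
    linarith

lemma Th_InB0 (hδ : 0 ≤ δ) {r : List ℕ} {i : ℕ} (h : InB N δ zt i r) (hr : r.length ≤ 12) :
    Th N 0 r ≤ ∑ l ∈ Finset.range r.length, aa (l + 1) * zt (i + l) + 550 * δ := by
  have h1 := Th_InB hδ r 0 i h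
  have h2 := sum_aa_le r.length hr
  have h3 : ∑ l ∈ Finset.range r.length, aa (0 + l + 1) * (zt (i + l) + 25 * δ)
      = ∑ l ∈ Finset.range r.length, aa (l + 1) * zt (i + l)
        + 25 * δ * ∑ l ∈ Finset.range r.length, aa (l + 1) := by
    rw [Finset.mul_sum, ← Finset.sum_add_distrib]
    refine Finset.sum_congr rfl (fun l _ => ?_)
    rw [Nat.zero_add]; ring
  rw [h3] at h1
  nlinarith

/-- First difference of two lists of the same length. -/
lemma first_diff {r r' : List ℕ} (hlen : r.length = r'.length) (hne : r ≠ r') :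
    ∃ pre a a' s s', r = pre ++ a :: s ∧ r' = pre ++ a' :: s' ∧ a ≠ a' := by
  induction r generalizing r' with
  | nil =>
    cases r' with
    | nil => exact absurd rfl hne
    | cons _ _ => simp at hlen
  | cons x r ih =>
    cases r' with
    | nil => simp at hlen
    | cons y r' =>
      by_cases hxy : x = y
      · subst hxy
        have h1 : r ≠ r' := fun h => hne (by rw [h])
        obtain ⟨pre, a, a', s, s', h2, h3, h4⟩ := ih (by simpa using hlen) h1
        exact ⟨x :: pre, a, a', s, s', by simp [h2], by simp [h3], h4⟩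
      · exact ⟨[], x, y, r, r', rfl, rfl, hxy⟩

lemma slack_aux {pre s s' h h' : List ℕ} {a a' : ℕ} (hlt : a' < a)
    (hs : (pre ++ a :: (s ++ h)).Pairwise (· > ·)) (hs' : (pre ++ a' :: (s' ++ h')).Pairwise (· > ·)) :
    a ∉ (pre ++ a' :: (s' ++ h')) ∧
      ∀ x, (x ∈ pre ++ a :: (s ++ h) ∧ x ∉ pre ++ a' :: (s' ++ h')) ∨
        (x ∈ pre ++ a' :: (s' ++ h') ∧ x ∉ pre ++ a :: (s ++ h)) → x ≤ a := by
  rw [List.pairwise_append] at hs hs'
  obtain ⟨-, h2, h3⟩ := hs
  obtain ⟨-, h2', h3'⟩ := hs'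
  rw [List.pairwise_cons] at h2 h2'
  have hapre : a ∉ pre := fun hc => by
    have := h3 a hc a (by simp)
    exact lt_irrefl _ this
  constructor
  · intro hc
    rw [List.mem_append] at hc
    rcases hc with hc | hc
    · exact hapre hc
    · rw [List.mem_cons] at hc
      rcases hc with hc | hc
      · omega
      · have := h2'.1 a hc
        omega
  · intro x hx
    rcases hx with ⟨h5, h6⟩ | ⟨h5, h6⟩
    · rw [List.mem_append] at h5 h6
      push Not at h6
      rcases h5 with h5 | h5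
      · exact absurd h5 h6.1
      · rw [List.mem_cons] at h5
        rcases h5 with h5 | h5
        · omega
        · have := h2.1 x h5
          omega
    · rw [List.mem_append] at h5 h6
      push Not at h6
      rcases h5 with h5 | h5
      · exact absurd h5 h6.1
      · rw [List.mem_cons] at h5
        rcases h5 with h5 | h5
        · omega
        · have := h2'.1 x h5
          omega

/-- Two different new row families give a collision with slack. -/
lemma slackOK_of_rows (N : ℕ) {r r' h h' : List ℕ} (hlen : r.length = r'.length) (hne : r ≠ r')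
    (hs : (r ++ h).Pairwise (· > ·)) (hs' : (r' ++ h').Pairwise (· > ·))
    (hsl : SlackRows N r h) (hsl' : SlackRows N r' h') : SlackOK N (r ++ h) (r' ++ h') := by
  obtain ⟨pre, a, a', s, s', rfl, rfl, hne'⟩ := first_diff hlen hne
  simp only [List.append_assoc, List.cons_append] at hs hs' ⊢
  have e1 := hsl pre a s rfl
  have e2 := hsl' pre a' s' rfl
  rcases lt_or_gt_of_ne hne' with hlt | hlt
  · -- a < a'
    obtain ⟨h1, h2⟩ := slack_aux hlt hs' hs
    refine ⟨a', fun x hx => h2 x (by tauto), Or.inr ⟨by simp, h1, pre, s' ++ h', rfl, e2⟩⟩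
  · obtain ⟨h1, h2⟩ := slack_aux hlt hs hs'
    refine ⟨a, fun x hx => h2 x hx, Or.inl ⟨by simp, h1, pre, s ++ h, rfl, e1⟩⟩


lemma Aof_anti (hδ : 0 ≤ δ) (hz : ∀ i, i + 1 < JJ → zt (i + 1) ≤ zt i) {j i : ℕ} (hji : j < i)
    (hi : i < JJ) : Aof N δ zt i + δ ≤ Aof N δ zt j := by
  induction i, hji using Nat.le_induction with
  | base => exact Aof_step hδ hz hi
  | succ i hij ih =>
    have h1 := Aof_step (N := N) hδ hz hi
    have h2 := ih (by omega)
    linarith

lemma card_primeFactors_le (u : ℕ) (hu : u ≠ 0) : (u.primeFactors.card : ℝ) ≤ 2 * Real.log u := by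
  have h1 : 2 ^ u.primeFactors.card ≤ u := by
    calc 2 ^ u.primeFactors.card = ∏ _p ∈ u.primeFactors, 2 := by simp
      _ ≤ ∏ p ∈ u.primeFactors, p :=
          Finset.prod_le_prod (fun _ _ => by omega)
            (fun p hp => (Nat.prime_of_mem_primeFactors hp).two_le)
      _ ≤ u := Nat.le_of_dvd (Nat.pos_of_ne_zero hu) (Nat.prod_primeFactors_dvd u)
  have h2 : ((2 : ℝ) ^ u.primeFactors.card) ≤ u := by exact_mod_cast h1
  have h3 := Real.log_le_log (by positivity) h2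
  rw [Real.log_pow] at h3
  have h4 := Real.log_two_gt_d9
  have : (0 : ℝ) ≤ u.primeFactors.card := Nat.cast_nonneg _
  nlinarith

lemma mem_goodP {a b : ℝ} {u q : ℕ} (hq : q ∈ goodP N a b u) :
    q.Prime ∧ a ≤ lev q ∧ lev q < b ∧ Normal N q ∧ Clean N ((q - 1) * u) := by
  simp only [goodP, Finset.mem_filter, primesLev, Finset.mem_range] at hq
  obtain ⟨⟨_, hp, h1, h2⟩, hn, hc⟩ := hq
  exact ⟨hp, h1, h2, hn, hc⟩

lemma rowsProd_cons (q : ℕ) (r : List ℕ) : rowsProd (q :: r) = (q - 1) * rowsProd r := by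
  simp [rowsProd]

lemma mem_rowsF {k i u : ℕ} {r : List ℕ} (hr : r ∈ rowsF N δ zt k i u) (hu : Clean N u) :
    r.length = k ∧ InB N δ zt i r ∧ (∀ q ∈ r, Normal N q) ∧ Clean N (rowsProd r * u) := by
  induction k generalizing i u r with
  | zero =>
    simp only [rowsF, Finset.mem_singleton] at hr
    subst hr
    simp [InB, rowsProd, hu]
  | succ k ih =>
    simp only [rowsF, Finset.mem_biUnion, Finset.mem_image] at hr
    obtain ⟨q, hq, r', hr', rfl⟩ := hr
    obtain ⟨_, h1, h2, hn, hc⟩ := mem_goodP hq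
    obtain ⟨a, b, c, d⟩ := ih hr' hc
    refine ⟨by simp [a], ⟨h1, h2, b⟩, ?_, ?_⟩
    · intro x hx
      rcases List.mem_cons.1 hx with rfl | hx
      · exact hn
      · exact c x hx
    · have : rowsProd (q :: r') * u = rowsProd r' * ((q - 1) * u) := by
        rw [rowsProd_cons]; ring
      rw [this]; exact d

/-- The mass of the row family. -/
lemma rows_mass
    (hgm : ∀ (a b : ℝ) (u : ℕ), t0 N ≤ a → a ≤ b → b ≤ (N : ℝ) + 5 → Clean N u → u ≠ 0 →
      (u.primeFactors.card : ℝ) ≤ Real.exp ((N : ℝ) + 7) →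
      b - a - 1 ≤ ∑ p ∈ (primesLev a b).filter (fun p => Normal N p ∧ Clean N ((p - 1) * u)),
        (1 : ℝ) / ((p : ℝ) - 1))
    (hδ : 1 ≤ δ) (hA : ∀ i, i < JJ → t0 N ≤ Aof N δ zt i ∧ Aof N δ zt i + δ ≤ (N : ℝ)) :
    ∀ (k i u : ℕ), i + k ≤ JJ → Clean N u → u ≠ 0 →
      2 * Real.log u + 2 * (k : ℝ) * Real.exp N ≤ Real.exp ((N : ℝ) + 7) →
      (δ - 1) ^ k ≤ ∑ r ∈ rowsF N δ zt k i u, (1 : ℝ) / (rowsProd r : ℝ) := by
  intro k
  induction k with
  | zero =>
    intro i u _ _ _ _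
    simp [rowsF, rowsProd]
  | succ k ih =>
    intro i u hik hc hu hlog
    have hi : i < JJ := by omega
    obtain ⟨hA1, hA2⟩ := hA i hi
    have hk0 : (0 : ℝ) ≤ 2 * ((k + 1 : ℕ) : ℝ) * Real.exp N := by positivity
    have hcard : (u.primeFactors.card : ℝ) ≤ Real.exp ((N : ℝ) + 7) := by
      have := card_primeFactors_le u hu
      linarith
    have hm := hgm (Aof N δ zt i) (Aof N δ zt i + δ) u hA1 (by linarith) (by linarith) hc hu hcard
    have hq : ∀ q ∈ goodP N (Aof N δ zt i) (Aof N δ zt i + δ) u,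
        (δ - 1) ^ k * ((1 : ℝ) / ((q : ℝ) - 1)) ≤
          ∑ r ∈ (rowsF N δ zt k (i + 1) ((q - 1) * u)).image (fun r => q :: r),
            (1 : ℝ) / (rowsProd r : ℝ) := by
      intro q hq
      obtain ⟨hp, h1, h2, hn, hc'⟩ := mem_goodP hq
      have hq2 := hp.two_le
      have hq1 : q - 1 ≠ 0 := by omega
      have hcast : ((q - 1 : ℕ) : ℝ) = (q : ℝ) - 1 := by
        rw [Nat.cast_sub (by omega)]; simp
      have hq3 : (2 : ℝ) ≤ q := by exact_mod_cast hq2
      rw [Finset.sum_image (fun _ _ _ _ h => by simpa using h)]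
      have hlq : Real.log q < Real.exp N := by
        have h3 : lev q < (N : ℝ) := by linarith
        unfold lev at h3
        have hpos : 0 < Real.log q := Real.log_pos (by linarith)
        exact (Real.log_lt_iff_lt_exp hpos).1 h3
      have hlq' : Real.log ((q - 1 : ℕ) : ℝ) ≤ Real.log q := by
        rw [hcast]
        exact Real.log_le_log (by linarith) (by linarith)
      have hlog' : 2 * Real.log (((q - 1) * u : ℕ) : ℝ) + 2 * (k : ℝ) * Real.exp N
          ≤ Real.exp ((N : ℝ) + 7) := by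
        have e1 : Real.log (((q - 1) * u : ℕ) : ℝ)
            = Real.log ((q - 1 : ℕ) : ℝ) + Real.log (u : ℝ) := by
          rw [Nat.cast_mul]
          exact Real.log_mul (by exact_mod_cast hq1) (by exact_mod_cast hu)
        rw [e1]
        push_cast at hlog
        nlinarith
      have h4 := ih (i + 1) ((q - 1) * u) (by omega) hc' (mul_ne_zero hq1 hu) hlog'
      have e : ∀ r, (1 : ℝ) / (rowsProd (q :: r) : ℝ) =
          (1 / ((q : ℝ) - 1)) * (1 / (rowsProd r : ℝ)) := by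
        intro r
        rw [rowsProd_cons, Nat.cast_mul, hcast, one_div, mul_inv, one_div, one_div]
      simp_rw [e]
      rw [← Finset.mul_sum, mul_comm]
      exact mul_le_mul_of_nonneg_left h4 (by
        have : (0 : ℝ) < (q : ℝ) - 1 := by linarith
        positivity)
    have hdisj : ((goodP N (Aof N δ zt i) (Aof N δ zt i + δ) u : Finset ℕ) : Set ℕ).PairwiseDisjoint
        (fun q => (rowsF N δ zt k (i + 1) ((q - 1) * u)).image (fun r => q :: r)) := by
      intro q _ q' _ hne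
      simp only [Function.onFun]
      rw [Finset.disjoint_left]
      intro r h1 h2
      simp only [Finset.mem_image] at h1 h2
      obtain ⟨r1, _, rfl⟩ := h1
      obtain ⟨r2, _, h3⟩ := h2
      simp only [List.cons.injEq] at h3
      exact hne h3.1.symm
    rw [rowsF, Finset.sum_biUnion hdisj]
    have hm' : δ - 1 ≤ ∑ q ∈ goodP N (Aof N δ zt i) (Aof N δ zt i + δ) u, (1 : ℝ) / ((q : ℝ) - 1) := by
      have : Aof N δ zt i + δ - Aof N δ zt i - 1 = δ - 1 := by ring
      rw [this] at hm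
      exact hm
    calc (δ - 1) ^ (k + 1) = (δ - 1) ^ k * (δ - 1) := pow_succ _ _
      _ ≤ (δ - 1) ^ k * ∑ q ∈ goodP N (Aof N δ zt i) (Aof N δ zt i + δ) u, (1 : ℝ) / ((q : ℝ) - 1) :=
          mul_le_mul_of_nonneg_left hm' (pow_nonneg (by linarith) _)
      _ = ∑ q ∈ goodP N (Aof N δ zt i) (Aof N δ zt i + δ) u, (δ - 1) ^ k * ((1 : ℝ) / ((q : ℝ) - 1)) :=
          Finset.mul_sum _ _ _
      _ ≤ _ := Finset.sum_le_sum hq

/-- Slack at the new rows. -/
lemma slack_rows {c : ℝ} {lh r : List ℕ} (hδ : 0 ≤ δ) (hw : BoxW N c lh zt)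
    (hδc : 550 * δ ≤ c * N / 2) (hwd : 4 * wd N ≤ c * N / 2)
    (hr : InB N δ zt 0 r) (hl : r.length = JJ) : SlackRows N r lh := by
  intro l₁ t suf he
  subst he
  obtain ⟨_, h2⟩ := InB_append hr
  obtain ⟨h3, _, h5⟩ := h2
  simp only [List.length_append, List.length_cons] at hl
  have hlen : suf.length = JJ - 1 - l₁.length := by omega
  have hi : l₁.length < JJ := by omega
  have h6 := hw.slack l₁.length hi
  have h7 := Th_InB0 hδ h5 (by rw [hlen]; unfold JJ; omega)
  rw [hlen] at h7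
  have h8 : Th N 0 (suf ++ lh) = Th N 0 suf + Th N (JJ - 1 - l₁.length) lh := by
    rw [Th_append, Nat.zero_add, hlen]
  rw [h8]
  have h9 := Aof_lower (N := N) (zt := zt) hδ (0 + l₁.length)
  rw [Nat.zero_add] at h9 h3 h7
  linarith

lemma adm_rows {h : List ℕ} (hh : Adm N h) (h0 : 0 ≤ wd N) (ht : 0 ≤ tol N) :
    ∀ r, SlackRows N r h → Adm N (r ++ h) := by
  intro r
  induction r with
  | nil => intro _; simpa using hh
  | cons q r ih =>
    intro hs
    have h1 := hs [] q r rfl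
    have h2 : SlackRows N r h := by
      intro l₁ t suf he
      exact hs (q :: l₁) t suf (by simp [he])
    refine ⟨?_, ih h2⟩
    show -tol N ≤ lev q - Th N 0 (r ++ h)
    linarith

/-- Sortedness. -/
lemma sorted_rows {lh : List ℕ} (hδ : 0 ≤ δ) (hz : ∀ i, i + 1 < JJ → zt (i + 1) ≤ zt i)
    (hlh : lh.Pairwise (· > ·)) (hbot : ∀ x ∈ lh, lev x < Aof N δ zt (JJ - 1)) :
    ∀ (r : List ℕ) (i : ℕ), InB N δ zt i r → i + r.length = JJ → (∀ q ∈ r, q.Prime) →
      (r ++ lh).Pairwise (· > ·) ∧ ∀ x ∈ r ++ lh, ∀ j, j < i → lev x < Aof N δ zt j := by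
  intro r
  induction r with
  | nil =>
    intro i _ hi _
    simp only [List.length_nil, Nat.add_zero] at hi
    subst hi
    refine ⟨by simpa using hlh, ?_⟩
    intro x hx j hj
    have h1 := hbot x (by simpa using hx)
    rcases Nat.lt_or_ge j (JJ - 1) with h2 | h2
    · have := Aof_anti (N := N) hδ hz h2 (by unfold JJ; omega)
      linarith
    · have : j = JJ - 1 := by omega
      rw [this]; exact h1
  | cons q r ih =>
    intro i hi hlen hp
    obtain ⟨h1, h2, h3⟩ := hi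
    simp only [List.length_cons] at hlen
    obtain ⟨h4, h5⟩ := ih (i + 1) h3 (by omega) (fun x hx => hp x (List.mem_cons_of_mem _ hx))
    have hqp := hp q (by simp)
    have hi' : i < JJ := by omega
    constructor
    · rw [List.cons_append, List.pairwise_cons]
      refine ⟨?_, h4⟩
      intro x hx
      have h6 := h5 x hx i (by omega)
      by_contra hcon
      have hle : q ≤ x := by omega
      have := lev_mono hqp.two_le hle
      linarith
    · intro x hx j hj
      rw [List.cons_append, List.mem_cons] at hx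
      rcases hx with rfl | hx
      · have := Aof_anti (N := N) hδ hz hj hi'
        linarith
      · exact h5 x hx j (by omega)

lemma lev_upper {q : ℕ} (hδ : 0 ≤ δ) (hz : ∀ i, i + 1 < JJ → zt (i + 1) ≤ zt i) :
    ∀ (r : List ℕ) (i : ℕ), InB N δ zt i r → i + r.length ≤ JJ → q ∈ r →
      lev q < zt 0 + ts N + 25 * δ := by
  intro r
  induction r with
  | nil => intro _ _ _ h; simp at h
  | cons x r ih =>
    intro i hi hlen hq
    obtain ⟨h1, h2, h3⟩ := hi
    simp only [List.length_cons] at hlen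
    rw [List.mem_cons] at hq
    rcases hq with rfl | hq
    · have h4 := Aof_upper (N := N) (zt := zt) hδ i
      have h5 := zt_anti hz (Nat.zero_le i) (by omega : i < JJ)
      linarith
    · exact ih (i + 1) h3 (by omega) hq

/-- The bottom of the boxes is above the old rows. -/
lemma hbot_of {c : ℝ} {lh : List ℕ} {low m : ℕ} (hδ : 0 < δ) (hrep : IsRep N lh low m)
    (hw : BoxW N c lh zt) : ∀ x ∈ lh, lev x < Aof N δ zt (JJ - 1) := by
  intro x hx
  have hA : zt (JJ - 1) + ts N + 2 * δ = Aof N δ zt (JJ - 1) := by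
    unfold Aof
    have : JJ - (JJ - 1) = 1 := by unfold JJ; omega
    rw [this]; push_cast; ring
  cases hlh : lh with
  | nil => simp [hlh] at hx
  | cons a t =>
    have h1 := hw.above a (by simp [hlh])
    have h2 : lev x ≤ lev a := by
      rw [hlh] at hx
      rw [List.mem_cons] at hx
      rcases hx with rfl | hx
      · exact le_rfl
      · have hs := hrep.sorted
        rw [hlh, List.pairwise_cons] at hs
        have hx2 := hs.1 x hx
        have hxp : x.Prime := (hrep.normal x (by simp [hlh, hx])).1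
        exact lev_mono hxp.two_le hx2.le
    linarith

lemma rowsProd_ne_zero {l : List ℕ} (h : ∀ p ∈ l, p.Prime) : rowsProd l ≠ 0 := by
  induction l with
  | nil => simp [rowsProd]
  | cons q r ih =>
    rw [rowsProd_cons]
    have h1 := (h q (by simp)).two_le
    exact mul_ne_zero (by omega) (ih (fun x hx => h x (List.mem_cons_of_mem _ hx)))

lemma IsRep.m_ne_zero {l : List ℕ} {low m : ℕ} (h : IsRep N l low m) : m ≠ 0 := by
  rw [h.eq]
  refine mul_ne_zero (rowsProd_ne_zero (fun p hp => (h.normal p hp).1)) ?_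
  obtain ⟨n, hn, _, he, _⟩ := h.lowv
  rw [he]
  exact (Nat.totient_pos.2 (Nat.pos_of_ne_zero hn)).ne'

/-- The extended representation. -/
lemma ext_rep {c : ℝ} {lh : List ℕ} {low m : ℕ} {r : List ℕ} (hδ : 0 < δ)
    (hrep : IsRep N lh low m) (hw : BoxW N c lh zt)
    (hδc : 550 * δ ≤ c * N / 2) (hwd : 4 * wd N ≤ c * N / 2) (hwd0 : 0 ≤ wd N) (ht : 0 ≤ tol N)
    (hcut : 0.9 * (N : ℝ) + ts N + 25 * δ ≤ (N : ℝ) - Dc N)
    (hr : r ∈ rowsF N δ zt JJ 0 m) :
    IsRep N (r ++ lh) low (rowsProd r * m) ∧ Th N 0 (r ++ lh) ≤ (N : ℝ) - 4 * wd N ∧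
      SlackRows N r lh := by
  obtain ⟨h1, h2, h3, h4⟩ := mem_rowsF hr hrep.clean
  have hsl := slack_rows hδ.le hw hδc hwd h2 h1
  have hst := (sorted_rows hδ.le hw.sorted hrep.sorted (hbot_of hδ hrep hw) r 0 h2
    (by omega) (fun q hq => (h3 q hq).1)).1
  refine ⟨⟨hst, ?_, ?_, adm_rows hrep.adm hwd0 ht r hsl, hrep.lowv, ?_, h4⟩, ?_, hsl⟩
  · intro p hp
    rcases List.mem_append.1 hp with hp | hp
    · exact h3 p hp
    · exact hrep.normal p hp
  · intro p hp
    rcases List.mem_append.1 hp with hp | hp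
    · have := lev_upper (q := p) hδ.le hw.sorted r 0 h2 (by omega) hp
      have := hw.top
      linarith
    · exact hrep.cut p hp
  · rw [rowsProd_append, hrep.eq, mul_assoc]
  · rw [Th_append, Nat.zero_add, h1]
    have h5 := Th_InB0 hδ.le h2 (by rw [h1]; unfold JJ; omega)
    rw [h1] at h5
    simp only [Nat.zero_add] at h5
    have h6 := hw.phi
    linarith


lemma rpow_small (s ε : ℝ) (hs : s < 1) (hε : 0 < ε) :
    ∃ N₀ : ℕ, ∀ N : ℕ, N₀ ≤ N → (N : ℝ) ^ s ≤ ε * N := by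
  have h := (tendsto_rpow_neg_atTop (show 0 < 1 - s by linarith)).comp tendsto_natCast_atTop_atTop
  have h2 := h.eventually (gt_mem_nhds hε)
  obtain ⟨N₀, hN₀⟩ := Filter.eventually_atTop.1 h2
  refine ⟨max N₀ 1, fun N hN => ?_⟩
  have h3 := hN₀ N (le_trans (le_max_left _ _) hN)
  simp only [Function.comp] at h3
  have hN1 : (0 : ℝ) < N := by
    have : 1 ≤ N := le_trans (le_max_right _ _) hN
    exact_mod_cast this
  have : (N : ℝ) ^ s = (N : ℝ) ^ (-(1 - s)) * N := by
    rw [← Real.rpow_add_one hN1.ne']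
    congr 1; ring
  rw [this]
  exact mul_le_mul_of_nonneg_right h3.le hN1.le

lemma log_lt_Bnd {N m : ℕ} (hN : 1 ≤ N) (hm : m < Bnd N) (hm0 : m ≠ 0) :
    2 * Real.log m + 24 * Real.exp N ≤ Real.exp ((N : ℝ) + 7) := by
  have hN' : (1 : ℝ) ≤ N := by exact_mod_cast hN
  have hE : 1 ≤ Real.exp N := Real.one_le_exp (by linarith)
  have hY : 0 < Ymax N := Real.exp_pos _
  have hY1 : 1 ≤ Ymax N := by
    unfold Ymax
    exact Real.one_le_exp (by positivity)
  have hle : (m : ℝ) ≤ 2 * (Ymax N) ^ 2 := by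
    have h1 : m ≤ ⌈(Ymax N) ^ 2⌉₊ := by
      unfold Bnd at hm; omega
    have h2 : (m : ℝ) ≤ (⌈(Ymax N) ^ 2⌉₊ : ℝ) := by exact_mod_cast h1
    have h3 := Nat.ceil_lt_add_one (show 0 ≤ (Ymax N) ^ 2 by positivity)
    have h4 : 1 ≤ (Ymax N) ^ 2 := one_le_pow₀ hY1
    linarith
  have hm1 : (0 : ℝ) < m := by exact_mod_cast Nat.pos_of_ne_zero hm0
  have h1 := Real.log_le_log hm1 hle
  have h2 : Real.log (2 * (Ymax N) ^ 2) = Real.log 2 + 2 * (Real.exp N / (N : ℝ) ^ 3) := by
    rw [Real.log_mul (by norm_num) (by positivity), Real.log_pow]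
    unfold Ymax
    rw [Real.log_exp]; norm_num
  have h3 : Real.exp N / (N : ℝ) ^ 3 ≤ Real.exp N := by
    apply div_le_self (by positivity)
    exact one_le_pow₀ hN'
  have h4 : Real.log 2 ≤ 1 := by
    have := Real.log_two_lt_d9; linarith
  have h5 : Real.exp ((N : ℝ) + 7) = Real.exp N * Real.exp 7 := Real.exp_add _ _
  have h6 : (36 : ℝ) ≤ Real.exp 7 := by
    have := Real.add_one_le_exp (7 : ℝ)
    have h7 : Real.exp 7 = Real.exp 1 ^ 7 := by
      rw [← Real.exp_nat_mul]; norm_num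
    have h8 := Real.exp_one_gt_d9
    rw [h7]
    calc (36 : ℝ) ≤ (2.7182818283 : ℝ) ^ 7 := by norm_num
      _ ≤ Real.exp 1 ^ 7 := pow_le_pow_left₀ (by norm_num) h8.le 7
  rw [h5]
  nlinarith

/-- The box bound, generic in the constant `c`. -/
theorem box_core (c : ℝ) (hc0 : 0 < c) (hc1 : c ≤ 1) : ∃ N₀ : ℕ, ∀ N ≥ N₀,
    ∀ (M : Finset ℕ) (lh : ℕ → List ℕ) (lw : ℕ → ℕ) (zt : ℕ → ℕ → ℝ),
      (∀ m ∈ M, IsRep N (lh m) (lw m) m ∧ BoxW N c (lh m) (zt m)) →
      (∑ m ∈ M, (1 : ℝ) / m) * (c / 1100 * N - 2) ^ JJ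
        ≤ Ss N ((N : ℝ) - 4 * wd N) + Real.exp (-wd N) := by
  obtain ⟨N₁, hgood⟩ := good_mass
  obtain ⟨N₂, hdist⟩ := distinct_mass
  obtain ⟨N₃, hbnd⟩ := rep_lt_Bnd
  obtain ⟨N₄, h4⟩ := rpow_small (17 / 20) (c / 8) (by norm_num) (by positivity)
  obtain ⟨N₅, h5⟩ := rpow_small (4 / 5) (1 / 50) (by norm_num) (by norm_num)
  obtain ⟨N₆, h6⟩ := rpow_small (1 / 2) (1 / 50) (by norm_num) (by norm_num)
  refine ⟨max N₁ (max N₂ (max N₃ (max N₄ (max N₅ (max N₆ (⌈2200 / c⌉₊ + 1)))))), ?_⟩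
  intro N hN M lh lw zt hM
  have hN1 : N₁ ≤ N := le_trans (by simp) hN
  have hN2 : N₂ ≤ N := le_trans (by simp) hN
  have hN3 : N₃ ≤ N := le_trans (by simp) hN
  have hN4 : N₄ ≤ N := le_trans (by simp) hN
  have hN5 : N₅ ≤ N := le_trans (by simp) hN
  have hN6 : N₆ ≤ N := le_trans (by simp) hN
  have hN7 : ⌈2200 / c⌉₊ + 1 ≤ N := le_trans (by simp) hN
  have hN0 : 1 ≤ N := by omega
  have hNr : (0 : ℝ) < N := by exact_mod_cast hN0
  have hNbig : 2200 / c ≤ (N : ℝ) := by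
    have h1 : ⌈2200 / c⌉₊ ≤ N := by omega
    exact (Nat.le_ceil _).trans (by exact_mod_cast h1)
  set δ : ℝ := c / 1100 * N with hδdef
  have hδ2 : 2 ≤ δ := by
    rw [div_le_iff₀ hc0] at hNbig
    rw [hδdef]
    have : c / 1100 * (N : ℝ) = (N * c) / 1100 := by ring
    rw [this, le_div_iff₀ (by norm_num)]
    linarith
  have hδ0 : 0 < δ := by linarith
  have hwd0 : 0 ≤ wd N := by unfold wd; positivity
  have htol0 : 0 ≤ tol N := by unfold tol; positivity
  have hwd : 4 * wd N ≤ c * N / 2 := by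
    have := h4 N hN4
    unfold wd
    linarith
  have hδc : 550 * δ ≤ c * N / 2 := by
    rw [hδdef]; apply le_of_eq; ring
  have hcut : 0.9 * (N : ℝ) + ts N + 25 * δ ≤ (N : ℝ) - Dc N := by
    have h1 := h5 N hN5
    have h2 := h6 N hN6
    have h3 : 25 * δ ≤ (N : ℝ) / 44 := by
      rw [hδdef]
      have : 25 * (c / 1100 * (N : ℝ)) = c * ((N : ℝ) / 44) := by ring
      rw [this]
      have : (0 : ℝ) ≤ (N : ℝ) / 44 := by positivity
      nlinarith
    unfold ts t0 Dc
    linarith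
  have hbig : ∀ m ∈ M, ∀ i, i < JJ →
      t0 N ≤ Aof N δ (zt m) i ∧ Aof N δ (zt m) i + δ ≤ (N : ℝ) := by
    intro m hm i hi
    have hw := (hM m hm).2
    constructor
    · have h1 := Aof_lower (N := N) (zt := zt m) hδ0.le i
      have h2 := zt_anti hw.sorted (show i ≤ JJ - 1 by omega) (by unfold JJ; omega)
      have h3 := hw.base
      have h4 : t0 N = 2 * ts N := by unfold ts; ring
      linarith
    · have h1 := Aof_upper (N := N) (zt := zt m) hδ0.le i
      have h2 := zt_anti hw.sorted (Nat.zero_le i) hi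
      have h3 := hw.top
      have h4 : 0 ≤ Dc N := by unfold Dc; positivity
      linarith
  let S : Finset (Σ _ : ℕ, List ℕ) := M.sigma (fun m => rowsF N δ (zt m) JJ 0 m)
  let g : (Σ _ : ℕ, List ℕ) → List ℕ × ℕ := fun x => (x.2 ++ lh x.1, lw x.1)
  have hS : ∀ x ∈ S, x.1 ∈ M ∧ x.2 ∈ rowsF N δ (zt x.1) JJ 0 x.1 := by
    intro x hx
    simpa [S] using hx
  have hext : ∀ x ∈ S, IsRep N (x.2 ++ lh x.1) (lw x.1) (rowsProd x.2 * x.1) ∧
      Th N 0 (x.2 ++ lh x.1) ≤ (N : ℝ) - 4 * wd N ∧ SlackRows N x.2 (lh x.1) := by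
    intro x hx
    obtain ⟨h1, h2⟩ := hS x hx
    exact ext_rep hδ0 (hM _ h1).1 (hM _ h1).2 hδc hwd hwd0 htol0 hcut h2
  have hmOf : ∀ x ∈ S, mOf (g x) = rowsProd x.2 * x.1 := by
    intro x hx
    obtain ⟨h1, _⟩ := hS x hx
    show rowsProd (x.2 ++ lh x.1) * lw x.1 = rowsProd x.2 * x.1
    rw [rowsProd_append, mul_assoc, ← (hM _ h1).1.eq]
  have hlen : ∀ x ∈ S, x.2.length = JJ := by
    intro x hx
    obtain ⟨h1, h2⟩ := hS x hx
    exact (mem_rowsF h2 (hM _ h1).1.clean).1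
  have hinj : Set.InjOn g (S : Set (Σ _ : ℕ, List ℕ)) := by
    intro x hx y hy hxy
    have hx' : x ∈ S := hx
    have hy' : y ∈ S := hy
    simp only [g, Prod.mk.injEq] at hxy
    obtain ⟨h1, h2⟩ := hxy
    have h3 := List.append_inj h1 ((hlen x hx').trans (hlen y hy').symm)
    have h4 : x.1 = y.1 := by
      rw [(hM _ (hS x hx').1).1.eq, (hM _ (hS y hy').1).1.eq, h3.2, h2]
    rcases x with ⟨x1, x2⟩
    rcases y with ⟨y1, y2⟩
    simp only at h3 h4
    obtain ⟨h3a, _⟩ := h3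
    subst h3a
    subst h4
    rfl
  let T : Finset (List ℕ × ℕ) := S.image g
  have hT1 : ∀ τ ∈ T, IsRep N τ.1 τ.2 (mOf τ) := by
    intro τ hτ
    obtain ⟨x, hx, rfl⟩ := Finset.mem_image.1 hτ
    rw [hmOf x hx]
    exact (hext x hx).1
  have hT2 : ∀ τ ∈ T, ∀ τ' ∈ T, τ ≠ τ' → mOf τ = mOf τ' → SlackOK N τ.1 τ'.1 := by
    intro τ hτ τ' hτ' hne heq
    obtain ⟨x, hx, rfl⟩ := Finset.mem_image.1 hτ
    obtain ⟨y, hy, rfl⟩ := Finset.mem_image.1 hτ'
    rw [hmOf x hx, hmOf y hy] at heq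
    have hxne : x.2 ≠ y.2 := by
      intro h
      apply hne
      have hne0 : rowsProd x.2 ≠ 0 :=
        rowsProd_ne_zero (fun q hq => ((mem_rowsF (hS x hx).2 (hM _ (hS x hx).1).1.clean).2.2.1 q hq).1)
      rw [← h] at heq
      have h1 : x.1 = y.1 := Nat.eq_of_mul_eq_mul_left (Nat.pos_of_ne_zero hne0) heq
      have : x = y := by
        rcases x with ⟨x1, x2⟩
        rcases y with ⟨y1, y2⟩
        simp only at h h1
        subst h
        subst h1
        rfl
      rw [this]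
    exact slackOK_of_rows N ((hlen x hx).trans (hlen y hy).symm) hxne
      (hext x hx).1.sorted (hext y hy).1.sorted (hext x hx).2.2 (hext y hy).2.2
  have hD := hdist N hN2 T hT1 hT2
  -- upper bound: the image is inside the set of tails
  have hsub : T.image mOf ⊆ Aset N ((N : ℝ) - 4 * wd N) := by
    intro m hm
    obtain ⟨τ, hτ, rfl⟩ := Finset.mem_image.1 hm
    obtain ⟨x, hx, rfl⟩ := Finset.mem_image.1 hτ
    rw [hmOf x hx]
    unfold Aset
    rw [Finset.mem_filter, Finset.mem_range]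
    exact ⟨hbnd N hN3 _ _ _ (hext x hx).1, _, _, (hext x hx).1, (hext x hx).2.1⟩
  have hU : ∑ m ∈ T.image mOf, (1 : ℝ) / m ≤ Ss N ((N : ℝ) - 4 * wd N) := by
    unfold Ss
    exact Finset.sum_le_sum_of_subset_of_nonneg hsub (fun _ _ _ => by positivity)
  -- lower bound
  have hL : (∑ m ∈ M, (1 : ℝ) / m) * (δ - 2) ^ JJ ≤ ∑ τ ∈ T, (1 : ℝ) / mOf τ := by
    rw [Finset.sum_image hinj]
    have e1 : ∑ x ∈ S, (1 : ℝ) / ((mOf (g x) : ℕ) : ℝ)
        = ∑ x ∈ S, (1 : ℝ) / ((rowsProd x.2 * x.1 : ℕ) : ℝ) :=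
      Finset.sum_congr rfl (fun x hx => by rw [hmOf x hx])
    rw [e1, Finset.sum_sigma]
    rw [Finset.sum_mul]
    refine Finset.sum_le_sum (fun m hm => ?_)
    have hrep := (hM m hm).1
    have hm0 : m ≠ 0 := IsRep.m_ne_zero hrep
    have hlog := log_lt_Bnd hN0 (hbnd N hN3 _ _ _ hrep) hm0
    have hR := rows_mass (N := N) (δ := δ) (zt := zt m) (hgood N hN1)
      (by linarith) (hbig m hm) JJ 0 m (by omega) hrep.clean hm0
      (by
        have : ((JJ : ℕ) : ℝ) = 12 := by norm_num [JJ]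
        rw [this]
        linarith)
    have h1 : (δ - 2) ^ JJ ≤ (δ - 1) ^ JJ :=
      pow_le_pow_left₀ (by linarith) (by linarith) _
    have hm1 : (0 : ℝ) ≤ 1 / (m : ℝ) := by positivity
    calc (1 : ℝ) / m * (δ - 2) ^ JJ ≤ (1 : ℝ) / m * (δ - 1) ^ JJ :=
          mul_le_mul_of_nonneg_left h1 hm1
      _ ≤ (1 : ℝ) / m * ∑ r ∈ rowsF N δ (zt m) JJ 0 m, (1 : ℝ) / (rowsProd r : ℝ) :=
          mul_le_mul_of_nonneg_left hR hm1
      _ = ∑ r ∈ rowsF N δ (zt m) JJ 0 m, (1 : ℝ) / ((rowsProd r * m : ℕ) : ℝ) := by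
          rw [Finset.mul_sum]
          refine Finset.sum_congr rfl (fun r _ => ?_)
          rw [Nat.cast_mul, one_div, one_div, one_div, mul_inv, mul_comm]
  calc (∑ m ∈ M, (1 : ℝ) / m) * (c / 1100 * N - 2) ^ JJ
      ≤ ∑ τ ∈ T, (1 : ℝ) / mOf τ := hL
    _ ≤ ∑ m ∈ T.image mOf, (1 : ℝ) / m + Real.exp (-wd N) := hD
    _ ≤ Ss N ((N : ℝ) - 4 * wd N) + Real.exp (-wd N) := by linarith

end
end Box
end Vale.Agent.Lib.P031V
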