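import Vale.Agent.Lib.P031V.Defs

/-! # P031: constants and the set `M` of Theorem B (moved out of `ThmB.lean` so that parts can live in own files). -/

namespace Vale.Agent.Lib.P031V
open Real Finset
open scoped Classical
noncomputable section

/-- Constants: `κ₁ = 1/50`, `κ_{i+1} = κ_i/30`. -/
def kapJ : ℝ := (1 / 50) / 30 ^ (JJ - 1)
def c1B : ℝ := kapJ / 500
def cB : ℝ := 3 / 10 * c1B
def etaB : ℝ := cB / 1100

/-- `zt` : the real witness vector, `zt 0 ≥ zt 1 ≥ ... ≥ zt (J-1)`, compared with `lh`. -/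
structure MWit (N : ℕ) (lh : List ℕ) (zt : ℕ → ℝ) : Prop where
  sorted : ∀ i, i + 1 < JJ → zt (i + 1) ≤ zt i
  above : ∀ q ∈ lh.head?, lev q - ts N ≤ zt (JJ - 1)
  base : ts N ≤ zt (JJ - 1)
  top : zt 0 ≤ 0.9 * (N : ℝ)
  phi : ∑ l ∈ Finset.range JJ, aa (l + 1) * zt l + Th N JJ lh ≤ (N : ℝ) - cB * N
  slack : ∀ i, i < JJ → cB * N ≤
    zt i + ts N - ∑ l ∈ Finset.range (JJ - 1 - i), aa (l + 1) * zt (i + 1 + l) - Th N (JJ - 1 - i) lh

/-- The set `M` of tails with room below `J` new rows. -/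
def Mset (N : ℕ) : Finset ℕ :=
  (Finset.range (Bnd N)).filter (fun m => ∃ lh low zt, IsRep N lh low m ∧ MWit N lh zt)

end
end Vale.Agent.Lib.P031V
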