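import Vale.Agent.Lib.P031V.ThmBDefs
import Vale.Agent.Lib.P031V.ChainA
import Vale.Agent.Lib.P031V.Mertens2

/-! # P031: Theorem B, doubling, blueprint section 8 (i),(ii). -/

namespace Vale.Agent.Lib.P031V
open Real Finset
open scoped Classical
noncomputable section

namespace Dbl

lemma kapJ_eq : kapJ = (1 / 50) / 30 ^ 11 := by
  unfold kapJ JJ; norm_num

lemma kapJ_pos : 0 < kapJ := by rw [kapJ_eq]; norm_num

lemma c1B_pos : 0 < c1B := by unfold c1B; have := kapJ_pos; positivity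

lemma cB_pos : 0 < cB := by unfold cB; have := c1B_pos; positivity

/-- `x^a ≤ δ x^b` for large natural `x`. -/
lemma rpow_small {a b δ : ℝ} (hab : a < b) (hδ : 0 < δ) :
    ∃ N₀ : ℕ, ∀ N ≥ N₀, (N : ℝ) ^ a ≤ δ * (N : ℝ) ^ b := by
  have h1 : Filter.Tendsto (fun x : ℝ => x ^ (b - a)) Filter.atTop Filter.atTop :=
    tendsto_rpow_atTop (by linarith)
  have h2 := (h1.comp tendsto_natCast_atTop_atTop).eventually_ge_atTop (1 / δ)
  obtain ⟨M, hM⟩ := Filter.eventually_atTop.1 h2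
  refine ⟨max M 1, fun N hN => ?_⟩
  have hN1 : M ≤ N := le_trans (le_max_left _ _) hN
  have hN2 : 1 ≤ N := le_trans (le_max_right _ _) hN
  have hpos : (0 : ℝ) < N := by exact_mod_cast hN2
  have h3 : 1 / δ ≤ (N : ℝ) ^ (b - a) := hM N hN1
  have h4 : (N : ℝ) ^ b = (N : ℝ) ^ (b - a) * (N : ℝ) ^ a := by
    rw [← Real.rpow_add hpos]; congr 1; ring
  rw [h4]
  have h5 : 0 < (N : ℝ) ^ a := Real.rpow_pos_of_pos hpos a
  have h6 : 1 ≤ δ * (N : ℝ) ^ (b - a) := by
    have := mul_le_mul_of_nonneg_left h3 hδ.le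
    rwa [mul_one_div_cancel hδ.ne'] at this
  nlinarith

/-- `x^a ≥ A` for large natural `x`, `a>0`. -/
lemma rpow_large {a A : ℝ} (ha : 0 < a) : ∃ N₀ : ℕ, ∀ N ≥ N₀, A ≤ (N : ℝ) ^ a := by
  have h1 : Filter.Tendsto (fun x : ℝ => x ^ a) Filter.atTop Filter.atTop := tendsto_rpow_atTop ha
  have h2 := (h1.comp tendsto_natCast_atTop_atTop).eventually_ge_atTop A
  obtain ⟨M, hM⟩ := Filter.eventually_atTop.1 h2
  exact ⟨M, fun N hN => hM N hN⟩

/-- The asymptotic inequalities needed. -/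
structure Big (N : ℕ) (C a₀ : ℝ) : Prop where
  pos : (1 : ℝ) ≤ N
  tol_ts : tol N ≤ ts N
  ts_pos : 0 ≤ ts N
  ts_kap : ts N ≤ kapJ * N
  wd4 : 4 * wd N ≤ (8 / 100) * c1B * N
  tolc : tol N ≤ (8 / 100) * c1B * N
  t0a : a₀ ≤ t0 N
  t0C : C ≤ t0 N
  t0N : t0 N ≤ N

lemma big_ev (C a₀ : ℝ) : ∃ N₀ : ℕ, ∀ N ≥ N₀, Big N C a₀ := by
  have hd : 0 < (8 / 100) * c1B / 4 := by have := c1B_pos; positivity
  have hd2 : 0 < (8 / 100) * c1B := by have := c1B_pos; positivity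
  obtain ⟨A1, hA1⟩ := rpow_small (a := (3 : ℝ) / 4) (b := (4 : ℝ) / 5) (δ := 1 / 2) (by norm_num) (by norm_num)
  obtain ⟨A2, hA2⟩ := rpow_small (a := (4 : ℝ) / 5) (b := (1 : ℝ)) (δ := 2 * kapJ) (by norm_num)
    (by have := kapJ_pos; positivity)
  obtain ⟨A3, hA3⟩ := rpow_small (a := (17 : ℝ) / 20) (b := (1 : ℝ)) (δ := (8 / 100) * c1B / 4) (by norm_num) hd
  obtain ⟨A4, hA4⟩ := rpow_small (a := (3 : ℝ) / 4) (b := (1 : ℝ)) (δ := (8 / 100) * c1B) (by norm_num) hd2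
  obtain ⟨A5, hA5⟩ := rpow_large (a := (4 : ℝ) / 5) (A := a₀) (by norm_num)
  obtain ⟨A6, hA6⟩ := rpow_large (a := (4 : ℝ) / 5) (A := C) (by norm_num)
  refine ⟨max (max (max A1 A2) (max A3 A4)) (max (max A5 A6) 1), fun N hN => ?_⟩
  have h1 : A1 ≤ N := by
    exact le_trans (le_trans (le_trans (le_max_left _ _) (le_max_left _ _)) (le_max_left _ _)) hN
  have h2 : A2 ≤ N := by
    exact le_trans (le_trans (le_trans (le_max_right _ _) (le_max_left _ _)) (le_max_left _ _)) hN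
  have h3 : A3 ≤ N := by
    exact le_trans (le_trans (le_trans (le_max_left _ _) (le_max_right _ _)) (le_max_left _ _)) hN
  have h4 : A4 ≤ N := by
    exact le_trans (le_trans (le_trans (le_max_right _ _) (le_max_right _ _)) (le_max_left _ _)) hN
  have h5 : A5 ≤ N := by
    exact le_trans (le_trans (le_trans (le_max_left _ _) (le_max_left _ _)) (le_max_right _ _)) hN
  have h6 : A6 ≤ N := by
    exact le_trans (le_trans (le_trans (le_max_right _ _) (le_max_left _ _)) (le_max_right _ _)) hN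
  have h7 : 1 ≤ N := le_trans (le_trans (le_max_right _ _) (le_max_right _ _)) hN
  have hN1 : (1 : ℝ) ≤ N := by exact_mod_cast h7
  have hpos : (0 : ℝ) < N := by linarith
  have e1 : ((N : ℝ) ^ (1 : ℝ)) = N := Real.rpow_one _
  have i1 := hA1 N h1
  have i2 := hA2 N h2
  have i3 := hA3 N h3
  have i4 := hA4 N h4
  rw [e1] at i2 i3 i4
  refine ⟨hN1, ?_, ?_, ?_, ?_, ?_, hA5 N h5, hA6 N h6, ?_⟩
  · unfold tol ts t0; linarith
  · unfold ts t0; have := Real.rpow_pos_of_pos hpos ((4 : ℝ) / 5); linarith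
  · unfold ts t0; linarith
  · unfold wd
    have e : (8 / 100) * c1B / 4 * (N : ℝ) = ((8 / 100) * c1B * N) / 4 := by ring
    rw [e] at i3
    linarith
  · unfold tol; exact i4
  · unfold t0
    have := Real.rpow_le_rpow_of_exponent_le hN1 (show (4 : ℝ) / 5 ≤ 1 by norm_num)
    rwa [e1] at this

/-- `aa l ≤ l`. -/
lemma aa_le_nat {l : ℕ} (hl : 1 ≤ l) : aa l ≤ l := by
  induction l, hl using Nat.le_induction with
  | base =>
    unfold aa
    have h2 : Real.log 2 ≤ 1 := by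
      have := Real.log_two_lt_d9
      linarith
    norm_num
    linarith
  | succ n hn ih =>
    have := aa_succ_le hn
    push_cast
    linarith

lemma Adm_suffix (N : ℕ) (l₁ l₂ : List ℕ) (h : Adm N (l₁ ++ l₂)) : Adm N l₂ := by
  induction l₁ with
  | nil => simpa using h
  | cons a t ih => exact ih h.2

lemma Clean_dvd {N a b : ℕ} (h : Clean N (a * b)) : Clean N b := by
  intro r hr hl hd
  exact h r hr hl (Dvd.dvd.mul_left hd a)

/-- Suffix of a representation. -/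
lemma isRep_suffix {N : ℕ} {top post : List ℕ} {low mb m : ℕ} (h : IsRep N (top ++ post) low m)
    (hm : m = rowsProd top * mb) (hb : rowsProd post * low = mb) : IsRep N post low mb := by
  refine ⟨?_, ?_, ?_, Adm_suffix N top post h.adm, h.lowv, hb.symm, ?_⟩
  · exact (List.pairwise_append.1 h.sorted).2.1
  · intro p hp; exact h.normal p (List.mem_append_right _ hp)
  · intro p hp; exact h.cut p (List.mem_append_right _ hp)
  · have := h.clean; rw [hm] at this; exact Clean_dvd this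

lemma big_of_normal {N : ℕ} {l : List ℕ} (h : ∀ p ∈ l, Normal N p) : BigList N l := by
  intro p hp
  have := (h p hp).2.1
  unfold ts
  linarith

lemma lev_mono' {N : ℕ} {p q : ℕ} (hp : Normal N p) (h : p ≤ q) : lev p ≤ lev q :=
  lev_mono hp.1.two_le h


lemma Th_cons' (N h p : ℕ) (l : List ℕ) : Th N h (p :: l) = aa (h + 1) * (lev p - ts N) + Th N (h + 1) l := rfl

/-- Witness vector of case (ii). -/
def ztH (N : ℕ) (z0 : ℝ) (q1 q2 q3 q4 q5 q6 q7 q8 q9 q10 q11 : ℕ) : ℕ → ℝ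
    | 0 => min z0 (0.9 * (N : ℝ))
    | 1 => lev q1 - ts N
    | 2 => lev q2 - ts N
    | 3 => lev q3 - ts N
    | 4 => lev q4 - ts N
    | 5 => lev q5 - ts N
    | 6 => lev q6 - ts N
    | 7 => lev q7 - ts N
    | 8 => lev q8 - ts N
    | 9 => lev q9 - ts N
    | 10 => lev q10 - ts N
    | 11 => lev q11 - ts N
    | _ => 0

/-- Case (ii). -/
lemma mwit_high {N : ℕ} {C a₀ : ℝ} (hB : Big N C a₀) (q0 q1 q2 q3 q4 q5 q6 q7 q8 q9 q10 q11 q : ℕ) (lh : List ℕ)
    (hbig : BigList N (q0::q1::q2::q3::q4::q5::q6::q7::q8::q9::q10::q11::q::lh))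
    (hm1 : lev q1 ≤ lev q0)
    (hm2 : lev q2 ≤ lev q1)
    (hm3 : lev q3 ≤ lev q2)
    (hm4 : lev q4 ≤ lev q3)
    (hm5 : lev q5 ≤ lev q4)
    (hm6 : lev q6 ≤ lev q5)
    (hm7 : lev q7 ≤ lev q6)
    (hm8 : lev q8 ≤ lev q7)
    (hm9 : lev q9 ≤ lev q8)
    (hm10 : lev q10 ≤ lev q9)
    (hm11 : lev q11 ≤ lev q10)
    (hm12 : lev q ≤ lev q11) (hmh : ∀ q' ∈ lh.head?, lev q' ≤ lev q)
    (hadm : Adm N (q0::q1::q2::q3::q4::q5::q6::q7::q8::q9::q10::q11::q::lh))
    (hphi : Th N 0 (q0::q1::q2::q3::q4::q5::q6::q7::q8::q9::q10::q11::q::lh) ≤ (N : ℝ) + 4 * wd N)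
    (hq : c1B * N < lev q - ts N) :
    MWit N lh (ztH N (lev q0 - ts N) q1 q2 q3 q4 q5 q6 q7 q8 q9 q10 q11) := by
  have hN : (1 : ℝ) ≤ N := hB.pos
  have hc1 := c1B_pos
  have hcB : cB = 3 / 10 * c1B := rfl
  have hcs : c1B ≤ 1 / 10000 := by
    unfold c1B; rw [kapJ_eq]; norm_num
  have hc1N : c1B * N ≤ 1 / 10000 * N := mul_le_mul_of_nonneg_right hcs (by linarith)
  have hwd := hB.wd4
  have htolc := hB.tolc
  have hts0 := hB.ts_pos
  have hT : ∀ k, Th N k lh ≤ Th N (k + 1) lh := fun k => Th_succ_ge N k lh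
    (fun p hp => hbig p (by simp [hp]))
  have hz : ∀ p ∈ (q0::q1::q2::q3::q4::q5::q6::q7::q8::q9::q10::q11::q::lh), 0 ≤ lev p - ts N := fun p hp => le_trans hts0 (hbig p hp)
  have hz0 : 0 ≤ lev q0 - ts N := hz q0 (by simp)
  have hz1 : 0 ≤ lev q1 - ts N := hz q1 (by simp)
  have hz2 : 0 ≤ lev q2 - ts N := hz q2 (by simp)
  have hz3 : 0 ≤ lev q3 - ts N := hz q3 (by simp)
  have hz4 : 0 ≤ lev q4 - ts N := hz q4 (by simp)
  have hz5 : 0 ≤ lev q5 - ts N := hz q5 (by simp)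
  have hz6 : 0 ≤ lev q6 - ts N := hz q6 (by simp)
  have hz7 : 0 ≤ lev q7 - ts N := hz q7 (by simp)
  have hz8 : 0 ≤ lev q8 - ts N := hz q8 (by simp)
  have hz9 : 0 ≤ lev q9 - ts N := hz q9 (by simp)
  have hz10 : 0 ≤ lev q10 - ts N := hz q10 (by simp)
  have hz11 : 0 ≤ lev q11 - ts N := hz q11 (by simp)
  have hz12 : 0 ≤ lev q - ts N := hz q (by simp)
  simp only [Th_cons', zero_add, Nat.reduceAdd] at hphi
  simp only [Adm, Th_cons', zero_add, Nat.reduceAdd] at hadm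
  obtain ⟨a0,a1,a2,a3,a4,a5,a6,a7,a8,a9,a10,a11,a12,-⟩ := hadm
  have hA1 : (0.38 : ℝ) ≤ aa 1 := aa_nonneg_of_pos (by norm_num)
  have hA2 : (0.38 : ℝ) ≤ aa 2 := aa_nonneg_of_pos (by norm_num)
  have hA3 : (0.38 : ℝ) ≤ aa 3 := aa_nonneg_of_pos (by norm_num)
  have hA4 : (0.38 : ℝ) ≤ aa 4 := aa_nonneg_of_pos (by norm_num)
  have hA5 : (0.38 : ℝ) ≤ aa 5 := aa_nonneg_of_pos (by norm_num)
  have hA6 : (0.38 : ℝ) ≤ aa 6 := aa_nonneg_of_pos (by norm_num)
  have hA7 : (0.38 : ℝ) ≤ aa 7 := aa_nonneg_of_pos (by norm_num)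
  have hA8 : (0.38 : ℝ) ≤ aa 8 := aa_nonneg_of_pos (by norm_num)
  have hA9 : (0.38 : ℝ) ≤ aa 9 := aa_nonneg_of_pos (by norm_num)
  have hA10 : (0.38 : ℝ) ≤ aa 10 := aa_nonneg_of_pos (by norm_num)
  have hA11 : (0.38 : ℝ) ≤ aa 11 := aa_nonneg_of_pos (by norm_num)
  have hA12 : (0.38 : ℝ) ≤ aa 12 := aa_nonneg_of_pos (by norm_num)
  have hA13 : (0.38 : ℝ) ≤ aa 13 := aa_nonneg_of_pos (by norm_num)
  have hAm1 : aa 1 ≤ aa 2 := aa_mono (by norm_num)
  have hAm2 : aa 2 ≤ aa 3 := aa_mono (by norm_num)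
  have hAm3 : aa 3 ≤ aa 4 := aa_mono (by norm_num)
  have hAm4 : aa 4 ≤ aa 5 := aa_mono (by norm_num)
  have hAm5 : aa 5 ≤ aa 6 := aa_mono (by norm_num)
  have hAm6 : aa 6 ≤ aa 7 := aa_mono (by norm_num)
  have hAm7 : aa 7 ≤ aa 8 := aa_mono (by norm_num)
  have hAm8 : aa 8 ≤ aa 9 := aa_mono (by norm_num)
  have hAm9 : aa 9 ≤ aa 10 := aa_mono (by norm_num)
  have hAm10 : aa 10 ≤ aa 11 := aa_mono (by norm_num)
  have hAm11 : aa 11 ≤ aa 12 := aa_mono (by norm_num)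
  have hAm12 : aa 12 ≤ aa 13 := aa_mono (by norm_num)
  have hA2' := aa_two_gt
  have hP1 : aa 1 * (lev q1 - ts N) ≤ aa 2 * (lev q1 - ts N) := mul_le_mul_of_nonneg_right hAm1 hz1
  have hP2 : aa 2 * (lev q2 - ts N) ≤ aa 3 * (lev q2 - ts N) := mul_le_mul_of_nonneg_right hAm2 hz2
  have hP3 : aa 3 * (lev q3 - ts N) ≤ aa 4 * (lev q3 - ts N) := mul_le_mul_of_nonneg_right hAm3 hz3
  have hP4 : aa 4 * (lev q4 - ts N) ≤ aa 5 * (lev q4 - ts N) := mul_le_mul_of_nonneg_right hAm4 hz4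
  have hP5 : aa 5 * (lev q5 - ts N) ≤ aa 6 * (lev q5 - ts N) := mul_le_mul_of_nonneg_right hAm5 hz5
  have hP6 : aa 6 * (lev q6 - ts N) ≤ aa 7 * (lev q6 - ts N) := mul_le_mul_of_nonneg_right hAm6 hz6
  have hP7 : aa 7 * (lev q7 - ts N) ≤ aa 8 * (lev q7 - ts N) := mul_le_mul_of_nonneg_right hAm7 hz7
  have hP8 : aa 8 * (lev q8 - ts N) ≤ aa 9 * (lev q8 - ts N) := mul_le_mul_of_nonneg_right hAm8 hz8
  have hP9 : aa 9 * (lev q9 - ts N) ≤ aa 10 * (lev q9 - ts N) := mul_le_mul_of_nonneg_right hAm9 hz9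
  have hP10 : aa 10 * (lev q10 - ts N) ≤ aa 11 * (lev q10 - ts N) := mul_le_mul_of_nonneg_right hAm10 hz10
  have hP11 : aa 11 * (lev q11 - ts N) ≤ aa 12 * (lev q11 - ts N) := mul_le_mul_of_nonneg_right hAm11 hz11
  have hZ1 : 0.38 * (lev q - ts N) ≤ aa 1 * (lev q - ts N) := mul_le_mul_of_nonneg_right hA1 hz12
  have hZ2 : 0.38 * (lev q - ts N) ≤ aa 2 * (lev q - ts N) := mul_le_mul_of_nonneg_right hA2 hz12
  have hZ3 : 0.38 * (lev q - ts N) ≤ aa 3 * (lev q - ts N) := mul_le_mul_of_nonneg_right hA3 hz12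
  have hZ4 : 0.38 * (lev q - ts N) ≤ aa 4 * (lev q - ts N) := mul_le_mul_of_nonneg_right hA4 hz12
  have hZ5 : 0.38 * (lev q - ts N) ≤ aa 5 * (lev q - ts N) := mul_le_mul_of_nonneg_right hA5 hz12
  have hZ6 : 0.38 * (lev q - ts N) ≤ aa 6 * (lev q - ts N) := mul_le_mul_of_nonneg_right hA6 hz12
  have hZ7 : 0.38 * (lev q - ts N) ≤ aa 7 * (lev q - ts N) := mul_le_mul_of_nonneg_right hA7 hz12
  have hZ8 : 0.38 * (lev q - ts N) ≤ aa 8 * (lev q - ts N) := mul_le_mul_of_nonneg_right hA8 hz12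
  have hZ9 : 0.38 * (lev q - ts N) ≤ aa 9 * (lev q - ts N) := mul_le_mul_of_nonneg_right hA9 hz12
  have hZ10 : 0.38 * (lev q - ts N) ≤ aa 10 * (lev q - ts N) := mul_le_mul_of_nonneg_right hA10 hz12
  have hZ11 : 0.38 * (lev q - ts N) ≤ aa 11 * (lev q - ts N) := mul_le_mul_of_nonneg_right hA11 hz12
  have hZ12 : 0.38 * (lev q - ts N) ≤ aa 12 * (lev q - ts N) := mul_le_mul_of_nonneg_right hA12 hz12
  have hZ13 : 0.38 * (lev q - ts N) ≤ aa 13 * (lev q - ts N) := mul_le_mul_of_nonneg_right hA13 hz12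
  have hN1 : 0 ≤ aa 2 * (lev q1 - ts N) := mul_nonneg (by linarith only [hA2]) hz1
  have hN2 : 0 ≤ aa 3 * (lev q2 - ts N) := mul_nonneg (by linarith only [hA3]) hz2
  have hN3 : 0 ≤ aa 4 * (lev q3 - ts N) := mul_nonneg (by linarith only [hA4]) hz3
  have hN4 : 0 ≤ aa 5 * (lev q4 - ts N) := mul_nonneg (by linarith only [hA5]) hz4
  have hN5 : 0 ≤ aa 6 * (lev q5 - ts N) := mul_nonneg (by linarith only [hA6]) hz5
  have hN6 : 0 ≤ aa 7 * (lev q6 - ts N) := mul_nonneg (by linarith only [hA7]) hz6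
  have hN7 : 0 ≤ aa 8 * (lev q7 - ts N) := mul_nonneg (by linarith only [hA8]) hz7
  have hN8 : 0 ≤ aa 9 * (lev q8 - ts N) := mul_nonneg (by linarith only [hA9]) hz8
  have hN9 : 0 ≤ aa 10 * (lev q9 - ts N) := mul_nonneg (by linarith only [hA10]) hz9
  have hN10 : 0 ≤ aa 11 * (lev q10 - ts N) := mul_nonneg (by linarith only [hA11]) hz10
  have hN11 : 0 ≤ aa 12 * (lev q11 - ts N) := mul_nonneg (by linarith only [hA12]) hz11
  have hA1z : 0.38 * (lev q0 - ts N) ≤ aa 1 * (lev q0 - ts N) := mul_le_mul_of_nonneg_right hA1 hz0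
  have hA2z1 : 0.9 * (lev q1 - ts N) ≤ aa 2 * (lev q1 - ts N) := mul_le_mul_of_nonneg_right hA2'.le hz1
  have hT0 : 0 ≤ Th N 0 lh := Th_nonneg N 0 lh (fun p hp => hbig p (by simp [hp]))
  have hT0s : Th N 0 lh ≤ Th N 1 lh := hT 0
  have hT1s : Th N 1 lh ≤ Th N 2 lh := hT 1
  have hT2s : Th N 2 lh ≤ Th N 3 lh := hT 2
  have hT3s : Th N 3 lh ≤ Th N 4 lh := hT 3
  have hT4s : Th N 4 lh ≤ Th N 5 lh := hT 4
  have hT5s : Th N 5 lh ≤ Th N 6 lh := hT 5
  have hT6s : Th N 6 lh ≤ Th N 7 lh := hT 6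
  have hT7s : Th N 7 lh ≤ Th N 8 lh := hT 7
  have hT8s : Th N 8 lh ≤ Th N 9 lh := hT 8
  have hT9s : Th N 9 lh ≤ Th N 10 lh := hT 9
  have hT10s : Th N 10 lh ≤ Th N 11 lh := hT 10
  have hT11s : Th N 11 lh ≤ Th N 12 lh := hT 11
  have hT12s : Th N 12 lh ≤ Th N 13 lh := hT 12
  have hT13 : 0 ≤ Th N 13 lh := by linarith only [hT0, hT0s, hT1s, hT2s, hT3s, hT4s, hT5s, hT6s, hT7s, hT8s, hT9s, hT10s, hT11s, hT12s]
  have hZ13' : 0 ≤ aa 13 * (lev q - ts N) := by linarith only [hZ13, hz12]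
  have hq38 : 0.38 * (c1B * N) ≤ 0.38 * (lev q - ts N) := by linarith only [hq]
  have hz1top : lev q1 - ts N ≤ 0.9 * (N : ℝ) := by
    by_cases h0 : lev q0 - ts N ≤ 0.9 * (N : ℝ)
    · linarith only [h0, hm1]
    · have h0' : 0.9 * (N : ℝ) < lev q0 - ts N := not_le.1 h0
      linarith only [h0', hA1z, hA2z1, hphi, hN2, hN3, hN4, hN5, hN6, hN7, hN8, hN9, hN10, hN11, hZ13', hT13, hwd, hc1N, hN]
  have hminle : aa 1 * min (lev q0 - ts N) (0.9 * (N : ℝ)) ≤ aa 1 * (lev q0 - ts N) :=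
    mul_le_mul_of_nonneg_left (min_le_left _ _) (by linarith only [hA1])
  refine ⟨?_, ?_, ?_, ?_, ?_, ?_⟩
  · intro i hi
    have hi' : i ≤ 10 := by simp only [JJ] at hi; omega
    interval_cases i
    · show lev q1 - ts N ≤ min (lev q0 - ts N) (0.9 * (N : ℝ))
      exact le_min (by linarith only [hm1]) hz1top
    · show lev q2 - ts N ≤ lev q1 - ts N; linarith only [hm2]
    · show lev q3 - ts N ≤ lev q2 - ts N; linarith only [hm3]
    · show lev q4 - ts N ≤ lev q3 - ts N; linarith only [hm4]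
    · show lev q5 - ts N ≤ lev q4 - ts N; linarith only [hm5]
    · show lev q6 - ts N ≤ lev q5 - ts N; linarith only [hm6]
    · show lev q7 - ts N ≤ lev q6 - ts N; linarith only [hm7]
    · show lev q8 - ts N ≤ lev q7 - ts N; linarith only [hm8]
    · show lev q9 - ts N ≤ lev q8 - ts N; linarith only [hm9]
    · show lev q10 - ts N ≤ lev q9 - ts N; linarith only [hm10]
    · show lev q11 - ts N ≤ lev q10 - ts N; linarith only [hm11]
  · intro q' hq'
    have := hmh q' hq'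
    show lev q' - ts N ≤ lev q11 - ts N
    linarith only [this, hm12]
  · show ts N ≤ lev q11 - ts N
    exact hbig q11 (by simp)
  · show min (lev q0 - ts N) (0.9 * (N : ℝ)) ≤ 0.9 * (N : ℝ)
    exact min_le_right _ _
  · simp only [JJ, Finset.sum_range_succ, Finset.sum_range_zero, zero_add, Nat.reduceAdd, ztH]
    rw [hcB]
    linarith only [hminle, hphi, hZ13, hq38, hT12s, hwd]
  · intro i hi
    simp only [JJ] at hi
    rw [hcB]
    interval_cases i
    · simp only [JJ, Nat.reduceSub, Finset.sum_range_succ, Finset.sum_range_zero, zero_add, Nat.reduceAdd, ztH]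
      by_cases h0 : lev q0 - ts N ≤ 0.9 * (N : ℝ)
      · rw [min_eq_left h0]
        linarith only [a0, hZ12, hq38, hT11s, htolc]
      · have h0' : 0.9 * (N : ℝ) < lev q0 - ts N := not_le.1 h0
        rw [min_eq_right h0'.le]
        linarith only [h0', hA1z, hphi, hZ13', hT11s, hT12s, hP1, hP2, hP3, hP4, hP5, hP6, hP7, hP8, hP9, hP10, hP11, hts0, hwd, hc1N, hN]
    · simp only [JJ, Nat.reduceSub, Finset.sum_range_succ, Finset.sum_range_zero, zero_add, Nat.reduceAdd, ztH]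
      linarith only [a1, hZ11, hq38, hT10s, htolc]
    · simp only [JJ, Nat.reduceSub, Finset.sum_range_succ, Finset.sum_range_zero, zero_add, Nat.reduceAdd, ztH]
      linarith only [a2, hZ10, hq38, hT9s, htolc]
    · simp only [JJ, Nat.reduceSub, Finset.sum_range_succ, Finset.sum_range_zero, zero_add, Nat.reduceAdd, ztH]
      linarith only [a3, hZ9, hq38, hT8s, htolc]
    · simp only [JJ, Nat.reduceSub, Finset.sum_range_succ, Finset.sum_range_zero, zero_add, Nat.reduceAdd, ztH]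
      linarith only [a4, hZ8, hq38, hT7s, htolc]
    · simp only [JJ, Nat.reduceSub, Finset.sum_range_succ, Finset.sum_range_zero, zero_add, Nat.reduceAdd, ztH]
      linarith only [a5, hZ7, hq38, hT6s, htolc]
    · simp only [JJ, Nat.reduceSub, Finset.sum_range_succ, Finset.sum_range_zero, zero_add, Nat.reduceAdd, ztH]
      linarith only [a6, hZ6, hq38, hT5s, htolc]
    · simp only [JJ, Nat.reduceSub, Finset.sum_range_succ, Finset.sum_range_zero, zero_add, Nat.reduceAdd, ztH]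
      linarith only [a7, hZ5, hq38, hT4s, htolc]
    · simp only [JJ, Nat.reduceSub, Finset.sum_range_succ, Finset.sum_range_zero, zero_add, Nat.reduceAdd, ztH]
      linarith only [a8, hZ4, hq38, hT3s, htolc]
    · simp only [JJ, Nat.reduceSub, Finset.sum_range_succ, Finset.sum_range_zero, zero_add, Nat.reduceAdd, ztH]
      linarith only [a9, hZ3, hq38, hT2s, htolc]
    · simp only [JJ, Nat.reduceSub, Finset.sum_range_succ, Finset.sum_range_zero, zero_add, Nat.reduceAdd, ztH]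
      linarith only [a10, hZ2, hq38, hT1s, htolc]
    · simp only [JJ, Nat.reduceSub, Finset.sum_range_succ, Finset.sum_range_zero, zero_add, Nat.reduceAdd, ztH]
      linarith only [a11, hZ1, hq38, hT0s, htolc]

/-- Case (i). -/
lemma mwit_low {N : ℕ} {C a₀ : ℝ} (hB : Big N C a₀) (post : List ℕ)
    (hThb : ∀ h : ℕ, h ≤ 12 → Th N h post ≤ (1 + 3 * (h : ℝ)) * (13 * (c1B * N)))
    (habove : ∀ q ∈ post.head?, lev q - ts N ≤ c1B * N) :
    MWit N post (fun i => (1 / 50) / 30 ^ i * (N : ℝ)) := by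
  have hN : (1 : ℝ) ≤ N := hB.pos
  have hN0 : (0 : ℝ) ≤ N := by linarith only [hN]
  have hcN : c1B * N = (1 / 50) / 30 ^ 11 / 500 * (N : ℝ) := by
    unfold c1B; rw [kapJ_eq]
  have hcB : cB * N = 3 / 10 * (c1B * N) := by unfold cB; ring
  have hkN : kapJ * N = (1 / 50) / 30 ^ 11 * (N : ℝ) := by rw [kapJ_eq]
  have hb : ∀ (k : ℕ), 1 ≤ k → ∀ Y : ℝ, 0 ≤ Y → aa k * Y ≤ (k : ℝ) * Y := fun k hk Y hY =>
    mul_le_mul_of_nonneg_right (aa_le_nat hk) hY
  refine ⟨?_, ?_, ?_, ?_, ?_, ?_⟩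
  · intro i _
    show (1 / 50) / 30 ^ (i + 1) * (N : ℝ) ≤ (1 / 50) / 30 ^ i * (N : ℝ)
    apply mul_le_mul_of_nonneg_right _ hN0
    apply div_le_div_of_nonneg_left (by norm_num) (by positivity)
    rw [pow_succ]
    have : (0 : ℝ) < 30 ^ i := by positivity
    nlinarith
  · intro q hq
    have h1 := habove q hq
    show lev q - ts N ≤ (1 / 50) / 30 ^ (JJ - 1) * (N : ℝ)
    have e : ((1 : ℝ) / 50) / 30 ^ (JJ - 1) = (1 / 50) / 30 ^ 11 := by unfold JJ; norm_num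
    rw [e]
    rw [hcN] at h1
    have : (0:ℝ) ≤ (1 / 50) / 30 ^ 11 / 500 * (N : ℝ) := by positivity
    linarith only [h1, hN0, this]
  · show ts N ≤ (1 / 50) / 30 ^ (JJ - 1) * (N : ℝ)
    exact hB.ts_kap
  · show (1 / 50) / 30 ^ 0 * (N : ℝ) ≤ 0.9 * (N : ℝ)
    norm_num
    linarith only [hN0]
  · simp only [JJ, Finset.sum_range_succ, Finset.sum_range_zero, zero_add, Nat.reduceAdd]
    have h12 := hThb 12 le_rfl
    rw [hcB]
    rw [hcN] at h12 ⊢
    have hf := And.intro (hb 1 (by norm_num) ((1 / 50) / 30 ^ 0 * (N : ℝ)) (by positivity)) True.intro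
    push_cast at h12
    linarith only [h12, hN0, hf.1, hb 2 (by norm_num) ((1 / 50) / 30 ^ 1 * (N : ℝ)) (by positivity), hb 3 (by norm_num) ((1 / 50) / 30 ^ 2 * (N : ℝ)) (by positivity), hb 4 (by norm_num) ((1 / 50) / 30 ^ 3 * (N : ℝ)) (by positivity), hb 5 (by norm_num) ((1 / 50) / 30 ^ 4 * (N : ℝ)) (by positivity), hb 6 (by norm_num) ((1 / 50) / 30 ^ 5 * (N : ℝ)) (by positivity), hb 7 (by norm_num) ((1 / 50) / 30 ^ 6 * (N : ℝ)) (by positivity), hb 8 (by norm_num) ((1 / 50) / 30 ^ 7 * (N : ℝ)) (by positivity), hb 9 (by norm_num) ((1 / 50) / 30 ^ 8 * (N : ℝ)) (by positivity), hb 10 (by norm_num) ((1 / 50) / 30 ^ 9 * (N : ℝ)) (by positivity), hb 11 (by norm_num) ((1 / 50) / 30 ^ 10 * (N : ℝ)) (by positivity), hb 12 (by norm_num) ((1 / 50) / 30 ^ 11 * (N : ℝ)) (by positivity)]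
  · intro i hi
    have hi' : i ≤ 11 := by simp only [JJ] at hi; omega
    rw [hcB]
    have hts := hB.ts_pos
    interval_cases i
    · simp only [JJ, Nat.reduceSub, Finset.sum_range_succ, Finset.sum_range_zero, zero_add, Nat.reduceAdd]
      have h12 := hThb 11 (by norm_num)
      rw [hcN] at h12 ⊢
      push_cast at h12
      linarith only [h12, hN0, hts, hb 1 (by norm_num) ((1 / 50) / 30 ^ 1 * (N : ℝ)) (by positivity), hb 2 (by norm_num) ((1 / 50) / 30 ^ 2 * (N : ℝ)) (by positivity), hb 3 (by norm_num) ((1 / 50) / 30 ^ 3 * (N : ℝ)) (by positivity), hb 4 (by norm_num) ((1 / 50) / 30 ^ 4 * (N : ℝ)) (by positivity), hb 5 (by norm_num) ((1 / 50) / 30 ^ 5 * (N : ℝ)) (by positivity), hb 6 (by norm_num) ((1 / 50) / 30 ^ 6 * (N : ℝ)) (by positivity), hb 7 (by norm_num) ((1 / 50) / 30 ^ 7 * (N : ℝ)) (by positivity), hb 8 (by norm_num) ((1 / 50) / 30 ^ 8 * (N : ℝ)) (by positivity), hb 9 (by norm_num) ((1 / 50) / 30 ^ 9 *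 (N : ℝ)) (by positivity), hb 10 (by norm_num) ((1 / 50) / 30 ^ 10 * (N : ℝ)) (by positivity), hb 11 (by norm_num) ((1 / 50) / 30 ^ 11 * (N : ℝ)) (by positivity)]
    · simp only [JJ, Nat.reduceSub, Finset.sum_range_succ, Finset.sum_range_zero, zero_add, Nat.reduceAdd]
      have h12 := hThb 10 (by norm_num)
      rw [hcN] at h12 ⊢
      push_cast at h12
      linarith only [h12, hN0, hts, hb 1 (by norm_num) ((1 / 50) / 30 ^ 2 * (N : ℝ)) (by positivity), hb 2 (by norm_num) ((1 / 50) / 30 ^ 3 * (N : ℝ)) (by positivity), hb 3 (by norm_num) ((1 / 50) / 30 ^ 4 * (N : ℝ)) (by positivity), hb 4 (by norm_num) ((1 / 50) / 30 ^ 5 * (N : ℝ)) (by positivity), hb 5 (by norm_num) ((1 / 50) / 30 ^ 6 * (N : ℝ)) (by positivity), hb 6 (by norm_num) ((1 / 50) / 30 ^ 7 * (N : ℝ)) (by positivity), hb 7 (by norm_num) ((1 / 50) / 30 ^ 8 * (N : ℝ)) (by positivity), hb 8 (by norm_num) ((1 / 50) / 30 ^ 9 * (N : ℝ)) (by positivity), hb 9 (by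 norm_num) ((1 / 50) / 30 ^ 10 * (N : ℝ)) (by positivity), hb 10 (by norm_num) ((1 / 50) / 30 ^ 11 * (N : ℝ)) (by positivity)]
    · simp only [JJ, Nat.reduceSub, Finset.sum_range_succ, Finset.sum_range_zero, zero_add, Nat.reduceAdd]
      have h12 := hThb 9 (by norm_num)
      rw [hcN] at h12 ⊢
      push_cast at h12
      linarith only [h12, hN0, hts, hb 1 (by norm_num) ((1 / 50) / 30 ^ 3 * (N : ℝ)) (by positivity), hb 2 (by norm_num) ((1 / 50) / 30 ^ 4 * (N : ℝ)) (by positivity), hb 3 (by norm_num) ((1 / 50) / 30 ^ 5 * (N : ℝ)) (by positivity), hb 4 (by norm_num) ((1 / 50) / 30 ^ 6 * (N : ℝ)) (by positivity), hb 5 (by norm_num) ((1 / 50) / 30 ^ 7 * (N : ℝ)) (by positivity), hb 6 (by norm_num) ((1 / 50) / 30 ^ 8 * (N : ℝ)) (by positivity), hb 7 (by norm_num) ((1 / 50) / 30 ^ 9 * (N : ℝ)) (by positivity), hb 8 (by norm_num) ((1 / 50) / 30 ^ 10 * (N : ℝ)) (by positivity), hb 9 (by norm_num) ((1 / 50) / 30 ^ 11 * (N :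 ℝ)) (by positivity)]
    · simp only [JJ, Nat.reduceSub, Finset.sum_range_succ, Finset.sum_range_zero, zero_add, Nat.reduceAdd]
      have h12 := hThb 8 (by norm_num)
      rw [hcN] at h12 ⊢
      push_cast at h12
      linarith only [h12, hN0, hts, hb 1 (by norm_num) ((1 / 50) / 30 ^ 4 * (N : ℝ)) (by positivity), hb 2 (by norm_num) ((1 / 50) / 30 ^ 5 * (N : ℝ)) (by positivity), hb 3 (by norm_num) ((1 / 50) / 30 ^ 6 * (N : ℝ)) (by positivity), hb 4 (by norm_num) ((1 / 50) / 30 ^ 7 * (N : ℝ)) (by positivity), hb 5 (by norm_num) ((1 / 50) / 30 ^ 8 * (N : ℝ)) (by positivity), hb 6 (by norm_num) ((1 / 50) / 30 ^ 9 * (N : ℝ)) (by positivity), hb 7 (by norm_num) ((1 / 50) / 30 ^ 10 * (N : ℝ)) (by positivity), hb 8 (by norm_num) ((1 / 50) / 30 ^ 11 * (N : ℝ)) (by positivity)]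
    · simp only [JJ, Nat.reduceSub, Finset.sum_range_succ, Finset.sum_range_zero, zero_add, Nat.reduceAdd]
      have h12 := hThb 7 (by norm_num)
      rw [hcN] at h12 ⊢
      push_cast at h12
      linarith only [h12, hN0, hts, hb 1 (by norm_num) ((1 / 50) / 30 ^ 5 * (N : ℝ)) (by positivity), hb 2 (by norm_num) ((1 / 50) / 30 ^ 6 * (N : ℝ)) (by positivity), hb 3 (by norm_num) ((1 / 50) / 30 ^ 7 * (N : ℝ)) (by positivity), hb 4 (by norm_num) ((1 / 50) / 30 ^ 8 * (N : ℝ)) (by positivity), hb 5 (by norm_num) ((1 / 50) / 30 ^ 9 * (N : ℝ)) (by positivity), hb 6 (by norm_num) ((1 / 50) / 30 ^ 10 * (N : ℝ)) (by positivity), hb 7 (by norm_num) ((1 / 50) / 30 ^ 11 * (N : ℝ)) (by positivity)]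
    · simp only [JJ, Nat.reduceSub, Finset.sum_range_succ, Finset.sum_range_zero, zero_add, Nat.reduceAdd]
      have h12 := hThb 6 (by norm_num)
      rw [hcN] at h12 ⊢
      push_cast at h12
      linarith only [h12, hN0, hts, hb 1 (by norm_num) ((1 / 50) / 30 ^ 6 * (N : ℝ)) (by positivity), hb 2 (by norm_num) ((1 / 50) / 30 ^ 7 * (N : ℝ)) (by positivity), hb 3 (by norm_num) ((1 / 50) / 30 ^ 8 * (N : ℝ)) (by positivity), hb 4 (by norm_num) ((1 / 50) / 30 ^ 9 * (N : ℝ)) (by positivity), hb 5 (by norm_num) ((1 / 50) / 30 ^ 10 * (N : ℝ)) (by positivity), hb 6 (by norm_num) ((1 / 50) / 30 ^ 11 * (N : ℝ)) (by positivity)]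
    · simp only [JJ, Nat.reduceSub, Finset.sum_range_succ, Finset.sum_range_zero, zero_add, Nat.reduceAdd]
      have h12 := hThb 5 (by norm_num)
      rw [hcN] at h12 ⊢
      push_cast at h12
      linarith only [h12, hN0, hts, hb 1 (by norm_num) ((1 / 50) / 30 ^ 7 * (N : ℝ)) (by positivity), hb 2 (by norm_num) ((1 / 50) / 30 ^ 8 * (N : ℝ)) (by positivity), hb 3 (by norm_num) ((1 / 50) / 30 ^ 9 * (N : ℝ)) (by positivity), hb 4 (by norm_num) ((1 / 50) / 30 ^ 10 * (N : ℝ)) (by positivity), hb 5 (by norm_num) ((1 / 50) / 30 ^ 11 * (N : ℝ)) (by positivity)]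
    · simp only [JJ, Nat.reduceSub, Finset.sum_range_succ, Finset.sum_range_zero, zero_add, Nat.reduceAdd]
      have h12 := hThb 4 (by norm_num)
      rw [hcN] at h12 ⊢
      push_cast at h12
      linarith only [h12, hN0, hts, hb 1 (by norm_num) ((1 / 50) / 30 ^ 8 * (N : ℝ)) (by positivity), hb 2 (by norm_num) ((1 / 50) / 30 ^ 9 * (N : ℝ)) (by positivity), hb 3 (by norm_num) ((1 / 50) / 30 ^ 10 * (N : ℝ)) (by positivity), hb 4 (by norm_num) ((1 / 50) / 30 ^ 11 * (N : ℝ)) (by positivity)]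
    · simp only [JJ, Nat.reduceSub, Finset.sum_range_succ, Finset.sum_range_zero, zero_add, Nat.reduceAdd]
      have h12 := hThb 3 (by norm_num)
      rw [hcN] at h12 ⊢
      push_cast at h12
      linarith only [h12, hN0, hts, hb 1 (by norm_num) ((1 / 50) / 30 ^ 9 * (N : ℝ)) (by positivity), hb 2 (by norm_num) ((1 / 50) / 30 ^ 10 * (N : ℝ)) (by positivity), hb 3 (by norm_num) ((1 / 50) / 30 ^ 11 * (N : ℝ)) (by positivity)]
    · simp only [JJ, Nat.reduceSub, Finset.sum_range_succ, Finset.sum_range_zero, zero_add, Nat.reduceAdd]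
      have h12 := hThb 2 (by norm_num)
      rw [hcN] at h12 ⊢
      push_cast at h12
      linarith only [h12, hN0, hts, hb 1 (by norm_num) ((1 / 50) / 30 ^ 10 * (N : ℝ)) (by positivity), hb 2 (by norm_num) ((1 / 50) / 30 ^ 11 * (N : ℝ)) (by positivity)]
    · simp only [JJ, Nat.reduceSub, Finset.sum_range_succ, Finset.sum_range_zero, zero_add, Nat.reduceAdd]
      have h12 := hThb 1 (by norm_num)
      rw [hcN] at h12 ⊢
      push_cast at h12
      linarith only [h12, hN0, hts, hb 1 (by norm_num) ((1 / 50) / 30 ^ 11 * (N : ℝ)) (by positivity)]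
    · simp only [JJ, Nat.reduceSub, Finset.sum_range_succ, Finset.sum_range_zero, zero_add, Nat.reduceAdd]
      have h12 := hThb 0 (by norm_num)
      rw [hcN] at h12 ⊢
      push_cast at h12
      linarith only [h12, hN0, hts]

/-- A list of length 12. -/
lemma list12 (l : List ℕ) (h : l.length = 12) : ∃ q0 q1 q2 q3 q4 q5 q6 q7 q8 q9 q10 q11 : ℕ,
    l = [q0, q1, q2, q3, q4, q5, q6, q7, q8, q9, q10, q11] := by
  rcases l with _ | ⟨q0, l⟩
  · simp at h
  rcases l with _ | ⟨q1, l⟩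
  · simp at h
  rcases l with _ | ⟨q2, l⟩
  · simp at h
  rcases l with _ | ⟨q3, l⟩
  · simp at h
  rcases l with _ | ⟨q4, l⟩
  · simp at h
  rcases l with _ | ⟨q5, l⟩
  · simp at h
  rcases l with _ | ⟨q6, l⟩
  · simp at h
  rcases l with _ | ⟨q7, l⟩
  · simp at h
  rcases l with _ | ⟨q8, l⟩
  · simp at h
  rcases l with _ | ⟨q9, l⟩
  · simp at h
  rcases l with _ | ⟨q10, l⟩
  · simp at h
  rcases l with _ | ⟨q11, l⟩
  · simp at h
  rcases l with _ | ⟨x, l⟩
  · exact ⟨q0, q1, q2, q3, q4, q5, q6, q7, q8, q9, q10, q11, rfl⟩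
  · simp at h

lemma pw_step {a b : ℕ} {t : List ℕ} (h : (a :: b :: t).Pairwise (· > ·)) :
    b < a ∧ (b :: t).Pairwise (· > ·) := by
  rw [List.pairwise_cons] at h
  exact ⟨h.1 b (by simp), h.2⟩

lemma rowsProd_cons (q : ℕ) (l : List ℕ) : rowsProd (q :: l) = (q - 1) * rowsProd l := by
  simp [rowsProd]

/-- The case analysis for one `mb`. -/
lemma dbl_case {C a₀ : ℝ} {N : ℕ} (hB : Big N C a₀)
    (hrep : ∀ l low m, IsRep N l low m → m < Bnd N)
    (hcons : ∀ (h : ℕ) (p : ℕ) (l : List ℕ), (p :: l).Pairwise (· > ·) →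
      BigList N (p :: l) → tol N ≤ ts N → Adm N (p :: l) →
      Th N h (p :: l) ≤ (1 + 3 * (h : ℝ)) * (13 * (lev p - ts N)))
    {top post : List ℕ} {low mb : ℕ} (htop : top.length = JJ) (hb : rowsProd post * low = mb)
    (hr : IsRep N (top ++ post) low (rowsProd top * mb))
    (hphi : Th N 0 (top ++ post) ≤ (N : ℝ) + 4 * wd N) :
    mb ∈ Mset N ∨ ∃ q lh, post = q :: lh ∧ rowsProd lh * low ∈ Mset N ∧ q ∈ primesLev (t0 N) N ∧
      mb = (q - 1) * (rowsProd lh * low) := by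
  have hrp : IsRep N post low mb := isRep_suffix hr rfl hb
  have hN : (1 : ℝ) ≤ N := hB.pos
  have hc1 := c1B_pos
  have hcN0 : 0 ≤ c1B * N := mul_nonneg hc1.le (by linarith only [hN])
  by_cases hcase : ∀ q ∈ post.head?, lev q - ts N ≤ c1B * N
  · left
    refine Finset.mem_filter.2 ⟨Finset.mem_range.2 (hrep _ _ _ hrp), post, low,
      (fun i => (1 / 50) / 30 ^ i * (N : ℝ)), hrp, ?_⟩
    refine mwit_low hB post ?_ hcase
    intro h _
    cases hp : post with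
    | nil =>
      simp only [Th]
      positivity
    | cons q l =>
      rw [hp] at hrp hcase
      refine le_trans (hcons h q l hrp.sorted (big_of_normal hrp.normal) hB.tol_ts hrp.adm) ?_
      have h1 := hcase q (by simp)
      have h2 : (0 : ℝ) ≤ 1 + 3 * (h : ℝ) := by positivity
      exact mul_le_mul_of_nonneg_left (by linarith only [h1]) h2
  · right
    simp only [not_forall, not_le] at hcase
    obtain ⟨q, hq, hqc⟩ := hcase
    cases hp : post with
    | nil => simp [hp] at hq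
    | cons q' lh =>
      have hq' : q' = q := by
        rw [hp] at hq
        simpa using hq
      subst hq'
      rw [hp] at hr hrp hphi
      have hnq := hrp.normal q' (by simp)
      have hrp2 : IsRep N lh low (rowsProd lh * low) :=
        isRep_suffix (top := [q']) (post := lh) hrp (m := mb) (mb := rowsProd lh * low)
          (by rw [hrp.eq, rowsProd_cons]; simp [rowsProd, Nat.mul_assoc]) rfl
      refine ⟨q', lh, rfl, ?_, ?_, ?_⟩
      · obtain ⟨q0, q1, q2, q3, q4, q5, q6, q7, q8, q9, q10, q11, rfl⟩ := list12 top htop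
        refine Finset.mem_filter.2 ⟨Finset.mem_range.2 (hrep _ _ _ hrp2), lh, low,
          ztH N (lev q0 - ts N) q1 q2 q3 q4 q5 q6 q7 q8 q9 q10 q11, hrp2, ?_⟩
        simp only [List.cons_append, List.nil_append] at hr hphi
        have hsort := hr.sorted
        have hnorm := hr.normal
        have hbig := big_of_normal hnorm
        have hP : ∀ p ∈ (q0::q1::q2::q3::q4::q5::q6::q7::q8::q9::q10::q11::q'::lh), 2 ≤ p :=
          fun p hp => (hnorm p hp).1.two_le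
        obtain ⟨s1, hs1⟩ := pw_step hsort
        obtain ⟨s2, hs2⟩ := pw_step hs1
        obtain ⟨s3, hs3⟩ := pw_step hs2
        obtain ⟨s4, hs4⟩ := pw_step hs3
        obtain ⟨s5, hs5⟩ := pw_step hs4
        obtain ⟨s6, hs6⟩ := pw_step hs5
        obtain ⟨s7, hs7⟩ := pw_step hs6
        obtain ⟨s8, hs8⟩ := pw_step hs7
        obtain ⟨s9, hs9⟩ := pw_step hs8
        obtain ⟨s10, hs10⟩ := pw_step hs9
        obtain ⟨s11, hs11⟩ := pw_step hs10
        obtain ⟨s12, hs12⟩ := pw_step hs11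
        have hm1 : lev q1 ≤ lev q0 := lev_mono (hP _ (by simp)) s1.le
        have hm2 : lev q2 ≤ lev q1 := lev_mono (hP _ (by simp)) s2.le
        have hm3 : lev q3 ≤ lev q2 := lev_mono (hP _ (by simp)) s3.le
        have hm4 : lev q4 ≤ lev q3 := lev_mono (hP _ (by simp)) s4.le
        have hm5 : lev q5 ≤ lev q4 := lev_mono (hP _ (by simp)) s5.le
        have hm6 : lev q6 ≤ lev q5 := lev_mono (hP _ (by simp)) s6.le
        have hm7 : lev q7 ≤ lev q6 := lev_mono (hP _ (by simp)) s7.le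
        have hm8 : lev q8 ≤ lev q7 := lev_mono (hP _ (by simp)) s8.le
        have hm9 : lev q9 ≤ lev q8 := lev_mono (hP _ (by simp)) s9.le
        have hm10 : lev q10 ≤ lev q9 := lev_mono (hP _ (by simp)) s10.le
        have hm11 : lev q11 ≤ lev q10 := lev_mono (hP _ (by simp)) s11.le
        have hm12 : lev q' ≤ lev q11 := lev_mono (hP _ (by simp)) s12.le
        have hmh : ∀ x ∈ lh.head?, lev x ≤ lev q' := by
          intro x hx
          have hx' : x ∈ lh := List.mem_of_mem_head? hx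
          have hlt := (List.pairwise_cons.1 hs12).1 x hx'
          exact lev_mono (hP x (by simp [hx'])) hlt.le
        exact mwit_high hB q0 q1 q2 q3 q4 q5 q6 q7 q8 q9 q10 q11 q' lh hbig hm1 hm2 hm3 hm4 hm5 hm6 hm7 hm8 hm9 hm10 hm11 hm12
          hmh hr.adm hphi hqc
      · have hlt : lev q' < N := by
          have h1 := hrp.cut q' (by simp)
          have h2 : 0 < Dc N := by
            unfold Dc
            exact Real.rpow_pos_of_pos (by linarith only [hN]) _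
          linarith only [h1, h2]
        have hlow : t0 N ≤ lev q' := hnq.2.1
        refine Finset.mem_filter.2 ⟨Finset.mem_range.2 ?_, hnq.1, hlow, hlt⟩
        have := Nat.lt_ceil.2 (lt_exp_exp_of_level hnq.1 hlt)
        omega
      · rw [hrp.eq, rowsProd_cons, Nat.mul_assoc]

end Dbl

/-- (i),(ii) Doubling. -/
theorem doubling_proof : ∃ N₀ : ℕ, ∀ N ≥ N₀, ∀ (F : Finset ℕ) (ρ : ℕ → List ℕ × List ℕ × ℕ),
    (∀ mb ∈ F, let top := (ρ mb).1; let post := (ρ mb).2.1; let low := (ρ mb).2.2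
      top.length = JJ ∧ rowsProd post * low = mb ∧ IsRep N (top ++ post) low (rowsProd top * mb) ∧
      Th N 0 (top ++ post) ≤ (N : ℝ) + 4 * wd N) →
    ∑ mb ∈ F, (1 : ℝ) / mb ≤ ((N : ℝ) + 7) * ∑ m ∈ Mset N, (1 : ℝ) / m := by
  obtain ⟨N1, hN1⟩ := rep_lt_Bnd
  obtain ⟨N2, hN2⟩ := Th_cons_le
  obtain ⟨C, a₀, hC0, hC⟩ := mert_interval
  obtain ⟨N3, hN3⟩ := Dbl.big_ev C a₀
  refine ⟨max (max N1 N2) N3, fun N hN F ρ hF => ?_⟩
  have h1 : N1 ≤ N := le_trans (le_trans (le_max_left _ _) (le_max_left _ _)) hN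
  have h2 : N2 ≤ N := le_trans (le_trans (le_max_right _ _) (le_max_left _ _)) hN
  have h3 : N3 ≤ N := le_trans (le_max_right _ _) hN
  have hB := hN3 N h3
  have hNr : (1 : ℝ) ≤ N := hB.pos
  set M : ℝ := ∑ m ∈ Mset N, (1 : ℝ) / m with hM
  have hM0 : 0 ≤ M := Finset.sum_nonneg (fun _ _ => by positivity)
  -- mass of the primes
  have hmass : massI (t0 N) N ≤ (N : ℝ) + 6 := by
    have h4 := abs_le.1 (hC (t0 N) N hB.t0a hB.t0N)
    have h5 : C * Real.exp (-t0 N) ≤ 1 := by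
      have h6 : C ≤ Real.exp (t0 N) := by
        have := Real.add_one_le_exp (t0 N)
        linarith only [this, hB.t0C]
      rw [Real.exp_neg]
      rw [← div_eq_mul_inv]
      rw [div_le_one (Real.exp_pos _)]
      exact h6
    have h7 : 0 ≤ t0 N := by
      unfold t0
      exact Real.rpow_nonneg (Nat.cast_nonneg N) _
    linarith only [h4.2, h5, h7]
  have hcase : ∀ mb ∈ F, mb ∈ Mset N ∨ ∃ q lh, (ρ mb).2.1 = q :: lh ∧
      rowsProd lh * (ρ mb).2.2 ∈ Mset N ∧ q ∈ primesLev (t0 N) N ∧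
      mb = (q - 1) * (rowsProd lh * (ρ mb).2.2) := by
    intro mb hmb
    obtain ⟨a1, a2, a3, a4⟩ := hF mb hmb
    exact Dbl.dbl_case hB (hN1 N h1) (hN2 N h2) a1 a2 a3 a4
  -- split
  rw [← Finset.sum_filter_add_sum_filter_not F (fun mb => mb ∈ Mset N)]
  have hF1 : ∑ mb ∈ F.filter (fun mb => mb ∈ Mset N), (1 : ℝ) / mb ≤ M := by
    apply Finset.sum_le_sum_of_subset_of_nonneg
    · intro x hx
      exact (Finset.mem_filter.1 hx).2
    · intro _ _ _
      positivity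
  set F2 := F.filter (fun mb => ¬ mb ∈ Mset N) with hF2def
  let φ : ℕ → ℕ × ℕ := fun mb => ((ρ mb).2.1.headD 0, rowsProd (ρ mb).2.1.tail * (ρ mb).2.2)
  let g : ℕ × ℕ → ℝ := fun x => (1 / ((x.1 : ℝ) - 1)) * (1 / (x.2 : ℝ))
  have hphi : ∀ mb ∈ F2, (φ mb).1 ∈ primesLev (t0 N) N ∧ (φ mb).2 ∈ Mset N ∧
      mb = ((φ mb).1 - 1) * (φ mb).2 := by
    intro mb hmb
    obtain ⟨hmb1, hmb2⟩ := Finset.mem_filter.1 hmb
    rcases hcase mb hmb1 with h | ⟨q, lh, hp, hm, hq, he⟩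
    · exact absurd h hmb2
    · simp only [φ, hp, List.headD_cons, List.tail_cons]
      exact ⟨hq, hm, he⟩
  have hinj : Set.InjOn φ (F2 : Set ℕ) := by
    intro a ha b hb hab
    have h5 := (hphi a ha).2.2
    have h6 := (hphi b hb).2.2
    rw [h5, h6, hab]
  have hval : ∀ mb ∈ F2, (1 : ℝ) / mb = g (φ mb) := by
    intro mb hmb
    obtain ⟨hq, _, he⟩ := hphi mb hmb
    have hp2 : 2 ≤ (φ mb).1 := (Finset.mem_filter.1 hq).2.1.two_le
    have hc : (((φ mb).1 - 1 : ℕ) : ℝ) = ((φ mb).1 : ℝ) - 1 := by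
      rw [Nat.cast_sub (by omega)]
      simp
    show (1 : ℝ) / mb = (1 / (((φ mb).1 : ℝ) - 1)) * (1 / ((φ mb).2 : ℝ))
    rw [one_div_mul_one_div, ← hc, ← Nat.cast_mul, ← he]
  have hF2 : ∑ mb ∈ F2, (1 : ℝ) / mb ≤ massI (t0 N) N * M := by
    calc ∑ mb ∈ F2, (1 : ℝ) / mb = ∑ mb ∈ F2, g (φ mb) := Finset.sum_congr rfl hval
      _ = ∑ x ∈ F2.image φ, g x := (Finset.sum_image hinj).symm
      _ ≤ ∑ x ∈ primesLev (t0 N) N ×ˢ Mset N, g x := by
          apply Finset.sum_le_sum_of_subset_of_nonneg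
          · intro x hx
            obtain ⟨mb, hmb, rfl⟩ := Finset.mem_image.1 hx
            exact Finset.mem_product.2 ⟨(hphi mb hmb).1, (hphi mb hmb).2.1⟩
          · intro x hx _
            have hp2 : 2 ≤ x.1 := (Finset.mem_filter.1 (Finset.mem_product.1 hx).1).2.1.two_le
            have : (2 : ℝ) ≤ x.1 := by exact_mod_cast hp2
            have h8 : 0 ≤ (x.1 : ℝ) - 1 := by linarith only [this]
            exact mul_nonneg (div_nonneg zero_le_one h8) (by positivity)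
      _ = massI (t0 N) N * M := by
          rw [Finset.sum_product, massI, hM, Finset.sum_mul]
          refine Finset.sum_congr rfl (fun p _ => ?_)
          rw [Finset.mul_sum]
  have h9 : massI (t0 N) N * M ≤ ((N : ℝ) + 6) * M := mul_le_mul_of_nonneg_right hmass hM0
  nlinarith [hF1, hF2, h9]

end
end Vale.Agent.Lib.P031V
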