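import Vale.Agent.Lib.P031V.ThmBDoubling
import Vale.Agent.Lib.P031V.NegBE5

/-! # P031: Theorem B, case (a): few rows. Blueprint section 8. -/

namespace Vale.Agent.Lib.P031V
open Real Finset
open scoped Classical
noncomputable section

namespace FewAux

/-- Clean low values are in `M`. -/
lemma low_mem_Mset {N m : ℕ} {C a₀ : ℝ} (hB : Dbl.Big N C a₀) (hm : m < Bnd N) (h : LowVal N m)
    (hc : Clean N m) : m ∈ Mset N := by
  refine Finset.mem_filter.2 ⟨Finset.mem_range.2 hm, [], m, (fun i => (1 / 50) / 30 ^ i * (N : ℝ)), ?_, ?_⟩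
  · exact ⟨List.Pairwise.nil, by simp, by simp, trivial, h, by simp [rowsProd], hc⟩
  · refine Dbl.mwit_low hB [] ?_ (by simp)
    intro k _
    have hNr : (1 : ℝ) ≤ N := hB.pos
    have h0 := Dbl.c1B_pos
    show (0 : ℝ) ≤ _
    positivity

lemma low_lt_Bnd {N m : ℕ} (h : LowVal N m) : m < Bnd N := by
  obtain ⟨_, _, _, _, hle⟩ := h
  have hY : 1 ≤ Ymax N := by
    unfold Ymax
    exact Real.one_le_exp (by positivity)
  have h2 : (m : ℝ) ≤ (Ymax N) ^ 2 := by nlinarith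
  have h3 : m ≤ ⌈(Ymax N) ^ 2⌉₊ := by
    have h4 := Nat.le_ceil ((Ymax N) ^ 2)
    have h5 : (m : ℝ) ≤ (⌈(Ymax N) ^ 2⌉₊ : ℝ) := h2.trans h4
    exact_mod_cast h5
  unfold Bnd
  omega

lemma clean_right {N a b : ℕ} (hb : Clean N (a * b)) : Clean N b :=
  fun r hr hl hd => hb r hr hl (hd.trans (Dvd.intro_left _ rfl))

end FewAux

theorem few_rows_proof : ∃ N₀ : ℕ, ∀ N ≥ N₀, ∀ (F : Finset ℕ) (ρ : ℕ → List ℕ × ℕ),
    (∀ m ∈ F, (ρ m).1.length < JJ ∧ IsRep N (ρ m).1 (ρ m).2 m) →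
    ∑ m ∈ F, (1 : ℝ) / m ≤ (JJ : ℝ) * ((N : ℝ) + 7) ^ (JJ - 1) * ∑ m ∈ Mset N, (1 : ℝ) / m := by
  obtain ⟨C, a₀, hC0, hC⟩ := mert_interval
  obtain ⟨N3, hN3⟩ := Dbl.big_ev C a₀
  refine ⟨N3, fun N hN F ρ hF => ?_⟩
  have hB := hN3 N hN
  have hNr : (1 : ℝ) ≤ N := hB.pos
  set M : ℝ := ∑ m ∈ Mset N, (1 : ℝ) / m with hM
  have hM0 : 0 ≤ M := Finset.sum_nonneg (fun _ _ => by positivity)
  -- mass of the primes
  have hmass : massI (t0 N) N ≤ (N : ℝ) + 6 := by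
    have h4 := abs_le.1 (hC (t0 N) N hB.t0a hB.t0N)
    have h5 : C * Real.exp (-t0 N) ≤ 1 := by
      have h6 : C ≤ Real.exp (t0 N) := by
        have := Real.add_one_le_exp (t0 N)
        linarith only [this, hB.t0C]
      rw [Real.exp_neg, ← div_eq_mul_inv, div_le_one (Real.exp_pos _)]
      exact h6
    have h7 : 0 ≤ t0 N := by
      unfold t0
      exact Real.rpow_nonneg (Nat.cast_nonneg N) _
    linarith only [h4.2, h5, h7]
  set Q := primesLev (t0 N) N with hQ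
  have hQp : ∀ p ∈ Q, p.Prime := fun p hp => (Finset.mem_filter.1 hp).2.1
  have hlist := E5Aux.sum_listSet Q hQp ((N : ℝ) + 6) (by linarith) hmass (JJ - 1)
  -- low values
  set Lw : Finset ℕ := (Finset.range (Bnd N)).filter (fun m => LowVal N m ∧ Clean N m) with hLw
  have hLwM : ∑ m ∈ Lw, (1 : ℝ) / m ≤ M := by
    refine Finset.sum_le_sum_of_subset_of_nonneg ?_ (fun _ _ _ => by positivity)
    intro m hm
    obtain ⟨h1, h2, h3⟩ := Finset.mem_filter.1 hm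
    exact FewAux.low_mem_Mset hB (Finset.mem_range.1 h1) h2 h3
  have hDc : 0 < Dc N := by
    unfold Dc
    exact Real.rpow_pos_of_pos (by linarith) _
  -- the rep of `m`
  have hrep : ∀ m ∈ F, (ρ m).1 ∈ E5Aux.listSet Q (JJ - 1) ∧ (ρ m).2 ∈ Lw ∧
      m = rowsProd (ρ m).1 * (ρ m).2 := by
    intro m hm
    obtain ⟨h1, h2⟩ := hF m hm
    refine ⟨E5Aux.mem_listSet _ _ (by omega) ?_, ?_, h2.eq⟩
    · intro p hp
      have hn := h2.normal p hp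
      have hc := h2.cut p hp
      exact mem_primesLev_of hn.1 hn.2.1 (by linarith)
    · have hc : Clean N (rowsProd (ρ m).1 * (ρ m).2) := by
        rw [← h2.eq]
        exact h2.clean
      exact Finset.mem_filter.2 ⟨Finset.mem_range.2 (FewAux.low_lt_Bnd h2.lowv), h2.lowv,
        FewAux.clean_right hc⟩
  have hinj : Set.InjOn ρ (F : Set ℕ) := by
    intro a ha b hb he
    rw [(hrep a ha).2.2, (hrep b hb).2.2, he]
  have h1 : ∑ m ∈ F, (1 : ℝ) / m = ∑ x ∈ F.image ρ, (1 : ℝ) / ((rowsProd x.1 * x.2 : ℕ) : ℝ) := by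
    rw [Finset.sum_image hinj]
    refine Finset.sum_congr rfl (fun m hm => ?_)
    rw [← (hrep m hm).2.2]
  have h2 : ∑ x ∈ F.image ρ, (1 : ℝ) / ((rowsProd x.1 * x.2 : ℕ) : ℝ) ≤
      ∑ x ∈ (E5Aux.listSet Q (JJ - 1)) ×ˢ Lw, (1 : ℝ) / ((rowsProd x.1 * x.2 : ℕ) : ℝ) := by
    refine Finset.sum_le_sum_of_subset_of_nonneg ?_ (fun _ _ _ => by positivity)
    intro x hx
    obtain ⟨m, hm, rfl⟩ := Finset.mem_image.1 hx
    exact Finset.mem_product.2 ⟨(hrep m hm).1, (hrep m hm).2.1⟩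
  have h3 : ∑ x ∈ (E5Aux.listSet Q (JJ - 1)) ×ˢ Lw, (1 : ℝ) / ((rowsProd x.1 * x.2 : ℕ) : ℝ)
      = (∑ l ∈ E5Aux.listSet Q (JJ - 1), (1 : ℝ) / (rowsProd l : ℝ)) * ∑ m ∈ Lw, (1 : ℝ) / m := by
    rw [Finset.sum_product, Finset.sum_mul_sum]
    refine Finset.sum_congr rfl (fun l _ => Finset.sum_congr rfl (fun m _ => ?_))
    push_cast
    rw [one_div_mul_one_div]
  have hP : (0 : ℝ) ≤ ((N : ℝ) + 7) ^ (JJ - 1) := by positivity
  have hlist' : ∑ l ∈ E5Aux.listSet Q (JJ - 1), (1 : ℝ) / (rowsProd l : ℝ) ≤ ((N : ℝ) + 7) ^ (JJ - 1) := by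
    have e : (1 + ((N : ℝ) + 6)) = (N : ℝ) + 7 := by ring
    rwa [e] at hlist
  have hLw0 : 0 ≤ ∑ m ∈ Lw, (1 : ℝ) / m := Finset.sum_nonneg (fun _ _ => by positivity)
  have hJ : (1 : ℝ) ≤ (JJ : ℝ) := by norm_num [JJ]
  calc ∑ m ∈ F, (1 : ℝ) / m ≤ (∑ l ∈ E5Aux.listSet Q (JJ - 1), (1 : ℝ) / (rowsProd l : ℝ)) * ∑ m ∈ Lw, (1 : ℝ) / m := by
        rw [h1, ← h3]
        exact h2
    _ ≤ ((N : ℝ) + 7) ^ (JJ - 1) * M := mul_le_mul hlist' hLwM hLw0 hP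
    _ ≤ (JJ : ℝ) * ((N : ℝ) + 7) ^ (JJ - 1) * M := by
        have h5 : 0 ≤ ((N : ℝ) + 7) ^ (JJ - 1) * M := mul_nonneg hP hM0
        nlinarith

end
end Vale.Agent.Lib.P031V
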