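import Vale.Agent.Lib.P031V.PairE
import Vale.Agent.Lib.P031V.NegB
import Vale.Agent.Lib.P031V.NormalP

/-! # P031: Theorem B, case (c): shift of one row. Blueprint section 8 (c). -/

namespace Vale.Agent.Lib.P031V
open Real Finset
open scoped Classical
noncomputable section

/-- The level of the next row (or `t0` if there is none). -/
def nextLev (N : ℕ) (l : List ℕ) : ℝ := match l with
  | [] => t0 N
  | q :: _ => lev q

/-- Room at the entry `q` with suffix `post`. -/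
def Room (N : ℕ) (q : ℕ) (post : List ℕ) : Prop :=
  Rr N ≤ lev q - Th N 0 post ∧ Rr N ≤ lev q - nextLev N post

namespace ShiftAux

lemma adm_suffix (N : ℕ) : ∀ (l₁ l₂ : List ℕ), Adm N (l₁ ++ l₂) → Adm N l₂
  | [], _, h => h
  | _ :: l₁, l₂, h => adm_suffix N l₁ l₂ h.2

lemma th_swap (N h : ℕ) (pre post : List ℕ) (p q : ℕ) :
    Th N h (pre ++ p :: post)
      = Th N h (pre ++ q :: post) - aa (h + pre.length + 1) * (lev q - lev p) := by
  rw [Th_append, Th_append]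
  simp only [Th]
  ring

/-- The shift keeps admissibility, when the new row has slack. -/
lemma adm_shift (N : ℕ) (post : List ℕ) (p q : ℕ) (hpq : lev p ≤ lev q)
    (hp : -tol N ≤ lev p - Th N 0 post) :
    ∀ pre : List ℕ, Adm N (pre ++ q :: post) → Adm N (pre ++ p :: post)
  | [], h => ⟨hp, h.2⟩
  | t :: pre, h => by
      refine ⟨?_, adm_shift N post p q hpq hp pre h.2⟩
      have h1 : -tol N ≤ lev t - Th N 0 (pre ++ q :: post) := h.1
      have h2 := th_swap N 0 pre post p q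
      have h3 : 0 ≤ aa (0 + pre.length + 1) * (lev q - lev p) :=
        mul_nonneg (by have := aa_nonneg_of_pos (l := 0 + pre.length + 1) (by omega); linarith)
          (by linarith)
      show -tol N ≤ lev t - Th N 0 (pre ++ p :: post)
      rw [h2]
      linarith

/-- All rows down to the shifted one have slack `≥ 3w`. -/
def TopSlack (N i : ℕ) (l : List ℕ) : Prop :=
  ∀ l₁ t l₂, l = l₁ ++ t :: l₂ → l₁.length ≤ i → 3 * wd N ≤ lev t - Th N 0 l₂

lemma topSlack_shift (N : ℕ) (post : List ℕ) (p q : ℕ)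
    (h3 : 3 * wd N ≤ (0.38 : ℝ) * (lev q - lev p) - tol N) (hpq : lev p ≤ lev q)
    (hp : 3 * wd N ≤ lev p - Th N 0 post) :
    ∀ pre : List ℕ, Adm N (pre ++ q :: post) → TopSlack N pre.length (pre ++ p :: post)
  | [], _ => by
      intro l₁ t l₂ hl hlen
      have hl₁ : l₁ = [] := by simpa using hlen
      subst hl₁
      simp only [List.nil_append, List.cons.injEq] at hl
      rcases hl with ⟨rfl, rfl⟩
      exact hp
  | x :: pre, h => by
      intro l₁ t l₂ hl hlen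
      cases l₁ with
      | nil =>
        simp only [List.cons_append, List.nil_append, List.cons.injEq] at hl
        rcases hl with ⟨rfl, rfl⟩
        have h1 : -tol N ≤ lev x - Th N 0 (pre ++ q :: post) := h.1
        have h2 := th_swap N 0 pre post p q
        have h4 : (0.38 : ℝ) * (lev q - lev p) ≤ aa (0 + pre.length + 1) * (lev q - lev p) :=
          mul_le_mul_of_nonneg_right (aa_nonneg_of_pos (by omega)) (by linarith)
        rw [h2]
        nlinarith
      | cons y l₁ =>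
        simp only [List.cons_append, List.cons.injEq] at hl
        rcases hl with ⟨rfl, hl⟩
        simp only [List.length_cons] at hlen
        exact topSlack_shift N post p q h3 hpq hp pre h.2 l₁ t l₂ hl (by omega)

/-- First difference of two lists. -/
lemma first_diff (post post' : List ℕ) (p p' : ℕ) : ∀ (pre pre' : List ℕ), pre.length = pre'.length →
    (pre, p) ≠ (pre', p') → ∃ c a b r r', pre ++ p :: post = c ++ a :: r ∧
      pre' ++ p' :: post' = c ++ b :: r' ∧ a ≠ b ∧ c.length ≤ pre.length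
  | [], [], _, h => ⟨[], p, p', post, post', rfl, rfl, fun e => h (by rw [e]), by simp⟩
  | [], _ :: _, hl, _ => by simp at hl
  | _ :: _, [], hl, _ => by simp at hl
  | x :: pre, y :: pre', hl, h => by
      by_cases hxy : x = y
      · subst hxy
        have h' : (pre, p) ≠ (pre', p') := fun e => h (by
          have e1 : pre = pre' := congrArg Prod.fst e
          have e2 : p = p' := congrArg Prod.snd e
          rw [e1, e2])
        obtain ⟨c, a, b, r, r', h1, h2, h3, h4⟩ :=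
          first_diff post post' p p' pre pre' (by simpa using hl) h'
        refine ⟨x :: c, a, b, r, r', ?_, ?_, h3, ?_⟩
        · simp [h1]
        · simp [h2]
        · simp only [List.length_cons]; omega
      · exact ⟨[], x, y, pre ++ p :: post, pre' ++ p' :: post', rfl, rfl, hxy, by simp⟩

lemma slackOK_of_lt (N : ℕ) (i _i' : ℕ) (c r r' : List ℕ) (a b : ℕ)
    (hl : (c ++ a :: r).Pairwise (· > ·)) (hl' : (c ++ b :: r').Pairwise (· > ·))
    (hs : TopSlack N i (c ++ a :: r)) (hc : c.length ≤ i) (hab : b < a) :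
    a ∉ c ++ b :: r' ∧
    (∀ s : ℕ, (s ∈ c ++ a :: r ∧ s ∉ c ++ b :: r') ∨ (s ∈ c ++ b :: r' ∧ s ∉ c ++ a :: r) → s ≤ a) ∧
    3 * wd N ≤ lev a - Th N 0 r := by
  have h1 := List.pairwise_append.1 hl
  have h2 := List.pairwise_append.1 hl'
  have hca : ∀ x ∈ c, a < x := fun x hx => h1.2.2 x hx a (by simp)
  have hr : ∀ y ∈ r, y < a := fun y hy => (List.pairwise_cons.1 h1.2.1).1 y hy
  have hr' : ∀ y ∈ r', y < b := fun y hy => (List.pairwise_cons.1 h2.2.1).1 y hy
  refine ⟨?_, ?_, hs c a r rfl hc⟩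
  · intro hmem
    rcases List.mem_append.1 hmem with h | h
    · exact lt_irrefl _ (hca a h)
    · rcases List.mem_cons.1 h with h | h
      · omega
      · have := hr' a h; omega
  · rintro s (⟨h3, h4⟩ | ⟨h3, h4⟩)
    · rcases List.mem_append.1 h3 with h | h
      · exact absurd (List.mem_append_left _ h) h4
      · rcases List.mem_cons.1 h with h | h
        · omega
        · have := hr s h; omega
    · rcases List.mem_append.1 h3 with h | h
      · exact absurd (List.mem_append_left _ h) h4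
      · rcases List.mem_cons.1 h with h | h
        · omega
        · have := hr' s h; omega

lemma slackOK_of_diff (N : ℕ) (i i' : ℕ) (c r r' : List ℕ) (a b : ℕ)
    (hl : (c ++ a :: r).Pairwise (· > ·)) (hl' : (c ++ b :: r').Pairwise (· > ·))
    (hs : TopSlack N i (c ++ a :: r)) (hs' : TopSlack N i' (c ++ b :: r'))
    (hc : c.length ≤ i) (hc' : c.length ≤ i') (hab : a ≠ b) :
    SlackOK N (c ++ a :: r) (c ++ b :: r') := by
  rcases lt_or_gt_of_ne hab with h | h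
  · obtain ⟨h1, h2, h3⟩ := slackOK_of_lt N i' i c r' r b a hl' hl hs' hc' h
    refine ⟨b, fun s hs => h2 s ?_, Or.inr ⟨by simp, h1, c, r', rfl, h3⟩⟩
    rcases hs with hs | hs
    · exact Or.inr hs
    · exact Or.inl hs
  · obtain ⟨h1, h2, h3⟩ := slackOK_of_lt N i i' c r r' a b hl hl' hs hc h
    exact ⟨a, fun s hs => h2 s hs, Or.inl ⟨by simp, h1, c, r, rfl, h3⟩⟩

lemma rowsProd_shift (pre post : List ℕ) (p low : ℕ) :
    rowsProd (pre ++ p :: post) * low = (p - 1) * (rowsProd pre * (rowsProd post * low)) := by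
  rw [rowsProd_append]
  simp only [rowsProd, List.map_cons, List.prod_cons]
  ring

lemma clean_of_dvd {N a b : ℕ} (h : a ∣ b) (hb : Clean N b) : Clean N a :=
  fun r hr hl hd => hb r hr hl (hd.trans h)

lemma rowsProd_pos (l : List ℕ) (h : ∀ p ∈ l, p.Prime) : 0 < rowsProd l := by
  induction l with
  | nil => simp [rowsProd]
  | cons x l ih =>
    have hx := h x (by simp)
    have h2 := hx.two_le
    have : rowsProd (x :: l) = (x - 1) * rowsProd l := by simp [rowsProd]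
    rw [this]
    exact Nat.mul_pos (by omega) (ih fun p hp => h p (List.mem_cons_of_mem _ hp))

lemma LowVal.pos {N low : ℕ} (h : LowVal N low) : 0 < low := by
  obtain ⟨n, hn, _, rfl, _⟩ := h
  exact Nat.totient_pos.2 (Nat.pos_of_ne_zero hn)

lemma isRep_post {N : ℕ} {pre post : List ℕ} {q low m : ℕ} (h : IsRep N (pre ++ q :: post) low m) :
    IsRep N post low (rowsProd post * low) := by
  refine ⟨?_, fun p hp => h.normal p (by simp [hp]), fun p hp => h.cut p (by simp [hp]),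
    (adm_suffix N pre (q :: post) h.adm).2, h.lowv, rfl, ?_⟩
  · exact (List.pairwise_cons.1 (List.pairwise_append.1 h.sorted).2.1).2
  · refine clean_of_dvd ?_ h.clean
    rw [h.eq, rowsProd_shift]
    exact Dvd.dvd.mul_left (Dvd.intro_left _ rfl) _

lemma lt_of_lev_lt {p q : ℕ} (hp : 2 ≤ p) (h : lev q < lev p) : q < p := by
  by_contra hc
  push Not at hc
  have := lev_mono hp hc
  linarith

/-- Numeric facts. -/
structure Num (N : ℕ) : Prop where
  w_pos : 0 < wd N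
  tol_le : tol N ≤ 8 * wd N
  rr : 60 * wd N + 1 ≤ 0.54 * Rr N

/-- One element of the family. -/
structure Hyp (N i : ℕ) (pre : List ℕ) (q : ℕ) (post : List ℕ) (low m : ℕ) : Prop where
  len : pre.length = i
  rep : IsRep N (pre ++ q :: post) low m
  lo : (N : ℝ) - 4 * wd N < Th N 0 (pre ++ q :: post)
  up : Th N 0 (pre ++ q :: post) ≤ (N : ℝ) + 4 * wd N
  room : Room N q post

/-- The primes replacing `q`. -/
def TT (N q u : ℕ) : Finset ℕ :=
  (primesLev (lev q - Rr N + 30 * wd N) (lev q - 30 * wd N)).filter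
    (fun p => Normal N p ∧ Clean N ((p - 1) * u))

lemma mem_TT {N q u p : ℕ} (hp : p ∈ TT N q u) :
    lev q - Rr N + 30 * wd N ≤ lev p ∧ lev p < lev q - 30 * wd N ∧ Normal N p ∧
      Clean N ((p - 1) * u) := by
  unfold TT primesLev at hp
  simp only [Finset.mem_filter] at hp
  exact ⟨hp.1.2.2.1, hp.1.2.2.2, hp.2.1, hp.2.2⟩

lemma t0_le_nextLev {N : ℕ} {post : List ℕ} (h : ∀ p ∈ post, Normal N p) : t0 N ≤ nextLev N post := by
  cases post with
  | nil => exact le_refl _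
  | cons x xs => exact (h x (by simp)).2.1

/-- The shifted list is a representation, with smaller functional and slack on top. -/
lemma pair_rep {N i : ℕ} {pre post : List ℕ} {q low m p : ℕ} (hn : Num N)
    (h : Hyp N i pre q post low m) (hp : p ∈ TT N q (rowsProd pre * (rowsProd post * low))) :
    IsRep N (pre ++ p :: post) low ((p - 1) * (rowsProd pre * (rowsProd post * low))) ∧
      Th N 0 (pre ++ p :: post) ≤ (N : ℝ) - 4 * wd N ∧ TopSlack N i (pre ++ p :: post) := by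
  obtain ⟨h1, h2, hN, hC⟩ := mem_TT hp
  have hw := hn.w_pos
  have hR1 := h.room.1
  have hR2 := h.room.2
  have hqN : Normal N q := h.rep.normal q (by simp)
  have hlev : lev p + 30 * wd N < lev q := by linarith
  have hslack : 30 * wd N ≤ lev p - Th N 0 post := by linarith
  have htol := hn.tol_le
  have htol0 : 0 ≤ tol N := Real.rpow_nonneg (Nat.cast_nonneg _) _
  have hpq : lev p ≤ lev q := by linarith
  have hqp : p < q := lt_of_lev_lt hqN.1.two_le (by linarith)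
  have hsorted := List.pairwise_append.1 h.rep.sorted
  refine ⟨⟨?_, ?_, ?_, ?_, h.rep.lowv, rowsProd_shift pre post p low |>.symm, hC⟩, ?_, ?_⟩
  · refine List.pairwise_append.2 ⟨hsorted.1, ?_, ?_⟩
    · refine List.pairwise_cons.2 ⟨?_, (List.pairwise_cons.1 hsorted.2.1).2⟩
      have hpost := (List.pairwise_cons.1 hsorted.2.1).2
      cases post with
      | nil => simp
      | cons x xs =>
        have hx : x < p := lt_of_lev_lt hN.1.two_le (by
          have : nextLev N (x :: xs) = lev x := rfl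
          rw [this] at hR2
          linarith)
        intro y hy
        rcases List.mem_cons.1 hy with rfl | hy
        · exact hx
        · have := (List.pairwise_cons.1 hpost).1 y hy
          show y < p
          have h' : y < x := this
          omega
    · intro a ha b hb
      rcases List.mem_cons.1 hb with rfl | hb
      · have h' : q < a := hsorted.2.2 a ha q (by simp)
        show b < a
        omega
      · exact hsorted.2.2 a ha b (List.mem_cons_of_mem _ hb)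
  · intro x hx
    rcases List.mem_append.1 hx with hx | hx
    · exact h.rep.normal x (by simp [hx])
    · rcases List.mem_cons.1 hx with rfl | hx
      · exact hN
      · exact h.rep.normal x (by simp [hx])
  · intro x hx
    rcases List.mem_append.1 hx with hx | hx
    · exact h.rep.cut x (by simp [hx])
    · rcases List.mem_cons.1 hx with rfl | hx
      · have := h.rep.cut q (by simp)
        linarith
      · exact h.rep.cut x (by simp [hx])
  · exact adm_shift N post p q hpq (by linarith) pre h.rep.adm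
  · have h3 := th_swap N 0 pre post p q
    have h4 : (0.38 : ℝ) * (lev q - lev p) ≤ aa (0 + pre.length + 1) * (lev q - lev p) :=
      mul_le_mul_of_nonneg_right (aa_nonneg_of_pos (by omega)) (by linarith)
    have h5 := h.up
    rw [h3]
    nlinarith
  · rw [← h.len]
    exact topSlack_shift N post p q (by nlinarith) hpq (by linarith) pre h.rep.adm

lemma card_primeFactors_le {N u : ℕ} (hN : 1 ≤ N) (hu : 0 < u) (hu2 : u < Bnd N) :
    (u.primeFactors.card : ℝ) ≤ Real.exp ((N : ℝ) + 7) := by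
  have h2 : 2 ^ u.primeFactors.card ≤ u := by
    have h3 : 2 ^ u.primeFactors.card ≤ ∏ p ∈ u.primeFactors, p :=
      Finset.pow_card_le_prod _ _ _ (fun p hp => (Nat.prime_of_mem_primeFactors hp).two_le)
    exact h3.trans (Nat.le_of_dvd hu (Nat.prod_primeFactors_dvd u))
  have hNr : (1 : ℝ) ≤ N := by exact_mod_cast hN
  have hY : 1 ≤ Ymax N := by
    unfold Ymax
    exact Real.one_le_exp (by positivity)
  have h4 : (u : ℝ) ≤ 2 * (Ymax N) ^ 2 := by
    have h5 : u ≤ ⌈(Ymax N) ^ 2⌉₊ := by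
      unfold Bnd at hu2
      omega
    have h6 : (u : ℝ) ≤ ⌈(Ymax N) ^ 2⌉₊ := by exact_mod_cast h5
    have h7 := Nat.ceil_lt_add_one (a := (Ymax N) ^ 2) (by positivity)
    have h8 : 1 ≤ (Ymax N) ^ 2 := one_le_pow₀ hY
    linarith
  have h5 : (u.primeFactors.card : ℝ) * Real.log 2 ≤ Real.log 2 + 2 * (Real.exp N / (N : ℝ) ^ 3) := by
    have h6 : ((2 : ℝ) ^ u.primeFactors.card) ≤ 2 * (Ymax N) ^ 2 := by
      refine le_trans ?_ h4
      exact_mod_cast h2
    have h7 := Real.log_le_log (by positivity) h6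
    rw [Real.log_pow, Real.log_mul (by norm_num) (by positivity), Real.log_pow] at h7
    have h8 : Real.log (Ymax N) = Real.exp N / (N : ℝ) ^ 3 := by
      unfold Ymax
      exact Real.log_exp _
    rw [h8] at h7
    push_cast at h7
    linarith
  have hl2 : (0.69 : ℝ) < Real.log 2 := by
    have := Real.log_two_gt_d9
    linarith
  have hEN : 1 ≤ Real.exp N := Real.one_le_exp (by positivity)
  have h6 : Real.exp N / (N : ℝ) ^ 3 ≤ Real.exp N := by
    apply div_le_self (by positivity)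
    exact one_le_pow₀ hNr
  have hl3 : Real.log 2 ≤ 1 := by
    have := Real.log_two_lt_d9
    linarith
  have h7 : (u.primeFactors.card : ℝ) * 0.69 ≤ 1 + 2 * Real.exp N := by
    have : (u.primeFactors.card : ℝ) * 0.69 ≤ (u.primeFactors.card : ℝ) * Real.log 2 :=
      mul_le_mul_of_nonneg_left hl2.le (by positivity)
    linarith
  have h8 : Real.exp ((N : ℝ) + 7) = Real.exp N * Real.exp 7 := Real.exp_add _ _
  have h9 : (8 : ℝ) ≤ Real.exp 7 := by
    have := Real.add_one_le_exp (7 : ℝ)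
    linarith
  rw [h8]
  nlinarith

/-- Abstract double counting. -/
lemma double_count {κ : Type} [DecidableEq κ] (F : Finset ℕ) (T : ℕ → Finset ℕ) (ty : ℕ → ℕ → κ)
    (w d : ℕ → ℝ) (Mt : κ → ℝ) (L Wm S' : ℝ)
    (hw : ∀ m ∈ F, L ≤ ∑ p ∈ T m, w p)
    (hid : ∀ m ∈ F, ∀ p ∈ T m, ((1 : ℝ) / m) * w p = Mt (ty m p) * d m)
    (hMt : ∀ τ, 0 ≤ Mt τ) (hWm : 0 ≤ Wm)
    (hfib : ∀ τ ∈ (F.sigma T).image (fun x => ty x.1 x.2),
      ∑ x ∈ (F.sigma T).filter (fun x => ty x.1 x.2 = τ), d x.1 ≤ Wm)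
    (hS : ∑ τ ∈ (F.sigma T).image (fun x => ty x.1 x.2), Mt τ ≤ S') :
    L * ∑ m ∈ F, (1 : ℝ) / m ≤ Wm * S' := by
  have hnn : ∀ m : ℕ, 0 ≤ (1 : ℝ) / m := fun m => by positivity
  calc L * ∑ m ∈ F, (1 : ℝ) / m = ∑ m ∈ F, ((1 : ℝ) / m) * L := by
        rw [Finset.mul_sum]
        exact Finset.sum_congr rfl (fun m _ => by ring)
    _ ≤ ∑ m ∈ F, ((1 : ℝ) / m) * ∑ p ∈ T m, w p :=
        Finset.sum_le_sum (fun m hm => mul_le_mul_of_nonneg_left (hw m hm) (hnn m))
    _ = ∑ m ∈ F, ∑ p ∈ T m, Mt (ty m p) * d m := by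
        refine Finset.sum_congr rfl (fun m hm => ?_)
        rw [Finset.mul_sum]
        exact Finset.sum_congr rfl (fun p hp => hid m hm p hp)
    _ = ∑ x ∈ F.sigma T, Mt (ty x.1 x.2) * d x.1 := by
        rw [Finset.sum_sigma]
    _ = ∑ τ ∈ (F.sigma T).image (fun x => ty x.1 x.2),
          ∑ x ∈ (F.sigma T).filter (fun x => ty x.1 x.2 = τ), Mt (ty x.1 x.2) * d x.1 :=
        (Finset.sum_fiberwise_of_maps_to (fun x hx => Finset.mem_image_of_mem _ hx) _).symm
    _ = ∑ τ ∈ (F.sigma T).image (fun x => ty x.1 x.2),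
          Mt τ * ∑ x ∈ (F.sigma T).filter (fun x => ty x.1 x.2 = τ), d x.1 := by
        refine Finset.sum_congr rfl (fun τ _ => ?_)
        rw [Finset.mul_sum]
        refine Finset.sum_congr rfl (fun x hx => ?_)
        rw [(Finset.mem_filter.1 hx).2]
    _ ≤ ∑ τ ∈ (F.sigma T).image (fun x => ty x.1 x.2), Mt τ * Wm :=
        Finset.sum_le_sum (fun τ hτ => mul_le_mul_of_nonneg_left (hfib τ hτ) (hMt τ))
    _ = Wm * ∑ τ ∈ (F.sigma T).image (fun x => ty x.1 x.2), Mt τ := by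
        rw [Finset.mul_sum]
        exact Finset.sum_congr rfl (fun τ _ => by ring)
    _ ≤ Wm * S' := mul_le_mul_of_nonneg_left hS hWm

/-- A set of primes with levels in `[A,B)` has mass at most `(B-A) + C exp(-A)`. -/
lemma mass_of_levels {C a₀ : ℝ}
    (hmert : ∀ a b : ℝ, a₀ ≤ a → a ≤ b → |massI a b - (b - a)| ≤ C * Real.exp (-a))
    (S : Finset ℕ) (hprime : ∀ v ∈ S, v.Prime) (A B : ℝ) (hA : a₀ ≤ A) (hAB : A ≤ B)
    (hS : ∀ v ∈ S, A ≤ lev v ∧ lev v < B) :
    ∑ v ∈ S, (1 : ℝ) / ((v : ℝ) - 1) ≤ (B - A) + C * Real.exp (-A) := by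
  have hnn : ∀ v : ℕ, v.Prime → 0 ≤ (1 : ℝ) / ((v : ℝ) - 1) := fun v hv => by
    have : (2 : ℝ) ≤ v := by exact_mod_cast hv.two_le
    apply div_nonneg zero_le_one
    linarith
  have hsub : S ⊆ primesLev A B := by
    intro v hv
    have hp := hprime v hv
    obtain ⟨h1, h2⟩ := hS v hv
    unfold primesLev
    simp only [Finset.mem_filter, Finset.mem_range]
    refine ⟨?_, hp, h1, h2⟩
    have h3 : (2 : ℝ) ≤ v := by exact_mod_cast hp.two_le
    have hlogpos : 0 < Real.log v := Real.log_pos (by linarith)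
    have h4 : Real.log v < Real.exp B := (Real.log_lt_iff_lt_exp hlogpos).1 h2
    have h5 : (v : ℝ) < Real.exp (Real.exp B) := (Real.log_lt_iff_lt_exp (by linarith)).1 h4
    have h6 := Nat.le_ceil (Real.exp (Real.exp B))
    have h7 : (v : ℝ) < ⌈Real.exp (Real.exp B)⌉₊ := lt_of_lt_of_le h5 h6
    have h8 : v < ⌈Real.exp (Real.exp B)⌉₊ := by exact_mod_cast h7
    omega
  have h1 : ∑ v ∈ S, (1 : ℝ) / ((v : ℝ) - 1) ≤ massI A B := by
    unfold massI
    refine Finset.sum_le_sum_of_subset_of_nonneg hsub (fun v hv _ => hnn v ?_)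
    unfold primesLev at hv
    exact (Finset.mem_filter.1 hv).2.1
  have h2 := hmert A B hA hAB
  have h3 := (abs_le.1 h2).2
  linarith

/-- Two elements with the same `pre`, `mbar`: the level of `q` is determined within an interval. -/
lemma level_interval {N i : ℕ} {pre post post₀ : List ℕ} {q q₀ low low₀ m m₀ : ℕ} {e0 : ℝ}
    (hclose : ∀ l l' low low' m, IsRep N l low m → IsRep N l' low' m →
      ∀ h ≤ JJ + 1, |Th N h l - Th N h l'| ≤ e0)
    (hi : i ≤ JJ) (h : Hyp N i pre q post low m) (h₀ : Hyp N i pre q₀ post₀ low₀ m₀)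
    (hmb : rowsProd post * low = rowsProd post₀ * low₀) :
    (N : ℝ) - 4 * wd N - (Th N 0 pre + Th N (i + 1) post₀) - e0 <
        aa (i + 1) * (lev q - ts N) ∧
      aa (i + 1) * (lev q - ts N) ≤ (N : ℝ) + 4 * wd N - (Th N 0 pre + Th N (i + 1) post₀) + e0 := by
  have h1 := isRep_post h.rep
  have h2 := isRep_post h₀.rep
  rw [hmb] at h1
  have h3 := abs_le.1 (hclose _ _ _ _ _ h1 h2 (i + 1) (by omega))
  have h4 : Th N 0 (pre ++ q :: post) = Th N 0 pre + (aa (i + 1) * (lev q - ts N) + Th N (i + 1) post) := by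
    rw [Th_append, h.len]
    simp only [Th, zero_add]
  have h5 := h.lo
  have h6 := h.up
  rw [h4] at h5 h6
  constructor <;> linarith [h3.1, h3.2]


/-! ### The family -/

section family

variable (ρ : ℕ → List ℕ × ℕ × List ℕ × ℕ)

/-- The integer below `q`. -/
def mb (m : ℕ) : ℕ := rowsProd (ρ m).2.2.1 * (ρ m).2.2.2

/-- The cofactor of `q - 1`. -/
def uu (m : ℕ) : ℕ := rowsProd (ρ m).1 * mb ρ m

/-- The type of a pair. -/
def ty (m p : ℕ) : List ℕ × ℕ × ℕ := ((ρ m).1, p, mb ρ m)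

/-- The integer of a type. -/
def mT (τ : List ℕ × ℕ × ℕ) : ℕ := (τ.2.1 - 1) * (rowsProd τ.1 * τ.2.2)

/-- The shift set of an element. -/
def Tm (N : ℕ) (m : ℕ) : Finset ℕ := TT N (ρ m).2.1 (uu ρ m)

/-- The types. -/
def Ty (N : ℕ) (F : Finset ℕ) : Finset (List ℕ × ℕ × ℕ) :=
  (F.sigma (Tm ρ N)).image (fun x => ty ρ x.1 x.2)

variable {ρ}

lemma hyp_eq {N i m : ℕ} (h : Hyp N i (ρ m).1 (ρ m).2.1 (ρ m).2.2.1 (ρ m).2.2.2 m) :
    m = ((ρ m).2.1 - 1) * uu ρ m := by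
  have := h.rep.eq
  rw [rowsProd_shift] at this
  exact this

/-- The mass of one fibre of the type map. -/
lemma fiber_mass {N i : ℕ} {F : Finset ℕ} {C a₀ e0 : ℝ}
    (hmert : ∀ a b : ℝ, a₀ ≤ a → a ≤ b → |massI a b - (b - a)| ≤ C * Real.exp (-a))
    (hC : 0 < C)
    (hclose : ∀ l l' low low' m, IsRep N l low m → IsRep N l' low' m →
      ∀ h ≤ JJ + 1, |Th N h l - Th N h l'| ≤ e0)
    (hi : i ≤ JJ) (hn : Num N) (ht0 : a₀ ≤ t0 N) (ht0' : 0 ≤ t0 N)
    (hnum : (8 * wd N + 2 * e0) / 0.38 + 1 + C ≤ 23 * wd N) (he0 : 0 ≤ e0)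
    (HF : ∀ m ∈ F, Hyp N i (ρ m).1 (ρ m).2.1 (ρ m).2.2.1 (ρ m).2.2.2 m)
    (τ : List ℕ × ℕ × ℕ) (hτ : τ ∈ Ty ρ N F) :
    ∑ x ∈ (F.sigma (Tm ρ N)).filter (fun x => ty ρ x.1 x.2 = τ),
      (1 : ℝ) / (((ρ x.1).2.1 : ℝ) - 1) ≤ 23 * wd N := by
  obtain ⟨x₀, hx₀, hx₀τ⟩ := Finset.mem_image.1 hτ
  have hx₀F : x₀.1 ∈ F := (Finset.mem_sigma.1 hx₀).1
  set fib := (F.sigma (Tm ρ N)).filter (fun x => ty ρ x.1 x.2 = τ) with hfib
  have hmem : ∀ x ∈ fib, x.1 ∈ F ∧ (ρ x.1).1 = τ.1 ∧ x.2 = τ.2.1 ∧ mb ρ x.1 = τ.2.2 := by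
    intro x hx
    obtain ⟨h1, h2⟩ := Finset.mem_filter.1 hx
    refine ⟨(Finset.mem_sigma.1 h1).1, ?_, ?_, ?_⟩
    · rw [← h2]; rfl
    · rw [← h2]; rfl
    · rw [← h2]; rfl
  -- injectivity
  have hinj : Set.InjOn (fun x : (_ : ℕ) × ℕ => (ρ x.1).2.1) (fib : Set ((_ : ℕ) × ℕ)) := by
    intro x hx y hy hxy
    obtain ⟨h1, h2, h3, h4⟩ := hmem x hx
    obtain ⟨h1', h2', h3', h4'⟩ := hmem y hy
    have hxy' : (ρ x.1).2.1 = (ρ y.1).2.1 := hxy
    have e1 := hyp_eq (HF _ h1)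
    have e2 := hyp_eq (HF _ h1')
    have e3 : uu ρ x.1 = uu ρ y.1 := by
      unfold uu
      rw [h2, h2', h4, h4']
    have e4 : x.1 = y.1 := by
      rw [e1, e2, hxy', e3]
    exact Sigma.ext e4 (heq_of_eq (h3.trans h3'.symm))
  rw [← Finset.sum_image (f := fun v : ℕ => (1 : ℝ) / ((v : ℝ) - 1)) hinj]
  -- the interval
  have hx₀fib : x₀ ∈ fib := Finset.mem_filter.2 ⟨hx₀, hx₀τ⟩
  set a := aa (i + 1) with ha
  have ha38 : (0.38 : ℝ) ≤ a := aa_nonneg_of_pos (by omega)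
  have hapos : 0 < a := by linarith
  set R := Th N 0 τ.1 + Th N (i + 1) (ρ x₀.1).2.2.1 with hR
  set Lo := ((N : ℝ) - 4 * wd N - R - e0) / a + ts N with hLo
  set Hi := ((N : ℝ) + 4 * wd N - R + e0) / a + ts N with hHi
  have hlev : ∀ x ∈ fib, Lo < lev (ρ x.1).2.1 ∧ lev (ρ x.1).2.1 ≤ Hi ∧ t0 N ≤ lev (ρ x.1).2.1 := by
    intro x hx
    obtain ⟨h1, h2, _, h4⟩ := hmem x hx
    obtain ⟨h1', h2', _, h4'⟩ := hmem x₀ hx₀fib
    have hh := HF _ h1
    have hh' := HF _ h1'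
    rw [h2] at hh
    rw [h2'] at hh'
    have := level_interval hclose hi hh hh' (by
      have e1 : mb ρ x.1 = rowsProd (ρ x.1).2.2.1 * (ρ x.1).2.2.2 := rfl
      have e2 : mb ρ x₀.1 = rowsProd (ρ x₀.1).2.2.1 * (ρ x₀.1).2.2.2 := rfl
      rw [← e1, ← e2, h4, h4'])
    rw [← hR, ← ha] at this
    refine ⟨?_, ?_, (hh.rep.normal _ (by simp)).2.1⟩
    · have h5 : ((N : ℝ) - 4 * wd N - R - e0) / a < lev (ρ x.1).2.1 - ts N :=
        (div_lt_iff₀ hapos).2 (by linarith [this.1])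
      rw [hLo]
      linarith
    · have h5 : lev (ρ x.1).2.1 - ts N ≤ ((N : ℝ) + 4 * wd N - R + e0) / a :=
        (le_div_iff₀ hapos).2 (by linarith [this.2])
      rw [hHi]
      linarith
  have hprime : ∀ v ∈ fib.image (fun x : (_ : ℕ) × ℕ => (ρ x.1).2.1), v.Prime := by
    intro v hv
    obtain ⟨x, hx, rfl⟩ := Finset.mem_image.1 hv
    exact ((HF _ (hmem x hx).1).rep.normal _ (by simp)).1
  have hlevv : ∀ v ∈ fib.image (fun x : (_ : ℕ) × ℕ => (ρ x.1).2.1),
      max Lo (t0 N) ≤ lev v ∧ lev v < Hi + 1 := by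
    intro v hv
    obtain ⟨x, hx, rfl⟩ := Finset.mem_image.1 hv
    obtain ⟨h1, h2, h3⟩ := hlev x hx
    exact ⟨max_le h1.le h3, by linarith⟩
  have hx₀l := hlev x₀ hx₀fib
  have hAB : max Lo (t0 N) ≤ Hi + 1 :=
    (max_le hx₀l.1.le hx₀l.2.2).trans (by linarith [hx₀l.2.1])
  have hA : a₀ ≤ max Lo (t0 N) := ht0.trans (le_max_right _ _)
  have hfin := mass_of_levels hmert _ hprime _ _ hA hAB hlevv
  refine hfin.trans ?_
  have h1 : Hi + 1 - max Lo (t0 N) ≤ (8 * wd N + 2 * e0) / 0.38 + 1 := by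
    have h2 : Hi - Lo = (8 * wd N + 2 * e0) / a := by
      rw [hHi, hLo]
      field_simp
      ring
    have h3 : (8 * wd N + 2 * e0) / a ≤ (8 * wd N + 2 * e0) / 0.38 :=
      div_le_div_of_nonneg_left (by have := hn.w_pos; positivity) (by norm_num) ha38
    have h4 := le_max_left Lo (t0 N)
    linarith
  have h2 : C * Real.exp (-max Lo (t0 N)) ≤ C := by
    have : Real.exp (-max Lo (t0 N)) ≤ 1 := by
      rw [Real.exp_le_one_iff]
      have := le_max_right Lo (t0 N)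
      linarith
    nlinarith
  linarith


/-- The mass of the types. -/
lemma types_mass {N i : ℕ} {F : Finset ℕ} (hn : Num N)
    (hlt : ∀ l low m, IsRep N l low m → m < Bnd N)
    (hdist : ∀ T : Finset (List ℕ × ℕ), (∀ τ ∈ T, IsRep N τ.1 τ.2 (mOf τ)) →
      (∀ τ ∈ T, ∀ τ' ∈ T, τ ≠ τ' → mOf τ = mOf τ' → SlackOK N τ.1 τ'.1) →
      ∑ τ ∈ T, (1 : ℝ) / mOf τ ≤ ∑ m ∈ T.image mOf, (1 : ℝ) / m + Real.exp (-wd N))
    (HF : ∀ m ∈ F, Hyp N i (ρ m).1 (ρ m).2.1 (ρ m).2.2.1 (ρ m).2.2.2 m) :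
    ∑ τ ∈ Ty ρ N F, (1 : ℝ) / mT τ ≤ Ss N ((N : ℝ) - 4 * wd N) + Real.exp (-wd N) := by
  have hwit : ∀ τ ∈ Ty ρ N F, ∃ m, m ∈ F ∧ τ.2.1 ∈ Tm ρ N m ∧ (ρ m).1 = τ.1 ∧ mb ρ m = τ.2.2 := by
    intro τ hτ
    obtain ⟨x, hx, rfl⟩ := Finset.mem_image.1 hτ
    exact ⟨x.1, (Finset.mem_sigma.1 hx).1, (Finset.mem_sigma.1 hx).2, rfl, rfl⟩
  choose! pk hpk using hwit
  -- the facts on one type
  have hfacts : ∀ τ ∈ Ty ρ N F,
      IsRep N (τ.1 ++ τ.2.1 :: (ρ (pk τ)).2.2.1) (ρ (pk τ)).2.2.2 (mT τ) ∧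
      Th N 0 (τ.1 ++ τ.2.1 :: (ρ (pk τ)).2.2.1) ≤ (N : ℝ) - 4 * wd N ∧
      TopSlack N i (τ.1 ++ τ.2.1 :: (ρ (pk τ)).2.2.1) ∧ τ.1.length = i ∧
      rowsProd (ρ (pk τ)).2.2.1 * (ρ (pk τ)).2.2.2 = τ.2.2 := by
    intro τ hτ
    obtain ⟨h1, h2, h3, h4⟩ := hpk τ hτ
    have hh := HF _ h1
    have hq := pair_rep hn hh h2
    rw [h3] at hq
    have e1 : rowsProd (ρ (pk τ)).2.2.1 * (ρ (pk τ)).2.2.2 = τ.2.2 := h4
    rw [e1] at hq
    refine ⟨hq.1, hq.2.1, hq.2.2, ?_, e1⟩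
    rw [← h3]
    exact hh.len
  set rep : List ℕ × ℕ × ℕ → List ℕ × ℕ :=
    fun τ => (τ.1 ++ τ.2.1 :: (ρ (pk τ)).2.2.1, (ρ (pk τ)).2.2.2) with hrep
  have hmOf : ∀ τ, mOf (rep τ) = (τ.2.1 - 1) * (rowsProd τ.1 *
      (rowsProd (ρ (pk τ)).2.2.1 * (ρ (pk τ)).2.2.2)) := by
    intro τ
    exact rowsProd_shift _ _ _ _
  have hmOf' : ∀ τ ∈ Ty ρ N F, mOf (rep τ) = mT τ := by
    intro τ hτ
    rw [hmOf, (hfacts τ hτ).2.2.2.2]
    rfl
  have hinj : Set.InjOn rep (Ty ρ N F : Set (List ℕ × ℕ × ℕ)) := by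
    intro τ hτ τ' hτ' he
    have he' : (τ.1 ++ τ.2.1 :: (ρ (pk τ)).2.2.1, (ρ (pk τ)).2.2.2)
        = (τ'.1 ++ τ'.2.1 :: (ρ (pk τ')).2.2.1, (ρ (pk τ')).2.2.2) := he
    obtain ⟨he1, he2⟩ := Prod.mk.inj he'
    have hl : τ.1.length = τ'.1.length := by
      rw [(hfacts τ hτ).2.2.2.1, (hfacts τ' hτ').2.2.2.1]
    obtain ⟨h1, h2⟩ := List.append_inj he1 hl
    have h3 := List.cons.inj h2
    have h4 : τ.2.2 = τ'.2.2 := by
      rw [← (hfacts τ hτ).2.2.2.2, ← (hfacts τ' hτ').2.2.2.2, h3.2, he2]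
    exact Prod.ext h1 (Prod.ext h3.1 h4)
  have hT : ∀ x ∈ (Ty ρ N F).image rep, ∃ τ ∈ Ty ρ N F, rep τ = x := fun x hx =>
    Finset.mem_image.1 hx
  have h1 := hdist ((Ty ρ N F).image rep) (by
      intro x hx
      obtain ⟨τ, hτ, rfl⟩ := hT x hx
      rw [hmOf' τ hτ]
      exact (hfacts τ hτ).1) (by
      intro x hx x' hx' hne hm
      obtain ⟨τ, hτ, rfl⟩ := hT x hx
      obtain ⟨τ', hτ', rfl⟩ := hT x' hx'
      have hf := hfacts τ hτ
      have hf' := hfacts τ' hτ'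
      have hne2 : (τ.1, τ.2.1) ≠ (τ'.1, τ'.2.1) := by
        intro e
        obtain ⟨e1, e2⟩ := Prod.mk.inj e
        apply hne
        have e3 : τ = τ' := by
          refine Prod.ext e1 (Prod.ext e2 ?_)
          rw [hmOf' τ hτ, hmOf' τ' hτ'] at hm
          have hm' : (τ.2.1 - 1) * (rowsProd τ.1 * τ.2.2) = (τ'.2.1 - 1) * (rowsProd τ'.1 * τ'.2.2) := hm
          rw [← e1, ← e2] at hm'
          have hp : τ.2.1.Prime := (hf.1.normal τ.2.1 (by simp)).1
          have hp2 := hp.two_le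
          have hposr : 0 < rowsProd τ.1 := rowsProd_pos _ (fun p hp' =>
            (hf.1.normal p (by simp [hp'])).1)
          exact Nat.eq_of_mul_eq_mul_left hposr (Nat.eq_of_mul_eq_mul_left (by omega) hm')
        rw [e3]
      obtain ⟨c, a, b, r, r', h1, h2, h3, h4⟩ :=
        first_diff (ρ (pk τ)).2.2.1 (ρ (pk τ')).2.2.1 τ.2.1 τ'.2.1 τ.1 τ'.1
          (by rw [hf.2.2.2.1, hf'.2.2.2.1]) hne2
      have hc : c.length ≤ i := by rw [← hf.2.2.2.1]; exact h4
      show SlackOK N (τ.1 ++ τ.2.1 :: (ρ (pk τ)).2.2.1) (τ'.1 ++ τ'.2.1 :: (ρ (pk τ')).2.2.1)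
      rw [h1, h2]
      have s1 := hf.1.sorted
      have s2 := hf'.1.sorted
      have s3 := hf.2.2.1
      have s4 := hf'.2.2.1
      rw [h1] at s1 s3
      rw [h2] at s2 s4
      exact slackOK_of_diff N i i c r r' a b s1 s2 s3 s4 hc hc h3)
  have h2 : ∑ x ∈ (Ty ρ N F).image rep, (1 : ℝ) / mOf x = ∑ τ ∈ Ty ρ N F, (1 : ℝ) / mT τ := by
    rw [Finset.sum_image hinj]
    refine Finset.sum_congr rfl (fun τ hτ => ?_)
    rw [hmOf' τ hτ]
  have h3 : ∑ m ∈ ((Ty ρ N F).image rep).image mOf, (1 : ℝ) / m ≤ Ss N ((N : ℝ) - 4 * wd N) := by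
    unfold Ss
    refine Finset.sum_le_sum_of_subset_of_nonneg ?_ (fun m _ _ => by positivity)
    intro m hm
    obtain ⟨x, hx, rfl⟩ := Finset.mem_image.1 hm
    obtain ⟨τ, hτ, rfl⟩ := hT x hx
    rw [hmOf' τ hτ]
    have hf := hfacts τ hτ
    unfold Aset
    simp only [Finset.mem_filter, Finset.mem_range]
    exact ⟨hlt _ _ _ hf.1, _, _, hf.1, hf.2.1⟩
  rw [← h2]
  linarith


/-- The lower bound for the mass of the replacing primes. -/
lemma shift_set_mass {N i : ℕ} {pre post : List ℕ} {q low m : ℕ} (hN1 : 1 ≤ N) (hn : Num N)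
    (hlt : ∀ l low m, IsRep N l low m → m < Bnd N)
    (hgood : ∀ (a b : ℝ) (u : ℕ), t0 N ≤ a → a ≤ b → b ≤ (N : ℝ) + 5 →
      Clean N u → u ≠ 0 → (u.primeFactors.card : ℝ) ≤ Real.exp ((N : ℝ) + 7) →
      b - a - 1 ≤ ∑ p ∈ (primesLev a b).filter (fun p => Normal N p ∧ Clean N ((p - 1) * u)),
        (1 : ℝ) / ((p : ℝ) - 1))
    (h : Hyp N i pre q post low m) :
    0.46 * Rr N ≤ ∑ p ∈ TT N q (rowsProd pre * (rowsProd post * low)), (1 : ℝ) / ((p : ℝ) - 1) := by
  have hw := hn.w_pos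
  have hrr := hn.rr
  have hpost := isRep_post h.rep
  have hnext : t0 N ≤ nextLev N post := t0_le_nextLev hpost.normal
  have hR2 := h.room.2
  have hcut := h.rep.cut q (by simp)
  have hDc : 0 ≤ Dc N := Real.rpow_nonneg (Nat.cast_nonneg _) _
  have hmeq : m = (q - 1) * (rowsProd pre * (rowsProd post * low)) := by
    have := h.rep.eq
    rwa [rowsProd_shift] at this
  have hq := (h.rep.normal q (by simp)).1
  have hprimes : ∀ p ∈ pre ++ q :: post, p.Prime := fun p hp => (h.rep.normal p hp).1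
  have hpos : 0 < rowsProd pre * (rowsProd post * low) := by
    refine Nat.mul_pos (rowsProd_pos _ fun p hp => hprimes p (by simp [hp])) (Nat.mul_pos
      (rowsProd_pos _ fun p hp => hprimes p (by simp [hp])) (LowVal.pos h.rep.lowv))
  have hdvd : rowsProd pre * (rowsProd post * low) ∣ m := by
    rw [hmeq]
    exact Dvd.intro_left _ rfl
  have hmlt := hlt _ _ _ h.rep
  have hmpos : 0 < m := by
    rw [hmeq]
    exact Nat.mul_pos (by have := hq.two_le; omega) hpos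
  have := hgood (lev q - Rr N + 30 * wd N) (lev q - 30 * wd N) _ (by linarith) (by nlinarith)
    (by linarith) (clean_of_dvd hdvd h.rep.clean) hpos.ne'
    (card_primeFactors_le hN1 hpos (lt_of_le_of_lt (Nat.le_of_dvd hmpos hdvd) hmlt))
  unfold TT
  refine le_trans ?_ this
  nlinarith

end family

/-- The numeric facts, for large `N`. -/
lemma numeric (C a₀ : ℝ) : ∃ N₀ : ℕ, ∀ N ≥ N₀, 1 ≤ N ∧ Num N ∧ a₀ ≤ t0 N ∧ 0 ≤ t0 N ∧
    (8 * wd N + 2 * (N : ℝ) ^ ((81 : ℝ) / 100)) / 0.38 + 1 + C ≤ 23 * wd N := by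
  have key : ∀ y : ℝ, 0 < y → ∀ K : ℝ, ∀ᶠ N : ℕ in Filter.atTop, K ≤ (N : ℝ) ^ y := fun y hy K =>
    ((tendsto_rpow_atTop hy).comp tendsto_natCast_atTop_atTop).eventually_ge_atTop K
  have h := (key (1 / 20) (by norm_num) 120).and ((key (1 / 25) (by norm_num) 6).and
    ((key (17 / 20) (by norm_num) (1 + |C|)).and ((key (4 / 5) (by norm_num) a₀).and
    (Filter.eventually_ge_atTop 1))))
  obtain ⟨N₀, hN₀⟩ := Filter.eventually_atTop.1 h
  refine ⟨N₀, fun N hN => ?_⟩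
  obtain ⟨h1, h2, h3, h4, h5⟩ := hN₀ N hN
  have hNr : (0 : ℝ) < N := by
    have : (1 : ℝ) ≤ N := by exact_mod_cast h5
    linarith
  have hw : wd N = (N : ℝ) ^ ((17 : ℝ) / 20) := rfl
  have hwpos : 0 < wd N := by rw [hw]; exact Real.rpow_pos_of_pos hNr _
  have hw1 : 1 + |C| ≤ wd N := h3
  have hC1 : 0 ≤ |C| := abs_nonneg C
  have hRr : Rr N = wd N * (N : ℝ) ^ ((1 : ℝ) / 20) := by
    rw [hw, ← Real.rpow_add hNr]
    unfold Rr
    norm_num
  have he0 : wd N = (N : ℝ) ^ ((81 : ℝ) / 100) * (N : ℝ) ^ ((1 : ℝ) / 25) := by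
    rw [hw, ← Real.rpow_add hNr]
    norm_num
  have he0pos : 0 < (N : ℝ) ^ ((81 : ℝ) / 100) := Real.rpow_pos_of_pos hNr _
  have htol : tol N ≤ wd N := by
    rw [hw]
    unfold tol
    exact Real.rpow_le_rpow_of_exponent_le (by exact_mod_cast h5) (by norm_num)
  have hnum : 60 * wd N + 1 ≤ 0.54 * Rr N := by
    rw [hRr]
    nlinarith
  have he1 : (N : ℝ) ^ ((81 : ℝ) / 100) * 6 ≤ wd N := by
    rw [he0]
    exact mul_le_mul_of_nonneg_left h2 he0pos.le
  refine ⟨h5, ⟨hwpos, by linarith, hnum⟩, h4, ?_, ?_⟩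
  · exact Real.rpow_nonneg (Nat.cast_nonneg _) _
  · have : (8 * wd N + 2 * (N : ℝ) ^ ((81 : ℝ) / 100)) / 0.38 =
        (8 * wd N + 2 * (N : ℝ) ^ ((81 : ℝ) / 100)) * (50 / 19) := by
      norm_num
      ring
    rw [this]
    have hC2 := le_abs_self C
    nlinarith

/-- (c) Shift. A family of tails in the window, with a rep having room at position `i`. -/
theorem shift_bound : ∃ N₀ : ℕ, ∀ N ≥ N₀, ∀ (i : ℕ) (F : Finset ℕ) (ρ : ℕ → List ℕ × ℕ × List ℕ × ℕ),
    i ≤ JJ → (∀ m ∈ F, let pre := (ρ m).1; let q := (ρ m).2.1; let post := (ρ m).2.2.1; let low := (ρ m).2.2.2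
      pre.length = i ∧ IsRep N (pre ++ q :: post) low m ∧
      (N : ℝ) - 4 * wd N < Th N 0 (pre ++ q :: post) ∧ Th N 0 (pre ++ q :: post) ≤ (N : ℝ) + 4 * wd N ∧
      Room N q post) →
    ∑ m ∈ F, (1 : ℝ) / m ≤ 50 * wd N / Rr N * (Ss N ((N : ℝ) - 4 * wd N) + 1) := by
  obtain ⟨N1, hclose⟩ := rep_close
  obtain ⟨N2, hlt⟩ := rep_lt_Bnd
  obtain ⟨N3, hdist⟩ := distinct_mass
  obtain ⟨N4, hgood⟩ := good_mass
  obtain ⟨C, a₀, hC, hmert⟩ := mert_interval
  obtain ⟨N5, hnum⟩ := numeric C a₀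
  refine ⟨max N1 (max N2 (max N3 (max N4 N5))), ?_⟩
  intro N hN i F ρ hi hF
  have hN1 : N1 ≤ N := le_trans (le_max_left _ _) hN
  have hN2 : N2 ≤ N := le_trans (le_trans (le_max_left _ _) (le_max_right _ _)) hN
  have hN3 : N3 ≤ N := le_trans (le_trans (le_trans (le_max_left _ _) (le_max_right _ _)) (le_max_right _ _)) hN
  have hN4 : N4 ≤ N := le_trans (le_trans (le_trans (le_trans (le_max_left _ _) (le_max_right _ _))
    (le_max_right _ _)) (le_max_right _ _)) hN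
  have hN5 : N5 ≤ N := le_trans (le_trans (le_trans (le_trans (le_max_right _ _) (le_max_right _ _))
    (le_max_right _ _)) (le_max_right _ _)) hN
  obtain ⟨h1N, hn, ht0, ht0', hnn⟩ := hnum N hN5
  have HF : ∀ m ∈ F, Hyp N i (ρ m).1 (ρ m).2.1 (ρ m).2.2.1 (ρ m).2.2.2 m := by
    intro m hm
    obtain ⟨a, b, c, d, e⟩ := hF m hm
    exact ⟨a, b, c, d, e⟩
  have hclose' := fun l l' low low' m h h' k hk => (hclose N hN1 l l' low low' m h h').1 k hk
  have hlt' := hlt N hN2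
  have hw := hn.w_pos
  have hfib := fiber_mass (ρ := ρ) (F := F) hmert hC hclose' hi hn ht0 ht0' hnn
    (Real.rpow_nonneg (Nat.cast_nonneg _) _) HF
  have htypes := types_mass (ρ := ρ) hn hlt' (hdist N hN3) HF
  have hS0 : 0 ≤ Ss N ((N : ℝ) - 4 * wd N) := Finset.sum_nonneg (fun m _ => by positivity)
  have hexp : Real.exp (-wd N) ≤ 1 := by
    rw [Real.exp_le_one_iff]
    linarith
  have hmain := double_count F (Tm ρ N) (ty ρ) (fun p => (1 : ℝ) / ((p : ℝ) - 1))
    (fun m => (1 : ℝ) / (((ρ m).2.1 : ℝ) - 1)) (fun τ => (1 : ℝ) / mT τ) (0.46 * Rr N) (23 * wd N)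
    (Ss N ((N : ℝ) - 4 * wd N) + Real.exp (-wd N))
    (fun m hm => shift_set_mass h1N hn hlt' (hgood N hN4) (HF m hm))
    (by
      intro m hm p hp
      have e1 := hyp_eq (HF m hm)
      have hq := ((HF m hm).rep.normal (ρ m).2.1 (by simp)).1
      have hpp := (mem_TT hp).2.2.1.1
      have hu : uu ρ m ≠ 0 := by
        intro h0
        rw [h0, mul_zero] at e1
        have hmpos := lt_of_le_of_lt (Nat.zero_le _) (hlt' _ _ _ (HF m hm).rep)
        have h2 := (HF m hm).rep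
        have h3 : 0 < rowsProd ((ρ m).1 ++ (ρ m).2.1 :: (ρ m).2.2.1) * (ρ m).2.2.2 :=
          Nat.mul_pos (rowsProd_pos _ fun p hp => (h2.normal p hp).1) (LowVal.pos h2.lowv)
        have h4 := h2.eq
        omega
      have e2 : mT (ty ρ m p) = (p - 1) * uu ρ m := rfl
      rw [e2]
      have hq2 : (2 : ℝ) ≤ (ρ m).2.1 := by exact_mod_cast hq.two_le
      have hp2 : (2 : ℝ) ≤ p := by exact_mod_cast hpp.two_le
      have huR : (uu ρ m : ℝ) ≠ 0 := by exact_mod_cast hu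
      have c1 : (((ρ m).2.1 - 1 : ℕ) : ℝ) = ((ρ m).2.1 : ℝ) - 1 := by
        rw [Nat.cast_sub hq.one_le]; simp
      have c2 : ((p - 1 : ℕ) : ℝ) = (p : ℝ) - 1 := by
        rw [Nat.cast_sub hpp.one_le]; simp
      have hm' : (m : ℝ) = ((ρ m).2.1 - 1 : ℕ) * (uu ρ m : ℝ) := by
        conv_lhs => rw [e1]
        push_cast
        rfl
      rw [hm']
      push_cast
      rw [c1, c2]
      have h5 : ((ρ m).2.1 : ℝ) - 1 ≠ 0 := by linarith
      have h6 : (p : ℝ) - 1 ≠ 0 := by linarith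
      field_simp)
    (fun τ => by positivity) (by positivity) hfib htypes
  have hRpos : 0 < Rr N := by
    have := hn.rr
    nlinarith
  have h5 : 0.46 * Rr N * ∑ m ∈ F, (1 : ℝ) / m ≤ 23 * wd N * (Ss N ((N : ℝ) - 4 * wd N) + 1) :=
    hmain.trans (mul_le_mul_of_nonneg_left (by linarith) (by positivity))
  have h6 : 50 * wd N / Rr N * (Ss N ((N : ℝ) - 4 * wd N) + 1)
      = (23 * wd N * (Ss N ((N : ℝ) - 4 * wd N) + 1)) / (0.46 * Rr N) := by
    field_simp
    norm_num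
    ring
  rw [h6, le_div_iff₀ (by positivity)]
  linarith

end ShiftAux

end
end Vale.Agent.Lib.P031V
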