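import Vale.Agent.Lib.P031V.PairE
import Vale.Agent.Lib.P031V.NegB
import Vale.Agent.Lib.P031V.NormalP
import Vale.Agent.Lib.P031V.Params
import Vale.Agent.Lib.P031V.ChainA
import Vale.Agent.Lib.P031V.ThmBShift

/-! # P031: mass of the tails below a row above the cut. Blueprint section 8, last paragraph. -/

namespace Vale.Agent.Lib.P031V
open Real Finset
open scoped Classical
noncomputable section

namespace N2Aux

open ShiftAux

/-- Numeric facts. -/
structure NumN2 (N : ℕ) : Prop where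
  big : (100 : ℝ) ≤ N
  w_le : 10000 * wd N ≤ N
  d_le : 10000 * Dc N ≤ N
  t_le : 10000 * t0 N ≤ N

lemma numN2 : ∃ N₀ : ℕ, ∀ N ≥ N₀, NumN2 N := by
  have h1 := ev_rpow_le ((17 : ℝ) / 20) 1 10000 (by norm_num)
  have h2 := ev_rpow_le ((1 : ℝ) / 2) 1 10000 (by norm_num)
  have h3 := ev_rpow_le ((4 : ℝ) / 5) 1 10000 (by norm_num)
  obtain ⟨N₀, hN₀⟩ := Filter.eventually_atTop.1
    (h1.and (h2.and (h3.and (Filter.eventually_ge_atTop 100))))
  refine ⟨N₀, fun N hN => ?_⟩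
  obtain ⟨a, b, c, d⟩ := hN₀ N hN
  rw [Real.rpow_one] at a b c
  exact ⟨by exact_mod_cast d, a, b, c⟩

lemma wd_nn (N : ℕ) : 0 ≤ wd N := Real.rpow_nonneg (Nat.cast_nonneg _) _
lemma dc_nn (N : ℕ) : 0 ≤ Dc N := Real.rpow_nonneg (Nat.cast_nonneg _) _
lemma t0_nn (N : ℕ) : 0 ≤ t0 N := Real.rpow_nonneg (Nat.cast_nonneg _) _
lemma tol_nn (N : ℕ) : 0 ≤ tol N := Real.rpow_nonneg (Nat.cast_nonneg _) _

lemma big_of_normal {N : ℕ} {l : List ℕ} (h : ∀ p ∈ l, Normal N p) : BigList N l := by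
  intro p hp
  have h1 := (h p hp).2.1
  unfold ts
  linarith

lemma aa_one_lt : aa 1 ≤ 0.39 := by
  rw [aa_one]
  have := Real.log_two_lt_d9
  linarith

/-- The functional of the row below the cut. -/
lemma th_one_le {N : ℕ} (hn : NumN2 N) {l : List ℕ} {q : ℕ} (hq : (N : ℝ) - Dc N < lev q)
    (hth : Th N 0 (q :: l) ≤ (N : ℝ) + 2 * wd N) : Th N 1 l ≤ 0.621 * (N : ℝ) := by
  have h1 : Th N 0 (q :: l) = aa 1 * (lev q - ts N) + Th N 1 l := rfl
  have h2 := aa_nonneg_of_pos (l := 1) le_rfl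
  have hw := hn.w_le
  have hd := hn.d_le
  have ht := hn.t_le
  have hts : ts N = t0 N / 2 := rfl
  have hnz : 0 ≤ (N : ℝ) - Dc N - ts N := by
    rw [hts]
    linarith [hn.big, t0_nn N]
  have h3 : 0.38 * ((N : ℝ) - Dc N - ts N) ≤ aa 1 * (lev q - ts N) := by
    calc 0.38 * ((N : ℝ) - Dc N - ts N) ≤ aa 1 * ((N : ℝ) - Dc N - ts N) :=
          mul_le_mul_of_nonneg_right h2 hnz
      _ ≤ aa 1 * (lev q - ts N) :=
          mul_le_mul_of_nonneg_left (by linarith) (by linarith)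
  rw [h1] at hth
  linarith

/-- Rows of `l` are low. -/
lemma rows_low {N : ℕ} (hn : NumN2 N) {l : List ℕ} (hs : l.Pairwise (· > ·))
    (hb : ∀ p ∈ l, Normal N p) (hth : Th N 1 l ≤ 0.621 * (N : ℝ)) :
    ∀ p ∈ l, lev p ≤ ts N + 0.69 * (N : ℝ) := by
  cases l with
  | nil => simp
  | cons r t =>
    intro p hp
    have h1 : Th N 1 (r :: t) = aa 2 * (lev r - ts N) + Th N 2 t := rfl
    have h2 : (0.9 : ℝ) < aa 2 := aa_two_gt
    have h3 : 0 ≤ Th N 2 t := Th_nonneg N 2 t (big_of_normal fun p hp => hb p (by simp [hp]))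
    have h4 : 2 * ts N ≤ lev r := by
      have := (hb r (by simp)).2.1
      unfold ts
      linarith
    have hts : 0 ≤ ts N := ts_nonneg N
    have h5 : 0 ≤ lev r - ts N := by linarith
    have h6 : 0.9 * (lev r - ts N) ≤ aa 2 * (lev r - ts N) :=
      mul_le_mul_of_nonneg_right h2.le h5
    have h7 : lev r ≤ ts N + 0.69 * (N : ℝ) := by
      rw [h1] at hth
      have : (0 : ℝ) ≤ N := by linarith [hn.big]
      linarith
    rcases List.mem_cons.1 hp with rfl | hp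
    · exact h7
    · have h8 : p < r := (List.pairwise_cons.1 hs).1 p hp
      have h9 : 2 ≤ p := (hb p (by simp [hp])).1.two_le
      exact (lev_mono h9 h8.le).trans h7

/-- The candidates for the new row. -/
def QQ (N u : ℕ) : Finset ℕ :=
  (primesLev (0.9 * (N : ℝ)) (0.95 * (N : ℝ))).filter (fun p => Normal N p ∧ Clean N ((p - 1) * u))

lemma mem_QQ {N u p : ℕ} (hp : p ∈ QQ N u) :
    0.9 * (N : ℝ) ≤ lev p ∧ lev p < 0.95 * (N : ℝ) ∧ Normal N p ∧ Clean N ((p - 1) * u) := by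
  unfold QQ primesLev at hp
  simp only [Finset.mem_filter] at hp
  exact ⟨hp.1.2.2.1, hp.1.2.2.2, hp.2.1, hp.2.2⟩

/-- The new list is a representation, with room. -/
lemma new_rep {N : ℕ} (hn : NumN2 N) {l : List ℕ} {low m p : ℕ} (h : IsRepNoCut N l low m)
    (hth : Th N 1 l ≤ 0.621 * (N : ℝ)) (hp : p ∈ QQ N m) :
    IsRep N (p :: l) low ((p - 1) * m) ∧ Th N 0 (p :: l) ≤ (N : ℝ) - 4 * wd N ∧
      3 * wd N ≤ lev p - Th N 0 l := by
  obtain ⟨hs, hnorm, hadm, hlow, heq, hclean⟩ := h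
  obtain ⟨h1, h2, hN, hC⟩ := mem_QQ hp
  have hpp := hN.1
  have hw := hn.w_le
  have hd := hn.d_le
  have ht := hn.t_le
  have hbig := hn.big
  have hts : ts N = t0 N / 2 := rfl
  have hrows := rows_low hn hs hnorm hth
  have hb := big_of_normal hnorm
  have hth0 : Th N 0 l ≤ 0.621 * (N : ℝ) := (Th_succ_ge N 0 l hb).trans hth
  have hgt : ∀ r ∈ l, r < p := by
    intro r hr
    have h3 := hrows r hr
    refine lt_of_lev_lt hpp.two_le ?_
    rw [hts] at h3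
    linarith [t0_nn N]
  refine ⟨⟨List.pairwise_cons.2 ⟨hgt, hs⟩, ?_, ?_, ?_, hlow, ?_, hC⟩, ?_, ?_⟩
  · intro r hr
    rcases List.mem_cons.1 hr with rfl | hr
    · exact hN
    · exact hnorm r hr
  · intro r hr
    rcases List.mem_cons.1 hr with rfl | hr
    · linarith
    · have h3 := hrows r hr
      rw [hts] at h3
      linarith [t0_nn N]
  · refine ⟨?_, hadm⟩
    linarith [tol_nn N]
  · rw [rowsProd_cons, heq]
    ring
  · have e1 : Th N 0 (p :: l) = aa 1 * (lev p - ts N) + Th N 1 l := rfl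
    have h4 := aa_one_lt
    have h5 : 0 ≤ lev p - ts N := by
      rw [hts]
      linarith [t0_nn N]
    have h6 : lev p - ts N ≤ 0.95 * (N : ℝ) := by
      have := ts_nonneg N
      linarith
    have h7 : aa 1 * (lev p - ts N) ≤ 0.39 * (0.95 * (N : ℝ)) :=
      mul_le_mul h4 h6 h5 (by norm_num)
    rw [e1]
    linarith
  · linarith

/-- The mass of the candidates. -/
lemma QQ_mass {N m : ℕ} (hn : NumN2 N)
    (hgood : ∀ (a b : ℝ) (u : ℕ), t0 N ≤ a → a ≤ b → b ≤ (N : ℝ) + 5 →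
      Clean N u → u ≠ 0 → (u.primeFactors.card : ℝ) ≤ Real.exp ((N : ℝ) + 7) →
      b - a - 1 ≤ ∑ p ∈ (primesLev a b).filter (fun p => Normal N p ∧ Clean N ((p - 1) * u)),
        (1 : ℝ) / ((p : ℝ) - 1))
    (hmB : m < Bnd N) (hm0 : 0 < m) (hclean : Clean N m) :
    0.05 * (N : ℝ) - 1 ≤ ∑ p ∈ QQ N m, (1 : ℝ) / ((p : ℝ) - 1) := by
  have hbig := hn.big
  have ht := hn.t_le
  have hN1 : 1 ≤ N := by
    have : (1 : ℝ) ≤ N := by linarith
    exact_mod_cast this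
  have := hgood (0.9 * (N : ℝ)) (0.95 * (N : ℝ)) m (by linarith [t0_nn N]) (by linarith)
    (by linarith) hclean hm0.ne' (card_primeFactors_le hN1 hm0 hmB)
  unfold QQ
  refine le_trans (le_of_eq ?_) this
  ring

/-- `SlackOK` for two lists with different tops. -/
lemma slack_of_tops {N p p' : ℕ} {l l' : List ℕ} (hs : (p :: l).Pairwise (· > ·))
    (hs' : (p' :: l').Pairwise (· > ·)) (hne : p ≠ p')
    (hw : 3 * wd N ≤ lev p - Th N 0 l) (hw' : 3 * wd N ≤ lev p' - Th N 0 l') :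
    SlackOK N (p :: l) (p' :: l') := by
  have hT : ∀ {a : ℕ} {r : List ℕ}, 3 * wd N ≤ lev a - Th N 0 r → TopSlack N 0 (a :: r) := by
    intro a r h l₁ t l₂ hl hlen
    have hl₁ : l₁ = [] := by simpa using hlen
    subst hl₁
    simp only [List.nil_append, List.cons.injEq] at hl
    rcases hl with ⟨rfl, rfl⟩
    exact h
  exact slackOK_of_diff N 0 0 [] l l' p p' hs hs' (hT hw) (hT hw') (by simp) (by simp) hne

end N2Aux

open N2Aux ShiftAux in
/-- The tails below a row above the cut: first bound. -/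
theorem n2_raw : ∃ N₀ : ℕ, ∀ N ≥ N₀,
    (0.05 * (N : ℝ) - 1) * ∑ m ∈ N2set N, (1 : ℝ) / m ≤
      Ss N ((N : ℝ) - 4 * wd N) + Real.exp (-wd N) := by
  obtain ⟨N1, hnum⟩ := numN2
  obtain ⟨N2, hlt⟩ := rep_lt_Bnd
  obtain ⟨N3, hdist⟩ := distinct_mass
  obtain ⟨N4, hgood⟩ := good_mass
  refine ⟨N1 + N2 + N3 + N4, fun N hN => ?_⟩
  have hn := hnum N (by omega)
  have hlt' := hlt N (by omega)
  have hdist' := hdist N (by omega)
  have hgood' := hgood N (by omega)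
  -- choose representations
  have hwit : ∀ m ∈ N2set N, ∃ d : List ℕ × ℕ × ℕ, IsRepNoCut N d.1 d.2.1 m ∧
      (d.2.2 :: d.1).Pairwise (· > ·) ∧ Normal N d.2.2 ∧ Adm N (d.2.2 :: d.1) ∧
      (N : ℝ) - Dc N < lev d.2.2 ∧ lev d.2.2 ≤ (N : ℝ) + 3 ∧
      Th N 0 (d.2.2 :: d.1) ≤ (N : ℝ) + 2 * wd N := by
    intro m hm
    obtain ⟨-, l, low, q, h⟩ := Finset.mem_filter.1 hm
    exact ⟨(l, low, q), h⟩
  choose! dat hdat using hwit
  set F := N2set N with hF
  have hFm : ∀ m ∈ F, m < Bnd N := fun m hm =>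
    Finset.mem_range.1 (Finset.mem_filter.1 hm).1
  have hrep : ∀ m ∈ F, IsRepNoCut N (dat m).1 (dat m).2.1 m := fun m hm => (hdat m hm).1
  have hth : ∀ m ∈ F, Th N 1 (dat m).1 ≤ 0.621 * (N : ℝ) := fun m hm =>
    th_one_le hn (hdat m hm).2.2.2.2.1 (hdat m hm).2.2.2.2.2.2
  have hmpos : ∀ m ∈ F, 0 < m := by
    intro m hm
    obtain ⟨hs, hnorm, hadm, hlow, heq, hclean⟩ := hrep m hm
    rw [heq]
    exact Nat.mul_pos (rowsProd_pos _ fun p hp => (hnorm p hp).1) (LowVal.pos hlow)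
  let Sg := F.sigma (fun m => QQ N m)
  let rp : (_ : ℕ) × ℕ → List ℕ × ℕ := fun x => (x.2 :: (dat x.1).1, (dat x.1).2.1)
  have hfact : ∀ x ∈ Sg, x.1 ∈ F ∧ x.2 ∈ QQ N x.1 ∧ mOf (rp x) = (x.2 - 1) * x.1 := by
    intro x hx
    obtain ⟨h1, h2⟩ := Finset.mem_sigma.1 hx
    refine ⟨h1, h2, ?_⟩
    show rowsProd (x.2 :: (dat x.1).1) * (dat x.1).2.1 = (x.2 - 1) * x.1
    rw [rowsProd_cons, mul_assoc, ← (hrep x.1 h1).2.2.2.2.1]
  have hnew := fun x (hx : x ∈ Sg) =>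
    new_rep hn (hrep x.1 (hfact x hx).1) (hth x.1 (hfact x hx).1) (hfact x hx).2.1
  have hinj : Set.InjOn rp (Sg : Set ((_ : ℕ) × ℕ)) := by
    intro x hx y hy he
    have he' : (x.2 :: (dat x.1).1, (dat x.1).2.1) = (y.2 :: (dat y.1).1, (dat y.1).2.1) := he
    obtain ⟨he1, he2⟩ := Prod.mk.inj he'
    obtain ⟨he3, he4⟩ := List.cons.inj he1
    have hx1 := (hfact x hx).1
    have hy1 := (hfact y hy).1
    have e1 : x.1 = y.1 := by
      rw [(hrep x.1 hx1).2.2.2.2.1, (hrep y.1 hy1).2.2.2.2.1, he4, he2]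
    exact Sigma.ext e1 (heq_of_eq he3)
  -- the distinctness bound
  have hT := hdist' (Sg.image rp)
    (by
      intro τ hτ
      obtain ⟨x, hx, rfl⟩ := Finset.mem_image.1 hτ
      rw [(hfact x hx).2.2]
      exact (hnew x hx).1)
    (by
      intro τ hτ τ' hτ' hne hm
      obtain ⟨x, hx, rfl⟩ := Finset.mem_image.1 hτ
      obtain ⟨y, hy, rfl⟩ := Finset.mem_image.1 hτ'
      have hx' := hnew x hx
      have hy' := hnew y hy
      by_cases hxy : x.2 = y.2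
      · exfalso
        apply hne
        rw [(hfact x hx).2.2, (hfact y hy).2.2, ← hxy] at hm
        have hp2 := (mem_QQ (hfact x hx).2.1).2.2.1.1.two_le
        have e1 : x.1 = y.1 := Nat.eq_of_mul_eq_mul_left (by omega) hm
        have e2 : x = y := Sigma.ext e1 (heq_of_eq hxy)
        rw [e2]
      · exact slack_of_tops hx'.1.sorted hy'.1.sorted hxy hx'.2.2 hy'.2.2)
  -- the sum over the image
  have hsum1 : ∑ τ ∈ Sg.image rp, (1 : ℝ) / mOf τ = ∑ x ∈ Sg, (1 : ℝ) / mOf (rp x) :=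
    Finset.sum_image hinj
  have hsum2 : ∑ x ∈ Sg, (1 : ℝ) / mOf (rp x) =
      ∑ m ∈ F, ((1 : ℝ) / m) * ∑ p ∈ QQ N m, (1 : ℝ) / ((p : ℝ) - 1) := by
    rw [Finset.sum_sigma]
    refine Finset.sum_congr rfl fun m hm => ?_
    rw [Finset.mul_sum]
    refine Finset.sum_congr rfl fun p hp => ?_
    have hx : (⟨m, p⟩ : (_ : ℕ) × ℕ) ∈ Sg := Finset.mem_sigma.2 ⟨hm, hp⟩
    have e1 := (hfact _ hx).2.2
    have e2 : mOf (rp ⟨m, p⟩) = (p - 1) * m := e1
    rw [e2]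
    have hp1 := (mem_QQ hp).2.2.1.1
    have c2 : ((p - 1 : ℕ) : ℝ) = (p : ℝ) - 1 := by
      rw [Nat.cast_sub hp1.one_le]; simp
    push_cast
    rw [c2]
    rw [one_div_mul_one_div]
    rw [mul_comm]
  have hmass : (0.05 * (N : ℝ) - 1) * ∑ m ∈ F, (1 : ℝ) / m ≤
      ∑ m ∈ F, ((1 : ℝ) / m) * ∑ p ∈ QQ N m, (1 : ℝ) / ((p : ℝ) - 1) := by
    rw [Finset.mul_sum]
    refine Finset.sum_le_sum fun m hm => ?_
    rw [mul_comm]
    refine mul_le_mul_of_nonneg_left ?_ (by positivity)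
    exact QQ_mass hn hgood' (hFm m hm) (hmpos m hm) (hrep m hm).2.2.2.2.2
  have himage : ∑ m ∈ (Sg.image rp).image mOf, (1 : ℝ) / m ≤ Ss N ((N : ℝ) - 4 * wd N) := by
    unfold Ss
    refine Finset.sum_le_sum_of_subset_of_nonneg ?_ (fun m _ _ => by positivity)
    intro m hm
    obtain ⟨τ, hτ, rfl⟩ := Finset.mem_image.1 hm
    obtain ⟨x, hx, rfl⟩ := Finset.mem_image.1 hτ
    rw [(hfact x hx).2.2]
    have h1 := hnew x hx
    unfold Aset
    simp only [Finset.mem_filter, Finset.mem_range]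
    exact ⟨hlt' _ _ _ h1.1, _, _, h1.1, h1.2.1⟩
  rw [hsum1, hsum2] at hT
  linarith

end
end Vale.Agent.Lib.P031V
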