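import Vale.Agent.Lib.P031V.ChainB
import Vale.Agent.Lib.P031V.Mertens2

/-! # P031: Theorem B, part (b): tight tails. Core of `tight_bound`, blueprint section 8(b). -/

namespace Vale.Agent.Lib.P031V
open Real Finset
open scoped Classical
noncomputable section

/-- The level of the next row (or `t0` if there is none); copy of `nextLev`. -/
def nextLevA (N : ℕ) (l : List ℕ) : ℝ := match l with
  | [] => t0 N
  | q :: _ => lev q

/-- Copy of `Room`. -/
def RoomA (N : ℕ) (q : ℕ) (post : List ℕ) : Prop :=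
  Rr N ≤ lev q - Th N 0 post ∧ Rr N ≤ lev q - nextLevA N post

/-- Copy of `Tight`. -/
def TightA (N : ℕ) : List ℕ → List ℕ → Prop
  | [], _ => True
  | q :: l, post => ¬ RoomA N q (l ++ post) ∧ TightA N l post

/-- Rows in windows depending only on the rows below. -/
def tightA_GoodRows (a₁ L : ℝ) (A : List ℕ → ℝ) : List ℕ → Prop
  | [] => True
  | q :: s => q.Prime ∧ a₁ ≤ lev q ∧ A s ≤ lev q ∧ lev q < A s + L ∧ tightA_GoodRows a₁ L A s

theorem tightA_rowsProd_cons (q : ℕ) (s : List ℕ) : rowsProd (q :: s) = (q - 1) * rowsProd s := by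
  simp [rowsProd]

theorem tightA_rowsProd_append (l₁ l₂ : List ℕ) : rowsProd (l₁ ++ l₂) = rowsProd l₁ * rowsProd l₂ := by
  simp [rowsProd, List.map_append, List.prod_append]

/-- Iterated mass bound. -/
theorem tightA_iter_mass (a₁ L M : ℝ) (A : List ℕ → ℝ) (hM0 : 0 ≤ M)
    (hM : ∀ (a : ℝ) (Q : Finset ℕ), (∀ q ∈ Q, q.Prime ∧ a₁ ≤ lev q ∧ a ≤ lev q ∧ lev q < a + L) →
      ∑ q ∈ Q, (1 : ℝ) / ((q : ℝ) - 1) ≤ M) :
    ∀ (J : ℕ) (T : Finset (List ℕ)), (∀ t ∈ T, t.length = J ∧ tightA_GoodRows a₁ L A t) →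
      ∑ t ∈ T, (1 : ℝ) / (rowsProd t : ℝ) ≤ M ^ J := by
  intro J
  induction J with
  | zero =>
    intro T hT
    have hsub : T ⊆ {[]} := by
      intro t ht
      have := (hT t ht).1
      simp [List.length_eq_zero_iff.1 this]
    calc ∑ t ∈ T, (1 : ℝ) / (rowsProd t : ℝ)
        ≤ ∑ t ∈ ({[]} : Finset (List ℕ)), (1 : ℝ) / (rowsProd t : ℝ) :=
          Finset.sum_le_sum_of_subset_of_nonneg hsub (fun _ _ _ => by positivity)
      _ = M ^ 0 := by simp [rowsProd]
  | succ J ih =>
    intro T hT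
    set T' := T.image List.tail with hT'def
    have hT' : ∀ t ∈ T', t.length = J ∧ tightA_GoodRows a₁ L A t := by
      intro t ht
      obtain ⟨u, hu, rfl⟩ := Finset.mem_image.1 ht
      obtain ⟨hlen, hg⟩ := hT u hu
      cases u with
      | nil => simp at hlen
      | cons q s =>
        simp only [List.length_cons, Nat.add_right_cancel_iff] at hlen
        exact ⟨hlen, hg.2.2.2.2⟩
    have hfib : ∑ t ∈ T, (1 : ℝ) / (rowsProd t : ℝ)
        = ∑ s ∈ T', ∑ t ∈ T with t.tail = s, (1 : ℝ) / (rowsProd t : ℝ) :=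
      (Finset.sum_fiberwise_of_maps_to (fun t ht => Finset.mem_image_of_mem _ ht) _).symm
    have hinner : ∀ s ∈ T', ∑ t ∈ T with t.tail = s, (1 : ℝ) / (rowsProd t : ℝ)
        ≤ (1 : ℝ) / (rowsProd s : ℝ) * M := by
      intro s _
      set Ts := T.filter (fun t => t.tail = s) with hTs
      have hshape : ∀ t ∈ Ts, t = (t.headD 0) :: s ∧ tightA_GoodRows a₁ L A t := by
        intro t ht
        obtain ⟨ht1, ht2⟩ := Finset.mem_filter.1 ht
        obtain ⟨hlen, hg⟩ := hT t ht1
        cases t with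
        | nil => simp at hlen
        | cons q r =>
          simp only [List.tail_cons] at ht2
          subst ht2
          exact ⟨by simp, hg⟩
      have hinj : Set.InjOn (fun t : List ℕ => t.headD 0) Ts := by
        intro t ht t' ht' h
        have h1 := (hshape t ht).1
        have h2 := (hshape t' ht').1
        simp only at h
        calc t = t.headD 0 :: s := h1
          _ = t'.headD 0 :: s := by rw [h]
          _ = t' := h2.symm
      set Q := Ts.image (fun t : List ℕ => t.headD 0) with hQ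
      have hQ1 : ∀ q ∈ Q, q.Prime ∧ a₁ ≤ lev q ∧ A s ≤ lev q ∧ lev q < A s + L := by
        intro q hq
        obtain ⟨t, ht, rfl⟩ := Finset.mem_image.1 hq
        obtain ⟨h1, h2⟩ := hshape t ht
        rw [h1] at h2
        exact ⟨h2.1, h2.2.1, h2.2.2.1, h2.2.2.2.1⟩
      have hmass := hM (A s) Q hQ1
      have hrw : ∑ t ∈ Ts, (1 : ℝ) / (rowsProd t : ℝ)
          = ∑ q ∈ Q, (1 : ℝ) / (rowsProd s : ℝ) * ((1 : ℝ) / ((q : ℝ) - 1)) := by
        rw [hQ, Finset.sum_image hinj]
        apply Finset.sum_congr rfl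
        intro t ht
        obtain ⟨h1, h2⟩ := hshape t ht
        rw [h1] at h2
        have hp := h2.1
        have hq1 : ((t.headD 0 - 1 : ℕ) : ℝ) = ((t.headD 0 : ℕ) : ℝ) - 1 := by
          rw [Nat.cast_sub hp.one_le]; simp
        have hr : rowsProd t = (t.headD 0 - 1) * rowsProd s := by
          conv_lhs => rw [h1]
          exact tightA_rowsProd_cons _ _
        rw [hr]
        push_cast
        rw [hq1, mul_comm, one_div_mul_one_div]
      calc ∑ t ∈ Ts, (1 : ℝ) / (rowsProd t : ℝ)
          = ∑ q ∈ Q, (1 : ℝ) / (rowsProd s : ℝ) * ((1 : ℝ) / ((q : ℝ) - 1)) := hrw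
        _ = (1 : ℝ) / (rowsProd s : ℝ) * ∑ q ∈ Q, ((1 : ℝ) / ((q : ℝ) - 1)) := by
            rw [Finset.mul_sum]
        _ ≤ (1 : ℝ) / (rowsProd s : ℝ) * M :=
            mul_le_mul_of_nonneg_left hmass (by positivity)
    rw [hfib]
    calc ∑ s ∈ T', ∑ t ∈ T with t.tail = s, (1 : ℝ) / (rowsProd t : ℝ)
        ≤ ∑ s ∈ T', (1 : ℝ) / (rowsProd s : ℝ) * M := Finset.sum_le_sum hinner
      _ = (∑ s ∈ T', (1 : ℝ) / (rowsProd s : ℝ)) * M := by rw [Finset.sum_mul]
      _ ≤ M ^ J * M := mul_le_mul_of_nonneg_right (ih T' hT') hM0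
      _ = M ^ (J + 1) := by rw [pow_succ]

theorem tightA_Adm_suffix (N : ℕ) : ∀ (t post : List ℕ), Adm N (t ++ post) → Adm N post := by
  intro t
  induction t with
  | nil => intro post h; simpa using h
  | cons q s ih =>
    intro post h
    exact ih post h.2

/-- The suffix of a rep is a rep. -/
theorem tightA_isRep_suffix {N : ℕ} {t post : List ℕ} {low m : ℕ} (h : IsRep N (t ++ post) low m) :
    IsRep N post low (rowsProd post * low) where
  sorted := (List.pairwise_append.1 h.sorted).2.1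
  normal := fun p hp => h.normal p (List.mem_append_right _ hp)
  cut := fun p hp => h.cut p (List.mem_append_right _ hp)
  adm := tightA_Adm_suffix N t post h.adm
  lowv := h.lowv
  eq := rfl
  clean := by
    intro r hr hl hdvd
    refine h.clean r hr hl (dvd_trans hdvd ?_)
    rw [h.eq, tightA_rowsProd_append, mul_assoc]
    exact Dvd.intro_left _ rfl

/-- The left end of the window of the row above `s`. -/
def tightA_Afun (N : ℕ) (post' : List ℕ) (e : ℝ) (s : List ℕ) : ℝ :=
  max (Th N 0 s + Th N s.length post') (nextLevA N (s ++ post')) - tol N - e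

theorem tightA_tol_nonneg (N : ℕ) : 0 ≤ tol N := by
  unfold tol; positivity

theorem tightA_Th_append (N : ℕ) (h : ℕ) (l₁ l₂ : List ℕ) :
    Th N h (l₁ ++ l₂) = Th N h l₁ + Th N (h + l₁.length) l₂ := by
  induction l₁ generalizing h with
  | nil => simp [Th]
  | cons p l ih =>
    simp only [List.cons_append, Th, List.length_cons]
    rw [ih (h + 1)]
    have : h + 1 + l.length = h + (l.length + 1) := by omega
    rw [this]; ring

theorem tightA_lev_mono {p q : ℕ} (hp : 2 ≤ p) (h : p ≤ q) : lev p ≤ lev q := by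
  unfold lev
  have h2 : (2 : ℝ) ≤ p := by exact_mod_cast hp
  have hpq : (p : ℝ) ≤ q := by exact_mod_cast h
  have hlogp : 0 < Real.log p := Real.log_pos (by linarith)
  exact Real.log_le_log hlogp (Real.log_le_log (by linarith) hpq)

theorem tightA_good_of_tight (N : ℕ) (post post' : List ℕ) (e : ℝ)
    (hth : ∀ h ≤ JJ + 1, |Th N h post - Th N h post'| ≤ e)
    (hnext : |nextLevA N post - nextLevA N post'| ≤ e) (he : 0 ≤ e) :
    ∀ (t : List ℕ), t.length ≤ JJ → (t ++ post).Pairwise (· > ·) →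
      (∀ p ∈ t ++ post, Normal N p) → Adm N (t ++ post) → TightA N t post →
      tightA_GoodRows (t0 N) (Rr N + tol N + 2 * e) (tightA_Afun N post' e) t := by
  intro t
  induction t with
  | nil => intros; trivial
  | cons q s ih =>
    intro hlen hsort hnorm hadm htight
    have hlen' : s.length ≤ JJ := by
      simp only [List.length_cons] at hlen; omega
    have hc := List.pairwise_cons.1 (show (q :: (s ++ post)).Pairwise (· > ·) from hsort)
    have hsort' : (s ++ post).Pairwise (· > ·) := hc.2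
    have hgt : ∀ a ∈ s ++ post, q > a := hc.1
    have hnq : Normal N q := hnorm q (by simp)
    have hnorm' : ∀ p ∈ s ++ post, Normal N p := fun p hp => hnorm p (by simp [List.mem_append] at hp ⊢; tauto)
    have hadm1 : -tol N ≤ lev q - Th N 0 (s ++ post) := hadm.1
    have hadm2 : Adm N (s ++ post) := hadm.2
    have hroom : ¬ RoomA N q (s ++ post) := htight.1
    have htight' : TightA N s post := htight.2
    refine ⟨hnq.1, hnq.2.1, ?_, ?_, ih hlen' hsort' hnorm' hadm2 htight'⟩
    all_goals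
      set X := Th N 0 (s ++ post) with hX
      set X' := Th N 0 s + Th N s.length post' with hX'
      set Y := nextLevA N (s ++ post) with hY
      set Y' := nextLevA N (s ++ post') with hY'
      have hXX : |X - X'| ≤ e := by
        have h1 : X = Th N 0 s + Th N s.length post := by
          rw [hX, tightA_Th_append]; simp
        have h2 := hth s.length (by omega)
        rw [h1, hX']
        have : Th N 0 s + Th N s.length post - (Th N 0 s + Th N s.length post')
            = Th N s.length post - Th N s.length post' := by ring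
        rw [this]; exact h2
      have hYY : |Y - Y'| ≤ e := by
        cases s with
        | nil => simpa [hY, hY'] using hnext
        | cons a r => simp [hY, hY', nextLevA]; exact he
      have hqY : Y ≤ lev q := by
        rw [hY]
        cases hs : s ++ post with
        | nil => simpa [nextLevA] using hnq.2.1
        | cons a r =>
          have ha : a ∈ s ++ post := by rw [hs]; simp
          have hna : Normal N a := hnorm' a ha
          have := hgt a ha
          simpa [nextLevA] using tightA_lev_mono hna.1.two_le (le_of_lt this)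
      have htol := tightA_tol_nonneg N
      have hXa := abs_le.1 hXX
      have hYa := abs_le.1 hYY
    · -- lower bound
      show tightA_Afun N post' e s ≤ lev q
      unfold tightA_Afun
      have : max X' Y' ≤ lev q + tol N + e := by
        apply max_le
        · linarith [hXa.1, hXa.2]
        · linarith [hYa.1, hYa.2]
      linarith
    · -- upper bound
      show lev q < tightA_Afun N post' e s + (Rr N + tol N + 2 * e)
      unfold tightA_Afun
      have hnot : lev q < X + Rr N ∨ lev q < Y + Rr N := by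
        by_contra hcon
        push Not at hcon
        apply hroom
        constructor
        · linarith [hcon.1]
        · have := hcon.2; unfold RoomA at *; linarith
      have hm1 : X' ≤ max X' Y' := le_max_left _ _
      have hm2 : Y' ≤ max X' Y' := le_max_right _ _
      rcases hnot with h | h
      · linarith [hXa.1, hXa.2]
      · linarith [hYa.1, hYa.2]

/-- Asymptotic inputs. -/
theorem tightA_params (a₀ C : ℝ) (hC : 0 < C) : ∃ N₁ : ℕ, ∀ N ≥ N₁,
    a₀ ≤ t0 N ∧ C * Real.exp (-t0 N) ≤ 1 ∧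
      tol N + 2 * (N : ℝ) ^ ((81 : ℝ) / 100) ≤ Rr N := by
  have ht : Filter.Tendsto (fun n : ℕ => t0 n) Filter.atTop Filter.atTop := by
    unfold t0
    exact (tendsto_rpow_atTop (by norm_num : (0 : ℝ) < 4 / 5)).comp tendsto_natCast_atTop_atTop
  have hu : Filter.Tendsto (fun n : ℕ => (n : ℝ) ^ ((9 : ℝ) / 100)) Filter.atTop Filter.atTop :=
    (tendsto_rpow_atTop (by norm_num : (0 : ℝ) < 9 / 100)).comp tendsto_natCast_atTop_atTop
  have h1 := ht.eventually_ge_atTop a₀
  have h2 := ht.eventually_ge_atTop (Real.log C)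
  have h3 := hu.eventually_ge_atTop 3
  have h4 := Filter.eventually_ge_atTop (1 : ℕ)
  obtain ⟨N₁, hN₁⟩ := Filter.eventually_atTop.1 (h1.and (h2.and (h3.and h4)))
  refine ⟨N₁, fun N hN => ?_⟩
  obtain ⟨h1, h2, h3, h4⟩ := hN₁ N hN
  refine ⟨h1, ?_, ?_⟩
  · have : C = Real.exp (Real.log C) := (Real.exp_log hC).symm
    calc C * Real.exp (-t0 N) = Real.exp (Real.log C - t0 N) := by
          rw [sub_eq_add_neg, Real.exp_add, Real.exp_log hC]
      _ ≤ Real.exp 0 := Real.exp_le_exp.2 (by linarith)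
      _ = 1 := Real.exp_zero
  · have hN1 : (1 : ℝ) ≤ N := by exact_mod_cast h4
    have hN0 : (0 : ℝ) < N := by linarith
    have h5 : tol N ≤ (N : ℝ) ^ ((81 : ℝ) / 100) := by
      unfold tol
      exact Real.rpow_le_rpow_of_exponent_le hN1 (by norm_num)
    have h6 : Rr N = (N : ℝ) ^ ((81 : ℝ) / 100) * (N : ℝ) ^ ((9 : ℝ) / 100) := by
      unfold Rr
      rw [← Real.rpow_add hN0]
      norm_num
    have h7 : 0 ≤ (N : ℝ) ^ ((81 : ℝ) / 100) := by positivity
    rw [h6]
    nlinarith

/-- Mass of a window via Mertens. -/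
theorem tightA_window_mass (C a₀ : ℝ) (hmert : ∀ a b : ℝ, a₀ ≤ a → a ≤ b → |massI a b - (b - a)| ≤ C * Real.exp (-a))
    (hC : 0 < C) (a₁ L : ℝ) (h1 : a₀ ≤ a₁) (h2 : C * Real.exp (-a₁) ≤ 1) (hL : 0 ≤ L)
    (a : ℝ) (Q : Finset ℕ) (hQ : ∀ q ∈ Q, q.Prime ∧ a₁ ≤ lev q ∧ a ≤ lev q ∧ lev q < a + L) :
    ∑ q ∈ Q, (1 : ℝ) / ((q : ℝ) - 1) ≤ L + 1 := by
  rcases Q.eq_empty_or_nonempty with rfl | ⟨q0, hq0⟩
  · simp; linarith
  set a' := max a a₁ with ha'
  set b := a + L with hb
  have haa : a ≤ a' := le_max_left _ _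
  have haa1 : a₁ ≤ a' := le_max_right _ _
  have hab : a' ≤ b := by
    obtain ⟨_, h3, h4, h5⟩ := hQ q0 hq0
    exact max_le (by linarith) (by linarith)
  have hm := abs_le.1 (hmert a' b (by linarith) hab)
  have hsub : Q ⊆ primesLev a' b := by
    intro q hq
    obtain ⟨hp, h3, h4, h5⟩ := hQ q hq
    unfold primesLev
    simp only [mem_filter, mem_range]
    refine ⟨?_, hp, max_le h4 h3, h5⟩
    have := Nat.lt_ceil.2 (lt_exp_exp_of_level hp h5)
    omega
  have hle : ∑ q ∈ Q, (1 : ℝ) / ((q : ℝ) - 1) ≤ massI a' b := by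
    unfold massI
    apply Finset.sum_le_sum_of_subset_of_nonneg hsub
    intro p hp _
    have hpp := (Finset.mem_filter.1 hp).2.1
    have h2p : (2 : ℝ) ≤ p := by exact_mod_cast hpp.two_le
    have : 0 < (p : ℝ) - 1 := by linarith
    positivity
  have hexp : C * Real.exp (-a') ≤ 1 := by
    have : Real.exp (-a') ≤ Real.exp (-a₁) := Real.exp_le_exp.2 (by linarith)
    nlinarith
  linarith [hm.2]

/-- Core of `tight_bound`. -/
theorem tight_core : ∃ N₀ : ℕ, ∀ N ≥ N₀, ∀ (F : Finset ℕ) (ρ : ℕ → List ℕ × List ℕ × ℕ),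
    (∀ m ∈ F, (ρ m).1.length = JJ ∧ IsRep N ((ρ m).1 ++ (ρ m).2.1) (ρ m).2.2 m ∧
      TightA N (ρ m).1 (ρ m).2.1) →
    ∑ m ∈ F, (1 : ℝ) / m ≤ (2 * Rr N + 2) ^ JJ *
      ∑ mb ∈ F.image (fun m => rowsProd (ρ m).2.1 * (ρ m).2.2), (1 : ℝ) / mb := by
  obtain ⟨N₁, hN₁⟩ := rep_close
  obtain ⟨C, a₀, hC, hmert⟩ := mert_interval
  obtain ⟨N₂, hN₂⟩ := tightA_params a₀ C hC
  refine ⟨max N₁ N₂, fun N hN F ρ h => ?_⟩
  have hN1 : N ≥ N₁ := le_trans (le_max_left _ _) hN
  have hN2 : N ≥ N₂ := le_trans (le_max_right _ _) hN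
  obtain ⟨hp1, hp2, hp3⟩ := hN₂ N hN2
  set e := (N : ℝ) ^ ((81 : ℝ) / 100) with he
  have he0 : 0 ≤ e := by positivity
  set L := Rr N + tol N + 2 * e with hL
  have hRr0 : 0 ≤ Rr N := by unfold Rr; positivity
  have hL0 : 0 ≤ L := by have := tightA_tol_nonneg N; rw [hL]; linarith
  have hL1 : L + 1 ≤ 2 * Rr N + 2 := by rw [hL]; linarith
  have hM := tightA_window_mass C a₀ hmert hC (t0 N) L hp1 hp2 hL0
  set mbf : ℕ → ℕ := fun m => rowsProd (ρ m).2.1 * (ρ m).2.2 with hmbf
  have hfib : ∑ m ∈ F, (1 : ℝ) / m = ∑ mb ∈ F.image mbf, ∑ m ∈ F with mbf m = mb, (1 : ℝ) / m :=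
    (Finset.sum_fiberwise_of_maps_to (fun m hm => Finset.mem_image_of_mem _ hm) _).symm
  rw [hfib, Finset.mul_sum]
  apply Finset.sum_le_sum
  intro mb hmb
  obtain ⟨mstar, hmstar, hmstar2⟩ := Finset.mem_image.1 hmb
  set post' := (ρ mstar).2.1 with hpost'
  have hrepstar : IsRep N post' (ρ mstar).2.2 mb := by
    have := tightA_isRep_suffix (h mstar hmstar).2.1
    rw [← hmstar2]; exact this
  set Tm := F.filter (fun m => mbf m = mb) with hTm
  have hfact : ∀ m ∈ Tm, m = rowsProd (ρ m).1 * mb := by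
    intro m hm
    obtain ⟨hm1, hm2⟩ := Finset.mem_filter.1 hm
    have := (h m hm1).2.1.eq
    rw [tightA_rowsProd_append, mul_assoc] at this
    rw [← hm2]; exact this
  have hinj : Set.InjOn (fun m => (ρ m).1) Tm := by
    intro m hm m' hm' heq
    simp only at heq
    rw [hfact m hm, hfact m' hm', heq]
  set T := Tm.image (fun m => (ρ m).1) with hT
  have hgood : ∀ t ∈ T, t.length = JJ ∧ tightA_GoodRows (t0 N) L (tightA_Afun N post' e) t := by
    intro t ht
    obtain ⟨m, hm, rfl⟩ := Finset.mem_image.1 ht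
    obtain ⟨hm1, hm2⟩ := Finset.mem_filter.1 hm
    obtain ⟨hlen, hrep, htight⟩ := h m hm1
    refine ⟨hlen, ?_⟩
    have hrepm : IsRep N (ρ m).2.1 (ρ m).2.2 mb := by
      have := tightA_isRep_suffix hrep
      rw [← hm2]; exact this
    obtain ⟨hc1, hc2⟩ := hN₁ N hN1 _ _ _ _ _ hrepm hrepstar
    have hnext : |nextLevA N (ρ m).2.1 - nextLevA N post'| ≤ e := by
      have hh : ∀ l : List ℕ, (if l = [] then t0 N else lev (l.headD 0)) = nextLevA N l := by
        intro l
        cases l with
        | nil => simp [nextLevA]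
        | cons q r => simp [nextLevA]
      rw [← hh, ← hh]; exact hc2
    exact tightA_good_of_tight N _ post' e hc1 hnext he0 _ (le_of_eq hlen) hrep.sorted hrep.normal hrep.adm htight
  have hbound := tightA_iter_mass (t0 N) L (L + 1) (tightA_Afun N post' e) (by linarith) hM JJ T hgood
  have hsum : ∑ m ∈ Tm, (1 : ℝ) / m = (∑ t ∈ T, (1 : ℝ) / (rowsProd t : ℝ)) * ((1 : ℝ) / mb) := by
    rw [hT, Finset.sum_image hinj, Finset.sum_mul]
    apply Finset.sum_congr rfl
    intro m hm
    conv_lhs => rw [hfact m hm]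
    push_cast
    rw [one_div_mul_one_div]
  rw [hsum]
  apply mul_le_mul_of_nonneg_right _ (by positivity)
  refine le_trans hbound ?_
  exact pow_le_pow_left₀ (by linarith) hL1 _

end

end Vale.Agent.Lib.P031V
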