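import Vale.Agent.Lib.P031V.PairE
import Vale.Agent.Lib.P031V.NegB
import Vale.Agent.Lib.P031V.NormalP
import Vale.Agent.Lib.P031V.ThmBBox
import Vale.Agent.Lib.P031V.ThmBTight
import Vale.Agent.Lib.P031V.Params
import Vale.Agent.Lib.P031V.ChainB
import Vale.Agent.Lib.P031V.ThmBShift
import Vale.Agent.Lib.P031V.ThmBDefs
import Vale.Agent.Lib.P031V.ThmBDoubling
import Vale.Agent.Lib.P031V.ThmBFew
import Vale.Agent.Lib.P031V.ThmBN2

/-! # P031: Theorem B: tails in the window have negligible mass. Blueprint section 8. -/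

namespace Vale.Agent.Lib.P031V
open Real Finset
open scoped Classical
noncomputable section

/-- No room at any of the rows of `l`, with suffix `post`. -/
def Tight (N : ℕ) : List ℕ → List ℕ → Prop
  | [], _ => True
  | q :: l, post => ¬ Room N q (l ++ post) ∧ Tight N l post

/-- (b) Tight tails, grouped by the integer `mbar` below the first `J` rows. -/
theorem tight_bound : ∃ N₀ : ℕ, ∀ N ≥ N₀, ∀ (F : Finset ℕ) (ρ : ℕ → List ℕ × List ℕ × ℕ),
    (∀ m ∈ F, let top := (ρ m).1; let post := (ρ m).2.1; let low := (ρ m).2.2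
      top.length = JJ ∧ IsRep N (top ++ post) low m ∧ Tight N top post) →
    ∑ m ∈ F, (1 : ℝ) / m ≤ (2 * Rr N + 2) ^ JJ *
      ∑ mb ∈ F.image (fun m => rowsProd (ρ m).2.1 * (ρ m).2.2), (1 : ℝ) / mb := by
  obtain ⟨N₀, hN₀⟩ := tight_core
  refine ⟨N₀, fun N hN F ρ h => hN₀ N hN F ρ fun m hm => ?_⟩
  obtain ⟨h1, h2, h3⟩ := h m hm
  refine ⟨h1, h2, ?_⟩
  have key : ∀ (top post : List ℕ), Tight N top post → TightA N top post := by
    intro top post ht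
    induction top with
    | nil => trivial
    | cons q l ih =>
      refine ⟨?_, ih ht.2⟩
      intro hr
      apply ht.1
      have hnl : ∀ u : List ℕ, nextLev N u = nextLevA N u := by
        intro u
        cases u <;> rfl
      exact ⟨hr.1, by rw [hnl]; exact hr.2⟩
  exact key _ _ h3

/-- (i),(ii) Doubling: the integers below a valid `J`-extension. -/
theorem doubling : ∃ N₀ : ℕ, ∀ N ≥ N₀, ∀ (F : Finset ℕ) (ρ : ℕ → List ℕ × List ℕ × ℕ),
    (∀ mb ∈ F, let top := (ρ mb).1; let post := (ρ mb).2.1; let low := (ρ mb).2.2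
      top.length = JJ ∧ rowsProd post * low = mb ∧ IsRep N (top ++ post) low (rowsProd top * mb) ∧
      Th N 0 (top ++ post) ≤ (N : ℝ) + 4 * wd N) →
    ∑ mb ∈ F, (1 : ℝ) / mb ≤ ((N : ℝ) + 7) * ∑ m ∈ Mset N, (1 : ℝ) / m :=
  doubling_proof

/-- (iii) Box: `mass(M) (ηN - 2)^J ≤ S(N - 4w) + exp(-w)`. -/
theorem box_bound : ∃ N₀ : ℕ, ∀ N ≥ N₀,
    (∑ m ∈ Mset N, (1 : ℝ) / m) * (etaB * N - 2) ^ JJ ≤ Ss N ((N : ℝ) - 4 * wd N) + Real.exp (-wd N) := by
  have hc0 : 0 < cB := by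
    unfold cB c1B kapJ
    positivity
  have hc1 : cB ≤ 1 := by
    norm_num [cB, c1B, kapJ, JJ]
  obtain ⟨N₀, h⟩ := Box.box_core cB hc0 hc1
  refine ⟨N₀, fun N hN => ?_⟩
  have hmem : ∀ m ∈ Mset N, ∃ lh low zt, IsRep N lh low m ∧ MWit N lh zt :=
    fun m hm => (Finset.mem_filter.1 hm).2
  choose! lh lw zt hrep using hmem
  refine h N hN (Mset N) lh lw zt (fun m hm => ?_)
  obtain ⟨h1, h2⟩ := hrep m hm
  exact ⟨h1, ⟨h2.sorted, h2.above, h2.base, h2.top, h2.phi, h2.slack⟩⟩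

/-- Low values are in `M`, and hence also few rows. -/
theorem few_rows_bound : ∃ N₀ : ℕ, ∀ N ≥ N₀, ∀ (F : Finset ℕ) (ρ : ℕ → List ℕ × ℕ),
    (∀ m ∈ F, (ρ m).1.length < JJ ∧ IsRep N (ρ m).1 (ρ m).2 m) →
    ∑ m ∈ F, (1 : ℝ) / m ≤ (JJ : ℝ) * ((N : ℝ) + 7) ^ (JJ - 1) * ∑ m ∈ Mset N, (1 : ℝ) / m :=
  few_rows_proof

/-- Low values are tails without rows. -/
theorem isRep_low {N low : ℕ} (h : LowVal N low) (hc : Clean N low) : IsRep N [] low low where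
  sorted := List.Pairwise.nil
  normal := by simp
  cut := by simp
  adm := trivial
  lowv := h
  eq := by simp [rowsProd]
  clean := hc

theorem Ss_mono (N : ℕ) {T T' : ℝ} (h : T ≤ T') : Ss N T ≤ Ss N T' := by
  unfold Ss
  refine Finset.sum_le_sum_of_subset_of_nonneg ?_ (fun _ _ _ => by positivity)
  intro m hm
  simp only [Aset, Finset.mem_filter] at hm ⊢
  obtain ⟨hr, l, low, hrep, hle⟩ := hm
  exact ⟨hr, l, low, hrep, hle.trans h⟩

/-- `Mlow ≤ S`, `1 ≤ S`. -/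
theorem Mlow_le_Ss : ∃ N₀ : ℕ, ∀ N ≥ N₀, Mlow N ≤ Ss N ((N : ℝ) - 4 * wd N) := by
  obtain ⟨N₁, hN₁⟩ : ∃ N₁ : ℕ, ∀ N ≥ N₁, 0 ≤ (N : ℝ) - 4 * wd N := by
    obtain ⟨N₁, h⟩ := Filter.eventually_atTop.mp (ev_rpow_le ((17 : ℝ) / 20) 1 4 (by norm_num))
    refine ⟨N₁, fun N hN => ?_⟩
    have := h N hN
    rw [Real.rpow_one] at this
    unfold wd
    linarith
  refine ⟨N₁, fun N hN => ?_⟩
  unfold Mlow Ss
  refine Finset.sum_le_sum_of_subset_of_nonneg ?_ (fun _ _ _ => by positivity)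
  intro m hm
  obtain ⟨hr, hlow, hcl⟩ := Finset.mem_filter.mp hm
  refine Finset.mem_filter.mpr ⟨hr, [], m, isRep_low hlow hcl, ?_⟩
  simpa [Th] using hN₁ N hN

theorem one_le_Ss : ∃ N₀ : ℕ, ∀ N ≥ N₀, 1 ≤ Ss N ((N : ℝ) - 4 * wd N) := by
  obtain ⟨N₁, hN₁⟩ : ∃ N₁ : ℕ, ∀ N ≥ N₁, 0 ≤ (N : ℝ) - 4 * wd N ∧ 0 < (N : ℝ) := by
    obtain ⟨N₁, h⟩ := Filter.eventually_atTop.mp (ev_rpow_le ((17 : ℝ) / 20) 1 4 (by norm_num))
    refine ⟨max N₁ 1, fun N hN => ?_⟩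
    have h1 := h N (le_trans (le_max_left _ _) hN)
    have h2 : 1 ≤ N := le_trans (le_max_right _ _) hN
    rw [Real.rpow_one] at h1
    refine ⟨?_, by exact_mod_cast h2⟩
    unfold wd
    linarith
  refine ⟨N₁, fun N hN => ?_⟩
  obtain ⟨h0, hpos⟩ := hN₁ N hN
  have hY : 1 ≤ Ymax N := by
    unfold Ymax
    exact Real.one_le_exp (by positivity)
  have hlow : LowVal N 1 := ⟨1, one_ne_zero, fun r hr h => by
    exact absurd (Nat.dvd_one.mp h) hr.ne_one, by simp, by simpa using hY⟩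
  have hcl : Clean N 1 := fun r hr _ h => by
    have : r ^ 2 = 1 := Nat.dvd_one.mp h
    have h2 := hr.two_le
    nlinarith
  have hmem : 1 ∈ Aset N ((N : ℝ) - 4 * wd N) := by
    refine Finset.mem_filter.mpr ⟨?_, [], 1, isRep_low hlow hcl, by simpa [Th] using h0⟩
    refine Finset.mem_range.mpr ?_
    unfold Bnd
    have : 0 ≤ ⌈(Ymax N) ^ 2⌉₊ := Nat.zero_le _
    have hpos2 : 0 < ⌈(Ymax N) ^ 2⌉₊ := Nat.ceil_pos.mpr (by positivity)
    omega
  have := Finset.single_le_sum (f := fun m : ℕ => (1 : ℝ) / m) (s := Aset N ((N : ℝ) - 4 * wd N))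
    (fun _ _ => by positivity) hmem
  simpa [Ss] using this

/-- Either `top` is tight over `post`, or some entry of `top` has room. -/
theorem tight_or_room (N : ℕ) (top post : List ℕ) :
    Tight N top post ∨ ∃ pre q post', top ++ post = pre ++ q :: post' ∧ pre.length < top.length ∧ Room N q post' := by
  induction top with
  | nil => exact Or.inl trivial
  | cons q t ih =>
    by_cases h : Room N q (t ++ post)
    · exact Or.inr ⟨[], q, t ++ post, rfl, by simp, h⟩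
    · rcases ih with h1 | ⟨pre, q', post', h1, h2, h3⟩
      · exact Or.inl ⟨h, h1⟩
      · refine Or.inr ⟨q :: pre, q', post', ?_, by simpa using h2, h3⟩
        simp [h1]

/-- Union bound for sums of nonnegative terms. -/
theorem sum_le_sum_cover {ι : Type*} (s : Finset ℕ) (I : Finset ι) (t : ι → Finset ℕ) (f : ℕ → ℝ)
    (hf : ∀ m, 0 ≤ f m) (hc : ∀ m ∈ s, ∃ i ∈ I, m ∈ t i) :
    ∑ m ∈ s, f m ≤ ∑ i ∈ I, ∑ m ∈ t i, f m := by
  classical
  induction I using Finset.induction_on generalizing s with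
  | empty =>
    have : s = ∅ := by
      apply Finset.eq_empty_of_forall_notMem
      intro m hm
      obtain ⟨i, hi, _⟩ := hc m hm
      simp at hi
    simp [this]
  | insert a I ha ih =>
    rw [Finset.sum_insert ha]
    have h1 : ∑ m ∈ s, f m ≤ ∑ m ∈ s.filter (· ∈ t a), f m + ∑ m ∈ s.filter (· ∉ t a), f m := by
      rw [Finset.sum_filter_add_sum_filter_not]
    have h2 : ∑ m ∈ s.filter (· ∈ t a), f m ≤ ∑ m ∈ t a, f m := by
      refine Finset.sum_le_sum_of_subset_of_nonneg ?_ (fun m _ _ => hf m)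
      intro m hm
      exact (Finset.mem_filter.mp hm).2
    have h3 : ∑ m ∈ s.filter (· ∉ t a), f m ≤ ∑ i ∈ I, ∑ m ∈ t i, f m := by
      refine ih _ ?_
      intro m hm
      obtain ⟨hms, hmt⟩ := Finset.mem_filter.mp hm
      obtain ⟨i, hi, hmi⟩ := hc m hms
      rcases Finset.mem_insert.mp hi with rfl | hi
      · exact absurd hmi hmt
      · exact ⟨i, hi, hmi⟩
    linarith

/-- The numerical limits in Theorem B. -/
theorem etaB_pos : 0 < etaB := by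
  unfold etaB cB c1B kapJ JJ
  norm_num

theorem window_limits (ε : ℝ) (hε : 0 < ε) : ∃ N₀ : ℕ, ∀ N ≥ N₀,
    (2 * Rr N + 2) ^ JJ * ((N : ℝ) + 7) * (2 / (etaB * N - 2) ^ JJ) ≤ ε ∧
    (JJ : ℝ) * ((N : ℝ) + 7) ^ (JJ - 1) * (2 / (etaB * N - 2) ^ JJ) ≤ ε ∧
    (JJ : ℝ) * (100 * wd N / Rr N) ≤ ε ∧ 0 < etaB * N - 2 ∧ Real.exp (-wd N) ≤ 1 := by
  have heta := etaB_pos
  set K₀ : ℝ := (etaB / 2) ^ 12 * ε with hK₀
  have hK₀pos : 0 < K₀ := by positivity
  have e1 := ev_rpow_le ((118 : ℝ) / 10) 12 (4 ^ 13 / K₀) (by norm_num)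
  have e2 := ev_rpow_le (11 : ℝ) 12 (48 * 2 ^ 11 / K₀) (by norm_num)
  have e3 := ev_rpow_le ((17 : ℝ) / 20) ((9 : ℝ) / 10) (1200 / ε) (by norm_num)
  have e4 := ev_nat_ge (4 / etaB + 7)
  obtain ⟨N₀, hN₀⟩ := Filter.eventually_atTop.mp (e1.and (e2.and (e3.and e4)))
  refine ⟨N₀, fun N hN => ?_⟩
  obtain ⟨h1, h2, h3, h4⟩ := hN₀ N hN
  have hN7 : (7 : ℝ) ≤ N := by
    have : 0 < 4 / etaB := by positivity
    linarith
  have hNpos : (0 : ℝ) < N := by linarith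
  have hden : etaB * N / 2 ≤ etaB * N - 2 := by
    have : 4 / etaB ≤ N := by linarith
    rw [div_le_iff₀ heta] at this
    nlinarith
  have hdpos : 0 < etaB * N - 2 := lt_of_lt_of_le (by positivity) hden
  have hpow : (etaB / 2) ^ 12 * (N : ℝ) ^ 12 ≤ (etaB * N - 2) ^ JJ := by
    have : (etaB / 2) ^ 12 * (N : ℝ) ^ 12 = (etaB * N / 2) ^ 12 := by ring
    rw [this]
    exact pow_le_pow_left₀ (by positivity) hden 12
  have hJ : JJ = 12 := rfl
  have hpos2 : 0 < (etaB * N - 2) ^ JJ := pow_pos hdpos _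
  have hRr1 : 1 ≤ Rr N := by
    unfold Rr
    exact Real.one_le_rpow (by linarith) (by norm_num)
  have hRpow : (Rr N) ^ 12 = (N : ℝ) ^ ((108 : ℝ) / 10) := by
    unfold Rr
    rw [← Real.rpow_natCast, ← Real.rpow_mul hNpos.le]
    norm_num
  have hN12 : (N : ℝ) ^ (12 : ℝ) = (N : ℝ) ^ 12 := by
    rw [show (12 : ℝ) = ((12 : ℕ) : ℝ) by norm_num, Real.rpow_natCast]
  have hN11 : (N : ℝ) ^ (11 : ℝ) = (N : ℝ) ^ 11 := by
    rw [show (11 : ℝ) = ((11 : ℕ) : ℝ) by norm_num, Real.rpow_natCast]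
  refine ⟨?_, ?_, ?_, hdpos, ?_⟩
  · -- first limit
    have hA : (2 * Rr N + 2) ^ JJ ≤ 4 ^ 12 * (Rr N) ^ 12 := by
      rw [hJ, ← mul_pow]
      exact pow_le_pow_left₀ (by positivity) (by nlinarith) 12
    have hB : (N : ℝ) + 7 ≤ 2 * N := by linarith
    have hprod : (2 * Rr N + 2) ^ JJ * ((N : ℝ) + 7) * 2 ≤ 4 ^ 13 * (N : ℝ) ^ ((118 : ℝ) / 10) := by
      have h118 : (N : ℝ) ^ ((118 : ℝ) / 10) = (Rr N) ^ 12 * N := by
        rw [hRpow, ← Real.rpow_add_one hNpos.ne']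
        norm_num
      rw [h118]
      have hR0 : 0 ≤ (Rr N) ^ 12 := by positivity
      calc (2 * Rr N + 2) ^ JJ * ((N : ℝ) + 7) * 2 ≤ (4 ^ 12 * (Rr N) ^ 12) * (2 * N) * 2 := by
            gcongr
        _ = 4 ^ 13 * ((Rr N) ^ 12 * N) := by ring
    have h1' : 4 ^ 13 * (N : ℝ) ^ ((118 : ℝ) / 10) ≤ K₀ * (N : ℝ) ^ 12 := by
      rw [hN12, div_mul_eq_mul_div, div_le_iff₀ hK₀pos] at h1
      linarith
    have : (2 * Rr N + 2) ^ JJ * ((N : ℝ) + 7) * (2 / (etaB * N - 2) ^ JJ)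
        = ((2 * Rr N + 2) ^ JJ * ((N : ℝ) + 7) * 2) / (etaB * N - 2) ^ JJ := by ring
    rw [this, div_le_iff₀ hpos2]
    calc _ ≤ 4 ^ 13 * (N : ℝ) ^ ((118 : ℝ) / 10) := hprod
      _ ≤ K₀ * (N : ℝ) ^ 12 := h1'
      _ = ε * ((etaB / 2) ^ 12 * (N : ℝ) ^ 12) := by rw [hK₀]; ring
      _ ≤ ε * (etaB * N - 2) ^ JJ := mul_le_mul_of_nonneg_left hpow hε.le
  · -- second limit
    have hB : (N : ℝ) + 7 ≤ 2 * N := by linarith
    have hprod : (JJ : ℝ) * ((N : ℝ) + 7) ^ (JJ - 1) * 2 ≤ 48 * 2 ^ 11 * (N : ℝ) ^ 11 := by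
      have : ((N : ℝ) + 7) ^ (JJ - 1) ≤ (2 * N) ^ 11 := by
        rw [show JJ - 1 = 11 from rfl]
        exact pow_le_pow_left₀ (by positivity) hB 11
      have hJc : (JJ : ℝ) = 12 := by norm_num [JJ]
      rw [hJc]
      calc (12 : ℝ) * ((N : ℝ) + 7) ^ (JJ - 1) * 2 ≤ 12 * (2 * N) ^ 11 * 2 := by gcongr
        _ ≤ 48 * 2 ^ 11 * (N : ℝ) ^ 11 := by
          have : (0 : ℝ) ≤ (N : ℝ) ^ 11 := by positivity
          rw [mul_pow]
          nlinarith
    have h2' : 48 * 2 ^ 11 * (N : ℝ) ^ 11 ≤ K₀ * (N : ℝ) ^ 12 := by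
      rw [hN12, hN11, div_mul_eq_mul_div, div_le_iff₀ hK₀pos] at h2
      linarith
    have : (JJ : ℝ) * ((N : ℝ) + 7) ^ (JJ - 1) * (2 / (etaB * N - 2) ^ JJ)
        = ((JJ : ℝ) * ((N : ℝ) + 7) ^ (JJ - 1) * 2) / (etaB * N - 2) ^ JJ := by ring
    rw [this, div_le_iff₀ hpos2]
    calc _ ≤ 48 * 2 ^ 11 * (N : ℝ) ^ 11 := hprod
      _ ≤ K₀ * (N : ℝ) ^ 12 := h2'
      _ = ε * ((etaB / 2) ^ 12 * (N : ℝ) ^ 12) := by rw [hK₀]; ring
      _ ≤ ε * (etaB * N - 2) ^ JJ := mul_le_mul_of_nonneg_left hpow hε.le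
  · -- third limit
    have hRpos : 0 < Rr N := by linarith
    have hJc : (JJ : ℝ) = 12 := by norm_num [JJ]
    rw [hJc]
    have : (12 : ℝ) * (100 * wd N / Rr N) = (1200 * wd N) / Rr N := by ring
    rw [this, div_le_iff₀ hRpos]
    have h3' : 1200 / ε * wd N ≤ Rr N := h3
    rw [div_mul_eq_mul_div, div_le_iff₀ hε] at h3'
    linarith
  · exact Real.exp_le_one_iff.mpr (by linarith [wd_nonneg N])

/-- Theorem B: the window. -/
theorem window (ε : ℝ) (hε : 0 < ε) : ∃ N₀ : ℕ, ∀ N ≥ N₀,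
    Ss N ((N : ℝ) + 4 * wd N) ≤ (1 + ε) * Ss N ((N : ℝ) - 4 * wd N) := by
  obtain ⟨N1, h1⟩ := ShiftAux.shift_bound
  obtain ⟨N2, h2⟩ := tight_bound
  obtain ⟨N3, h3⟩ := doubling
  obtain ⟨N4, h4⟩ := box_bound
  obtain ⟨N5, h5⟩ := few_rows_bound
  obtain ⟨N6, h6⟩ := one_le_Ss
  obtain ⟨N7, h7⟩ := window_limits (ε / 3) (by positivity)
  refine ⟨max N1 (max N2 (max N3 (max N4 (max N5 (max N6 N7))))), fun N hN => ?_⟩
  simp only [ge_iff_le, max_le_iff] at hN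
  obtain ⟨hN1, hN2, hN3, hN4, hN5, hN6, hN7⟩ := hN
  obtain ⟨hl1, hl2, hl3, hl4, hl5⟩ := h7 N hN7
  set S := Ss N ((N : ℝ) - 4 * wd N) with hS
  have hS1 : 1 ≤ S := h6 N hN6
  have hwd : 0 ≤ wd N := by unfold wd; positivity
  -- the window
  set Wn : Finset ℕ := Aset N ((N : ℝ) + 4 * wd N) \ Aset N ((N : ℝ) - 4 * wd N) with hWn
  have hsplit : Ss N ((N : ℝ) + 4 * wd N) = S + ∑ m ∈ Wn, (1 : ℝ) / m := by
    have hsub : Aset N ((N : ℝ) - 4 * wd N) ⊆ Aset N ((N : ℝ) + 4 * wd N) := by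
      intro m hm
      simp only [Aset, Finset.mem_filter] at hm ⊢
      obtain ⟨hr, l, low, hrep, hle⟩ := hm
      exact ⟨hr, l, low, hrep, hle.trans (by linarith)⟩
    have h := Finset.sum_sdiff (f := fun m : ℕ => (1 : ℝ) / m) hsub
    have h' : Ss N ((N : ℝ) + 4 * wd N) = ∑ m ∈ Aset N ((N : ℝ) + 4 * wd N), (1 : ℝ) / m := rfl
    have h'' : S = ∑ m ∈ Aset N ((N : ℝ) - 4 * wd N), (1 : ℝ) / m := rfl
    rw [h', h'', hWn]
    linarith
  -- choose representations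
  have hrep : ∀ m, ∃ (l : List ℕ) (low : ℕ), m ∈ Wn → IsRep N l low m ∧ Th N 0 l ≤ (N : ℝ) + 4 * wd N ∧
      (N : ℝ) - 4 * wd N < Th N 0 l := by
    intro m
    by_cases hm : m ∈ Wn
    · have hm' := Finset.mem_sdiff.mp hm
      obtain ⟨hr, l, low, hrp, hle⟩ := Finset.mem_filter.mp hm'.1
      refine ⟨l, low, fun _ => ⟨hrp, hle, ?_⟩⟩
      by_contra hcon
      exact hm'.2 (Finset.mem_filter.mpr ⟨hr, l, low, hrp, not_lt.mp hcon⟩)
    · exact ⟨[], 0, fun h => absurd h hm⟩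
  choose lF lowF hrepF using hrep
  -- classes
  let Fa : Finset ℕ := Wn.filter (fun m => (lF m).length < JJ)
  let Fb : Finset ℕ := Wn.filter (fun m => JJ ≤ (lF m).length ∧ Tight N ((lF m).take JJ) ((lF m).drop JJ))
  let Fc : ℕ → Finset ℕ := fun i => Wn.filter (fun m => ∃ pre q post', lF m = pre ++ q :: post' ∧ pre.length = i ∧
    Room N q post')
  -- masses
  set MM : ℝ := ∑ m ∈ Mset N, (1 : ℝ) / m with hMM
  have hMM0 : 0 ≤ MM := Finset.sum_nonneg (fun _ _ => by positivity)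
  have hdenpos : 0 < (etaB * N - 2) ^ JJ := pow_pos hl4 _
  have hMMle : MM ≤ 2 * S / (etaB * N - 2) ^ JJ := by
    have := h4 N hN4
    rw [le_div_iff₀ hdenpos]
    nlinarith [hl5]
  have hFa : ∑ m ∈ Fa, (1 : ℝ) / m ≤ ε / 3 * S := by
    have h := h5 N hN5 Fa (fun m => (lF m, lowF m)) (fun m hm => by
      obtain ⟨hm1, hm2⟩ := Finset.mem_filter.mp hm
      exact ⟨hm2, (hrepF m hm1).1⟩)
    have hJ : (0 : ℝ) ≤ (JJ : ℝ) * ((N : ℝ) + 7) ^ (JJ - 1) := by positivity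
    calc ∑ m ∈ Fa, (1 : ℝ) / m ≤ (JJ : ℝ) * ((N : ℝ) + 7) ^ (JJ - 1) * MM := h
      _ ≤ (JJ : ℝ) * ((N : ℝ) + 7) ^ (JJ - 1) * (2 * S / (etaB * N - 2) ^ JJ) :=
          mul_le_mul_of_nonneg_left hMMle hJ
      _ = (JJ : ℝ) * ((N : ℝ) + 7) ^ (JJ - 1) * (2 / (etaB * N - 2) ^ JJ) * S := by ring
      _ ≤ ε / 3 * S := mul_le_mul_of_nonneg_right hl2 (by linarith)
  have hFb : ∑ m ∈ Fb, (1 : ℝ) / m ≤ ε / 3 * S := by
    let ρ : ℕ → List ℕ × List ℕ × ℕ := fun m => ((lF m).take JJ, (lF m).drop JJ, lowF m)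
    have hρ : ∀ m ∈ Fb, ((ρ m).1.length = JJ ∧ IsRep N ((ρ m).1 ++ (ρ m).2.1) (ρ m).2.2 m ∧ Tight N (ρ m).1 (ρ m).2.1) := by
      intro m hm
      obtain ⟨hm1, hm2, hm3⟩ := Finset.mem_filter.mp hm
      refine ⟨?_, ?_, hm3⟩
      · simp [ρ, hm2]
      · simpa [ρ] using (hrepF m hm1).1
    have hb1 := h2 N hN2 Fb ρ hρ
    -- doubling on the image
    set Img : Finset ℕ := Fb.image (fun m => rowsProd (ρ m).2.1 * (ρ m).2.2) with hImg
    have hpre : ∀ mb ∈ Img, ∃ m ∈ Fb, rowsProd (ρ m).2.1 * (ρ m).2.2 = mb := by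
      intro mb hmb
      simpa using Finset.mem_image.mp hmb
    choose! pick hpick1 hpick2 using hpre
    have hb2 := h3 N hN3 Img (fun mb => ρ (pick mb)) (by
      intro mb hmb
      have hm := hpick1 mb hmb
      have hm2 := hpick2 mb hmb
      obtain ⟨hlen, hr, _⟩ := hρ _ hm
      refine ⟨hlen, hm2, ?_, ?_⟩
      · have := hr
        have heq := hr.eq
        have hrp : rowsProd ((ρ (pick mb)).1 ++ (ρ (pick mb)).2.1) * (ρ (pick mb)).2.2
            = rowsProd (ρ (pick mb)).1 * mb := by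
          rw [rowsProd_append, mul_assoc, hm2]
        rw [hrp] at heq
        rw [← heq]
        exact hr
      · have hm1 := (Finset.mem_filter.mp hm).1
        have := (hrepF _ hm1).2.1
        simpa [ρ] using this)
    have hJ : (0 : ℝ) ≤ (2 * Rr N + 2) ^ JJ := by
      have : 0 ≤ Rr N := by unfold Rr; positivity
      positivity
    have hN7 : (0 : ℝ) ≤ (N : ℝ) + 7 := by positivity
    calc ∑ m ∈ Fb, (1 : ℝ) / m ≤ (2 * Rr N + 2) ^ JJ * ∑ mb ∈ Img, (1 : ℝ) / mb := hb1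
      _ ≤ (2 * Rr N + 2) ^ JJ * (((N : ℝ) + 7) * MM) := mul_le_mul_of_nonneg_left hb2 hJ
      _ ≤ (2 * Rr N + 2) ^ JJ * (((N : ℝ) + 7) * (2 * S / (etaB * N - 2) ^ JJ)) :=
          mul_le_mul_of_nonneg_left (mul_le_mul_of_nonneg_left hMMle hN7) hJ
      _ = (2 * Rr N + 2) ^ JJ * ((N : ℝ) + 7) * (2 / (etaB * N - 2) ^ JJ) * S := by ring
      _ ≤ ε / 3 * S := mul_le_mul_of_nonneg_right hl1 (by linarith)
  have hFc : ∑ i ∈ Finset.range JJ, ∑ m ∈ Fc i, (1 : ℝ) / m ≤ ε / 3 * S := by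
    have hRr : 0 < Rr N ∨ Rr N = 0 := by
      have : 0 ≤ Rr N := by unfold Rr; positivity
      exact (lt_or_eq_of_le this).imp id (Eq.symm)
    have hone : ∀ i ∈ Finset.range JJ, ∑ m ∈ Fc i, (1 : ℝ) / m ≤ (100 * wd N / Rr N) * S := by
      intro i hi
      have hex : ∀ m, ∃ (τ : List ℕ × ℕ × List ℕ × ℕ), m ∈ Fc i → (τ.1.length = i ∧
          IsRep N (τ.1 ++ τ.2.1 :: τ.2.2.1) τ.2.2.2 m ∧
          (N : ℝ) - 4 * wd N < Th N 0 (τ.1 ++ τ.2.1 :: τ.2.2.1) ∧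
          Th N 0 (τ.1 ++ τ.2.1 :: τ.2.2.1) ≤ (N : ℝ) + 4 * wd N ∧ Room N τ.2.1 τ.2.2.1) := by
        intro m
        by_cases hm : m ∈ Fc i
        · obtain ⟨hm1, pre, q, post', he, hlen, hroom⟩ := Finset.mem_filter.mp hm
          refine ⟨(pre, q, post', lowF m), fun _ => ?_⟩
          have hr := hrepF m hm1
          rw [he] at hr
          exact ⟨hlen, hr.1, hr.2.2, hr.2.1, hroom⟩
        · exact ⟨([], 0, [], 0), fun h => absurd h hm⟩
      choose ρ hρ using hex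
      have := h1 N hN1 i (Fc i) ρ (Finset.mem_range.mp hi).le (fun m hm => hρ m hm)
      have hw0 : 0 ≤ 50 * wd N / Rr N := by
        have : 0 ≤ Rr N := by unfold Rr; positivity
        positivity
      calc ∑ m ∈ Fc i, (1 : ℝ) / m ≤ 50 * wd N / Rr N * (S + 1) := this
        _ ≤ 50 * wd N / Rr N * (2 * S) := mul_le_mul_of_nonneg_left (by linarith) hw0
        _ = (100 * wd N / Rr N) * S := by ring
    calc ∑ i ∈ Finset.range JJ, ∑ m ∈ Fc i, (1 : ℝ) / m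
        ≤ ∑ _i ∈ Finset.range JJ, (100 * wd N / Rr N) * S := Finset.sum_le_sum hone
      _ = (JJ : ℝ) * (100 * wd N / Rr N) * S := by
          rw [Finset.sum_const, Finset.card_range, nsmul_eq_mul]; ring
      _ ≤ ε / 3 * S := mul_le_mul_of_nonneg_right hl3 (by linarith)
  -- cover
  have hcover : ∑ m ∈ Wn, (1 : ℝ) / m ≤ ∑ m ∈ Fa, (1 : ℝ) / m + ∑ m ∈ Fb, (1 : ℝ) / m +
      ∑ i ∈ Finset.range JJ, ∑ m ∈ Fc i, (1 : ℝ) / m := by
    have key := sum_le_sum_cover Wn (Finset.range (JJ + 2))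
      (fun i => if i = JJ then Fa else if i = JJ + 1 then Fb else Fc i) (fun m => (1 : ℝ) / m)
      (fun m => by positivity) (by
        intro m hm
        by_cases hlt : (lF m).length < JJ
        · refine ⟨JJ, by simp, ?_⟩
          have : m ∈ Fa := Finset.mem_filter.mpr ⟨hm, hlt⟩
          simpa using this
        · have hge : JJ ≤ (lF m).length := not_lt.mp hlt
          have hl : (lF m).take JJ ++ (lF m).drop JJ = lF m := List.take_append_drop _ _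
          rcases tight_or_room N ((lF m).take JJ) ((lF m).drop JJ) with ht | ⟨pre, q, post', he, hlen, hroom⟩
          · refine ⟨JJ + 1, by simp, ?_⟩
            have : m ∈ Fb := Finset.mem_filter.mpr ⟨hm, hge, ht⟩
            simpa using this
          · have hlen' : pre.length < JJ := by
              have : ((lF m).take JJ).length = JJ := by simp [hge]
              omega
            refine ⟨pre.length, Finset.mem_range.mpr (by omega), ?_⟩
            have hne1 : pre.length ≠ JJ := by omega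
            have hne2 : pre.length ≠ JJ + 1 := by omega
            have : m ∈ Fc pre.length := Finset.mem_filter.mpr ⟨hm, pre, q, post', by rw [← he, hl], rfl, hroom⟩
            simpa [hne1, hne2] using this)
    have hsum : ∑ i ∈ Finset.range (JJ + 2), ∑ m ∈ (if i = JJ then Fa else if i = JJ + 1 then Fb else Fc i), (1 : ℝ) / m
        = ∑ i ∈ Finset.range JJ, ∑ m ∈ Fc i, (1 : ℝ) / m + ∑ m ∈ Fa, (1 : ℝ) / m + ∑ m ∈ Fb, (1 : ℝ) / m := by
      rw [Finset.sum_range_succ, Finset.sum_range_succ]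
      have h1 : ∑ i ∈ Finset.range JJ, ∑ m ∈ (if i = JJ then Fa else if i = JJ + 1 then Fb else Fc i), (1 : ℝ) / m
          = ∑ i ∈ Finset.range JJ, ∑ m ∈ Fc i, (1 : ℝ) / m := by
        refine Finset.sum_congr rfl (fun i hi => ?_)
        have hi' := Finset.mem_range.mp hi
        have hne1 : i ≠ JJ := by omega
        have hne2 : i ≠ JJ + 1 := by omega
        simp [hne1, hne2]
      rw [h1]
      simp
    rw [hsum] at key
    linarith
  rw [hsplit]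
  nlinarith [hFa, hFb, hFc, hcover]

/-- The tails below a row above the cut have small mass. -/
theorem n2_mass : ∃ N₀ : ℕ, ∀ N ≥ N₀,
    ∑ m ∈ N2set N, (1 : ℝ) / m ≤ 50 / (N : ℝ) * Ss N ((N : ℝ) - 4 * wd N) := by
  obtain ⟨N1, h1⟩ := n2_raw
  obtain ⟨N2, h2⟩ := one_le_Ss
  refine ⟨N1 + N2 + 100, fun N hN => ?_⟩
  have hN' : (100 : ℝ) ≤ N := by
    have : 100 ≤ N := by omega
    exact_mod_cast this
  have h3 := h1 N (by omega)
  have h4 := h2 N (by omega)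
  have h5 : Real.exp (-wd N) ≤ 1 := by
    rw [Real.exp_le_one_iff]
    have : 0 ≤ wd N := Real.rpow_nonneg (Nat.cast_nonneg _) _
    linarith
  have hM : 0 ≤ ∑ m ∈ N2set N, (1 : ℝ) / m := Finset.sum_nonneg fun m _ => by positivity
  have hN0 : (0 : ℝ) < N := by linarith
  rw [div_mul_eq_mul_div, le_div_iff₀ hN0]
  have h6 : 0 ≤ ((N : ℝ) / 100 - 1) * ∑ m ∈ N2set N, (1 : ℝ) / m :=
    mul_nonneg (by linarith) hM
  nlinarith

end
end Vale.Agent.Lib.P031V
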