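import Vale.Agent.Lib.P031V.NegB
import Vale.Agent.Lib.P031V.PNT
import Vale.Agent.Lib.P031V.ThmB

/-! # P031: upper bound of Theorem A, blueprint section 7. -/

namespace Vale.Agent.Lib.P031V
open Real Finset
open scoped Classical
noncomputable section

lemma up_prime_not_dvd_prod_of_gt {p : ℕ} {t : List ℕ} (hp : p.Prime) (ht : ∀ q ∈ t, q.Prime ∧ q < p) :
    ¬ p ∣ t.prod := by
  intro h
  obtain ⟨q, hq, hpq⟩ := (Nat.Prime.prime hp).dvd_prod_iff.1 h
  obtain ⟨hq1, hq2⟩ := ht q hq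
  have := (Nat.prime_dvd_prime_iff_eq hp hq1).1 hpq
  omega

/-- The totient of a product of distinct primes. -/
lemma up_totient_list_prod (l : List ℕ) (hs : l.Pairwise (· > ·)) (hp : ∀ q ∈ l, q.Prime) :
    Nat.totient l.prod = rowsProd l := by
  induction l with
  | nil => simp [rowsProd]
  | cons p t ih =>
    have hs' := List.pairwise_cons.1 hs
    have hpp : p.Prime := hp p (by simp)
    have htp : ∀ q ∈ t, q.Prime := fun q hq => hp q (by simp [hq])
    have hco : Nat.Coprime p t.prod :=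
      (Nat.Prime.coprime_iff_not_dvd hpp).2
        (up_prime_not_dvd_prod_of_gt hpp fun q hq => ⟨htp q hq, hs'.1 q hq⟩)
    simp only [List.prod_cons, rowsProd, List.map_cons]
    rw [Nat.totient_mul hco, Nat.totient_prime hpp, ih hs'.2 htp]
    rfl

/-- Splitting off the big primes of `n`. -/
lemma up_split_rows (n : ℕ) (hn : n ≠ 0) (l : List ℕ) (hs : l.Pairwise (· > ·))
    (hp : ∀ q ∈ l, q.Prime ∧ q ∣ n ∧ ¬ q ^ 2 ∣ n) :
    ∃ n', n = l.prod * n' ∧ Nat.Coprime l.prod n' ∧ n' ≠ 0 := by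
  induction l with
  | nil => exact ⟨n, by simp, by simp, hn⟩
  | cons p t ih =>
    have hs' := List.pairwise_cons.1 hs
    obtain ⟨hpp, hpn, hpsq⟩ := hp p (by simp)
    have htp : ∀ q ∈ t, q.Prime ∧ q ∣ n ∧ ¬ q ^ 2 ∣ n := fun q hq => hp q (by simp [hq])
    obtain ⟨n₁, hn₁, hco, hn₁0⟩ := ih hs'.2 htp
    have hnd : ¬ p ∣ t.prod :=
      up_prime_not_dvd_prod_of_gt hpp fun q hq => ⟨(htp q hq).1, hs'.1 q hq⟩
    have hpn₁ : p ∣ n₁ := by
      rw [hn₁] at hpn
      exact ((Nat.Prime.dvd_mul hpp).1 hpn).resolve_left hnd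
    obtain ⟨n₂, rfl⟩ := hpn₁
    refine ⟨n₂, ?_, ?_, ?_⟩
    · rw [hn₁, List.prod_cons]; ring
    · rw [List.prod_cons]
      refine Nat.Coprime.mul_left ?_ ?_
      · refine (Nat.Prime.coprime_iff_not_dvd hpp).2 fun h => hpsq ?_
        rw [hn₁]
        obtain ⟨k, rfl⟩ := h
        exact ⟨t.prod * k, by ring⟩
      · exact Nat.Coprime.coprime_mul_left_right hco
    · rintro rfl
      simp at hn₁0

lemma up_prime_dvd_totient_le {n r : ℕ} (hn : n ≠ 0) (hr : r.Prime) (h : r ∣ n.totient) :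
    ∃ s, s.Prime ∧ s ∣ n ∧ r ≤ s := by
  classical
  rw [Nat.totient_eq_prod_factorization hn] at h
  rw [Finsupp.prod] at h
  obtain ⟨s, hs, hrs⟩ := (Nat.Prime.prime hr).exists_mem_finset_dvd h
  have hs' : s.Prime := Nat.prime_of_mem_primeFactors (by simpa using hs)
  have hsn : s ∣ n := Nat.dvd_of_mem_primeFactors (by simpa using hs)
  refine ⟨s, hs', hsn, ?_⟩
  rcases (Nat.Prime.dvd_mul hr).1 hrs with h1 | h1
  · have := (Nat.Prime.dvd_of_dvd_pow hr h1)
    exact Nat.le_of_dvd hs'.pos this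
  · have h2 : 0 < s - 1 := Nat.sub_pos_of_lt hs'.one_lt
    have := Nat.le_of_dvd h2 h1
    omega

lemma up_t0_le_half {N : ℕ} (hN : 32 ≤ N) : t0 N ≤ (N : ℝ) / 2 := by
  have hN0 : (0 : ℝ) < N := by exact_mod_cast (by omega : 0 < N)
  have h1 : (N : ℝ) = (N : ℝ) ^ ((4 : ℝ) / 5) * (N : ℝ) ^ ((1 : ℝ) / 5) := by
    rw [← Real.rpow_add hN0]; norm_num
  have h2 : (2 : ℝ) ≤ (N : ℝ) ^ ((1 : ℝ) / 5) := by
    have h3 : ((32 : ℝ)) ^ ((1 : ℝ) / 5) ≤ (N : ℝ) ^ ((1 : ℝ) / 5) :=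
      Real.rpow_le_rpow (by norm_num) (by exact_mod_cast hN) (by norm_num)
    have h4 : ((32 : ℝ)) ^ ((1 : ℝ) / 5) = 2 := by
      have : (32 : ℝ) = 2 ^ (5 : ℝ) := by norm_num
      rw [this, ← Real.rpow_mul (by norm_num)]
      norm_num
    linarith
  have h5 : 0 ≤ (N : ℝ) ^ ((4 : ℝ) / 5) := by positivity
  unfold t0
  nlinarith

lemma up_exp_t0_le {N : ℕ} (hN : 32 ≤ N) : 600 * Real.exp (t0 N) ≤ Real.exp ((N : ℝ) - 2) := by
  have h1 := up_t0_le_half hN
  have hN' : (32 : ℝ) ≤ N := by exact_mod_cast hN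
  have h600 : (600 : ℝ) ≤ Real.exp 14 := by
    have h2 : Real.exp 14 = (Real.exp 2) ^ 7 := by
      rw [← Real.exp_nat_mul]; norm_num
    have h3 := Real.add_one_le_exp (2 : ℝ)
    have h4 : (3 : ℝ) ≤ Real.exp 2 := by linarith
    rw [h2]
    calc (600 : ℝ) ≤ 3 ^ 7 := by norm_num
      _ ≤ (Real.exp 2) ^ 7 := by gcongr
  calc 600 * Real.exp (t0 N) ≤ Real.exp 14 * Real.exp (t0 N) := by gcongr
    _ = Real.exp (14 + t0 N) := by rw [Real.exp_add]
    _ ≤ Real.exp ((N : ℝ) - 2) := by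
      apply Real.exp_le_exp.2; linarith

/-- `log x ≥ e^{N-2}`. -/
lemma up_log_ge_of_lev {x : ℝ} {N : ℕ} (hx : 1 < x) (hL : |levR x - N| ≤ 2) :
    Real.exp ((N : ℝ) - 2) ≤ Real.log x := by
  have hl : 0 < Real.log x := Real.log_pos hx
  have h := (abs_le.1 hL).1
  unfold levR at h
  rw [← Real.exp_log hl]
  exact Real.exp_le_exp.2 (by linarith)

lemma up_log_le_of_lev {x : ℝ} {N : ℕ} (hx : 1 < x) (hL : |levR x - N| ≤ 2) :
    Real.log x ≤ Real.exp ((N : ℝ) + 2) := by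
  have hl : 0 < Real.log x := Real.log_pos hx
  have h := (abs_le.1 hL).2
  unfold levR at h
  rw [← Real.exp_log hl]
  exact Real.exp_le_exp.2 (by linarith)

/-- A prime below level `t0` is below `x^{1/600}`. -/
lemma up_log_lt_of_lev_lt {x : ℝ} {N r : ℕ} (hN : 32 ≤ N) (hx : 1 < x) (hL : |levR x - N| ≤ 2)
    (hr : r.Prime) (h : lev r < t0 N) : Real.log r < Real.log x / 600 := by
  have hr1 : (1 : ℝ) < r := by exact_mod_cast hr.one_lt
  have hl : 0 < Real.log r := Real.log_pos hr1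
  have h1 : Real.log r < Real.exp (t0 N) := by
    unfold lev at h
    exact (Real.log_lt_iff_lt_exp hl).1 h
  have h2 := up_exp_t0_le hN
  have h3 := up_log_ge_of_lev hx hL
  rw [lt_div_iff₀ (by norm_num)]
  linarith

/-- Main part: `v = (p-1) m`, `m` a tail with `Φ(m) ≤ L + w`. -/
def MainU (N : ℕ) (x c : ℝ) : Finset ℕ :=
  (Win x c).filter (fun v => ∃ p m, p.Prime ∧ m ∈ Aset N (levR x + wd N) ∧ v = (p - 1) * m)

/-- Covering: every totient in the window is in one of the sets. -/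
theorem cover (c : ℝ) (hc : 1 < c) : ∃ N₀ : ℕ, ∀ N ≥ N₀, ∀ x : ℝ, 1 < x → |levR x - N| ≤ 2 →
    ∀ v ∈ Win x c, (∃ n : ℕ, n.totient = v) →
      v ∈ E1 N x c ∨ v ∈ E2 N x c ∨ v ∈ E3 N x c ∨ v ∈ E4 N x c ∨ v ∈ E5 N x c ∨ v ∈ E6 N x c ∨ v ∈ E7 N x c ∨
      v ∈ MainU N x c := by
  obtain ⟨N₁, hN₁⟩ := rep_lt_Bnd
  refine ⟨max N₁ 32, fun N hN x hx hL v hv hn => ?_⟩
  have hNa : N₁ ≤ N := le_trans (le_max_left _ _) hN
  have hNb : 32 ≤ N := le_trans (le_max_right _ _) hN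
  obtain ⟨n, hnv⟩ := hn
  have hv0 : v ≠ 0 := by
    have := (Finset.mem_Ioc.1 hv).1
    omega
  have hn0 : n ≠ 0 := by
    rintro rfl
    simp at hnv
    exact hv0 hnv.symm
  by_cases h1 : v ∈ E1 N x c
  · exact Or.inl h1
  refine Or.inr ?_
  by_cases h2 : v ∈ E2 N x c
  · exact Or.inl h2
  refine Or.inr ?_
  have hclean : Clean N v := by
    by_contra hc'
    exact h1 (Finset.mem_filter.2 ⟨hv, Or.inl hc'⟩)
  have hsq : ∀ p : ℕ, p.Prime → t0 N ≤ lev p → ¬ p ^ 2 ∣ n := by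
    intro p hp hlev hd
    refine h1 (Finset.mem_filter.2 ⟨hv, Or.inr ⟨p, hp, hlev, ?_⟩⟩)
    have h3 : (p ^ 2).totient ∣ n.totient := Nat.totient_dvd_of_dvd hd
    rw [Nat.totient_prime_pow hp (by norm_num)] at h3
    rw [← hnv]
    simpa using h3
  -- the big primes
  set S : Finset ℕ := n.primeFactors.filter (fun p => t0 N ≤ lev p) with hS
  set l : List ℕ := S.sort (· ≥ ·) with hl
  have hlmem : ∀ q, q ∈ l ↔ q ∈ S := fun q => Finset.mem_sort _
  have hlsorted : l.Pairwise (· > ·) := by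
    have h3 : l.Pairwise (· ≥ ·) := Finset.pairwise_sort _ _
    have h4 : l.Nodup := Finset.sort_nodup _ _
    have h5 := h3.and h4
    exact h5.imp (fun {a b} h => lt_of_le_of_ne h.1 (Ne.symm h.2))
  have hlprop : ∀ q ∈ l, q.Prime ∧ t0 N ≤ lev q ∧ q ∣ n := by
    intro q hq
    have h3 := (hlmem q).1 hq
    have h4 := Finset.mem_filter.1 h3
    exact ⟨Nat.prime_of_mem_primeFactors h4.1, h4.2, Nat.dvd_of_mem_primeFactors h4.1⟩
  have hbig : ∀ r : ℕ, r.Prime → r ∣ n → t0 N ≤ lev r → r ∈ l := by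
    intro r hr hd hlev
    refine (hlmem r).2 (Finset.mem_filter.2 ⟨?_, hlev⟩)
    exact Nat.mem_primeFactors.2 ⟨hr, hd, hn0⟩
  obtain ⟨n', hn', hco, hn'0⟩ := up_split_rows n hn0 l hlsorted
    (fun q hq => ⟨(hlprop q hq).1, (hlprop q hq).2.2, hsq q (hlprop q hq).1 (hlprop q hq).2.1⟩)
  have hvfac : v = rowsProd l * n'.totient := by
    rw [← hnv, hn', Nat.totient_mul hco, up_totient_list_prod l hlsorted fun q hq => (hlprop q hq).1]
  have hn'low : ∀ r : ℕ, r.Prime → r ∣ n' → lev r < t0 N := by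
    intro r hr hd
    by_contra hlev
    push_neg at hlev
    have hrn : r ∣ n := by rw [hn']; exact Dvd.dvd.mul_left hd _
    have h3 := hbig r hr hrn hlev
    have h4 : r ∣ l.prod := List.dvd_prod h3
    have h5 := Nat.dvd_gcd h4 hd
    rw [hco] at h5
    exact hr.one_lt.ne' (Nat.dvd_one.1 h5)
  have hlow : (n'.totient : ℝ) ≤ Ymax N := by
    by_contra hlt
    push_neg at hlt
    refine h2 (Finset.mem_filter.2 ⟨hv, n'.totient, ?_, hlt, ?_⟩)
    · rw [hvfac]; exact Dvd.intro_left _ rfl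
    · intro r hr hd
      obtain ⟨s, hs, hsd, hrs⟩ := up_prime_dvd_totient_le hn'0 hr hd
      exact lt_of_le_of_lt (lev_mono hr.two_le hrs) (hn'low s hs hsd)
  have hlowv : LowVal N n'.totient := ⟨n', hn'0, hn'low, rfl, hlow⟩
  have hlog_small : ∀ r : ℕ, r.Prime → r ∣ n → lev r < t0 N → Real.log r < Real.log x / 600 :=
    fun r hr _ h => up_log_lt_of_lev_lt hNb hx hL hr h
  -- the case of small top prime
  have hE3 : (∀ q ∈ l, Real.log q < Real.log x / 600) → v ∈ E3 N x c := by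
    intro hq
    refine Finset.mem_filter.2 ⟨hv, hclean, n, hn0, hnv, hsq, ?_⟩
    intro r hr hd
    by_cases hlev : t0 N ≤ lev r
    · exact hq r (hbig r hr hd hlev)
    · exact hlog_small r hr hd (not_le.1 hlev)
  rcases hlcases : l with _ | ⟨p, t⟩
  · refine Or.inl (hE3 ?_)
    rw [hlcases]; simp
  have hpp : p.Prime := (hlprop p (by rw [hlcases]; simp)).1
  have hsorted' : (p :: t).Pairwise (· > ·) := hlcases ▸ hlsorted
  by_cases htop : Real.log p < Real.log x / 600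
  · refine Or.inl (hE3 ?_)
    rw [hlcases]
    intro q hq
    rcases List.mem_cons.1 hq with rfl | hqt
    · exact htop
    · have h3 : q < p := (List.pairwise_cons.1 hsorted').1 q hqt
      have h4 : (q : ℝ) ≤ p := by exact_mod_cast h3.le
      have hq0 : (0 : ℝ) < q := by
        have := (hlprop q (by rw [hlcases]; exact hq)).1.pos
        exact_mod_cast this
      exact lt_of_le_of_lt (Real.log_le_log hq0 h4) htop
  refine Or.inr ?_
  have hStruct : Struct N x p t n'.totient v := by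
    refine ⟨hsorted', fun q hq => ?_, not_lt.1 htop, hlowv, ?_, hclean⟩
    · have h3 := hlprop q (by rw [hlcases]; exact hq)
      exact ⟨h3.1, h3.2.1⟩
    · rw [hvfac, hlcases]
  by_cases h4 : ∃ q ∈ p :: t, ¬ Normal N q
  · exact Or.inl (Finset.mem_filter.2 ⟨hv, p, t, _, hStruct, h4⟩)
  refine Or.inr ?_
  push_neg at h4
  by_cases h5 : Adm N t
  swap
  · exact Or.inl (Finset.mem_filter.2 ⟨hv, p, t, _, hStruct, h4, h5⟩)
  refine Or.inr ?_
  by_cases h6 : levR x + wd N < Th N 0 t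
  · exact Or.inl (Finset.mem_filter.2 ⟨hv, p, t, _, hStruct, h4, h6⟩)
  refine Or.inr ?_
  push_neg at h6
  by_cases h7 : ∃ q t', t = q :: t' ∧ (N : ℝ) - Dc N < lev q
  · obtain ⟨q, t', rfl, hq⟩ := h7
    exact Or.inl (Finset.mem_filter.2 ⟨hv, p, q, t', _, hStruct, h4, h5, h6, hq⟩)
  refine Or.inr ?_
  -- main case
  have hsortedt : t.Pairwise (· > ·) := (List.pairwise_cons.1 hsorted').2
  have hcut : ∀ q ∈ t, lev q ≤ (N : ℝ) - Dc N := by
    intro q hq
    rcases ht : t with _ | ⟨q₀, t'⟩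
    · rw [ht] at hq; simp at hq
    have h8 : lev q₀ ≤ (N : ℝ) - Dc N := by
      by_contra h9
      exact h7 ⟨q₀, t', ht, not_le.1 h9⟩
    rw [ht] at hq hsortedt
    rcases List.mem_cons.1 hq with rfl | hq'
    · exact h8
    · have h10 : q < q₀ := (List.pairwise_cons.1 hsortedt).1 q hq'
      have h11 : q.Prime := (hlprop q (by rw [hlcases, ht]; simp [hq'])).1
      exact le_trans (lev_mono h11.two_le h10.le) h8
  have hrep : IsRep N t n'.totient (rowsProd t * n'.totient) := by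
    refine ⟨hsortedt, fun q hq => h4 q (by simp [hq]), hcut, h5, hlowv, rfl, ?_⟩
    intro r hr hlev hd
    refine hclean r hr hlev (Dvd.dvd.trans hd ?_)
    rw [hvfac, hlcases]
    simp only [rowsProd, List.map_cons, List.prod_cons]
    exact ⟨p - 1, by ring⟩
  refine Finset.mem_filter.2 ⟨hv, p, rowsProd t * n'.totient, hpp, ?_, ?_⟩
  · refine Finset.mem_filter.2 ⟨Finset.mem_range.2 (hN₁ N hNa _ _ _ hrep), t, _, hrep, h6⟩
  · rw [hvfac, hlcases]
    simp only [rowsProd, List.map_cons, List.prod_cons]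
    ring


/-- Primes `p` with `p - 1 ∈ (X, cX]`: at most `(c - 1 + δ) X / log X`, for large `X`. -/
lemma up_count_primes_window (c : ℝ) (hc : 1 < c) (δ : ℝ) (hδ : 0 < δ) :
    ∃ X₀ : ℝ, 1 < X₀ ∧ ∀ X ≥ X₀, ∀ F : Finset ℕ,
      (∀ p ∈ F, p.Prime ∧ X < (p : ℝ) - 1 ∧ (p : ℝ) - 1 ≤ c * X) →
      (F.card : ℝ) ≤ (c - 1 + δ) * (X / Real.log X) := by
  have h1 := pnt_interval c hc
  have h2 : ∀ᶠ X : ℝ in Filter.atTop,
      ((Nat.primeCounting ⌊c * X⌋₊ : ℝ) - (Nat.primeCounting ⌊X⌋₊ : ℝ)) * Real.log X / X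
        < c - 1 + δ / 2 :=
    h1.eventually (gt_mem_nhds (by linarith))
  have h3 : ∀ᶠ X : ℝ in Filter.atTop, ‖Real.log X‖ ≤ δ / 2 * ‖X‖ :=
    Real.isLittleO_log_id_atTop.def (by linarith)
  obtain ⟨X₁, hX₁⟩ := Filter.eventually_atTop.1 (h2.and h3)
  refine ⟨max X₁ 2, lt_of_lt_of_le (by norm_num) (le_max_right _ _), fun X hX F hF => ?_⟩
  have hXa : X₁ ≤ X := le_trans (le_max_left _ _) hX
  have hXb : 2 ≤ X := le_trans (le_max_right _ _) hX
  obtain ⟨h4, h5⟩ := hX₁ X hXa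
  have hX0 : 0 < X := by linarith
  have hlog : 0 < Real.log X := Real.log_pos (by linarith)
  have hcX : 0 ≤ c * X := by positivity
  -- set comparison
  set a := ⌊X⌋₊ with ha
  set b := ⌊c * X⌋₊ with hb
  have hsub : (Finset.range (a + 1)).filter Nat.Prime ∪ F ⊆ (Finset.range (b + 2)).filter Nat.Prime := by
    intro p hp
    rcases Finset.mem_union.1 hp with hp | hp
    · obtain ⟨hp1, hp2⟩ := Finset.mem_filter.1 hp
      refine Finset.mem_filter.2 ⟨Finset.mem_range.2 ?_, hp2⟩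
      have hab : a ≤ b := Nat.floor_le_floor (by nlinarith)
      have := Finset.mem_range.1 hp1
      omega
    · obtain ⟨hp1, hp2, hp3⟩ := hF p hp
      refine Finset.mem_filter.2 ⟨Finset.mem_range.2 ?_, hp1⟩
      have h6 : (p : ℝ) - 1 = ((p - 1 : ℕ) : ℝ) := by
        rw [Nat.cast_sub hp1.one_le]; simp
      have h7 : p - 1 ≤ b := Nat.le_floor (by rw [← h6]; exact hp3)
      have := hp1.one_le
      omega
  have hdisj : Disjoint ((Finset.range (a + 1)).filter Nat.Prime) F := by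
    refine Finset.disjoint_left.2 fun p hp hpF => ?_
    obtain ⟨hp1, -⟩ := Finset.mem_filter.1 hp
    obtain ⟨hp2, hp3, -⟩ := hF p hpF
    have h6 : p < a + 1 := Finset.mem_range.1 hp1
    have h7 : (p : ℝ) ≤ a := by exact_mod_cast (by omega : p ≤ a)
    have h8 : (a : ℝ) ≤ X := Nat.floor_le hX0.le
    linarith
  have hcard := Finset.card_le_card hsub
  rw [Finset.card_union_of_disjoint hdisj] at hcard
  have hpi : ∀ n : ℕ, ((Finset.range (n + 1)).filter Nat.Prime).card = Nat.primeCounting n := by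
    intro n
    rw [Nat.primeCounting, Nat.primeCounting', Nat.count_eq_card_filter_range]
  rw [hpi a] at hcard
  have hb2 : ((Finset.range (b + 2)).filter Nat.Prime).card ≤ Nat.primeCounting b + 1 := by
    rw [← hpi b, Finset.range_add_one, Finset.filter_insert]
    split_ifs
    · exact Finset.card_insert_le _ _
    · omega
  have hcard' : (F.card : ℝ) ≤ (Nat.primeCounting b : ℝ) - (Nat.primeCounting a : ℝ) + 1 := by
    have : Nat.primeCounting a + F.card ≤ Nat.primeCounting b + 1 := le_trans hcard hb2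
    have h9 : ((Nat.primeCounting a + F.card : ℕ) : ℝ) ≤ ((Nat.primeCounting b + 1 : ℕ) : ℝ) := by
      exact_mod_cast this
    push_cast at h9
    linarith
  have hquot : 0 < X / Real.log X := by positivity
  have h10 : (Nat.primeCounting b : ℝ) - (Nat.primeCounting a : ℝ) ≤ (c - 1 + δ / 2) * (X / Real.log X) := by
    rw [div_lt_iff₀ hX0] at h4
    rw [mul_div_assoc', le_div_iff₀ hlog]
    exact h4.le
  have h11 : (1 : ℝ) ≤ δ / 2 * (X / Real.log X) := by
    rw [Real.norm_of_nonneg hlog.le, Real.norm_of_nonneg hX0.le] at h5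
    rw [mul_div_assoc', le_div_iff₀ hlog]
    linarith
  nlinarith

/-- Tails are small on the logarithmic scale. -/
lemma up_log_lt_Bnd_le {N m : ℕ} (hN : 1 ≤ N) (hm : m < Bnd N) (hm0 : m ≠ 0) :
    Real.log m ≤ 2 + 2 * (Real.exp N / (N : ℝ) ^ 3) := by
  have hN0 : (0 : ℝ) < N := by exact_mod_cast hN
  have hm1 : (0 : ℝ) < m := by exact_mod_cast Nat.pos_of_ne_zero hm0
  have hY : 1 ≤ Ymax N := by
    unfold Ymax
    exact Real.one_le_exp (by positivity)
  have hY2 : 1 ≤ Ymax N ^ 2 := one_le_pow₀ hY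
  have hB : (m : ℝ) ≤ 3 * Ymax N ^ 2 := by
    have h1 : (m : ℝ) < Bnd N := by exact_mod_cast hm
    have h2 : ((Bnd N : ℕ) : ℝ) = (⌈Ymax N ^ 2⌉₊ : ℝ) + 1 := by
      unfold Bnd; push_cast; ring
    have h3 : (⌈Ymax N ^ 2⌉₊ : ℝ) < Ymax N ^ 2 + 1 := Nat.ceil_lt_add_one (by positivity)
    linarith
  have hlogY : Real.log (Ymax N) = Real.exp N / (N : ℝ) ^ 3 := by
    unfold Ymax; exact Real.log_exp _
  have h1 : Real.log m ≤ Real.log (3 * Ymax N ^ 2) := Real.log_le_log hm1 hB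
  rw [Real.log_mul (by norm_num) (by positivity), Real.log_pow, hlogY] at h1
  have h3 : Real.log 3 ≤ 2 := by
    have := Real.log_le_sub_one_of_pos (show (0 : ℝ) < 3 by norm_num)
    linarith
  push_cast at h1
  linarith

lemma up_tail_log_small (r : ℝ) (hr : 0 < r) : ∃ N₀ : ℕ, 1 ≤ N₀ ∧ ∀ N ≥ N₀,
    2 + 2 * (Real.exp N / (N : ℝ) ^ 3) ≤ r * Real.exp ((N : ℝ) - 2) := by
  have hcast : Filter.Tendsto (fun N : ℕ => (N : ℝ)) Filter.atTop Filter.atTop :=
    tendsto_natCast_atTop_atTop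
  have h1 : Filter.Tendsto (fun N : ℕ => Real.exp (-(N : ℝ))) Filter.atTop (nhds 0) :=
    Real.tendsto_exp_neg_atTop_nhds_zero.comp hcast
  have h2 : Filter.Tendsto (fun N : ℕ => ((N : ℝ) ^ 3)⁻¹) Filter.atTop (nhds 0) :=
    ((Filter.tendsto_pow_atTop (by norm_num : (3 : ℕ) ≠ 0)).comp hcast).inv_tendsto_atTop
  have h3 : Filter.Tendsto (fun N : ℕ => 2 * Real.exp (-(N : ℝ)) + 2 * ((N : ℝ) ^ 3)⁻¹)
      Filter.atTop (nhds (2 * 0 + 2 * 0)) := (h1.const_mul 2).add (h2.const_mul 2)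
  simp only [mul_zero, add_zero] at h3
  have hpos : 0 < r * Real.exp (-2) := by positivity
  obtain ⟨N₁, hN₁⟩ := Filter.eventually_atTop.1 (h3.eventually (gt_mem_nhds hpos))
  refine ⟨max N₁ 1, le_max_right _ _, fun N hN => ?_⟩
  have hNa : N₁ ≤ N := le_trans (le_max_left _ _) hN
  have h4 := hN₁ N hNa
  have hexp : Real.exp ((N : ℝ) - 2) = Real.exp N * Real.exp (-2) := by
    rw [← Real.exp_add]; ring_nf
  have hexp2 : Real.exp (-(N : ℝ)) * Real.exp N = 1 := by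
    rw [← Real.exp_add]; simp
  have hE : 0 < Real.exp (N : ℝ) := Real.exp_pos _
  rw [hexp]
  have h5 : (2 * Real.exp (-(N : ℝ)) + 2 * ((N : ℝ) ^ 3)⁻¹) * Real.exp N ≤
      r * Real.exp (-2) * Real.exp N := by
    gcongr
  have h6 : (2 * Real.exp (-(N : ℝ)) + 2 * ((N : ℝ) ^ 3)⁻¹) * Real.exp N =
      2 * (Real.exp (-(N : ℝ)) * Real.exp N) + 2 * (Real.exp N / (N : ℝ) ^ 3) := by
    field_simp
  rw [h6, hexp2] at h5
  linarith

/-- Main count from PNT: all `m ∈ Aset` satisfy `m ≤ x^{o(1)}`. -/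
theorem main_count (c : ℝ) (hc : 1 < c) (ε : ℝ) (hε : 0 < ε) : ∃ N₀ : ℕ, ∀ N ≥ N₀, ∀ x : ℝ, 1 < x → |levR x - N| ≤ 2 →
    ((MainU N x c).card : ℝ) ≤ (c - 1 + ε) * (x / Real.log x) * Ss N (levR x + wd N) := by
  have hc0 : 0 < c := by linarith
  have hD : 0 < c - 1 + ε := by linarith
  set r : ℝ := ε / (2 * (c - 1 + ε)) with hr
  have hr0 : 0 < r := by positivity
  have hr1 : r ≤ 1 / 2 := by
    rw [hr, div_le_iff₀ (by positivity)]
    nlinarith
  have hrid : (c - 1 + ε) * (1 - r) = c - 1 + ε / 2 := by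
    rw [hr]; field_simp; ring
  obtain ⟨X₀, hX₀, hcount⟩ := up_count_primes_window c hc (ε / 2) (by linarith)
  obtain ⟨N₁, hN₁1, hN₁⟩ := up_tail_log_small r hr0
  -- `X` large
  have hexp : ∃ N₂ : ℕ, ∀ N ≥ N₂, 2 * Real.log X₀ ≤ Real.exp ((N : ℝ) - 2) := by
    have h1 : Filter.Tendsto (fun N : ℕ => Real.exp ((N : ℝ) - 2)) Filter.atTop Filter.atTop :=
      Real.tendsto_exp_atTop.comp
        (Filter.tendsto_atTop_add_const_right _ _ tendsto_natCast_atTop_atTop)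
    exact Filter.eventually_atTop.1 (h1.eventually_ge_atTop _)
  obtain ⟨N₂, hN₂⟩ := hexp
  refine ⟨max N₁ N₂, fun N hN x hx hL => ?_⟩
  have hNa : N₁ ≤ N := le_trans (le_max_left _ _) hN
  have hNb : N₂ ≤ N := le_trans (le_max_right _ _) hN
  have hN1 : 1 ≤ N := le_trans hN₁1 hNa
  have hx0 : 0 < x := by linarith
  have hlogx : 0 < Real.log x := Real.log_pos hx
  have hcx : 0 ≤ c * x := by positivity
  have hlogge := up_log_ge_of_lev hx hL
  set T := levR x + wd N with hT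
  -- the primes attached to `m`
  let P : ℕ → Finset ℕ := fun m => (Finset.range (⌊c * x⌋₊ + 2)).filter (fun p => p.Prime ∧ (p - 1) * m ∈ Win x c)
  have hsub : MainU N x c ⊆ (Aset N T).biUnion (fun m => (P m).image (fun p => (p - 1) * m)) := by
    intro v hv
    obtain ⟨hvW, p, m, hp, hm, rfl⟩ := Finset.mem_filter.1 hv
    refine Finset.mem_biUnion.2 ⟨m, hm, Finset.mem_image.2 ⟨p, Finset.mem_filter.2 ⟨?_, hp, hvW⟩, rfl⟩⟩
    refine Finset.mem_range.2 ?_
    have h1 := (Finset.mem_Ioc.1 hvW)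
    have hm0 : m ≠ 0 := by
      rintro rfl
      simp at h1
    have h2 : p - 1 ≤ (p - 1) * m := Nat.le_mul_of_pos_right _ (Nat.pos_of_ne_zero hm0)
    omega
  have hcardP : ∀ m ∈ Aset N T, ((P m).card : ℝ) ≤ (c - 1 + ε) * (x / Real.log x) * ((1 : ℝ) / m) := by
    intro m hm
    by_cases hm0 : m = 0
    · subst hm0
      have : P 0 = ∅ := by
        refine Finset.filter_eq_empty_iff.2 fun p _ h => ?_
        simpa [Win] using h.2
      simp [this]
    have hm1 : (0 : ℝ) < m := by exact_mod_cast Nat.pos_of_ne_zero hm0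
    have hmB : m < Bnd N := Finset.mem_range.1 (Finset.mem_filter.1 hm).1
    have hlogm : Real.log m ≤ r * Real.log x := by
      have h1 := up_log_lt_Bnd_le hN1 hmB hm0
      have h2 := hN₁ N hNa
      have h3 : r * Real.exp ((N : ℝ) - 2) ≤ r * Real.log x := by gcongr
      linarith
    set X := x / m with hX
    have hX0 : 0 < X := by positivity
    have hlogX : Real.log X = Real.log x - Real.log m := by
      rw [hX, Real.log_div hx0.ne' hm1.ne']
    have hlogX2 : (1 - r) * Real.log x ≤ Real.log X := by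
      rw [hlogX]; linarith
    have hXge : X₀ ≤ X := by
      have h1 : Real.log X₀ ≤ Real.log X := by
        have h2 := hN₂ N hNb
        have h3 : (1 / 2 : ℝ) * Real.log x ≤ (1 - r) * Real.log x := by
          gcongr; linarith
        linarith
      exact (Real.log_le_log_iff (by linarith) hX0).1 h1
    have hF : ∀ p ∈ P m, p.Prime ∧ X < (p : ℝ) - 1 ∧ (p : ℝ) - 1 ≤ c * X := by
      intro p hp
      obtain ⟨-, hp1, hp2⟩ := Finset.mem_filter.1 hp
      obtain ⟨h3, h4⟩ := Finset.mem_Ioc.1 hp2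
      have h6 : (p : ℝ) - 1 = ((p - 1 : ℕ) : ℝ) := by
        rw [Nat.cast_sub hp1.one_le]; simp
      have h7 : x < (((p - 1) * m : ℕ) : ℝ) := (Nat.floor_lt hx0.le).1 h3
      have h8 : (((p - 1) * m : ℕ) : ℝ) ≤ c * x := (Nat.le_floor_iff hcx).1 h4
      push_cast at h7 h8
      rw [← h6] at h7 h8
      refine ⟨hp1, ?_, ?_⟩
      · rw [hX, div_lt_iff₀ hm1]; exact h7
      · rw [hX, ← mul_div_assoc, le_div_iff₀ hm1]; exact h8
    have h1 := hcount X hXge (P m) hF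
    have hlogXpos : 0 < Real.log X := by
      have : 0 < (1 - r) * Real.log x := by
        apply mul_pos; linarith; exact hlogx
      linarith
    have h2 : X / Real.log X ≤ X / ((1 - r) * Real.log x) :=
      div_le_div_of_nonneg_left hX0.le (by apply mul_pos; linarith; exact hlogx) hlogX2
    have hcpos : 0 ≤ c - 1 + ε / 2 := by linarith
    have h3 : (c - 1 + ε / 2) * (X / ((1 - r) * Real.log x)) =
        (c - 1 + ε) * (x / Real.log x) * ((1 : ℝ) / m) := by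
      rw [← hrid, hX]
      have : (1 - r) ≠ 0 := by linarith
      field_simp
    calc ((P m).card : ℝ) ≤ (c - 1 + ε / 2) * (X / Real.log X) := h1
      _ ≤ (c - 1 + ε / 2) * (X / ((1 - r) * Real.log x)) := by gcongr
      _ = _ := h3
  have h1 : (MainU N x c).card ≤ ∑ m ∈ Aset N T, (P m).card := by
    refine le_trans (Finset.card_le_card hsub) (le_trans Finset.card_biUnion_le ?_)
    exact Finset.sum_le_sum fun m _ => Finset.card_image_le
  have h2 : ((MainU N x c).card : ℝ) ≤ ∑ m ∈ Aset N T, ((P m).card : ℝ) := by exact_mod_cast h1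
  refine le_trans h2 (le_trans (Finset.sum_le_sum hcardP) (le_of_eq ?_))
  rw [Ss, Finset.mul_sum]

lemma up_exp_ts_large : ∃ N₀ : ℕ, ∀ N ≥ N₀, 2 * (N : ℝ) + 2 ≤ Real.exp (ts N) / 2 := by
  refine ⟨200, fun N hN => ?_⟩
  have hN' : (200 : ℝ) ≤ N := by exact_mod_cast hN
  have hN1 : (1 : ℝ) ≤ N := by linarith
  have hN0 : (0 : ℝ) ≤ N := by linarith
  have hts : 0 ≤ ts N := by unfold ts t0; positivity
  have h1 := Real.pow_div_factorial_le_exp (ts N) hts 3
  have h2 : (ts N) ^ 3 = (N : ℝ) ^ ((12 : ℝ) / 5) / 8 := by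
    unfold ts t0
    rw [div_pow, ← Real.rpow_natCast ((N : ℝ) ^ ((4 : ℝ) / 5)) 3, ← Real.rpow_mul hN0]
    norm_num
  have h3 : (N : ℝ) ^ 2 ≤ (N : ℝ) ^ ((12 : ℝ) / 5) := by
    rw [← Real.rpow_two]
    exact Real.rpow_le_rpow_of_exponent_le hN1 (by norm_num)
  have h4 : ((3 : ℕ).factorial : ℝ) = 6 := by norm_num [Nat.factorial]
  rw [h2, h4] at h1
  nlinarith

lemma up_exp_half_large : ∃ N₀ : ℕ, ∀ N ≥ N₀, 2 * (N : ℝ) + 2 ≤ Real.exp ((N : ℝ) / 2) := by
  refine ⟨200, fun N hN => ?_⟩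
  have hN' : (200 : ℝ) ≤ N := by exact_mod_cast hN
  have h1 := Real.pow_div_factorial_le_exp ((N : ℝ) / 2) (by linarith) 2
  have h4 : ((2 : ℕ).factorial : ℝ) = 2 := by norm_num [Nat.factorial]
  rw [h4] at h1
  nlinarith

lemma up_upper_small (c C η : ℝ) (hc : 0 < c) (hC : 0 < C) (hη : 0 < η) : ∃ N₀ : ℕ, ∀ N ≥ N₀,
    4 * c * (Real.exp ((N : ℝ) + 2) * Real.exp (-(Real.exp (ts N) / 2))) ≤ η ∧
    c * (Real.exp ((N : ℝ) + 2) * Real.exp (-Real.exp ((N : ℝ) / 2))) ≤ η ∧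
    Real.exp (-((N : ℝ) / 2)) ≤ η ∧
    Real.exp (-(N : ℝ) ^ ((22 : ℝ) / 100)) * 2 ≤ η ∧
    Real.exp (-(N : ℝ) ^ ((7 : ℝ) / 10)) * 2 ≤ η ∧
    Real.exp (-(wd N / 2)) ≤ η ∧
    C * (Dc N + 6) * (50 / (N : ℝ)) ≤ η := by
  have hcast : Filter.Tendsto (fun N : ℕ => (N : ℝ)) Filter.atTop Filter.atTop :=
    tendsto_natCast_atTop_atTop
  have hexpN : Filter.Tendsto (fun N : ℕ => Real.exp (-(N : ℝ))) Filter.atTop (nhds 0) :=
    Real.tendsto_exp_neg_atTop_nhds_zero.comp hcast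
  have hrp : ∀ s : ℝ, 0 < s → Filter.Tendsto (fun N : ℕ => (N : ℝ) ^ s) Filter.atTop Filter.atTop :=
    fun s hs => (tendsto_rpow_atTop hs).comp hcast
  have hrpexp : ∀ s : ℝ, 0 < s → Filter.Tendsto (fun N : ℕ => Real.exp (-(N : ℝ) ^ s)) Filter.atTop (nhds 0) :=
    fun s hs => Real.tendsto_exp_neg_atTop_nhds_zero.comp (hrp s hs)
  have e1 : ∀ᶠ N : ℕ in Filter.atTop, 4 * c * Real.exp (-(N : ℝ)) < η := by
    have h := hexpN.const_mul (4 * c)
    rw [mul_zero] at h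
    exact h.eventually (gt_mem_nhds hη)
  have e2 : ∀ᶠ N : ℕ in Filter.atTop, c * Real.exp (-(N : ℝ)) < η := by
    have h := hexpN.const_mul c
    rw [mul_zero] at h
    exact h.eventually (gt_mem_nhds hη)
  have e3 : ∀ᶠ N : ℕ in Filter.atTop, Real.exp (-((N : ℝ) / 2)) < η := by
    have h : Filter.Tendsto (fun N : ℕ => Real.exp (-((N : ℝ) / 2))) Filter.atTop (nhds 0) :=
      Real.tendsto_exp_neg_atTop_nhds_zero.comp (hcast.atTop_div_const (by norm_num))
    exact h.eventually (gt_mem_nhds hη)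
  have e4 : ∀ᶠ N : ℕ in Filter.atTop, Real.exp (-(N : ℝ) ^ ((22 : ℝ) / 100)) * 2 < η := by
    have h := (hrpexp ((22 : ℝ) / 100) (by norm_num)).mul_const 2
    rw [zero_mul] at h
    exact h.eventually (gt_mem_nhds hη)
  have e5 : ∀ᶠ N : ℕ in Filter.atTop, Real.exp (-(N : ℝ) ^ ((7 : ℝ) / 10)) * 2 < η := by
    have h := (hrpexp ((7 : ℝ) / 10) (by norm_num)).mul_const 2
    rw [zero_mul] at h
    exact h.eventually (gt_mem_nhds hη)
  have e6 : ∀ᶠ N : ℕ in Filter.atTop, Real.exp (-(wd N / 2)) < η := by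
    have h : Filter.Tendsto (fun N : ℕ => Real.exp (-(wd N / 2))) Filter.atTop (nhds 0) :=
      Real.tendsto_exp_neg_atTop_nhds_zero.comp
        ((hrp ((17 : ℝ) / 20) (by norm_num)).atTop_div_const (by norm_num))
    exact h.eventually (gt_mem_nhds hη)
  have e7 : ∀ᶠ N : ℕ in Filter.atTop, C * 350 * ((N : ℝ) ^ ((1 : ℝ) / 2))⁻¹ < η := by
    have h := ((hrp ((1 : ℝ) / 2) (by norm_num)).inv_tendsto_atTop).const_mul (C * 350)
    rw [mul_zero] at h
    exact h.eventually (gt_mem_nhds hη)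
  obtain ⟨N₁, hN₁⟩ := Filter.eventually_atTop.1 (e1.and (e2.and (e3.and (e4.and (e5.and (e6.and e7))))))
  obtain ⟨N₂, hN₂⟩ := up_exp_ts_large
  obtain ⟨N₃, hN₃⟩ := up_exp_half_large
  refine ⟨max (max N₁ N₂) (max N₃ 1), fun N hN => ?_⟩
  have hNa : N₁ ≤ N := le_trans (le_trans (le_max_left _ _) (le_max_left _ _)) hN
  have hNb : N₂ ≤ N := le_trans (le_trans (le_max_right _ _) (le_max_left _ _)) hN
  have hNc : N₃ ≤ N := le_trans (le_trans (le_max_left _ _) (le_max_right _ _)) hN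
  have hNd : 1 ≤ N := le_trans (le_trans (le_max_right _ _) (le_max_right _ _)) hN
  obtain ⟨h1, h2, h3, h4, h5, h6, h7⟩ := hN₁ N hNa
  have hN1 : (1 : ℝ) ≤ N := by exact_mod_cast hNd
  have hN0 : (0 : ℝ) < N := by linarith
  refine ⟨?_, ?_, h3.le, h4.le, h5.le, h6.le, ?_⟩
  · have h8 := hN₂ N hNb
    have h9 : Real.exp ((N : ℝ) + 2) * Real.exp (-(Real.exp (ts N) / 2)) ≤ Real.exp (-(N : ℝ)) := by
      rw [← Real.exp_add]
      apply Real.exp_le_exp.2
      linarith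
    calc 4 * c * (Real.exp ((N : ℝ) + 2) * Real.exp (-(Real.exp (ts N) / 2)))
        ≤ 4 * c * Real.exp (-(N : ℝ)) := by gcongr
      _ ≤ η := h1.le
  · have h8 := hN₃ N hNc
    have h9 : Real.exp ((N : ℝ) + 2) * Real.exp (-Real.exp ((N : ℝ) / 2)) ≤ Real.exp (-(N : ℝ)) := by
      rw [← Real.exp_add]
      apply Real.exp_le_exp.2
      linarith
    calc c * (Real.exp ((N : ℝ) + 2) * Real.exp (-Real.exp ((N : ℝ) / 2)))
        ≤ c * Real.exp (-(N : ℝ)) := by gcongr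
      _ ≤ η := h2.le
  · have hs : (1 : ℝ) ≤ (N : ℝ) ^ ((1 : ℝ) / 2) := Real.one_le_rpow hN1 (by norm_num)
    have hss : (N : ℝ) ^ ((1 : ℝ) / 2) * (N : ℝ) ^ ((1 : ℝ) / 2) = N := by
      rw [← Real.rpow_add hN0]; norm_num
    have h8 : (Dc N + 6) * (50 / (N : ℝ)) ≤ 350 * ((N : ℝ) ^ ((1 : ℝ) / 2))⁻¹ := by
      unfold Dc
      set s := (N : ℝ) ^ ((1 : ℝ) / 2) with hsdef
      have hs0 : 0 < s := by linarith
      rw [← hss]
      field_simp
      nlinarith
    calc C * (Dc N + 6) * (50 / (N : ℝ)) = C * ((Dc N + 6) * (50 / (N : ℝ))) := by ring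
      _ ≤ C * (350 * ((N : ℝ) ^ ((1 : ℝ) / 2))⁻¹) := by gcongr
      _ = C * 350 * ((N : ℝ) ^ ((1 : ℝ) / 2))⁻¹ := by ring
      _ ≤ η := h7.le

lemma up_Vf_diff_le (c x : ℝ) (hc : 1 < c) (hx : 1 < x) :
    (Vf (c * x) : ℝ) - Vf x ≤ (((Win x c).filter (fun v => ∃ n : ℕ, n.totient = v)).card : ℝ) := by
  have h1 : (Finset.Icc 1 ⌊c * x⌋₊).filter (fun v => ∃ n : ℕ, n.totient = v) ⊆
      (Finset.Icc 1 ⌊x⌋₊).filter (fun v => ∃ n : ℕ, n.totient = v) ∪
        (Win x c).filter (fun v => ∃ n : ℕ, n.totient = v) := by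
    intro v hv
    obtain ⟨hv1, hv2⟩ := Finset.mem_filter.1 hv
    obtain ⟨h3, h4⟩ := Finset.mem_Icc.1 hv1
    by_cases h5 : v ≤ ⌊x⌋₊
    · exact Finset.mem_union_left _ (Finset.mem_filter.2 ⟨Finset.mem_Icc.2 ⟨h3, h5⟩, hv2⟩)
    · exact Finset.mem_union_right _ (Finset.mem_filter.2 ⟨Finset.mem_Ioc.2 ⟨not_le.1 h5, h4⟩, hv2⟩)
  have h2 := le_trans (Finset.card_le_card h1) (Finset.card_union_le _ _)
  have h3 : (Vf (c * x) : ℝ) ≤ (Vf x : ℝ) +
      (((Win x c).filter (fun v => ∃ n : ℕ, n.totient = v)).card : ℝ) := by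
    unfold Vf
    exact_mod_cast h2
  linarith

/-- Upper bound of Theorem A. -/
theorem upper_bound (c : ℝ) (hc : 1 < c) (ε : ℝ) (hε : 0 < ε) : ∃ N₀ : ℕ, ∀ N ≥ N₀, ∀ x : ℝ, 1 < x → |levR x - N| ≤ 2 →
    (Vf (c * x) : ℝ) - Vf x ≤ (c - 1 + ε) * (x / Real.log x) * Ss N ((N : ℝ) - 4 * wd N) := by
  have hc0 : 0 < c := by linarith
  have hD : 0 < c - 1 + ε / 4 := by linarith
  set ε₂ : ℝ := ε / (4 * (c - 1 + ε / 4)) with hε₂
  have hε₂0 : 0 < ε₂ := by positivity
  have hmain : (c - 1 + ε / 4) * (1 + ε₂) = c - 1 + ε / 2 := by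
    rw [hε₂, mul_add, mul_one]
    have h : (c - 1 + ε / 4) * (ε / (4 * (c - 1 + ε / 4))) = ε / 4 := by
      generalize c - 1 + ε / 4 = D at hD
      have hD' := hD.ne'
      field_simp
    rw [h]; ring
  obtain ⟨C, N₇, hC, hE7⟩ := E7_card c hc
  obtain ⟨N₀, hN₀⟩ := up_upper_small c C (ε / 14) hc0 hC (by positivity)
  obtain ⟨Ncov, hcov⟩ := cover c hc
  obtain ⟨Nm, hm⟩ := main_count c hc (ε / 4) (by positivity)
  obtain ⟨Nw, hw⟩ := window ε₂ hε₂0
  obtain ⟨N₁, hE1⟩ := E1_card c hc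
  obtain ⟨N₂, hE2⟩ := E2_card c hc
  obtain ⟨N₃, hE3⟩ := E3_card c hc
  obtain ⟨N₄, hE4⟩ := E4_card c hc
  obtain ⟨N₅, hE5⟩ := E5_card c hc
  obtain ⟨N₆, hE6⟩ := E6_card c hc
  obtain ⟨Nn, hn2⟩ := n2_mass
  obtain ⟨Nl, hlow⟩ := Mlow_le_Ss
  obtain ⟨Ns, hone⟩ := one_le_Ss
  refine ⟨N₀ + N₇ + Ncov + Nm + Nw + N₁ + N₂ + N₃ + N₄ + N₅ + N₆ + Nn + Nl + Ns + 1,
    fun N hN x hx hL => ?_⟩
  have hN1 : (1 : ℝ) ≤ N := by
    have : 1 ≤ N := by omega
    exact_mod_cast this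
  obtain ⟨s1, s2, s3, s4, s5, s6, s7⟩ := hN₀ N (by omega)
  have hlogx : 0 < Real.log x := Real.log_pos hx
  have hx0 : 0 < x := by linarith
  have hlogle := up_log_le_of_lev hx hL
  set A := x / Real.log x with hA
  have hA0 : 0 < A := by positivity
  have hxA : x = A * Real.log x := by
    rw [hA]; field_simp
  set S := Ss N ((N : ℝ) - 4 * wd N) with hS
  have hS1 : 1 ≤ S := hone N (by omega)
  have hMlow : Mlow N ≤ S := hlow N (by omega)
  have hAS : A ≤ A * S := by nlinarith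
  have hAS0 : 0 ≤ A * S := by positivity
  -- bounds on the parts
  have b1 : ((E1 N x c).card : ℝ) ≤ ε / 14 * (A * S) := by
    have h1 := hE1 N (by omega) x hx.le
    have h2 : 4 * c * x * Real.exp (-(Real.exp (ts N) / 2)) ≤
        A * (4 * c * (Real.exp ((N : ℝ) + 2) * Real.exp (-(Real.exp (ts N) / 2)))) := by
      have h3 : 4 * c * x * Real.exp (-(Real.exp (ts N) / 2)) =
          A * (4 * c * (Real.log x * Real.exp (-(Real.exp (ts N) / 2)))) := by
        have h4 : A * (4 * c * (Real.log x * Real.exp (-(Real.exp (ts N) / 2)))) =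
            4 * c * (A * Real.log x) * Real.exp (-(Real.exp (ts N) / 2)) := by ring
        rw [h4, ← hxA]
      rw [h3]; gcongr
    calc ((E1 N x c).card : ℝ) ≤ A * (4 * c * (Real.exp ((N : ℝ) + 2) * Real.exp (-(Real.exp (ts N) / 2)))) := le_trans h1 h2
      _ ≤ A * (ε / 14) := by gcongr
      _ ≤ (A * S) * (ε / 14) := by gcongr
      _ = ε / 14 * (A * S) := by ring
  have b2 : ((E2 N x c).card : ℝ) ≤ ε / 14 * (A * S) := by
    have h1 := hE2 N (by omega) x hx.le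
    have h2 : c * x * Real.exp (-Real.exp ((N : ℝ) / 2)) ≤
        A * (c * (Real.exp ((N : ℝ) + 2) * Real.exp (-Real.exp ((N : ℝ) / 2)))) := by
      have h3 : c * x * Real.exp (-Real.exp ((N : ℝ) / 2)) =
          A * (c * (Real.log x * Real.exp (-Real.exp ((N : ℝ) / 2)))) := by
        have h4 : A * (c * (Real.log x * Real.exp (-Real.exp ((N : ℝ) / 2)))) =
            c * (A * Real.log x) * Real.exp (-Real.exp ((N : ℝ) / 2)) := by ring
        rw [h4, ← hxA]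
      rw [h3]; gcongr
    calc ((E2 N x c).card : ℝ) ≤ A * (c * (Real.exp ((N : ℝ) + 2) * Real.exp (-Real.exp ((N : ℝ) / 2)))) := le_trans h1 h2
      _ ≤ A * (ε / 14) := by gcongr
      _ ≤ (A * S) * (ε / 14) := by gcongr
      _ = ε / 14 * (A * S) := by ring
  have b3 : ((E3 N x c).card : ℝ) ≤ ε / 14 * (A * S) := by
    have h1 := hE3 N (by omega) x hx hL
    calc ((E3 N x c).card : ℝ) ≤ A * Real.exp (-((N : ℝ) / 2)) := h1
      _ ≤ A * (ε / 14) := by gcongr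
      _ ≤ (A * S) * (ε / 14) := by gcongr
      _ = ε / 14 * (A * S) := by ring
  have b4 : ((E4 N x c).card : ℝ) ≤ ε / 14 * (A * S) := by
    have h1 := hE4 N (by omega) x hx hL
    have hE : 0 < Real.exp (-(N : ℝ) ^ ((22 : ℝ) / 100)) := Real.exp_pos _
    calc ((E4 N x c).card : ℝ) ≤ A * Real.exp (-(N : ℝ) ^ ((22 : ℝ) / 100)) * (Mlow N + 1) := h1
      _ ≤ A * Real.exp (-(N : ℝ) ^ ((22 : ℝ) / 100)) * (S + S) := by gcongr
      _ = (A * S) * (Real.exp (-(N : ℝ) ^ ((22 : ℝ) / 100)) * 2) := by ring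
      _ ≤ (A * S) * (ε / 14) := by gcongr
      _ = ε / 14 * (A * S) := by ring
  have b5 : ((E5 N x c).card : ℝ) ≤ ε / 14 * (A * S) := by
    have h1 := hE5 N (by omega) x hx hL
    have hE : 0 < Real.exp (-(N : ℝ) ^ ((7 : ℝ) / 10)) := Real.exp_pos _
    calc ((E5 N x c).card : ℝ) ≤ A * Real.exp (-(N : ℝ) ^ ((7 : ℝ) / 10)) * (Mlow N + 1) := h1
      _ ≤ A * Real.exp (-(N : ℝ) ^ ((7 : ℝ) / 10)) * (S + S) := by gcongr
      _ = (A * S) * (Real.exp (-(N : ℝ) ^ ((7 : ℝ) / 10)) * 2) := by ring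
      _ ≤ (A * S) * (ε / 14) := by gcongr
      _ = ε / 14 * (A * S) := by ring
  have b6 : ((E6 N x c).card : ℝ) ≤ ε / 14 * (A * S) := by
    have h1 := hE6 N (by omega) x hx hL
    calc ((E6 N x c).card : ℝ) ≤ A * Real.exp (-(wd N / 2)) := h1
      _ ≤ A * (ε / 14) := by gcongr
      _ ≤ (A * S) * (ε / 14) := by gcongr
      _ = ε / 14 * (A * S) := by ring
  have b7 : ((E7 N x c).card : ℝ) ≤ ε / 14 * (A * S) := by
    have h1 := hE7 N (by omega) x hx hL
    have h2 := hn2 N (by omega)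
    have hDc : 0 ≤ Dc N + 6 := by unfold Dc; positivity
    calc ((E7 N x c).card : ℝ) ≤ C * A * (Dc N + 6) * ∑ m ∈ N2set N, (1 : ℝ) / m := h1
      _ ≤ C * A * (Dc N + 6) * (50 / (N : ℝ) * S) := by gcongr
      _ = (A * S) * (C * (Dc N + 6) * (50 / (N : ℝ))) := by ring
      _ ≤ (A * S) * (ε / 14) := by gcongr
      _ = ε / 14 * (A * S) := by ring
  have bm : ((MainU N x c).card : ℝ) ≤ (c - 1 + ε / 2) * (A * S) := by
    have h1 := hm N (by omega) x hx hL
    have h2 : Ss N (levR x + wd N) ≤ Ss N ((N : ℝ) + 4 * wd N) := by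
      apply Ss_mono
      have h3 := (abs_le.1 hL).2
      have h4 : (1 : ℝ) ≤ wd N := Real.one_le_rpow hN1 (by norm_num)
      linarith
    have h3 := hw N (by omega)
    calc ((MainU N x c).card : ℝ) ≤ (c - 1 + ε / 4) * A * Ss N (levR x + wd N) := h1
      _ ≤ (c - 1 + ε / 4) * A * ((1 + ε₂) * S) := by
          gcongr
          exact le_trans h2 h3
      _ = ((c - 1 + ε / 4) * (1 + ε₂)) * (A * S) := by ring
      _ = (c - 1 + ε / 2) * (A * S) := by rw [hmain]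
  -- covering
  have hsub : (Win x c).filter (fun v => ∃ n : ℕ, n.totient = v) ⊆
      E1 N x c ∪ (E2 N x c ∪ (E3 N x c ∪ (E4 N x c ∪ (E5 N x c ∪ (E6 N x c ∪ (E7 N x c ∪ MainU N x c)))))) := by
    intro v hv
    obtain ⟨hv1, hv2⟩ := Finset.mem_filter.1 hv
    have := hcov N (by omega) x hx hL v hv1 hv2
    simpa only [Finset.mem_union] using this
  have hcard : ((Win x c).filter (fun v => ∃ n : ℕ, n.totient = v)).card ≤
      (E1 N x c).card + ((E2 N x c).card + ((E3 N x c).card + ((E4 N x c).card + ((E5 N x c).card +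
        ((E6 N x c).card + ((E7 N x c).card + (MainU N x c).card)))))) := by
    refine le_trans (Finset.card_le_card hsub) ?_
    refine le_trans (Finset.card_union_le _ _) (Nat.add_le_add_left ?_ _)
    refine le_trans (Finset.card_union_le _ _) (Nat.add_le_add_left ?_ _)
    refine le_trans (Finset.card_union_le _ _) (Nat.add_le_add_left ?_ _)
    refine le_trans (Finset.card_union_le _ _) (Nat.add_le_add_left ?_ _)
    refine le_trans (Finset.card_union_le _ _) (Nat.add_le_add_left ?_ _)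
    refine le_trans (Finset.card_union_le _ _) (Nat.add_le_add_left ?_ _)
    exact Finset.card_union_le _ _
  have hcard' : (((Win x c).filter (fun v => ∃ n : ℕ, n.totient = v)).card : ℝ) ≤
      (E1 N x c).card + ((E2 N x c).card + ((E3 N x c).card + ((E4 N x c).card + ((E5 N x c).card +
        ((E6 N x c).card + ((E7 N x c).card + (MainU N x c).card)))))) := by
    exact_mod_cast hcard
  have hfin := up_Vf_diff_le c x hc hx
  have hgoal : (c - 1 + ε) * (A * S) = (c - 1 + ε) * A * S := by ring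
  rw [← hgoal]
  linarith

end
end Vale.Agent.Lib.P031V
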